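import Crest.Agent.R309.RamDefs

/-!
# Row 309: the renewal argument for programs repeating a round
-/

set_option autoImplicit false

namespace Crest.Agent.R309

open Crest.WordRAM

variable {P : Program} {w : ℕ} {x : List ℕ} {r t₀ : ℕ} {τ : List Bool → ℕ}
  {f : List Bool → Option (List ℕ)} {Start : Cfg P.numRegs → Prop}

namespace RP

open Finset

/-! ### Averages over tables of random words -/

/-- Average over the tables of `L` words below `m`. -/
noncomputable def Av (m L : ℕ) (F : (ℕ → ℕ) → ℝ) : ℝ :=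
  (∑ tab : Fin L → Fin m, F (streamOf tab)) / (m : ℝ) ^ L

/-- Prepend a word to a stream. -/
def cons (a : ℕ) (ρ : ℕ → ℕ) : ℕ → ℕ
  | 0 => a
  | i + 1 => ρ i

theorem Av_succ (m L : ℕ) (F : (ℕ → ℕ) → ℝ) :
    Av m (L + 1) F = (∑ a : Fin m, Av m L fun ρ => F (cons a ρ)) / m := by
  simp only [Av]
  rw [← (Fin.consEquiv fun _ : Fin (L + 1) => Fin m).sum_comp, Fintype.sum_prod_type, ← sum_div,
    div_div, pow_succ]
  congr 1
  refine sum_congr rfl fun a _ => sum_congr rfl fun t _ => ?_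
  congr 1
  funext i
  cases i with
  | zero => simp [streamOf, cons, Fin.consEquiv]
  | succ i =>
    simp only [streamOf, cons, Fin.consEquiv, Equiv.coe_fn_mk, Nat.add_lt_add_iff_right]
    split_ifs with h
    · rfl
    · rfl

theorem Av_const {m : ℕ} (hm : 0 < m) (L : ℕ) (c : ℝ) : Av m L (fun _ => c) = c := by
  have : (m : ℝ) ^ L ≠ 0 := by positivity
  simp only [Av, sum_const, card_univ, Fintype.card_fun, Fintype.card_fin, nsmul_eq_mul]
  push_cast
  field_simp

theorem Av_mono {m L : ℕ} {F G : (ℕ → ℕ) → ℝ} (h : ∀ ρ, F ρ ≤ G ρ) : Av m L F ≤ Av m L G :=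
  div_le_div_of_nonneg_right (sum_le_sum fun _ _ => h _) (by positivity)

theorem Av_add (m L : ℕ) (F G : (ℕ → ℕ) → ℝ) :
    Av m L (fun ρ => F ρ + G ρ) = Av m L F + Av m L G := by
  simp only [Av, sum_add_distrib, add_div]

theorem Av_sum (m L : ℕ) (s : Finset ℕ) (F : ℕ → (ℕ → ℕ) → ℝ) :
    Av m L (fun ρ => ∑ i ∈ s, F i ρ) = ∑ i ∈ s, Av m L (F i) := by
  simp only [Av]
  rw [sum_comm, sum_div]

theorem Av_dep {m : ℕ} (hm : 0 < m) {T L : ℕ} (hL : T ≤ L) {F : (ℕ → ℕ) → ℝ}
    (hF : ∀ ρ ρ', (∀ i < T, ρ i = ρ' i) → F ρ = F ρ') : Av m L F = Av m T F := by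
  induction T generalizing L F with
  | zero =>
    have : F = fun _ => F 0 := funext fun ρ => hF _ _ (by simp)
    rw [this, Av_const hm, Av_const hm]
  | succ T ih =>
    obtain ⟨L, rfl⟩ : ∃ L', L = L' + 1 := ⟨L - 1, by omega⟩
    rw [Av_succ, Av_succ]
    congr 1
    refine sum_congr rfl fun a _ => ih (by omega) fun ρ ρ' h => hF _ _ fun i hi => ?_
    cases i with
    | zero => rfl
    | succ i => exact h i (by omega)

theorem sum_parity (M : ℕ) (H : Bool → ℝ) :
    ∑ a ∈ range (2 * M), H (decide (a % 2 = 1)) = M * (H false + H true) := by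
  induction M with
  | zero => simp
  | succ M ih =>
    rw [Nat.mul_succ, sum_range_succ, sum_range_succ, ih]
    have h1 : (2 * M) % 2 = 0 := by omega
    have h2 : (2 * M + 1) % 2 = 1 := by omega
    simp only [h1, h2]
    push_cast
    simp
    ring

theorem lowBits_cons (w a : ℕ) (ρ : ℕ → ℕ) (K : ℕ) :
    lowBits w (cons a ρ) 0 (K + 1) = decide (a % 2 ^ w % 2 = 1) :: lowBits w ρ 0 K := by
  simp [lowBits, List.range_succ_eq_map, cons, Function.comp_def]

theorem Av_bits {w : ℕ} (hw : 1 ≤ w) {K L : ℕ} (hL : K ≤ L) (G : List Bool → ℝ) :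
    Av (2 ^ w) L (fun ρ => G (lowBits w ρ 0 K)) = Ex K G := by
  induction K generalizing L G with
  | zero => rw [Ex_zero]; exact Av_const (m := 2 ^ w) (by positivity) L (G [])
  | succ K ih =>
    obtain ⟨L, rfl⟩ : ∃ L', L = L' + 1 := ⟨L - 1, by omega⟩
    rw [Av_succ, Ex_succ]
    have e : ∀ a : Fin (2 ^ w), Av (2 ^ w) L (fun ρ => G (lowBits w (cons a ρ) 0 (K + 1))) =
        Ex K fun u => G (decide ((a : ℕ) % 2 = 1) :: u) := fun a => by
      simp only [lowBits_cons, Nat.mod_eq_of_lt a.2]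
      exact ih (by omega) fun u => G (decide ((a : ℕ) % 2 = 1) :: u)
    simp only [e]
    rw [Fin.sum_univ_eq_sum_range fun a => Ex K fun u => G (decide (a % 2 = 1) :: u)]
    obtain ⟨w, rfl⟩ : ∃ w', w = w' + 1 := ⟨w - 1, by omega⟩
    rw [pow_succ', sum_parity _ fun b => Ex K fun u => G (b :: u)]
    push_cast
    field_simp

theorem blk_lowBits (w : ℕ) (ρ : ℕ → ℕ) {r i K : ℕ} (h : (i + 1) * r ≤ K) :
    blk r i (lowBits w ρ 0 K) = lowBits w ρ (i * r) r := by
  rw [Nat.succ_mul] at h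
  refine List.ext_getElem ?_ fun k h1 h2 => ?_
  · simp only [blk, lowBits, List.length_take, List.length_drop, List.length_map, List.length_range]
    omega
  · simp [blk, lowBits]

theorem ind_forall (j : ℕ) (p : ℕ → Prop) : ind (∀ i < j, p i) = ∏ i : Fin j, ind (p i) := by
  by_cases h : ∀ i < j, p i
  · rw [ind_true h]
    exact (prod_eq_one fun (i : Fin j) _ => ind_true (h i i.2)).symm
  · rw [ind_false h]
    push Not at h
    obtain ⟨i, hi, h⟩ := h
    exact (prod_eq_zero (mem_univ (⟨i, hi⟩ : Fin j)) (ind_false h)).symm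

/-- Independence of the rounds. -/
theorem Av_round {w : ℕ} (hw : 1 ≤ w) {r j L : ℕ} (hL : (j + 1) * r ≤ L) (p : List Bool → Prop)
    (G : List Bool → ℝ) :
    Av (2 ^ w) L (fun ρ => ind (∀ i < j, p (lowBits w ρ (i * r) r)) * G (lowBits w ρ (j * r) r)) =
      Pr r p ^ j * Ex r G := by
  let F : Fin (j + 1) → List Bool → ℝ := Fin.snoc (α := fun _ => List Bool → ℝ)
    (fun _ u => ind (p u)) G
  have h1 := Ex_prod_blk (B := r) (t := j + 1) le_rfl F
  rw [← Av_bits hw hL] at h1
  simp only [Fin.prod_univ_castSucc, F, Fin.snoc_castSucc, Fin.snoc_last, prod_const, card_univ,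
    Fintype.card_fin, Fin.val_castSucc, Fin.val_last] at h1
  rw [← show Pr r p = Ex r fun u => ind (p u) from rfl] at h1
  rw [← h1]
  congr 1
  funext ρ
  rw [ind_forall, blk_lowBits w ρ le_rfl]
  congr 1
  refine prod_congr rfl fun i _ => ?_
  rw [blk_lowBits w ρ (Nat.mul_le_mul_right _ (by omega))]

/-! ### Runs -/

theorem step_halted {ρ : ℕ → ℕ} {c : Cfg P.numRegs} (h : c.halted = true) : step P w ρ c = c := by
  simp [step, h]

theorem step_congr {ρ ρ' : ℕ → ℕ} {c : Cfg P.numRegs} (h : ρ c.drawn = ρ' c.drawn) :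
    step P w ρ c = step P w ρ' c := by
  simp only [step, h]

theorem step_drawn (ρ : ℕ → ℕ) (c : Cfg P.numRegs) : (step P w ρ c).drawn ≤ c.drawn + 1 := by
  unfold step
  split_ifs
  · omega
  · dsimp only
    split <;> simp

theorem run_succ (ρ : ℕ → ℕ) (T : ℕ) : run P w ρ x (T + 1) = step P w ρ (run P w ρ x T) :=
  Function.iterate_succ_apply' _ _ _

theorem run_add (ρ : ℕ → ℕ) (n T : ℕ) :
    run P w ρ x (n + T) = (step P w ρ)^[n] (run P w ρ x T) :=
  Function.iterate_add_apply _ _ _ _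

theorem run_drawn (ρ : ℕ → ℕ) (T : ℕ) : (run P w ρ x T).drawn ≤ T := by
  induction T with
  | zero => exact le_rfl
  | succ T ih => rw [run_succ]; exact (step_drawn _ _).trans (by omega)

theorem run_congr {ρ ρ' : ℕ → ℕ} {T : ℕ} (h : ∀ i < T, ρ i = ρ' i) :
    run P w ρ x T = run P w ρ' x T := by
  induction T with
  | zero => rfl
  | succ T ih =>
    rw [run_succ, run_succ, ← ih fun i hi => h i (by omega)]
    exact step_congr (h _ (Nat.lt_succ_of_le (run_drawn ρ T)))

theorem run_of_halted {ρ : ℕ → ℕ} {n T : ℕ} (h : (run P w ρ x n).halted = true) (hT : n ≤ T) :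
    run P w ρ x T = run P w ρ x n := by
  obtain ⟨k, rfl⟩ := Nat.exists_eq_add_of_le' hT
  rw [run_add]
  exact Function.iterate_fixed (step_halted h) k

theorem halts_mono {ρ : ℕ → ℕ} {n T : ℕ} {out : List ℕ} (h : HaltsWithin P w ρ x n out)
    (hT : n ≤ T) : HaltsWithin P w ρ x T out := by
  unfold HaltsWithin
  rw [run_of_halted h.1 hT]
  exact h

theorem probAfter_eq {T L : ℕ} (hL : T ≤ L) (E : Cfg P.numRegs → Prop) :
    probAfter P w x T E = Av (2 ^ w) L fun ρ => ind (E (run P w ρ x T)) := by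
  rw [Av_dep (by positivity) hL fun ρ ρ' h => by rw [run_congr h]]
  simp only [probAfter, Crest.FinProb.uniformProb, Av, ind, Fintype.card_fun, Fintype.card_fin,
    Set.mem_ofPred_eq]
  rw [card_filter]
  push_cast
  congr!

theorem path (h : RoundSpec P w x r t₀ τ f Start) (ρ : ℕ → ℕ) (j : ℕ)
    (hj : ∀ i < j, f (lowBits w ρ (i * r) r) = none) :
    ∃ n, j ≤ n ∧ n ≤ t₀ + ∑ i ∈ range j, τ (lowBits w ρ (i * r) r) ∧ Start (run P w ρ x n) ∧
      (run P w ρ x n).drawn = j * r := by
  induction j with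
  | zero =>
    obtain ⟨n, h1, h2, h3⟩ := h.first ρ
    exact ⟨n, Nat.zero_le _, by simpa using h1, h2, by simpa using h3⟩
  | succ j ih =>
    obtain ⟨n, h1, h2, h3, h4⟩ := ih fun i hi => hj i (by omega)
    obtain ⟨k, k1, k2, k3, -, k5⟩ := h.round ρ _ h3
    rw [h4] at k2 k3 k5
    refine ⟨k + n, by omega, by rw [sum_range_succ]; omega, ?_, ?_⟩
    · rw [run_add]; exact k5 (hj j (by omega))
    · rw [run_add, k3, Nat.succ_mul]

theorem path_succ (h : RoundSpec P w x r t₀ τ f Start) (ρ : ℕ → ℕ) (j : ℕ)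
    (hj : ∀ i < j, f (lowBits w ρ (i * r) r) = none) {out : List ℕ}
    (ho : f (lowBits w ρ (j * r) r) = some out) :
    ∃ n, n ≤ t₀ + ∑ i ∈ range (j + 1), τ (lowBits w ρ (i * r) r) ∧ HaltsWithin P w ρ x n out := by
  obtain ⟨n, -, h2, h3, h4⟩ := path h ρ j hj
  obtain ⟨k, -, k2, -, k4, -⟩ := h.round ρ _ h3
  rw [h4] at k2 k4
  refine ⟨k + n, by rw [sum_range_succ]; omega, ?_⟩
  unfold HaltsWithin
  rw [run_add]
  exact k4 out ho

theorem exists_first {β : Type} (g : ℕ → Option β) (N : ℕ) :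
    (∀ i < N, g i = none) ∨ ∃ j < N, (∀ i < j, g i = none) ∧ ∃ b, g j = some b := by
  induction N with
  | zero => exact Or.inl (by simp)
  | succ N ih =>
    rcases ih with h | ⟨j, hj, h⟩
    · cases hN : g N with
      | none =>
        refine Or.inl fun i hi => ?_
        rcases Nat.lt_succ_iff_lt_or_eq.1 hi with hi | rfl
        · exact h i hi
        · exact hN
      | some b => exact Or.inr ⟨N, by omega, h, b, hN⟩
    · exact Or.inr ⟨j, by omega, h⟩

theorem first_of_halts (h : RoundSpec P w x r t₀ τ f Start) {ρ : ℕ → ℕ} {T : ℕ} {out : List ℕ}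
    (ho : HaltsWithin P w ρ x T out) :
    ∃ j < T, (∀ i < j, f (lowBits w ρ (i * r) r) = none) ∧
      f (lowBits w ρ (j * r) r) = some out := by
  rcases exists_first (fun i => f (lowBits w ρ (i * r) r)) T with h0 | ⟨j, hj, h0, b, hb⟩
  · obtain ⟨n, h1, -, h3, -⟩ := path h ρ T h0
    have := h.not_halted _ h3
    rw [(halts_mono ho h1).1] at this
    exact absurd this (by simp)
  · obtain ⟨n, -, h2⟩ := path_succ h ρ j h0 hb
    have e : b = out := (halts_mono h2 (le_max_left n T)).2.symm.trans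
      (halts_mono ho (le_max_right n T)).2
    exact ⟨j, hj, h0, e ▸ hb⟩

theorem length_lowBits (w : ℕ) (ρ : ℕ → ℕ) (d r : ℕ) : (lowBits w ρ d r).length = r := by
  simp [lowBits]

theorem count_le (h : RoundSpec P w x r t₀ τ f Start) (ρ : ℕ → ℕ) (N : ℕ) :
    ∑ T ∈ range N, ind ((run P w ρ x T).halted = false) ≤
      t₀ + ∑ j ∈ range N, ind (∀ i < j, f (lowBits w ρ (i * r) r) = none) *
        (τ (lowBits w ρ (j * r) r) : ℝ) := by
  obtain ⟨n, J, hJ, h0, h1, h2⟩ : ∃ n J, J ≤ N ∧ (∀ j < J, ∀ i < j, f (lowBits w ρ (i * r) r) = none) ∧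
      n ≤ t₀ + ∑ i ∈ range J, τ (lowBits w ρ (i * r) r) ∧
      ∀ T < N, n ≤ T → (run P w ρ x T).halted = true := by
    rcases exists_first (fun i => f (lowBits w ρ (i * r) r)) N with h0 | ⟨j, hj, h0, b, hb⟩
    · obtain ⟨n, h1, h2, -⟩ := path h ρ N h0
      exact ⟨n, N, le_rfl, fun j hj i hi => h0 i (by omega), h2, fun T hT hn => by omega⟩
    · obtain ⟨n, h1, h2⟩ := path_succ h ρ j h0 hb
      exact ⟨n, j + 1, hj, fun k hk i hi => h0 i (by omega), h1,
        fun T _ hn => (halts_mono h2 hn).1⟩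
  calc _ ≤ ∑ T ∈ range N, if T < n then (1 : ℝ) else 0 := by
        refine sum_le_sum fun T hT => ?_
        split_ifs with hn
        · exact ind_le_one _
        · rw [ind_false]
          rw [h2 T (mem_range.1 hT) (by omega)]
          simp
    _ ≤ n := by
        rw [sum_boole]
        have : (range N).filter (· < n) ⊆ range n := fun T hT => mem_range.2 (mem_filter.1 hT).2
        simpa using card_le_card this
    _ ≤ t₀ + ∑ j ∈ range J, (τ (lowBits w ρ (j * r) r) : ℝ) := by exact_mod_cast h1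
    _ ≤ _ := by
        rw [add_le_add_iff_left]
        refine le_trans (le_of_eq ?_) (sum_le_sum_of_subset_of_nonneg (range_mono hJ)
          fun j _ _ => mul_nonneg (ind_nonneg _) (Nat.cast_nonneg _))
        exact sum_congr rfl fun j hj => by rw [ind_true (h0 j (mem_range.1 hj)), one_mul]

theorem geom_le {q : ℝ} (h0 : 0 ≤ q) (h1 : q < 1) (N : ℕ) : ∑ j ∈ range N, q ^ j ≤ (1 - q)⁻¹ :=
  sum_le_hasSum _ (fun _ _ => by positivity) (hasSum_geometric_of_lt_one h0 h1)

end RP

theorem RoundSpec.halts (h : RoundSpec P w x r t₀ τ f Start) {ρ : ℕ → ℕ} {T : ℕ} {out : List ℕ}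
    (ho : HaltsWithin P w ρ x T out) : ∃ u : List Bool, u.length = r ∧ f u = some out := by
  obtain ⟨j, -, -, hj⟩ := RP.first_of_halts h ho
  exact ⟨_, RP.length_lowBits _ _ _ _, hj⟩

theorem RoundSpec.time (h : RoundSpec P w x r t₀ τ f Start) (hw : 1 ≤ w)
    (hs : 0 < Pr r fun u => f u ≠ none) :
    expectedTime P w x ≤
      ENNReal.ofReal (t₀ + (Ex r fun u => (τ u : ℝ)) / Pr r fun u => f u ≠ none) := by
  have hq : (Pr r fun u => f u ≠ none) = 1 - Pr r fun u => f u = none := Pr_not r _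
  rw [hq] at hs ⊢
  set q := Pr r fun u => f u = none with hqd
  have hq0 : 0 ≤ q := Pr_nonneg _ _
  have hτ : 0 ≤ Ex r fun u => (τ u : ℝ) := Ex_nonneg fun _ _ => Nat.cast_nonneg _
  refine ENNReal.tsum_le_of_sum_range_le fun N => ?_
  have hL : ∀ T ∈ Finset.range N, T ≤ N + N * r := fun T hT => by
    have := Finset.mem_range.1 hT; omega
  rw [Finset.sum_congr rfl fun T hT => by rw [RP.probAfter_eq (hL T hT)],
    ← ENNReal.ofReal_sum_of_nonneg fun T _ =>
      (RP.Av_const (by positivity) _ 0).ge.trans (RP.Av_mono fun _ => ind_nonneg _)]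
  refine ENNReal.ofReal_le_ofReal ?_
  rw [← RP.Av_sum]
  refine (RP.Av_mono fun ρ => RP.count_le h ρ N).trans ?_
  rw [RP.Av_add, RP.Av_const (by positivity), RP.Av_sum, add_le_add_iff_left,
    Finset.sum_congr rfl fun j hj => RP.Av_round hw (L := N + N * r)
      ((Nat.mul_le_mul_right r (Finset.mem_range.1 hj)).trans (Nat.le_add_left _ _))
      (fun u => f u = none) (fun u => (τ u : ℝ)), ← Finset.sum_mul, div_eq_inv_mul]
  exact mul_le_mul_of_nonneg_right (RP.geom_le hq0 (by linarith) N) hτ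

theorem RoundSpec.prob (h : RoundSpec P w x r t₀ τ f Start) (hw : 1 ≤ w)
    (hs : 0 < Pr r fun u => f u ≠ none) (out : List ℕ) :
    probHaltsWith P w x (fun o => o = out) =
      (Pr r fun u => f u = some out) / Pr r fun u => f u ≠ none := by
  have hq : (Pr r fun u => f u ≠ none) = 1 - Pr r fun u => f u = none := Pr_not r _
  rw [hq] at hs ⊢
  set q := Pr r fun u => f u = none with hqd
  set p := Pr r fun u => f u = some out with hpd
  have hq0 : 0 ≤ q := Pr_nonneg _ _
  have hp0 : 0 ≤ p := Pr_nonneg _ _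
  have hsum : ∀ N L, N * r ≤ L → RP.Av (2 ^ w) L (fun ρ => ∑ j ∈ Finset.range N,
      ind (∀ i < j, f (lowBits w ρ (i * r) r) = none) *
        ind (f (lowBits w ρ (j * r) r) = some out)) = (∑ j ∈ Finset.range N, q ^ j) * p := by
    intro N L hL
    rw [RP.Av_sum, Finset.sum_mul]
    exact Finset.sum_congr rfl fun j hj => RP.Av_round hw
      ((Nat.mul_le_mul_right r (Finset.mem_range.1 hj)).trans hL)
      (fun u => f u = none) (fun u => ind (f u = some out))
  have hup : ∀ T, (probAfter P w x T fun c => c.halted = true ∧ c.output = out) ≤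
      p / (1 - q) := by
    intro T
    rw [RP.probAfter_eq (Nat.le_add_right T (T * r)), div_eq_inv_mul]
    refine le_trans ?_ (mul_le_mul_of_nonneg_right (RP.geom_le hq0 (by linarith) T) hp0)
    rw [← hsum T _ (Nat.le_add_left _ T)]
    refine RP.Av_mono fun ρ => ?_
    have hnn : ∀ j ∈ Finset.range T, 0 ≤ ind (∀ i < j, f (lowBits w ρ (i * r) r) = none) *
        ind (f (lowBits w ρ (j * r) r) = some out) := fun j _ =>
      mul_nonneg (ind_nonneg _) (ind_nonneg _)
    by_cases ho : HaltsWithin P w ρ x T out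
    · obtain ⟨j, hj, h1, h2⟩ := RP.first_of_halts h ho
      refine le_trans ?_ (Finset.single_le_sum hnn (Finset.mem_range.2 hj))
      rw [ind_true h1, ind_true h2, one_mul]
      exact ind_le_one _
    · exact (ind_false ho).le.trans (Finset.sum_nonneg hnn)
  refine le_antisymm (ciSup_le hup) ?_
  obtain ⟨M, hM⟩ := ((List.finite_length_eq Bool r).image τ).bddAbove
  have hM' : ∀ ρ d, τ (lowBits w ρ d r) ≤ M := fun ρ d =>
    hM ⟨_, RP.length_lowBits w ρ d r, rfl⟩
  rw [div_eq_inv_mul]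
  refine le_of_tendsto' ((hasSum_geometric_of_lt_one hq0 (by linarith)).tendsto_sum_nat.mul_const p)
    fun J => ?_
  refine le_trans ?_ (le_ciSup ⟨_, Set.forall_mem_range.2 hup⟩ (t₀ + J * M))
  rw [RP.probAfter_eq (Nat.le_add_right _ (J * r)), ← hsum J _ (Nat.le_add_left _ (t₀ + J * M))]
  refine RP.Av_mono fun ρ => ?_
  rcases RP.exists_first (fun i => f (lowBits w ρ (i * r) r)) J with h0 | ⟨j, hj, h0, b, hb⟩
  · rw [Finset.sum_eq_zero fun j hj => by
      rw [ind_false (p := _ = some out) (by rw [h0 j (Finset.mem_range.1 hj)]; simp), mul_zero]]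
    exact ind_nonneg _
  · rw [Finset.sum_eq_single j]
    · by_cases ho : f (lowBits w ρ (j * r) r) = some out
      · obtain ⟨n, h1, h2⟩ := RP.path_succ h ρ j h0 ho
        have h3 : ∑ i ∈ Finset.range (j + 1), τ (lowBits w ρ (i * r) r) ≤ J * M :=
          (Finset.sum_le_card_nsmul _ _ M fun i _ => hM' ρ _).trans
            (by rw [Finset.card_range, smul_eq_mul]; exact Nat.mul_le_mul_right _ hj)
        rw [ind_true h0, ind_true ho, one_mul]
        exact (ind_true (RP.halts_mono h2 (by omega))).ge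
      · rw [ind_false ho, mul_zero]
        exact ind_nonneg _
    · intro k _ hk
      rcases lt_or_gt_of_ne hk with hk | hk
      · rw [ind_false (p := _ = some out) (by rw [h0 k hk]; simp), mul_zero]
      · rw [ind_false fun h' => by simp [h' j hk] at hb, zero_mul]
    · intro h'; exact absurd (Finset.mem_range.2 hj) h'

end Crest.Agent.R309
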