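import Crest.Agent.R309.Flow

/-!
# Row 309: basic facts about weighted flows
-/

set_option autoImplicit false
set_option linter.unusedSectionVars false

namespace Crest.Agent.R309

open Finset

variable {V E : Type} [Fintype V] [DecidableEq V] [Fintype E] [DecidableEq E]

theorem dv_add (G : Net V E) (x y : E → ℤ) : G.dv (x + y) = G.dv x + G.dv y := by
  simp [Net.dv, add_smul, sum_add_distrib]

theorem dv_sub (G : Net V E) (x y : E → ℤ) : G.dv (x - y) = G.dv x - G.dv y := by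
  simp [Net.dv, sub_smul, sum_sub_distrib]

theorem dv_neg (G : Net V E) (x : E → ℤ) : G.dv (-x) = -G.dv x := by
  simp [Net.dv]

theorem dv_smul (G : Net V E) (k : ℤ) (x : E → ℤ) : G.dv (k • x) = k • G.dv x := by
  simp [Net.dv, smul_sum, mul_smul]

@[simp] theorem dv_zero (G : Net V E) : G.dv 0 = 0 := by
  simp [Net.dv]

theorem dv_sum {ι : Type} (G : Net V E) (s : Finset ι) (x : ι → E → ℤ) :
    G.dv (∑ i ∈ s, x i) = ∑ i ∈ s, G.dv (x i) := by
  simp only [Net.dv, Finset.sum_apply, sum_smul]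
  exact sum_comm

@[simp] theorem dv_ue (G : Net V E) (e : E) : G.dv (ue e) = G.bd e := by
  rw [Net.dv, sum_eq_single e (fun f _ hf => by simp [ue, hf]) (by simp)]
  simp [ue]

theorem Wt.φ_nonneg (W : Wt E) (e : E) (k : ℤ) : 0 ≤ W.φ e k := by
  by_cases h : k < W.lo e ∨ W.hi e < k
  · exact (W.zero e k h).ge
  · exact (W.pos e k (by omega) (by omega)).le

theorem Wt.Φ_nonneg (W : Wt E) (x : E → ℤ) : 0 ≤ W.Φ x := by
  exact prod_nonneg fun e _ => W.φ_nonneg e _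

theorem Wt.mem_box (W : Wt E) (x : E → ℤ) : x ∈ W.box ↔ ∀ e, W.lo e ≤ x e ∧ x e ≤ W.hi e := by
  simp [Wt.box]

theorem Wt.Φ_pos (W : Wt E) {x : E → ℤ} (h : x ∈ W.box) : 0 < W.Φ x := by
  rw [W.mem_box] at h
  exact prod_pos fun e _ => W.pos e _ (h e).1 (h e).2

theorem Wt.Φ_eq_zero (W : Wt E) {x : E → ℤ} (h : x ∉ W.box) : W.Φ x = 0 := by
  rw [W.mem_box, not_forall] at h
  obtain ⟨e, he⟩ := h
  exact prod_eq_zero (mem_univ e) (W.zero e _ (by omega))

theorem Wt.φ_lc_one (W : Wt E) (e : E) {a b : ℤ} (hab : a ≤ b) :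
    W.φ e a * W.φ e (b + 1) ≤ W.φ e (a + 1) * W.φ e b := by
  induction b, hab using Int.leInduction with
  | base => rw [mul_comm]
  | succ b hb ih =>
    have h0 := mul_nonneg (W.φ_nonneg e (a + 1)) (W.φ_nonneg e (b + 1))
    by_cases h1 : a < W.lo e
    · rwa [W.zero e a (Or.inl h1), zero_mul]
    by_cases h2 : W.hi e < b + 1 + 1
    · rwa [W.zero e _ (Or.inr h2), mul_zero]
    have h3 := W.pos e b (by omega) (by omega)
    have h4 := W.lc e (b + 1)
    rw [add_sub_cancel_right] at h4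
    refine le_of_mul_le_mul_right ?_ h3
    nlinarith [mul_le_mul_of_nonneg_left h4 (W.φ_nonneg e a),
      mul_le_mul_of_nonneg_left ih (W.φ_nonneg e (b + 1))]

/-- Multi-step log-concavity of an edge weight. -/
theorem Wt.φ_lc (W : Wt E) (e : E) {i j k l : ℤ} (hij : i ≤ j) (hjk : j ≤ k) (hkl : k ≤ l)
    (h : i + l = j + k) : W.φ e i * W.φ e l ≤ W.φ e j * W.φ e k := by
  obtain ⟨d, rfl⟩ := Int.le.dest hij
  induction d generalizing i l with
  | zero =>
    have : l = k := by omega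
    simp [this]
  | succ d ih =>
    have h1 := W.φ_lc_one e (a := i) (b := l - 1) (by omega)
    have h2 := @ih (i + 1) (l - 1) (by omega) (by omega) (by omega) (by omega)
    rw [sub_add_cancel] at h1
    refine h1.trans (h2.trans (le_of_eq ?_))
    congr 2
    omega

theorem mem_fib (G : Net V E) (W : Wt E) (γ : V → ℤ) (x : E → ℤ) :
    x ∈ fib G W γ ↔ x ∈ W.box ∧ G.dv x = γ := by
  simp [fib]

theorem I_one (G : Net V E) (W : Wt E) (γ : V → ℤ) : I G W γ (fun _ => 1) = Z G W γ := by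
  simp [I, Z]

theorem Z_nonneg (G : Net V E) (W : Wt E) (γ : V → ℤ) : 0 ≤ Z G W γ := by
  exact sum_nonneg fun x _ => W.Φ_nonneg x

theorem Z_pos_iff (G : Net V E) (W : Wt E) (γ : V → ℤ) :
    0 < Z G W γ ↔ (fib G W γ).Nonempty := by
  refine ⟨fun h => ?_, fun h => sum_pos (fun x hx => W.Φ_pos ((mem_fib G W γ x).1 hx).1) h⟩
  exact nonempty_of_sum_ne_zero h.ne'

theorem Dir_nonneg (G : Net V E) (W : Wt E) (γ : V → ℤ) {τ : V → ℝ} (hτ : ∀ v, 0 ≤ τ v)
    (F : (E → ℤ) → ℝ) (e : E) : 0 ≤ Dir G W γ τ F e := by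
  exact sum_nonneg fun x _ => mul_nonneg (le_min (mul_nonneg (hτ _) (W.Φ_nonneg _))
    (mul_nonneg (hτ _) (W.Φ_nonneg _))) (sq_nonneg _)

theorem Φ_pin_eq (W : Wt E) (e : E) (k : ℤ) (x : E → ℤ) :
    (W.pin e k).Φ x = (if x e = k then 1 else 0) * ∏ f ∈ univ.erase e, W.φ f (x f) := by
  rw [Wt.Φ, ← mul_prod_erase univ _ (mem_univ e)]
  congr 1
  · simp [Wt.pin]
  · exact prod_congr rfl fun f hf => by simp [Wt.pin, ne_of_mem_erase hf]

theorem mem_box_pin (W : Wt E) (e : E) (k : ℤ) (x : E → ℤ) :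
    x ∈ (W.pin e k).box ↔ x e = k ∧ ∀ f, f ≠ e → W.lo f ≤ x f ∧ x f ≤ W.hi f := by
  rw [Wt.mem_box]
  constructor
  · refine fun h => ⟨?_, fun f hf => ?_⟩
    · have := h e
      simp only [Wt.pin, Function.update_self] at this
      omega
    · simpa [Wt.pin, hf] using h f
  · intro h f
    by_cases hf : f = e
    · subst hf
      simp [Wt.pin, h.1]
    · simpa [Wt.pin, hf] using h.2 f hf

theorem sum_fib_pin (G : Net V E) (W : Wt E) (γ : V → ℤ) (e : E) (H : (E → ℤ) → ℝ) :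
    ∑ x ∈ fib G W γ, H x = ∑ k ∈ Icc (W.lo e) (W.hi e), ∑ x ∈ fib G (W.pin e k) γ, H x := by
  rw [← sum_fiberwise_of_maps_to (g := fun x => x e) (t := Icc (W.lo e) (W.hi e)) fun x hx =>
    mem_Icc.2 ((W.mem_box x).1 ((mem_fib G W γ x).1 hx).1 e)]
  refine sum_congr rfl fun k hk => sum_congr ?_ fun _ _ => rfl
  ext x
  rw [mem_filter, mem_fib, mem_fib, mem_box_pin, W.mem_box]
  constructor
  · exact fun h => ⟨⟨h.2, fun f _ => h.1.1 f⟩, h.1.2⟩
  · refine fun h => ⟨⟨fun f => ?_, h.2⟩, h.1.1⟩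
    by_cases hf : f = e
    · rw [hf, h.1.1]
      exact mem_Icc.1 hk
    · exact h.1.2 f hf

theorem eq_of_mem_fib_pin {G : Net V E} {W : Wt E} {γ : V → ℤ} {e : E} {k : ℤ} {x : E → ℤ}
    (h : x ∈ fib G (W.pin e k) γ) : x e = k :=
  ((mem_box_pin W e k x).1 ((mem_fib G _ γ x).1 h).1).1

theorem Φ_pin_shift (W : Wt E) (e : E) (k j : ℤ) (x : E → ℤ) :
    (W.pin e (k + j)).Φ (x + j • ue e) = (W.pin e k).Φ x := by
  rw [Φ_pin_eq, Φ_pin_eq]
  congr 1
  · simp [ue]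
  · exact prod_congr rfl fun f hf => by simp [ue, ne_of_mem_erase hf]

theorem Φ_pin (W : Wt E) (e : E) (x : E → ℤ) : W.Φ x = W.φ e (x e) * (W.pin e (x e)).Φ x := by
  rw [Φ_pin_eq, if_pos rfl, one_mul, Wt.Φ, mul_prod_erase univ (fun f => W.φ f (x f)) (mem_univ e)]

/-- Conditioning on the value of one edge. -/
theorem I_pin_sum (G : Net V E) (W : Wt E) (γ : V → ℤ) (F : (E → ℤ) → ℝ) (e : E) :
    I G W γ F = ∑ k ∈ Icc (W.lo e) (W.hi e), W.φ e k * I G (W.pin e k) γ F := by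
  rw [I, sum_fib_pin G W γ e]
  refine sum_congr rfl fun k _ => ?_
  rw [I, mul_sum]
  refine sum_congr rfl fun x hx => ?_
  rw [Φ_pin W e x, eq_of_mem_fib_pin hx, mul_assoc]

theorem Z_pin_sum (G : Net V E) (W : Wt E) (γ : V → ℤ) (e : E) :
    Z G W γ = ∑ k ∈ Icc (W.lo e) (W.hi e), W.φ e k * Z G (W.pin e k) γ := by
  simp only [← I_one, I_pin_sum G W γ _ e]

/-- Moving `j` units along a pinned edge. -/
theorem I_pin_shift (G : Net V E) (W : Wt E) (γ : V → ℤ) (F : (E → ℤ) → ℝ) (e : E) (k j : ℤ) :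
    I G (W.pin e (k + j)) (γ + j • G.bd e) F = I G (W.pin e k) γ fun x => F (x + j • ue e) := by
  unfold I
  refine (sum_bij' (fun x _ => x + j • ue e) (fun x _ => x - j • ue e) (fun x hx => ?_)
    (fun x hx => ?_) (fun x _ => by simp) (fun x _ => by simp)
    fun x _ => by rw [Φ_pin_shift]).symm
  · rw [mem_fib, mem_box_pin] at hx ⊢
    refine ⟨⟨by simp [ue, hx.1.1], fun f hf => by simpa [ue, hf] using hx.1.2 f hf⟩, ?_⟩
    rw [dv_add, dv_smul, dv_ue, hx.2]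
  · rw [mem_fib, mem_box_pin] at hx ⊢
    refine ⟨⟨by simp [ue, hx.1.1], fun f hf => by simpa [ue, hf] using hx.1.2 f hf⟩, ?_⟩
    rw [dv_sub, dv_smul, dv_ue, hx.2, add_sub_cancel_right]

theorem Z_pin_shift (G : Net V E) (W : Wt E) (γ : V → ℤ) (e : E) (k j : ℤ) :
    Z G (W.pin e (k + j)) (γ + j • G.bd e) = Z G (W.pin e k) γ := by
  rw [← I_one, ← I_one, I_pin_shift]

set_option linter.unusedVariables false in
theorem Dir_pin_sum (G : Net V E) (W : Wt E) (γ : V → ℤ) {τ : V → ℝ} (hτ : ∀ v, 0 ≤ τ v)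
    (F : (E → ℤ) → ℝ) {e f : E} (h : f ≠ e) :
    Dir G W γ τ F f = ∑ k ∈ Icc (W.lo e) (W.hi e), W.φ e k * Dir G (W.pin e k) γ τ F f := by
  rw [Dir, sum_fib_pin G W _ e]
  refine sum_congr rfl fun k _ => ?_
  rw [Dir, mul_sum]
  refine sum_congr rfl fun x hx => ?_
  have h1 : (x + ue f) e = k := by simp [ue, h.symm, eq_of_mem_fib_pin hx]
  rw [Φ_pin W e x, Φ_pin W e (x + ue f), h1, eq_of_mem_fib_pin hx, ← mul_assoc (W.φ e k),
    mul_min_of_nonneg _ _ (W.φ_nonneg e k), mul_left_comm, mul_left_comm (τ (G.hd f))]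

set_option linter.unusedVariables false in
/-- The moves along `e` itself, sorted by the value of `e`. -/
theorem Dir_self (G : Net V E) (W : Wt E) (γ : V → ℤ) {τ : V → ℝ} (hτ : ∀ v, 0 ≤ τ v)
    (F : (E → ℤ) → ℝ) (e : E) :
    Dir G W γ τ F e = ∑ k ∈ Icc (W.lo e) (W.hi e),
      min (τ (G.tl e) * W.φ e k) (τ (G.hd e) * W.φ e (k + 1)) *
        I G (W.pin e k) (γ + dl (G.tl e)) fun x => (F (x + ue e) - F x) ^ 2 := by
  rw [Dir, sum_fib_pin G W _ e]
  refine sum_congr rfl fun k _ => ?_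
  rw [I, mul_sum]
  refine sum_congr rfl fun x hx => ?_
  have h1 : (x + ue e) e = k + 1 := by simp [ue, eq_of_mem_fib_pin hx]
  have h2 := Φ_pin_shift W e k 1 x
  rw [one_smul] at h2
  rw [Φ_pin W e x, Φ_pin W e (x + ue e), h1, eq_of_mem_fib_pin hx, h2, ← mul_assoc, ← mul_assoc,
    ← mul_assoc, min_mul_of_nonneg _ _ ((W.pin e k).Φ_nonneg x)]

theorem Dir_pinned (G : Net V E) (W : Wt E) (γ : V → ℤ) {τ : V → ℝ} (hτ : ∀ v, 0 ≤ τ v)
    (F : (E → ℤ) → ℝ) {e : E} (h : W.lo e = W.hi e) : Dir G W γ τ F e = 0 := by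
  rw [Dir_self G W γ hτ]
  refine sum_eq_zero fun k hk => ?_
  rw [mem_Icc] at hk
  rw [W.zero e (k + 1) (by omega), mul_zero,
    min_eq_right (mul_nonneg (hτ _) (W.φ_nonneg _ _)), zero_mul]

theorem free_pin_lt (W : Wt E) {e : E} (h : W.lo e < W.hi e) (k : ℤ) :
    (W.pin e k).free < W.free := by
  refine card_lt_card ⟨fun f hf => ?_, fun hs => ?_⟩
  · rw [mem_filter] at hf ⊢
    refine ⟨hf.1, ?_⟩
    by_cases hfe : f = e
    · rwa [hfe]
    · simpa [Wt.pin, hfe] using hf.2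
  · have := hs (mem_filter.2 ⟨mem_univ e, h⟩)
    simp [Wt.pin] at this

theorem free_le (W : Wt E) : W.free ≤ Fintype.card E := by
  exact card_le_univ _

/-- If all edges at `a` are pinned, the divergence at `a` is the same for all flows in the box. -/
theorem dv_const_of_pinned (G : Net V E) (W : Wt E) {a : V}
    (h : ∀ e, G.tl e = a ∨ G.hd e = a → W.lo e = W.hi e) {x y : E → ℤ} (hx : x ∈ W.box)
    (hy : y ∈ W.box) : G.dv x a = G.dv y a := by
  rw [W.mem_box] at hx hy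
  simp only [Net.dv, Finset.sum_apply, Pi.smul_apply]
  refine sum_congr rfl fun e _ => ?_
  by_cases he : G.tl e = a ∨ G.hd e = a
  · have h1 := h e he
    have h2 := hx e
    have h3 := hy e
    have : x e = y e := by omega
    rw [this]
  · rw [not_or] at he
    simp [Net.bd, dl, Ne.symm he.1, Ne.symm he.2]

end Crest.Agent.R309
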