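import Crest.Agent.R309.NetL
import Crest.Agent.R309.FlowBasic

/-!
# Row 309: a maximum spanning forest with root paths (Kruskal)
-/

set_option autoImplicit false

namespace Crest.Agent.R309

open Crest.Agent.Lib.PolyTime

/-- Edges `(tail, head, q)` on the vertices `0, …, n`; the edges with `q = 0` are ignored. -/
abbrev FIn := List (ℕ × ℕ × ℕ) × Un

/-- The directed multigraph of an input. -/
def FIn.G (a : FIn) : Net (Fin (a.2.n + 1)) (Fin a.1.length) :=
  ⟨fun e => Fin.ofNat (a.2.n + 1) (a.1.get e).1, fun e => Fin.ofNat (a.2.n + 1) (a.1.get e).2.1⟩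

/-- The weight of an edge. -/
def FIn.q (a : FIn) (e : Fin a.1.length) : ℕ := (a.1.get e).2.2

/-- Specification of the forest: tree edges, roots and root paths. -/
structure FIn.Spec (a : FIn) (tr : Fin a.1.length → Bool)
    (rt : Fin (a.2.n + 1) → Fin (a.2.n + 1)) (P : Fin (a.2.n + 1) → Fin a.1.length → ℤ) : Prop where
  tr_q : ∀ e, tr e = true → 0 < a.q e
  rt_rt : ∀ v, rt (rt v) = rt v
  rt_isolated : ∀ v, (∀ e, 0 < a.q e → a.G.tl e ≠ v ∧ a.G.hd e ≠ v) → rt v = v
  P_root : ∀ v, rt v = v → P v = 0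
  dv_P : ∀ v, a.G.dv (P v) = dl (rt v) - dl v
  P_tree : ∀ v e, P v e ≠ 0 → tr e = true
  P_abs : ∀ v e, |P v e| ≤ 1
  L_tree : ∀ e, tr e = true → ue e + P (a.G.hd e) - P (a.G.tl e) = 0
  big_rt : ∀ e, 0 < a.q e → rt (a.G.tl e) = rt (a.G.hd e)
  big_mono : ∀ e g, 0 < a.q e → P (a.G.hd e) g ≠ P (a.G.tl e) g → a.q e ≤ a.q g

namespace ForestAux

section Abstract

variable {V E : Type} [Fintype V] [DecidableEq V] [Fintype E] [DecidableEq E]

/-- The state of Kruskal's algorithm. -/
structure St (V E : Type) where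
  tr : E → Bool
  rt : V → V
  P : V → E → ℤ

/-- The initial state. -/
def ini : St V E := ⟨fun _ => false, id, fun _ => 0⟩

/-- One step of Kruskal's algorithm. -/
def astep (G : Net V E) (s : St V E) (g : E) : St V E :=
  if s.rt (G.tl g) = s.rt (G.hd g) then s else
    ⟨fun e => if e = g then true else s.tr e,
      fun v => if s.rt v = s.rt (G.hd g) then s.rt (G.tl g) else s.rt v,
      fun v => if s.rt v = s.rt (G.hd g) then s.P v - s.P (G.hd g) - ue g + s.P (G.tl g)
        else s.P v⟩

/-- The invariant; `D` is the set of the edges treated so far. -/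
structure Inv (G : Net V E) (q : E → ℕ) (D : E → Prop) (s : St V E) : Prop where
  rt_rt : ∀ v, s.rt (s.rt v) = s.rt v
  P_root : ∀ v, s.rt v = v → s.P v = 0
  dv_P : ∀ v, G.dv (s.P v) = dl (s.rt v) - dl v
  supp : ∀ v e, s.P v e ≠ 0 → s.tr e = true ∧ s.rt (G.tl e) = s.rt v
  diff : ∀ v w e, s.rt v = s.rt w → |s.P v e - s.P w e| ≤ 1
  L_tree : ∀ e, s.tr e = true → ue e + s.P (G.hd e) - s.P (G.tl e) = 0
  tr_done : ∀ e, s.tr e = true → D e
  iso : ∀ v, (∀ e, D e → G.tl e ≠ v ∧ G.hd e ≠ v) → s.rt v = v ∧ ∀ w, s.rt w = v → w = v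
  done_rt : ∀ e, D e → s.rt (G.tl e) = s.rt (G.hd e)
  mono : ∀ e g, D e → s.P (G.hd e) g ≠ s.P (G.tl e) g → q e ≤ q g

theorem inv_ini (G : Net V E) (q : E → ℕ) : Inv G q (fun _ => False) ini where
  rt_rt _ := rfl
  P_root _ _ := rfl
  dv_P v := by simp [ini]
  supp v e h := (h rfl).elim
  diff v w e _ := by simp [ini]
  L_tree e h := by simp [ini] at h
  tr_done e h := by simp [ini] at h
  iso v _ := ⟨rfl, fun _ h => h⟩
  done_rt _ h := h.elim
  mono _ _ h := h.elim

omit [Fintype V] in
theorem Inv.abs_P {G : Net V E} {q : E → ℕ} {D : E → Prop} {s : St V E} (h : Inv G q D s)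
    (v : V) (e : E) : |s.P v e| ≤ 1 := by
  have := h.diff v (s.rt v) e (h.rt_rt v).symm
  rwa [h.P_root _ (h.rt_rt v), Pi.zero_apply, sub_zero] at this

theorem Inv.step {G : Net V E} {q : E → ℕ} {D D' : E → Prop} {s : St V E} (h : Inv G q D s)
    (g : E) (hq : ∀ e, D e → q g ≤ q e) (hD : ∀ e, D' e ↔ D e ∨ e = g) :
    Inv G q D' (astep G s g) := by
  unfold astep
  split_ifs with hg
  · refine ⟨h.rt_rt, h.P_root, h.dv_P, h.supp, h.diff, h.L_tree,
      fun e he => (hD e).2 (Or.inl (h.tr_done e he)),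
      fun v hv => h.iso v fun e he => hv e ((hD e).2 (Or.inl he)), fun e he => ?_,
      fun e f he hf => ?_⟩
    · rcases (hD e).1 he with he | rfl
      exacts [h.done_rt e he, hg]
    · rcases (hD e).1 he with he | rfl
      · exact h.mono e f he hf
      · refine hq f (h.tr_done f ?_)
        by_cases h1 : s.P (G.hd e) f = 0
        · exact (h.supp (G.tl e) f fun h2 => hf (h1.trans h2.symm)).1
        · exact (h.supp _ f h1).1
  have hr : s.rt (s.rt (G.tl g)) ≠ s.rt (G.hd g) := by rwa [h.rt_rt]
  have htr : s.tr g ≠ true := fun h1 => hg (h.done_rt g (h.tr_done g h1))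
  have hdf : ∀ v w, s.rt v = s.rt w →
      (if s.rt v = s.rt (G.hd g) then s.P v - s.P (G.hd g) - ue g + s.P (G.tl g) else s.P v) -
        (if s.rt w = s.rt (G.hd g) then s.P w - s.P (G.hd g) - ue g + s.P (G.tl g) else s.P w) =
        s.P v - s.P w := by
    intro v w hvw
    rw [hvw]
    split_ifs
    · abel
    · rfl
  have hnz : ∀ v w e, s.rt v = s.rt w → s.P v e - s.P w e ≠ 0 →
      s.tr e = true ∧ s.rt (G.tl e) = s.rt v := by
    intro v w e hvw h0
    by_cases h1 : s.P v e = 0
    · rw [hvw]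
      exact h.supp w e fun h2 => h0 (by rw [h1, h2, sub_zero])
    · exact h.supp v e h1
  have hmix : ∀ v w e, s.rt v = s.rt (G.hd g) → s.rt (G.tl g) = s.rt w →
      |(s.P v - s.P (G.hd g) - ue g + s.P (G.tl g)) e - s.P w e| ≤ 1 := by
    intro v w e hv hw
    have a1 := hnz v _ e hv
    have a2 := hnz _ w e hw
    have b1 := h.diff v _ e hv
    have b2 := h.diff _ w e hw
    simp only [Pi.add_apply, Pi.sub_apply, ue]
    by_cases he : e = g
    · subst he
      have c1 : s.P v e - s.P (G.hd e) e = 0 := by_contra fun c => htr (a1 c).1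
      have c2 : s.P (G.tl e) e - s.P w e = 0 := by_contra fun c => htr (a2 c).1
      rw [Pi.single_eq_same, abs_le]
      omega
    · rw [Pi.single_eq_of_ne he]
      rw [abs_le] at b1 b2 ⊢
      by_cases c1 : s.P v e - s.P (G.hd g) e = 0
      · omega
      by_cases c2 : s.P (G.tl g) e - s.P w e = 0
      · omega
      exact (hg ((a2 c2).2.symm.trans ((a1 c1).2.trans hv))).elim
  refine ⟨fun v => ?_, fun v hv => ?_, fun v => ?_, fun v e hv => ?_, fun v w e hvw => ?_,
    fun e he => ?_, fun e he => ?_, fun v hv => ?_, fun e he => ?_, fun e f he hf => ?_⟩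
  · by_cases h1 : s.rt v = s.rt (G.hd g)
    · simp only [if_pos h1, h.rt_rt, ite_self]
    · simp only [if_neg h1, h.rt_rt]
  · by_cases h1 : s.rt v = s.rt (G.hd g)
    · simp only [if_pos h1] at hv
      exact (hr (hv ▸ h1)).elim
    · simp only [if_neg h1] at hv ⊢
      exact h.P_root v hv
  · by_cases h1 : s.rt v = s.rt (G.hd g)
    · simp only [if_pos h1, dv_add, dv_sub, dv_ue, h.dv_P, Net.bd]
      rw [h1]
      abel
    · simp only [if_neg h1, h.dv_P]
  · by_cases h1 : s.rt v = s.rt (G.hd g)
    · simp only [if_pos h1, Pi.add_apply, Pi.sub_apply, ue] at hv ⊢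
      by_cases he : e = g
      · simp only [he, if_true, if_neg hg, and_self]
      rw [Pi.single_eq_of_ne he, sub_zero] at hv
      rw [if_neg he]
      by_cases c1 : s.P v e - s.P (G.hd g) e = 0
      · rw [c1, zero_add] at hv
        have := h.supp _ e hv
        exact ⟨this.1, by rw [this.2, if_neg hg]⟩
      · have := hnz v _ e h1 c1
        exact ⟨this.1, by rw [this.2, if_pos h1]⟩
    · simp only [if_neg h1] at hv ⊢
      have := h.supp v e hv
      exact ⟨by simp [this.1], by rw [this.2, if_neg h1]⟩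
  · by_cases h1 : s.rt v = s.rt (G.hd g) <;> by_cases h2 : s.rt w = s.rt (G.hd g)
    · have := congrFun (hdf v w (h1.trans h2.symm)) e
      simp only [Pi.sub_apply] at this ⊢
      rw [this]
      exact h.diff v w e (h1.trans h2.symm)
    · simp only [if_pos h1, if_neg h2] at hvw ⊢
      exact hmix v w e h1 hvw
    · simp only [if_neg h1, if_pos h2] at hvw ⊢
      rw [abs_sub_comm]
      exact hmix w v e h2 hvw.symm
    · simp only [if_neg h1, if_neg h2] at hvw ⊢
      exact h.diff v w e hvw
  · by_cases h1 : e = g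
    · subst h1
      simp only [if_true, if_neg hg]
      abel
    · simp only [if_neg h1] at he
      rw [add_sub_assoc, hdf _ _ (h.done_rt e (h.tr_done e he)).symm, ← add_sub_assoc]
      exact h.L_tree e he
  · by_cases h1 : e = g
    · exact (hD e).2 (Or.inr h1)
    · simp only [if_neg h1] at he
      exact (hD e).2 (Or.inl (h.tr_done e he))
  · obtain ⟨h1, h2⟩ := h.iso v fun e he => hv e ((hD e).2 (Or.inl he))
    obtain ⟨h3, h4⟩ := hv g ((hD g).2 (Or.inr rfl))
    have h5 : s.rt v ≠ s.rt (G.hd g) := fun h5 => h4 (h2 _ (h5.symm.trans h1))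
    refine ⟨by simpa only [if_neg h5] using h1, fun w hw => ?_⟩
    by_cases h6 : s.rt w = s.rt (G.hd g)
    · simp only [if_pos h6] at hw
      exact (h3 (h2 _ hw)).elim
    · simp only [if_neg h6] at hw
      exact h2 w hw
  · rcases (hD e).1 he with he | rfl
    · simp only [h.done_rt e he]
    · simp only [if_true, if_neg hg]
  · rcases (hD e).1 he with he | rfl
    · refine h.mono e f he fun h1 => hf ?_
      have := congrFun (hdf _ _ (h.done_rt e he).symm) f
      simp only [Pi.sub_apply] at this ⊢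
      omega
    · by_cases h1 : f = e
      · rw [h1]
      · simp [hg, ue, h1] at hf

theorem inv_foldl (G : Net V E) (q : E → ℕ) (l : List E) (hl : l.Pairwise fun i j => q j ≤ q i) :
    Inv G q (· ∈ l) (l.foldl (astep G) ini) := by
  induction l using List.reverseRecOn with
  | nil => simpa using inv_ini G q
  | append_singleton l g ih =>
    rw [List.pairwise_append] at hl
    rw [List.foldl_append]
    exact (ih hl.1).step g (fun e he => hl.2.2 e he g (by simp)) fun e => by simp

end Abstract

theorem getD_ofFn {β : Type} {n : ℕ} (f : Fin n → β) (i : Fin n) (d : β) :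
    (List.ofFn f).getD i d = f i := by
  rw [List.getD_eq_getElem _ _ (by simp), List.getElem_ofFn]

theorem map_range_eq {β : Type} {n : ℕ} {f : Fin n → β} {F : ℕ → β} (h : ∀ i : Fin n, F i = f i) :
    (List.range n).map F = List.ofFn f := by
  rw [← ofFn_eq_map_range]
  exact congrArg _ (funext h)

/-- The state as lists. -/
def encS {n m : ℕ} (s : St (Fin n) (Fin m)) : List Bool × List ℕ × List (List ℤ) :=
  (List.ofFn s.tr, List.ofFn fun v => (s.rt v : ℕ), List.ofFn fun v => List.ofFn (s.P v))

theorem sz_encS {n m : ℕ} (s : St (Fin n) (Fin m)) (h : ∀ v e, |s.P v e| ≤ 1) :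
    sz (encS s) ≤ 4 * m + n * (4 * n + 2) + n * (m * 10 + 2) + 5 := by
  have h1 := sz_listBool_le (List.ofFn s.tr)
  have h2 := sz_list_le (l := List.ofFn fun v => (s.rt v : ℕ)) (B := 4 * n + 1) fun x hx => by
    obtain ⟨v, rfl⟩ := List.mem_ofFn.1 hx
    have := sz_le_self (s.rt v : ℕ)
    have := (s.rt v).2
    omega
  have h3 := sz_list_le (l := List.ofFn fun v => List.ofFn (s.P v)) (B := m * 10 + 1)
    fun x hx => by
      obtain ⟨v, rfl⟩ := List.mem_ofFn.1 hx
      simpa using sz_list_le (l := List.ofFn (s.P v)) (B := 9) fun z hz => by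
        obtain ⟨e, rfl⟩ := List.mem_ofFn.1 hz
        have := abs_le.1 (h v e)
        exact sz_int_le_of_lt (k := 1) (by omega)
  simp only [List.length_ofFn, add_assoc, Nat.reduceAdd] at h1 h2 h3
  simp only [encS, sz_pair]
  omega

/-- Tail of an edge. -/
def tlN (a : FIn) (g : ℕ) : ℕ := (a.1.getD g (0, 0, 0)).1 % (a.2.n + 1)
/-- Head of an edge. -/
def hdN (a : FIn) (g : ℕ) : ℕ := (a.1.getD g (0, 0, 0)).2.1 % (a.2.n + 1)
/-- Weight of an edge. -/
def qN (a : FIn) (g : ℕ) : ℕ := (a.1.getD g (0, 0, 0)).2.2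

theorem tlN_eq (a : FIn) (g : Fin a.1.length) : tlN a g = a.G.tl g := by
  simp [tlN, FIn.G, Fin.ofNat]

theorem hdN_eq (a : FIn) (g : Fin a.1.length) : hdN a g = a.G.hd g := by
  simp [hdN, FIn.G, Fin.ofNat]

theorem qN_eq (a : FIn) (g : Fin a.1.length) : qN a g = a.q g := by
  simp [qN, FIn.q]

/-- One step on lists. -/
def cstep (a : FIn) (s : List Bool × List ℕ × List (List ℤ)) (g : ℕ) :
    List Bool × List ℕ × List (List ℤ) :=
  if s.2.1.getD (tlN a g) 0 = s.2.1.getD (hdN a g) 0 then s else
    ((List.range a.1.length).map fun e => if e = g then true else s.1.getD e false,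
      (List.range (a.2.n + 1)).map fun v =>
        if s.2.1.getD v 0 = s.2.1.getD (hdN a g) 0 then s.2.1.getD (tlN a g) 0 else s.2.1.getD v 0,
      (List.range (a.2.n + 1)).map fun v =>
        if s.2.1.getD v 0 = s.2.1.getD (hdN a g) 0 then (List.range a.1.length).map fun e =>
          (s.2.2.getD v []).getD e 0 - (s.2.2.getD (hdN a g) []).getD e 0 -
            (if e = g then 1 else 0) + (s.2.2.getD (tlN a g) []).getD e 0
        else s.2.2.getD v [])

theorem cstep_encS (a : FIn) (s : St (Fin (a.2.n + 1)) (Fin a.1.length)) (g : Fin a.1.length) :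
    cstep a (encS s) g = encS (astep a.G s g) := by
  simp only [cstep, astep, encS, tlN_eq, hdN_eq, getD_ofFn, Fin.val_inj]
  split_ifs with h
  · rfl
  refine Prod.ext (map_range_eq fun e => ?_) (Prod.ext (map_range_eq fun v => ?_)
    (map_range_eq fun v => ?_))
  · simp only [getD_ofFn, Fin.val_inj]
  · simp only [getD_ofFn, Fin.val_inj]
    split_ifs <;> rfl
  · simp only [getD_ofFn, Fin.val_inj]
    split_ifs
    · refine map_range_eq fun e => ?_
      simp only [getD_ofFn, Fin.val_inj, Pi.add_apply, Pi.sub_apply, ue, Pi.single_apply]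
    · rfl

theorem poly_cstep :
    Poly fun p : FIn × (List Bool × List ℕ × List (List ℤ)) × ℕ => cstep p.1 p.2.1 p.2.2 := by
  unfold cstep tlN hdN
  fun_prop

/-- The edges of positive weight, by decreasing weight. -/
def edges (a : FIn) : List (Fin a.1.length) :=
  ((List.finRange a.1.length).filter fun e => decide (0 < a.q e)).insertionSort
    fun i j => a.q j ≤ a.q i

theorem mem_edges {a : FIn} {e : Fin a.1.length} : e ∈ edges a ↔ 0 < a.q e := by
  simp [edges]

theorem pairwise_edges (a : FIn) : (edges a).Pairwise fun i j => a.q j ≤ a.q i :=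
  haveI : Std.Total fun i j => a.q j ≤ a.q i := ⟨fun _ _ => le_total _ _⟩
  haveI : IsTrans _ fun i j => a.q j ≤ a.q i := ⟨fun _ _ _ h1 h2 => h2.trans h1⟩
  List.pairwise_insertionSort _ _

theorem poly_edges : Poly fun a : FIn => (edges a).map Fin.val := by
  have h : Poly fun p : FIn × ℕ => qN p.1 p.2 := by
    unfold qN
    fun_prop
  refine (Lib.PolyTime.Poly.insertionSort (r := fun (a : FIn) (i j : ℕ) => qN a j ≤ qN a i)
    (l := fun a => (List.range a.1.length).filter fun e => decide (0 < qN a e))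
    (by unfold qN; fun_prop) (by unfold qN; fun_prop)).congr fun a => ?_
  rw [edges, List.map_insertionSort (s := fun i j : ℕ => qN a j ≤ qN a i) _ _ _
    fun i _ j _ => by rw [qN_eq, qN_eq], ← List.map_coe_finRange_eq_range, List.filter_map]
  simp only [Function.comp_def, qN_eq]

theorem foldl_cstep (a : FIn) (l : List (Fin a.1.length)) :
    (l.map Fin.val).foldl (cstep a) (encS (ini : St (Fin (a.2.n + 1)) (Fin a.1.length))) =
      encS (l.foldl (astep a.G) ini) := by
  rw [List.foldl_map]
  exact List.foldl_hom encS fun s g => cstep_encS a s g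

theorem poly_run : Poly fun a : FIn => encS ((edges a).foldl (astep a.G) ini) := by
  have h0 : Poly fun a : FIn => encS (ini : St (Fin (a.2.n + 1)) (Fin a.1.length)) := by
    refine Lib.PolyTime.Poly.congr (f := fun a : FIn => (List.replicate a.1.length false,
      List.range (a.2.n + 1), List.replicate (a.2.n + 1) (List.replicate a.1.length (0 : ℤ))))
      (by fun_prop) fun a => ?_
    simp only [encS, ini, List.ofFn_const, id]
    rw [← map_range_eq (f := Fin.val) (F := id) fun _ => rfl, List.map_id]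
    congr 3
    exact (List.ofFn_const _ _).symm
  refine (Lib.PolyTime.Poly.foldl (h := cstep) poly_edges h0 poly_cstep
    (B := fun a => 4 * a.1.length + (a.2.n + 1) * (4 * (a.2.n + 1) + 2) +
      (a.2.n + 1) * (a.1.length * 10 + 2) + 5) (by fun_prop) fun a l hl => ?_).congr
    fun a => foldl_cstep a _
  obtain ⟨l, hl', rfl⟩ := List.prefix_map_iff.1 hl
  rw [foldl_cstep]
  exact sz_encS _ (inv_foldl a.G a.q l ((pairwise_edges a).sublist hl'.sublist)).abs_P

end ForestAux

open ForestAux in
theorem exists_forest : ∃ f : FIn → List Bool × List ℕ × List (List ℤ), Poly f ∧ ∀ a : FIn,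
    a.Spec (fun e => (f a).1.getD e false)
      (fun v => Fin.ofNat (a.2.n + 1) ((f a).2.1.getD v 0))
      (fun v e => ((f a).2.2.getD v []).getD e 0) := by
  refine ⟨_, poly_run, fun a => ?_⟩
  have h := inv_foldl a.G a.q _ (pairwise_edges a)
  simp only [encS, getD_ofFn, Fin.ofNat_val_eq_self]
  exact ⟨fun e he => mem_edges.1 (h.tr_done e he), h.rt_rt,
    fun v hv => (h.iso v fun e he => hv e (mem_edges.1 he)).1, h.P_root, h.dv_P,
    fun v e he => (h.supp v e he).1, h.abs_P, h.L_tree,
    fun e he => h.done_rt e (mem_edges.2 he), fun e g he => h.mono e g (mem_edges.2 he)⟩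

end Crest.Agent.R309
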