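import Crest.Agent.Lib.PolyTime.More
import Crest.Prelude.Def_FinProb

/-!
# Row 309: expectations over random tapes

`Ex n F` is the average of `F` over all bit strings of length `n`.  Randomised procedures are
functions of the tape; `foldT` runs a step function on consecutive blocks of the tape and `draws`
runs a procedure on consecutive blocks independently.
-/

set_option autoImplicit false

namespace Crest.Agent.R309

open Finset Crest.Agent.Lib.PolyTime

/-- Average of `F` over the bit strings of length `n`. -/
noncomputable def Ex (n : ℕ) (F : List Bool → ℝ) : ℝ :=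
  (∑ ω : Fin n → Bool, F (List.ofFn ω)) / 2 ^ n

open Classical in
/-- Indicator of a proposition. -/
noncomputable def ind (p : Prop) : ℝ := if p then 1 else 0

/-- Probability of `p` over the bit strings of length `n`. -/
noncomputable def Pr (n : ℕ) (p : List Bool → Prop) : ℝ := Ex n fun u => ind (p u)

/-- The number with the given binary digits (least significant first). -/
def toNat (u : List Bool) : ℕ := u.foldr (fun b acc => 2 * acc + (if b then 1 else 0)) 0

/-- The `i`-th block of length `B` of the tape. -/
def blk (B i : ℕ) (u : List Bool) : List Bool := (u.drop (i * B)).take B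

/-- The first `t` blocks of length `B`. -/
def chunks (B t : ℕ) (u : List Bool) : List (List Bool) := (List.range t).map fun i => blk B i u

/-- Run `step` on the first `t` blocks of length `B` of the tape. -/
def foldT {σ : Type} (step : σ → List Bool → σ) (B t : ℕ) (s : σ) (u : List Bool) : σ :=
  (chunks B t u).foldl step s

/-- Run `g` on each of the first `t` blocks of length `B` of the tape. -/
def draws {α : Type} (g : List Bool → α) (B t : ℕ) (u : List Bool) : List α :=
  (chunks B t u).map g

/-- The Markov operator of a step function using `B` bits. -/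
noncomputable def Kop {σ : Type} (step : σ → List Bool → σ) (B : ℕ) (F : σ → ℝ) : σ → ℝ :=
  fun s => Ex B fun u => F (step s u)

/-- A median of a list of rationals (`0` for the empty list). -/
def medQ (l : List ℚ) : ℚ :=
  (l.find? fun x => decide (l.length ≤ 2 * l.countP (fun y => decide (y ≤ x))) &&
    decide (l.length ≤ 2 * l.countP (fun y => decide (x ≤ y)))).getD 0

theorem ind_true {p : Prop} (h : p) : ind p = 1 := by simp [ind, h]
theorem ind_false {p : Prop} (h : ¬ p) : ind p = 0 := by simp [ind, h]
theorem ind_nonneg (p : Prop) : 0 ≤ ind p := by unfold ind; split_ifs <;> norm_num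
theorem ind_le_one (p : Prop) : ind p ≤ 1 := by unfold ind; split_ifs <;> norm_num

theorem uniformProb_eq_Pr (n : ℕ) (p : List Bool → Prop) :
    Crest.FinProb.uniformProb {ω : Fin n → Bool | p (List.ofFn ω)} = Pr n p := by
  classical
  simp only [Crest.FinProb.uniformProb, Pr, Ex, ind, Set.mem_ofPred_eq, sum_boole]
  simp

theorem Ex_congr {n : ℕ} {F G : List Bool → ℝ} (h : ∀ u, u.length = n → F u = G u) :
    Ex n F = Ex n G := by
  unfold Ex
  rw [sum_congr rfl fun ω _ => h _ (List.length_ofFn)]

theorem Ex_mono {n : ℕ} {F G : List Bool → ℝ} (h : ∀ u, u.length = n → F u ≤ G u) :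
    Ex n F ≤ Ex n G := by
  unfold Ex
  gcongr with ω
  exact h _ List.length_ofFn

@[simp] theorem Ex_const (n : ℕ) (c : ℝ) : Ex n (fun _ => c) = c := by
  simp [Ex]

theorem Ex_nonneg {n : ℕ} {F : List Bool → ℝ} (h : ∀ u, u.length = n → 0 ≤ F u) : 0 ≤ Ex n F := by
  simpa using Ex_mono (F := fun _ => 0) h

theorem Ex_add (n : ℕ) (F G : List Bool → ℝ) :
    Ex n (fun u => F u + G u) = Ex n F + Ex n G := by
  simp [Ex, sum_add_distrib, add_div]

theorem Ex_sub (n : ℕ) (F G : List Bool → ℝ) :
    Ex n (fun u => F u - G u) = Ex n F - Ex n G := by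
  simp [Ex, sub_div]

theorem Ex_mul_left (n : ℕ) (c : ℝ) (F : List Bool → ℝ) :
    Ex n (fun u => c * F u) = c * Ex n F := by
  simp [Ex, ← mul_sum, mul_div_assoc]

theorem Ex_mul_right (n : ℕ) (c : ℝ) (F : List Bool → ℝ) :
    Ex n (fun u => F u * c) = Ex n F * c := by
  simp [Ex, ← sum_mul, mul_div_right_comm]

theorem Ex_sum {ι : Type} (n : ℕ) (s : Finset ι) (F : ι → List Bool → ℝ) :
    Ex n (fun u => ∑ i ∈ s, F i u) = ∑ i ∈ s, Ex n (F i) := by
  simp only [Ex, ← sum_div]
  rw [sum_comm]

theorem abs_Ex_le (n : ℕ) (F : List Bool → ℝ) : |Ex n F| ≤ Ex n fun u => |F u| := by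
  unfold Ex
  rw [abs_div, abs_of_pos (by positivity : (0 : ℝ) < 2 ^ n)]
  gcongr
  exact abs_sum_le_sum_abs _ _

/-- Jensen. -/
theorem sq_Ex_le (n : ℕ) (F : List Bool → ℝ) : Ex n F ^ 2 ≤ Ex n fun u => F u ^ 2 := by
  have h := Ex_nonneg (n := n) (F := fun u => F u ^ 2 - (2 * Ex n F * F u - Ex n F ^ 2))
    fun u _ => by nlinarith [sq_nonneg (F u - Ex n F)]
  rw [Ex_sub, Ex_sub, Ex_mul_left, Ex_const] at h
  nlinarith

theorem Ex_zero (F : List Bool → ℝ) : Ex 0 F = F [] := by
  simp [Ex]

theorem Ex_succ (n : ℕ) (F : List Bool → ℝ) :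
    Ex (n + 1) F = (Ex n (fun u => F (false :: u)) + Ex n (fun u => F (true :: u))) / 2 := by
  unfold Ex
  rw [← (Fin.consEquiv fun _ : Fin (n + 1) => Bool).sum_comp, Fintype.sum_prod_type]
  simp [List.ofFn_succ, Fin.consEquiv]
  field_simp
  ring

/-- Fubini. -/
theorem Ex_append (a b : ℕ) (F : List Bool → ℝ) :
    Ex (a + b) F = Ex a fun u => Ex b fun v => F (u ++ v) := by
  induction a generalizing F with
  | zero => simp [Ex_zero]
  | succ a ih =>
    rw [Nat.add_right_comm, Ex_succ, Ex_succ, ih, ih]
    rfl

/-- Independence of a prefix and the rest. -/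
theorem Ex_split {a n : ℕ} (h : a ≤ n) (G : List Bool → List Bool → ℝ) :
    Ex n (fun w => G (w.take a) (w.drop a)) = Ex a fun u => Ex (n - a) fun v => G u v := by
  obtain ⟨b, rfl⟩ := Nat.exists_eq_add_of_le h
  rw [Ex_append, Nat.add_sub_cancel_left]
  exact Ex_congr fun u hu => Ex_congr fun v _ => by simp [← hu]

theorem Ex_take {a n : ℕ} (h : a ≤ n) (F : List Bool → ℝ) :
    Ex n (fun u => F (u.take a)) = Ex a F := by
  simpa using Ex_split h fun u _ => F u

theorem Ex_drop {a n : ℕ} (h : a ≤ n) (F : List Bool → ℝ) :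
    Ex n (fun u => F (u.drop a)) = Ex (n - a) F := by
  simpa using Ex_split h fun _ v => F v

theorem Ex_blk {B i n : ℕ} (h : (i + 1) * B ≤ n) (F : List Bool → ℝ) :
    Ex n (fun u => F (blk B i u)) = Ex B F := by
  rw [Nat.succ_mul] at h
  unfold blk
  rw [Ex_drop (by omega) fun v => F (v.take B), Ex_take (by omega)]

theorem blk_zero (B : ℕ) (u : List Bool) : blk B 0 u = u.take B := by simp [blk]

theorem blk_succ (B i : ℕ) (u : List Bool) : blk B (i + 1) u = blk B i (u.drop B) := by
  simp [blk, Nat.succ_mul, Nat.add_comm]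

theorem blk_take {B i a : ℕ} (h : (i + 1) * B ≤ a) (u : List Bool) :
    blk B i (u.take a) = blk B i u := by
  rw [Nat.succ_mul] at h
  simp only [blk, List.drop_take, List.take_take]
  rw [min_eq_left (by omega)]

theorem chunks_succ (B t : ℕ) (u : List Bool) :
    chunks B (t + 1) u = chunks B t u ++ [blk B t u] := by
  simp [chunks, List.range_succ]

theorem chunks_succ' (B t : ℕ) (u : List Bool) :
    chunks B (t + 1) u = u.take B :: chunks B t (u.drop B) := by
  simp [chunks, List.range_succ_eq_map, blk_zero, Function.comp_def, blk_succ]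

theorem chunks_take {B t a : ℕ} (h : t * B ≤ a) (u : List Bool) :
    chunks B t (u.take a) = chunks B t u :=
  List.map_congr_left fun _ hi => blk_take
    ((Nat.mul_le_mul_right B (List.mem_range.1 hi)).trans h) u

/-- Independence of the blocks. -/
theorem Ex_prod_blk {B t n : ℕ} (h : t * B ≤ n) (F : Fin t → List Bool → ℝ) :
    Ex n (fun u => ∏ i : Fin t, F i (blk B i u)) = ∏ i : Fin t, Ex B (F i) := by
  induction t generalizing n with
  | zero => simp
  | succ t ih =>
    rw [Nat.succ_mul] at h
    simp only [Fin.prod_univ_succ, Fin.val_zero, Fin.val_succ, blk_zero, blk_succ]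
    rw [Ex_split (by omega) fun u v => F 0 u * ∏ i : Fin t, F i.succ (blk B i v)]
    simp only [Ex_mul_left]
    rw [Ex_mul_right, ih (by omega)]

/-- The law of a procedure with values in a finite set. -/
theorem Ex_law {X : Type} (Ω : Finset X) {n : ℕ} {g : List Bool → X}
    (hg : ∀ u, u.length = n → g u ∈ Ω) (F : X → ℝ) :
    Ex n (fun u => F (g u)) = ∑ y ∈ Ω, Pr n (fun u => g u = y) * F y := by
  simp only [Pr, ← Ex_mul_right, ← Ex_sum]
  refine Ex_congr fun u hu => ?_
  rw [sum_eq_single_of_mem _ (hg u hu) fun y _ hy => by rw [ind_false hy.symm, zero_mul],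
    ind_true rfl, one_mul]

theorem Pr_nonneg (n : ℕ) (p : List Bool → Prop) : 0 ≤ Pr n p := by
  exact Ex_nonneg fun _ _ => ind_nonneg _

theorem Pr_le_one (n : ℕ) (p : List Bool → Prop) : Pr n p ≤ 1 := by
  simpa [Pr] using Ex_mono (n := n) (G := fun _ => 1) fun u _ => ind_le_one (p u)

theorem Pr_mono {n : ℕ} {p q : List Bool → Prop} (h : ∀ u, u.length = n → p u → q u) :
    Pr n p ≤ Pr n q := by
  refine Ex_mono fun u hu => ?_
  by_cases hp : p u
  · rw [ind_true hp, ind_true (h u hu hp)]
  · rw [ind_false hp]
    exact ind_nonneg _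

theorem Pr_not (n : ℕ) (p : List Bool → Prop) : Pr n (fun u => ¬ p u) = 1 - Pr n p := by
  rw [Pr, Pr, ← Ex_const n 1, ← Ex_sub]
  refine Ex_congr fun u _ => ?_
  by_cases hp : p u <;> simp [ind, hp]

theorem Pr_or_le (n : ℕ) (p q : List Bool → Prop) :
    Pr n (fun u => p u ∨ q u) ≤ Pr n p + Pr n q := by
  rw [Pr, Pr, Pr, ← Ex_add]
  refine Ex_mono fun u _ => ?_
  by_cases hp : p u <;> by_cases hq : q u <;> simp [ind, hp, hq]

theorem Pr_exists_le {ι : Type} (n : ℕ) (s : Finset ι) (p : ι → List Bool → Prop) :
    Pr n (fun u => ∃ i ∈ s, p i u) ≤ ∑ i ∈ s, Pr n (p i) := by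
  simp only [Pr, ← Ex_sum]
  refine Ex_mono fun u _ => ?_
  by_cases hp : ∃ i ∈ s, p i u
  · obtain ⟨i, hi, hp⟩ := hp
    refine (ind_le_one _).trans ?_
    rw [← ind_true hp]
    exact single_le_sum (f := fun i => ind (p i u)) (fun _ _ => ind_nonneg _) hi
  · rw [ind_false hp]
    exact sum_nonneg fun _ _ => ind_nonneg _

theorem toNat_cons (b : Bool) (u : List Bool) :
    toNat (b :: u) = 2 * toNat u + (if b then 1 else 0) := rfl

theorem toNat_lt (u : List Bool) : toNat u < 2 ^ u.length := by
  induction u with
  | nil => simp [toNat]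
  | cons b u ih =>
    rw [toNat_cons, List.length_cons, pow_succ]
    split_ifs <;> omega

theorem sum_range_two_mul (m : ℕ) (G : ℕ → ℝ) :
    ∑ i ∈ range (2 * m), G i = ∑ i ∈ range m, G (2 * i) + ∑ i ∈ range m, G (2 * i + 1) := by
  induction m with
  | zero => simp
  | succ m ih => rw [Nat.mul_succ, sum_range_succ, sum_range_succ, ih, sum_range_succ,
      sum_range_succ]; ring

theorem toNat_mod (j : ℕ) (u : List Bool) : toNat u % 2 ^ j = toNat (u.take j) := by
  induction j generalizing u with
  | zero => simp [toNat, Nat.mod_one]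
  | succ j ih =>
    cases u with
    | nil => simp [toNat]
    | cons b u =>
      rw [List.take_succ_cons, toNat_cons, toNat_cons, ← ih, pow_succ', Nat.mod_mul]
      split_ifs
      · rw [show (2 * toNat u + 1) % 2 = 1 by omega, show (2 * toNat u + 1) / 2 = toNat u by omega]
        omega
      · rw [show (2 * toNat u + 0) % 2 = 0 by omega, show (2 * toNat u + 0) / 2 = toNat u by omega]
        omega

/-- `n` random bits give a uniform number below `2 ^ n`. -/
theorem Ex_toNat (n : ℕ) (G : ℕ → ℝ) :
    Ex n (fun u => G (toNat u)) = (∑ i ∈ range (2 ^ n), G i) / 2 ^ n := by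
  induction n generalizing G with
  | zero => simp [Ex_zero, toNat]
  | succ n ih =>
    rw [Ex_succ, pow_succ' 2 n, sum_range_two_mul]
    simp only [toNat_cons, if_true, Bool.false_eq_true, if_false, add_zero]
    rw [ih fun i => G (2 * i), ih fun i => G (2 * i + 1)]
    field_simp
    ring

theorem Ex_toNat_mod {j n : ℕ} (h : j ≤ n) (G : ℕ → ℝ) :
    Ex n (fun u => G (toNat u % 2 ^ j)) = (∑ i ∈ range (2 ^ j), G i) / 2 ^ j := by
  simp only [toNat_mod]
  rw [Ex_take h fun u => G (toNat u), Ex_toNat]

theorem length_blk {B i : ℕ} {u : List Bool} (h : (i + 1) * B ≤ u.length) :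
    (blk B i u).length = B := by
  rw [Nat.succ_mul] at h
  simp only [blk, List.length_take, List.length_drop]
  omega

theorem foldT_zero {σ : Type} (step : σ → List Bool → σ) (B : ℕ) (s : σ) (u : List Bool) :
    foldT step B 0 s u = s := rfl

theorem foldT_succ {σ : Type} (step : σ → List Bool → σ) (B t : ℕ) (s : σ) (u : List Bool) :
    foldT step B (t + 1) s u = step (foldT step B t s u) (blk B t u) := by
  simp [foldT, chunks_succ]

theorem foldT_succ' {σ : Type} (step : σ → List Bool → σ) (B t : ℕ) (s : σ) (u : List Bool) :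
    foldT step B (t + 1) s u = foldT step B t (step s (u.take B)) (u.drop B) := by
  simp [foldT, chunks_succ']

theorem foldT_take {σ : Type} (step : σ → List Bool → σ) {B t a : ℕ} (h : t * B ≤ a) (s : σ)
    (u : List Bool) : foldT step B t s (u.take a) = foldT step B t s u := by
  rw [foldT, chunks_take h, foldT]

theorem draws_take {α : Type} (g : List Bool → α) {B t a : ℕ} (h : t * B ≤ a) (u : List Bool) :
    draws g B t (u.take a) = draws g B t u := by
  rw [draws, chunks_take h, draws]

@[simp] theorem length_draws {α : Type} (g : List Bool → α) (B t : ℕ) (u : List Bool) :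
    (draws g B t u).length = t := by
  simp [draws, chunks]

/-- An invariant of the step function is an invariant of the run. -/
theorem foldT_inv {σ : Type} {step : σ → List Bool → σ} {B : ℕ} (I : ℕ → σ → Prop) {s : σ}
    (h0 : I 0 s) (hs : ∀ i x u, I i x → I (i + 1) (step x u)) (t : ℕ) (u : List Bool) :
    I t (foldT step B t s u) := by
  induction t with
  | zero => exact h0
  | succ t ih => rw [foldT_succ]; exact hs _ _ _ ih

/-- Simulation of one step function by another. -/
theorem foldT_sim {σ τ : Type} {step : σ → List Bool → σ} {step' : τ → List Bool → τ} (e : σ → τ)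
    (h : ∀ s u, step' (e s) u = e (step s u)) (B t : ℕ) (s : σ) (u : List Bool) :
    foldT step' B t (e s) u = e (foldT step B t s u) := by
  induction t with
  | zero => rfl
  | succ t ih => rw [foldT_succ, foldT_succ, ih, h]

theorem Ex_foldT {σ : Type} (step : σ → List Bool → σ) {B t n : ℕ} (h : t * B ≤ n) (s : σ)
    (F : σ → ℝ) : Ex n (fun u => F (foldT step B t s u)) = (Kop step B)^[t] F s := by
  induction t generalizing n s with
  | zero => simp [foldT_zero]
  | succ t ih =>
    rw [Nat.succ_mul] at h
    simp only [foldT_succ']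
    rw [Ex_split (by omega) fun u v => F (foldT step B t (step s u) v),
      Function.iterate_succ_apply']
    exact Ex_congr fun u _ => ih (by omega) _

/-- One more step, the state reached so far being independent of the next block. -/
theorem Ex_foldT_succ {σ : Type} (step : σ → List Bool → σ) {B t n : ℕ} (h : (t + 1) * B ≤ n)
    (s : σ) (F : σ → ℝ) :
    Ex n (fun u => F (foldT step B (t + 1) s u)) =
      Ex n (fun u => Kop step B F (foldT step B t s u)) := by
  rw [Ex_foldT step h, Ex_foldT step (le_trans (Nat.mul_le_mul_right B (Nat.le_succ t)) h),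
    Function.iterate_succ_apply]

theorem Kop_iter_mem {σ : Type} (step : σ → List Bool → σ) (B t : ℕ) {F : σ → ℝ}
    (hF : ∀ x, 0 ≤ F x ∧ F x ≤ 1) (x : σ) :
    0 ≤ (Kop step B)^[t] F x ∧ (Kop step B)^[t] F x ≤ 1 := by
  induction t generalizing x with
  | zero => exact hF x
  | succ t ih =>
    rw [Function.iterate_succ_apply']
    exact ⟨Ex_nonneg fun u _ => (ih _).1,
      (Ex_mono (G := fun _ => 1) fun u _ => (ih _).2).trans_eq (Ex_const _ _)⟩

/-- Union bound along a run: if every step from a good state leads to a good state except with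
probability `f`, the final state is good except with probability `t * f`. -/
theorem Pr_foldT_bad {σ : Type} {step : σ → List Bool → σ} {B t n : ℕ} (h : t * B ≤ n)
    (Good : ℕ → σ → Prop) {s : σ} (h0 : Good 0 s) {f : ℝ}
    (hs : ∀ i x, i < t → Good i x → Pr B (fun u => ¬ Good (i + 1) (step x u)) ≤ f) :
    Pr n (fun u => ¬ Good t (foldT step B t s u)) ≤ t * f := by
  induction t with
  | zero => simp [Pr, foldT_zero, ind_false (not_not.2 h0)]
  | succ t ih =>
    have h1 := ih (le_trans (Nat.mul_le_mul_right B (Nat.le_succ t)) h)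
      fun i x hi => hs i x (by omega)
    have hf : 0 ≤ f := (Pr_nonneg _ _).trans (hs 0 s (by omega) h0)
    rw [Pr, Ex_foldT_succ step h s fun x => ind (¬ Good (t + 1) x)]
    calc _ ≤ Ex n fun u => ind (¬ Good t (foldT step B t s u)) + f := by
          refine Ex_mono fun u _ => ?_
          by_cases hg : Good t (foldT step B t s u)
          · rw [ind_false (not_not.2 hg), zero_add]
            exact hs t _ (by omega) hg
          · rw [ind_true hg]
            exact (Pr_le_one _ _).trans (by linarith)
      _ ≤ _ := by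
          rw [Ex_add, Ex_const]
          push_cast
          unfold Pr at h1
          linarith

theorem draws_succ' {α : Type} (g : List Bool → α) (B t : ℕ) (u : List Bool) :
    draws g B (t + 1) u = g (u.take B) :: draws g B t (u.drop B) := by
  simp [draws, chunks_succ']

theorem draws_succ {α : Type} (g : List Bool → α) (B t : ℕ) (u : List Bool) :
    draws g B (t + 1) u = draws g B t u ++ [g (blk B t u)] := by
  simp [draws, chunks_succ]

/-- Markov's inequality. -/
theorem Pr_le_Ex_div {n : ℕ} {p : List Bool → Prop} {F : List Bool → ℝ} {c : ℝ} (hc : 0 < c)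
    (hF : ∀ u, u.length = n → 0 ≤ F u) (hp : ∀ u, u.length = n → p u → c ≤ F u) :
    Pr n p ≤ Ex n F / c := by
  rw [div_eq_mul_inv, ← Ex_mul_right]
  refine Ex_mono fun u hu => ?_
  by_cases h : p u
  · rw [ind_true h, ← div_eq_mul_inv, one_le_div hc]
    exact hp u hu h
  · rw [ind_false h]
    exact mul_nonneg (hF u hu) (by positivity)

theorem var_draws {α : Type} (g : List Bool → α) (f : α → ℝ) {B R n : ℕ} (h : R * B ≤ n)
    {μ : ℝ} (hμ : Ex B (fun v => f (g v)) = μ) :
    Ex n (fun u => ((draws g B R u).map f).sum - R * μ) = 0 ∧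
    Ex n (fun u => (((draws g B R u).map f).sum - R * μ) ^ 2) =
      R * Ex B fun v => (f (g v) - μ) ^ 2 := by
  induction R generalizing n with
  | zero => simp [draws, chunks]
  | succ R ih =>
    rw [Nat.succ_mul] at h
    obtain ⟨h1, h2⟩ := ih (n := n - B) (by omega)
    have h3 : Ex B (fun v => f (g v) - μ) = 0 := by rw [Ex_sub, hμ, Ex_const, sub_self]
    have e : ∀ u, ((draws g B (R + 1) u).map f).sum - (R + 1 : ℕ) * μ =
        (f (g (u.take B)) - μ) + (((draws g B R (u.drop B)).map f).sum - R * μ) := by
      intro u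
      rw [draws_succ', List.map_cons, List.sum_cons]
      push_cast
      ring
    simp only [e]
    constructor
    · rw [Ex_split (by omega) fun u v => (f (g u) - μ) + (((draws g B R v).map f).sum - R * μ)]
      simp only [Ex_add, h1, h3, Ex_const, add_zero]
    · rw [Ex_split (by omega)
        fun u v => ((f (g u) - μ) + (((draws g B R v).map f).sum - R * μ)) ^ 2]
      simp only [add_sq, Ex_add, Ex_mul_left, h1, h2, Ex_const, mul_zero, add_zero]
      push_cast
      ring

/-- Chebyshev's inequality for the mean of independent bounded samples. -/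
theorem cheb_draws {α : Type} (g : List Bool → α) (f : α → ℝ) {c θ : ℝ} {B R n : ℕ}
    (hf : ∀ a, 0 ≤ f a ∧ f a ≤ c) (hR : 0 < R) (h : R * B ≤ n) (hθ : 0 < θ) :
    Pr n (fun u => θ < |((draws g B R u).map f).sum / R - Ex B (fun v => f (g v))|) ≤
      c ^ 2 / (R * θ ^ 2) := by
  set μ := Ex B fun v => f (g v) with hμ
  have hR' : (0 : ℝ) < R := by exact_mod_cast hR
  have h0 : 0 ≤ μ := Ex_nonneg fun u _ => (hf _).1
  have h1 : μ ≤ c := (Ex_mono (G := fun _ => c) fun u _ => (hf _).2).trans_eq (Ex_const _ _)
  have h2 : (Ex B fun v => (f (g v) - μ) ^ 2) ≤ c ^ 2 :=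
    (Ex_mono (G := fun _ => c ^ 2) fun u _ => by
      apply sq_le_sq' <;> linarith [hf (g u)]).trans_eq (Ex_const _ _)
  refine (Pr_le_Ex_div (c := (R * θ) ^ 2)
    (F := fun u => (((draws g B R u).map f).sum - R * μ) ^ 2) (by positivity)
    (fun _ _ => sq_nonneg _) fun u _ hu => ?_).trans ?_
  · rw [div_sub' hR'.ne', abs_div, abs_of_pos hR', lt_div_iff₀ hR'] at hu
    rw [← sq_abs (_ - _), mul_comm]
    gcongr
  · rw [(var_draws g f h hμ.symm).2, div_le_div_iff₀ (by positivity) (by positivity)]
    calc _ = (R * (R * θ ^ 2)) * Ex B fun v => (f (g v) - μ) ^ 2 := by ring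
      _ ≤ (R * (R * θ ^ 2)) * c ^ 2 := by gcongr
      _ = _ := by ring

/-- Amplification: if each sample is bad with probability at most `1/16`, half of `k` independent
samples are bad with probability at most `2⁻ᵏ`. -/
theorem Pr_half_bad {α : Type} (g : List Bool → α) (bad : α → Bool) {B k n : ℕ} (h : k * B ≤ n)
    (hb : Pr B (fun v => bad (g v) = true) ≤ 1 / 16) :
    Pr n (fun u => k ≤ 2 * (draws g B k u).countP bad) ≤ (1 / 2) ^ k := by
  have h1 : Ex B (fun v => if bad (g v) then (16 : ℝ) else 1) ≤ 2 := by
    have : Ex B (fun v => if bad (g v) then (16 : ℝ) else 1) =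
        Ex B fun v => 1 + 15 * ind (bad (g v) = true) :=
      Ex_congr fun v _ => by by_cases hv : bad (g v) <;> norm_num [ind, hv]
    rw [this, Ex_add, Ex_mul_left, Ex_const]
    unfold Pr at hb
    linarith
  have h2 : ∀ k n, k * B ≤ n →
      Ex n (fun u => (16 : ℝ) ^ (draws g B k u).countP bad) ≤ 2 ^ k := by
    intro k
    induction k with
    | zero => intro n _; simp [draws, chunks]
    | succ k ih =>
      intro n h
      rw [Nat.succ_mul] at h
      have e : ∀ u, (16 : ℝ) ^ (draws g B (k + 1) u).countP bad =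
          (if bad (g (u.take B)) then (16 : ℝ) else 1) *
            16 ^ (draws g B k (u.drop B)).countP bad := by
        intro u
        rw [draws_succ', List.countP_cons]
        split_ifs <;> ring
      simp only [e]
      rw [Ex_split (by omega) fun u v => (if bad (g u) then (16 : ℝ) else 1) *
        16 ^ (draws g B k v).countP bad]
      simp only [Ex_mul_left]
      rw [Ex_mul_right, pow_succ']
      exact mul_le_mul h1 (ih _ (by omega)) (Ex_nonneg fun _ _ => by positivity) zero_le_two
  refine (Pr_le_Ex_div (c := 4 ^ k) (F := fun u => (16 : ℝ) ^ (draws g B k u).countP bad)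
    (by positivity) (fun _ _ => by positivity) fun u _ hu => ?_).trans ?_
  · rw [show (16 : ℝ) = 4 ^ 2 by norm_num, ← pow_mul]
    exact pow_le_pow_right₀ (by norm_num) hu
  · rw [div_le_iff₀ (by positivity), ← mul_pow]
    exact (h2 k n h).trans_eq (by norm_num)

theorem medQ_mem_or (l : List ℚ) : medQ l ∈ l ∨ medQ l = 0 := by
  unfold medQ
  cases e : l.find? _ with
  | none => exact Or.inr rfl
  | some x => exact Or.inl (List.mem_of_find?_eq_some e)

theorem exists_median {l : List ℚ} (hl : l ≠ []) :
    ∃ x ∈ l, l.length ≤ 2 * l.countP (fun y => decide (y ≤ x)) ∧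
      l.length ≤ 2 * l.countP (fun y => decide (x ≤ y)) := by
  obtain ⟨M, hM, hM'⟩ := exists_max_image l.toFinset id (by simpa using hl)
  obtain ⟨x, hx, hx'⟩ := exists_min_image
    (l.toFinset.filter fun x => l.length ≤ 2 * l.countP (fun y => decide (y ≤ x))) id
    ⟨M, mem_filter.2 ⟨hM, by
      rw [List.countP_eq_length.2 fun y hy => by simpa using hM' y (by simpa using hy)]
      omega⟩⟩
  simp only [mem_filter, List.mem_toFinset, id] at hx hx'
  refine ⟨x, hx.1, hx.2, ?_⟩
  by_contra hlt
  have h1 := List.length_eq_countP_add_countP (fun y => decide (x ≤ y)) (l := l)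
  obtain ⟨y, hy⟩ := List.countP_pos_iff.1
    (show 0 < l.countP (fun y => decide ¬ decide (x ≤ y) = true) by omega)
  obtain ⟨z, hz, hz'⟩ := exists_max_image (l.toFinset.filter fun y => y < x) id
    ⟨y, by simpa using hy⟩
  simp only [mem_filter, List.mem_toFinset, id] at hz hz'
  have h2 : l.countP (fun y => decide ¬ decide (x ≤ y) = true) ≤
      l.countP fun y => decide (y ≤ z) :=
    List.countP_mono_left fun y hy h => by simpa using hz' y ⟨hy, by simpa using h⟩
  exact absurd (hx' z ⟨hz.1, by omega⟩) (not_le.2 hz.2)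

theorem medQ_between {l : List ℚ} {a b : ℚ}
    (h : 2 * l.countP (fun x => !(decide (a ≤ x) && decide (x ≤ b))) < l.length) :
    a ≤ medQ l ∧ medQ l ≤ b := by
  obtain ⟨x, hx, hx'⟩ := exists_median (l := l) (by rintro rfl; simp at h)
  unfold medQ
  cases e : l.find? _ with
  | none => simpa [hx'.1, hx'.2] using List.find?_eq_none.1 e x hx
  | some m =>
    have hm := List.find?_some e
    simp only [Bool.and_eq_true, decide_eq_true_eq] at hm
    constructor <;> by_contra hlt
    · have : l.countP (fun y => decide (y ≤ m)) ≤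
          l.countP (fun x => !(decide (a ≤ x) && decide (x ≤ b))) :=
        List.countP_mono_left fun y _ hy => by
          have : ¬ a ≤ y := fun h => hlt (h.trans (by simpa using hy))
          simp [this]
      omega
    · have : l.countP (fun y => decide (m ≤ y)) ≤
          l.countP (fun x => !(decide (a ≤ x) && decide (x ≤ b))) :=
        List.countP_mono_left fun y _ hy => by
          have : ¬ y ≤ b := fun h => hlt (le_trans (by simpa using hy) h)
          simp [this]
      omega

section poly
variable {α : Type} [PEnc α]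

@[fun_prop] theorem poly_toNat {u : α → List Bool} (hu : Poly u) : Poly fun a => toNat (u a) := by
  refine hu.ofBits.congr fun a => ?_
  induction u a with
  | nil => rfl
  | cons b l ih => cases b <;> simp [toNat_cons, ih, Nat.bit]

@[fun_prop] theorem poly_blk {B i : α → ℕ} {u : α → List Bool} (hB : Poly B) (hi : Poly i)
    (hu : Poly u) : Poly fun a => blk (B a) (i a) (u a) := by
  unfold blk
  fun_prop

@[fun_prop] theorem poly_chunks {B t : α → ℕ} {u : α → List Bool} (hB : Poly B) (ht : Poly t)
    (htb : PB t) (hu : Poly u) : Poly fun a => chunks (B a) (t a) (u a) := by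
  unfold chunks
  fun_prop

@[fun_prop] theorem poly_draws {β : Type} [PEnc β] {g : α → List Bool → β} {B t : α → ℕ}
    {u : α → List Bool} (hg : Poly fun p : α × List Bool => g p.1 p.2) (hB : Poly B) (ht : Poly t)
    (htb : PB t) (hu : Poly u) : Poly fun a => draws (g a) (B a) (t a) (u a) := by
  exact (poly_chunks hB ht htb hu).map hg

/-- A run is polynomial time if an invariant bounds the size of the state. -/
theorem poly_foldT {σ : Type} [PEnc σ] {step : α → σ → List Bool → σ} {B t S : α → ℕ}
    {s : α → σ} {u : α → List Bool}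
    (hstep : Poly fun p : (α × σ) × List Bool => step p.1.1 p.1.2 p.2) (hB : Poly B) (ht : Poly t)
    (htb : PB t) (hs : Poly s) (hu : Poly u) (I : α → ℕ → σ → Prop) (h0 : ∀ a, I a 0 (s a))
    (hI : ∀ a i x v, i < t a → v.length ≤ (u a).length → I a i x → I a (i + 1) (step a x v))
    (hS : PB S) (hsz : ∀ a i x, i ≤ t a → I a i x → sz x ≤ S a) :
    Poly fun a => foldT (step a) (B a) (t a) (s a) (u a) := by
  refine Poly.foldl (poly_chunks hB ht htb hu) hs
    (hstep.comp (g := fun p : α × σ × List Bool => ((p.1, p.2.1), p.2.2)) (by fun_prop)) hS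
    fun a l hl => ?_
  have h1 : l.length ≤ t a := by simpa [chunks] using hl.length_le
  have h2 : l = chunks (B a) l.length (u a) := by
    rw [List.prefix_iff_eq_take.1 hl]
    simp [chunks, ← List.map_take, List.take_range, h1]
  have h3 : ∀ j, j ≤ t a → I a j (foldT (step a) (B a) j (s a) (u a)) := by
    intro j
    induction j with
    | zero => exact fun _ => h0 a
    | succ j ih =>
      intro hj
      rw [foldT_succ]
      exact hI a j _ _ (by omega) (by simp only [blk, List.length_take, List.length_drop]; omega)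
        (ih (by omega))
  rw [h2]
  exact hsz a _ _ h1 (h3 _ h1)

@[fun_prop] theorem poly_medQ {l : α → List ℚ} (hl : Poly l) : Poly fun a => medQ (l a) := by
  unfold medQ
  fun_prop

end poly

end Crest.Agent.R309
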