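import Crest.Agent.R309.MetroAux

/-!
# Row 309: the lazy Metropolis chain with symmetric additive proposals
-/

set_option autoImplicit false

namespace Crest.Agent.R309

open Finset

variable {X : Type} [AddCommGroup X] [DecidableEq X]

/-- One step, reading `1 + B + b` bits: a laziness bit, `B` bits for the proposal and `b` bits for
the acceptance test. -/
def mstep (w : X → ℚ) (prop : List Bool → X) (B b : ℕ) (x : X) (u : List Bool) : X :=
  if u.headD false = true ∧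
      (toNat ((u.drop (B + 1)).take b) : ℚ) * w x < 2 ^ b * w (x + prop ((u.drop 1).take B)) then
    x + prop ((u.drop 1).take B)
  else x

/-- Unnormalised Dirichlet form of the Metropolis chain. -/
noncomputable def MDir (w : X → ℚ) (Ω : Finset X) (prop : List Bool → X) (B : ℕ) (F : X → ℝ) : ℝ :=
  ∑ x ∈ Ω, Ex B fun u =>
    min (w x : ℝ) (w (x + prop u) : ℝ) * (F (x + prop u) - F x) ^ 2

/-- Weak Poincaré inequality with constants `K`, `η`. -/
def WeakP (w : X → ℚ) (Ω : Finset X) (prop : List Bool → X) (B : ℕ) (K η : ℝ) : Prop :=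
  ∀ F : X → ℝ, (∀ x, 0 ≤ F x ∧ F x ≤ 1) →
    ∃ c : ℝ, ∑ x ∈ Ω, (w x : ℝ) * (F x - c) ^ 2 ≤ K * MDir w Ω prop B F + η * ∑ x ∈ Ω, (w x : ℝ)

theorem mstep_mem {w : X → ℚ} {Ω : Finset X} (hpos : ∀ x ∈ Ω, 0 < w x) (hzero : ∀ x ∉ Ω, w x = 0)
    (prop : List Bool → X) (B b : ℕ) {x : X} (hx : x ∈ Ω) (u : List Bool) :
    mstep w prop B b x u ∈ Ω := by
  unfold mstep
  split_ifs with h
  · by_contra hy
    have h2 := h.2
    rw [hzero _ hy, mul_zero] at h2
    exact absurd h2 (not_lt.2 (mul_nonneg (Nat.cast_nonneg _) (hpos x hx).le))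
  · exact hx

/-- The acceptance test with `b` random bits accepts with the ideal probability up to `2⁻ᵇ`. -/
theorem Ex_accept {w : X → ℚ} {Ω : Finset X} (hpos : ∀ x ∈ Ω, 0 < w x) (hzero : ∀ x ∉ Ω, w x = 0)
    (b : ℕ) {x : X} (hx : x ∈ Ω) (y : X) :
    |Ex b (fun r => ind ((toNat r : ℚ) * w x < 2 ^ b * w y)) - acc w x y| ≤ 1 / 2 ^ b := by
  have hwx : (0 : ℝ) < w x := by exact_mod_cast hpos x hx
  have hwy := wt_nonneg hpos hzero y
  have hN : (0 : ℝ) < 2 ^ b := by positivity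
  have ht : (0 : ℝ) ≤ 2 ^ b * w y / w x := by positivity
  have e : Ex b (fun r => ind ((toNat r : ℚ) * w x < 2 ^ b * w y)) =
      (∑ i ∈ range (2 ^ b), ind ((i : ℝ) < 2 ^ b * w y / w x)) / 2 ^ b := by
    rw [← Ex_toNat b fun i => ind ((i : ℝ) < 2 ^ b * w y / w x)]
    refine Ex_congr fun u _ => ?_
    congr 1
    rw [lt_div_iff₀ hwx]
    exact propext (by exact_mod_cast Iff.rfl)
  have ha : acc w x y = min ((2 ^ b : ℕ) : ℝ) (2 ^ b * w y / w x) / 2 ^ b := by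
    unfold acc cnd
    rw [← min_div_div_right hwx.le, ← min_div_div_right hN.le]
    congr 1
    · push_cast; field_simp
    · field_simp
  obtain ⟨h1, h2⟩ := sum_ind_lt (2 ^ b) ht
  rw [e, ha, ← sub_div, abs_div, abs_of_pos hN]
  refine div_le_div_of_nonneg_right ?_ hN.le
  rw [abs_le]; constructor <;> linarith

/-- The implemented step is within `2⁻ᵇ` of the ideal one. -/
theorem Kop_sub_Pop {w : X → ℚ} {Ω : Finset X} (hpos : ∀ x ∈ Ω, 0 < w x)
    (hzero : ∀ x ∉ Ω, w x = 0) (prop : List Bool → X) (B b : ℕ) {F : X → ℝ}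
    (hF : ∀ x, 0 ≤ F x ∧ F x ≤ 1) {x : X} (hx : x ∈ Ω) :
    |Kop (mstep w prop B b) (1 + B + b) F x - Pop w prop B F x| ≤ 1 / 2 ^ b := by
  have hN : (0 : ℝ) < 2 ^ b := by positivity
  have e1 : Kop (mstep w prop B b) (1 + B + b) F x =
      F x + (Ex B fun v => Ex b (fun r => ind ((toNat r : ℚ) * w x < 2 ^ b * w (x + prop v))) *
        (F (x + prop v) - F x)) / 2 := by
    unfold Kop
    rw [show 1 + B + b = (B + b) + 1 by ring, Ex_succ]
    have f1 : Ex (B + b) (fun u => F (mstep w prop B b x (false :: u))) = F x := by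
      simp [mstep]
    have f2 : Ex (B + b) (fun u => F (mstep w prop B b x (true :: u))) =
        F x + Ex B fun v => Ex b (fun r => ind ((toNat r : ℚ) * w x < 2 ^ b * w (x + prop v))) *
          (F (x + prop v) - F x) := by
      rw [Ex_append, ← Ex_const B (F x), ← Ex_add]
      refine Ex_congr fun v hv => ?_
      rw [Ex_const, ← Ex_mul_right, ← Ex_const b (F x), ← Ex_add]
      refine Ex_congr fun r hr => ?_
      rw [Ex_const]
      have g1 : (List.drop 1 (true :: (v ++ r))).take B = v := by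
        simp [← hv]
      have g2 : (List.drop (B + 1) (true :: (v ++ r))).take b = r := by
        simp [← hv, ← hr]
      unfold mstep
      rw [g1, g2]
      by_cases h : (toNat r : ℚ) * w x < 2 ^ b * w (x + prop v)
      · rw [ind_true h, if_pos ⟨rfl, h⟩]; ring
      · rw [ind_false h, if_neg fun h' => h h'.2]; ring
    rw [f1, f2]; ring
  rw [e1]
  unfold Pop Dop
  rw [add_sub_add_left_eq_sub, ← sub_div, ← Ex_sub, abs_div, abs_two]
  have key : |Ex B fun v =>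
      Ex b (fun r => ind ((toNat r : ℚ) * w x < 2 ^ b * w (x + prop v))) * (F (x + prop v) - F x) -
        acc w x (x + prop v) * (F (x + prop v) - F x)| ≤ 1 / 2 ^ b := by
    refine (abs_Ex_le _ _).trans ?_
    rw [← Ex_const B (1 / 2 ^ b : ℝ)]
    refine Ex_mono fun v _ => ?_
    rw [← sub_mul, abs_mul]
    have h1 := Ex_accept hpos hzero b hx (x + prop v)
    have h2 : |F (x + prop v) - F x| ≤ 1 := by
      have := hF (x + prop v); have := hF x
      rw [abs_le]; constructor <;> linarith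
    calc _ ≤ 1 / 2 ^ b * 1 := mul_le_mul h1 h2 (abs_nonneg _) (by positivity)
      _ = _ := mul_one _
  have : (0 : ℝ) ≤ 1 / 2 ^ b := by positivity
  linarith

theorem Kop_iter_sub_Pop {w : X → ℚ} {Ω : Finset X} (hpos : ∀ x ∈ Ω, 0 < w x)
    (hzero : ∀ x ∉ Ω, w x = 0) (prop : List Bool → X) (B b : ℕ) {F : X → ℝ}
    (hF : ∀ x, 0 ≤ F x ∧ F x ≤ 1) (t : ℕ) : ∀ x ∈ Ω,
    |(Kop (mstep w prop B b) (1 + B + b))^[t] F x - (Pop w prop B)^[t] F x| ≤ t / 2 ^ b := by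
  induction t with
  | zero => simp
  | succ t ih =>
    intro x hx
    rw [Function.iterate_succ_apply', Function.iterate_succ_apply']
    have h1 := Kop_sub_Pop hpos hzero prop B b
      (Kop_iter_mem (mstep w prop B b) (1 + B + b) t hF) hx
    have h2 := Pop_abs_sub_le hpos hzero prop B ih hx
    refine (abs_sub_le _ _ _).trans ((add_le_add h1 h2).trans (le_of_eq ?_))
    push_cast; ring

/-- The weak Poincaré inequality for a density bounded by `M`. -/
theorem WeakP.density {w : X → ℚ} {Ω : Finset X} (hpos : ∀ x ∈ Ω, 0 < w x)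
    (hzero : ∀ x ∉ Ω, w x = 0) {prop : List Bool → X} {B : ℕ} {K η M : ℝ}
    (hP : WeakP w Ω prop B K η) (hM : 0 < M) {g : X → ℝ} (hg : ∀ x ∈ Ω, 0 ≤ g x ∧ g x ≤ M)
    (hm : ∑ x ∈ Ω, (w x : ℝ) * g x = ∑ x ∈ Ω, (w x : ℝ)) :
    ∑ x ∈ Ω, (w x : ℝ) * (g x - 1) ^ 2 ≤
      K * MDir0 w Ω prop B g + η * M ^ 2 * ∑ x ∈ Ω, (w x : ℝ) := by
  obtain ⟨c, hc⟩ := hP (fun x => if x ∈ Ω then g x / M else 0) fun x => by
    split_ifs with hx
    · exact ⟨div_nonneg (hg x hx).1 hM.le, (div_le_one hM).2 (hg x hx).2⟩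
    · norm_num
  have hD : MDir w Ω prop B (fun x => if x ∈ Ω then g x / M else 0) =
      MDir0 w Ω prop B g / M ^ 2 := by
    unfold MDir MDir0
    rw [sum_div]
    refine sum_congr rfl fun x hx => ?_
    rw [div_eq_mul_inv (Ex B _), ← Ex_mul_right]
    refine Ex_congr fun u _ => ?_
    change cnd w x (x + prop u) * _ = _
    by_cases hy : x + prop u ∈ Ω
    · simp only [if_pos hx, if_pos hy]; field_simp
    · simp [cnd_eq_zero_right hpos hzero x hy]
  have hS : ∑ x ∈ Ω, (w x : ℝ) * ((if x ∈ Ω then g x / M else 0) - c) ^ 2 =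
      (∑ x ∈ Ω, (w x : ℝ) * (g x - c * M) ^ 2) / M ^ 2 := by
    rw [sum_div]
    refine sum_congr rfl fun x hx => ?_
    rw [if_pos hx]; field_simp
  rw [hD, hS, div_le_iff₀ (by positivity)] at hc
  have hmin : ∑ x ∈ Ω, (w x : ℝ) * (g x - 1) ^ 2 ≤ ∑ x ∈ Ω, (w x : ℝ) * (g x - c * M) ^ 2 := by
    have e : ∑ x ∈ Ω, (w x : ℝ) * (g x - c * M) ^ 2 =
        ∑ x ∈ Ω, (w x : ℝ) * (g x - 1) ^ 2 +
          2 * (1 - c * M) * (∑ x ∈ Ω, (w x : ℝ) * g x - ∑ x ∈ Ω, (w x : ℝ)) +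
          (1 - c * M) ^ 2 * ∑ x ∈ Ω, (w x : ℝ) := by
      rw [← sum_sub_distrib, mul_sum, mul_sum, ← sum_add_distrib, ← sum_add_distrib]
      exact sum_congr rfl fun x _ => by ring
    have : 0 ≤ (1 - c * M) ^ 2 * ∑ x ∈ Ω, (w x : ℝ) :=
      mul_nonneg (sq_nonneg _) (sum_nonneg fun x _ => wt_nonneg hpos hzero x)
    rw [e, hm]; linarith
  refine hmin.trans (hc.trans (le_of_eq ?_))
  field_simp

theorem pow_one_sub_mul_le {ε : ℝ} (h1 : ε ≤ 1) (t : ℕ) :
    (1 - ε) ^ t * (1 + t * ε) ≤ 1 := by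
  induction t with
  | zero => simp
  | succ t ih =>
    have hp : 0 ≤ (1 - ε) ^ t := pow_nonneg (by linarith) t
    have : (1 - ε) * (1 + (t + 1 : ℕ) * ε) ≤ 1 + t * ε := by
      push_cast
      have : 0 ≤ ((t : ℝ) + 1) * ε ^ 2 := by positivity
      nlinarith
    calc (1 - ε) ^ (t + 1) * (1 + (t + 1 : ℕ) * ε)
        = (1 - ε) ^ t * ((1 - ε) * (1 + (t + 1 : ℕ) * ε)) := by ring
      _ ≤ (1 - ε) ^ t * (1 + t * ε) := mul_le_mul_of_nonneg_left this hp
      _ ≤ 1 := ih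

/-- Decay of the variance of a bounded density under the ideal chain. -/
theorem var_iter_le {w : X → ℚ} {Ω : Finset X} (hpos : ∀ x ∈ Ω, 0 < w x)
    (hzero : ∀ x ∉ Ω, w x = 0) {prop : List Bool → X} {B T : ℕ}
    (hsym : ∀ H : X → ℝ, Ex B (fun u => H (prop u)) = Ex B fun u => H (-prop u))
    {K η M : ℝ} (hK : 1 ≤ K) (hη : 0 < η) (hP : WeakP w Ω prop B K η) (hM : 1 ≤ M)
    {g : X → ℝ} (hg : ∀ x ∈ Ω, 0 ≤ g x ∧ g x ≤ M)
    (hm : ∑ x ∈ Ω, (w x : ℝ) * g x = ∑ x ∈ Ω, (w x : ℝ)) (hT : 4 * K ≤ η * T) :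
    ∑ x ∈ Ω, (w x : ℝ) * ((Pop w prop B)^[T] g x - 1) ^ 2 ≤
      2 * η * M ^ 2 * ∑ x ∈ Ω, (w x : ℝ) := by
  set Z : ℝ := ∑ x ∈ Ω, (w x : ℝ) with hZ
  have hZ0 : 0 ≤ Z := sum_nonneg fun x _ => wt_nonneg hpos hzero x
  set ε : ℝ := 1 / (4 * K) with hε
  have hε0 : 0 < ε := by positivity
  have hεK : ε * (4 * K) = 1 := by rw [hε]; field_simp
  have hε1 : ε ≤ 1 := by nlinarith
  have hmean : ∀ t, ∑ x ∈ Ω, (w x : ℝ) * (Pop w prop B)^[t] g x = Z := by
    intro t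
    have h := Pop_iter_rev hpos hzero hsym t g fun _ => 1
    rw [Function.iterate_fixed (Pop_const prop B 1)] at h
    simp only [mul_one] at h
    rw [← h, hm]
  have hU : ∀ t, ∑ x ∈ Ω, (w x : ℝ) * ((Pop w prop B)^[t] g x - 1) ^ 2 - η * M ^ 2 * Z ≤
      (1 - ε) ^ t * (M ^ 2 * Z) := by
    intro t
    induction t with
    | zero =>
      have h1 : ∑ x ∈ Ω, (w x : ℝ) * (g x - 1) ^ 2 ≤ M ^ 2 * Z := by
        rw [hZ, mul_sum]
        refine sum_le_sum fun x hx => ?_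
        rw [mul_comm (M ^ 2)]
        refine mul_le_mul_of_nonneg_left ?_ (wt_nonneg hpos hzero x)
        obtain ⟨a, b⟩ := hg x hx
        exact sq_le_sq' (by linarith) (by linarith)
      have h2 : 0 ≤ η * M ^ 2 * Z := by positivity
      simp only [Function.iterate_zero, id_eq, pow_zero, one_mul]
      linarith
    | succ t ih =>
      rw [Function.iterate_succ_apply']
      have h1 := sum_sq_Pop_le hpos hzero hsym ((Pop w prop B)^[t] g) 1
      have h2 := hP.density hpos hzero (by linarith : 0 < M)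
        (Pop_iter_mem hpos hzero prop B hg t) (hmean t)
      rw [← hZ] at h2
      set V := ∑ x ∈ Ω, (w x : ℝ) * ((Pop w prop B)^[t] g x - 1) ^ 2
      set D := MDir0 w Ω prop B ((Pop w prop B)^[t] g)
      have h3 : ε * (V - η * M ^ 2 * Z) ≤ D / 4 := by
        calc ε * (V - η * M ^ 2 * Z) ≤ ε * (K * D) :=
              mul_le_mul_of_nonneg_left (by linarith) hε0.le
          _ = ε * (4 * K) * D / 4 := by ring
          _ = D / 4 := by rw [hεK, one_mul]
      calc _ ≤ (1 - ε) * (V - η * M ^ 2 * Z) := by linarith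
        _ ≤ (1 - ε) * ((1 - ε) ^ t * (M ^ 2 * Z)) :=
            mul_le_mul_of_nonneg_left ih (by linarith)
        _ = _ := by ring
  have hρ : (1 - ε) ^ T ≤ η := by
    have h1 := pow_one_sub_mul_le hε1 T
    have hp : 0 ≤ (1 - ε) ^ T := pow_nonneg (by linarith) T
    have h2 : 1 ≤ η * (T * ε) := by
      calc (1 : ℝ) = ε * (4 * K) := hεK.symm
        _ ≤ ε * (η * T) := mul_le_mul_of_nonneg_left hT hε0.le
        _ = _ := by ring
    have h3 : 0 < T * ε := by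
      by_contra h
      have := mul_nonpos_of_nonneg_of_nonpos hη.le (not_lt.1 h)
      linarith
    refine le_of_mul_le_mul_right ?_ h3
    nlinarith
  have h := hU T
  have h4 : (1 - ε) ^ T * (M ^ 2 * Z) ≤ η * (M ^ 2 * Z) :=
    mul_le_mul_of_nonneg_right hρ (by positivity)
  linarith

/-- Convergence from a warm start. -/
theorem metro_mix {w : X → ℚ} {Ω : Finset X} (hpos : ∀ x ∈ Ω, 0 < w x) (hzero : ∀ x ∉ Ω, w x = 0)
    {prop : List Bool → X} {B b T : ℕ}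
    (hsym : ∀ H : X → ℝ, Ex B (fun u => H (prop u)) = Ex B fun u => H (-prop u))
    {K η M δ : ℝ} (hK : 1 ≤ K) (hη : 0 < η) (hP : WeakP w Ω prop B K η)
    {μ : X → ℝ} (hμ0 : ∀ x ∈ Ω, 0 ≤ μ x)
    (hμM : ∀ x ∈ Ω, μ x * ∑ y ∈ Ω, (w y : ℝ) ≤ M * w x) (hμ1 : ∑ x ∈ Ω, μ x = 1)
    (hT : 4 * K ≤ η * T) (hδ0 : 0 ≤ δ) (hδ : 2 * η * M ^ 2 ≤ δ ^ 2)
    (F : X → ℝ) (hF : ∀ x, 0 ≤ F x ∧ F x ≤ 1) :
    |∑ x ∈ Ω, μ x * (Kop (mstep w prop B b) (1 + B + b))^[T] F x -
        (∑ x ∈ Ω, (w x : ℝ) * F x) / ∑ x ∈ Ω, (w x : ℝ)| ≤ δ + T / 2 ^ b := by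
  set Z : ℝ := ∑ x ∈ Ω, (w x : ℝ) with hZ
  have hne : Ω.Nonempty := by
    rw [nonempty_iff_ne_empty]
    rintro rfl
    simp at hμ1
  have hw : ∀ x ∈ Ω, (0 : ℝ) < w x := fun x hx => by exact_mod_cast hpos x hx
  have hZ0 : 0 < Z := sum_pos hw hne
  have hM : 1 ≤ M := by
    have h := sum_le_sum hμM
    rw [← sum_mul, ← mul_sum, hμ1, ← hZ] at h
    exact le_of_mul_le_mul_right h hZ0
  have hδp : 0 < δ := by
    have : 0 < 2 * η * M ^ 2 := by positivity
    refine hδ0.lt_of_ne fun h => ?_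
    rw [← h] at hδ
    linarith
  set g : X → ℝ := fun x => μ x * Z / w x with hgdef
  have hwg : ∀ x ∈ Ω, (w x : ℝ) * g x = μ x * Z := fun x hx => by
    have := (hw x hx).ne'
    simp only [hgdef]; field_simp
  have hg : ∀ x ∈ Ω, 0 ≤ g x ∧ g x ≤ M := fun x hx =>
    ⟨div_nonneg (mul_nonneg (hμ0 x hx) hZ0.le) (hw x hx).le,
      (div_le_iff₀ (hw x hx)).2 (hμM x hx)⟩
  have hm : ∑ x ∈ Ω, (w x : ℝ) * g x = Z := by
    rw [sum_congr rfl hwg, ← sum_mul, hμ1, one_mul]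
  have hV := var_iter_le hpos hzero hsym hK hη hP hM hg hm hT
  rw [← hZ] at hV
  have hA : |∑ x ∈ Ω, μ x * (Kop (mstep w prop B b) (1 + B + b))^[T] F x -
      ∑ x ∈ Ω, μ x * (Pop w prop B)^[T] F x| ≤ T / 2 ^ b := by
    rw [← sum_sub_distrib]
    refine (abs_sum_le_sum_abs _ _).trans ?_
    calc _ ≤ ∑ x ∈ Ω, μ x * (T / 2 ^ b) := by
          refine sum_le_sum fun x hx => ?_
          rw [← mul_sub, abs_mul, abs_of_nonneg (hμ0 x hx)]
          exact mul_le_mul_of_nonneg_left (Kop_iter_sub_Pop hpos hzero prop B b hF T x hx)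
            (hμ0 x hx)
      _ = _ := by rw [← sum_mul, hμ1, one_mul]
  have hB : |∑ x ∈ Ω, μ x * (Pop w prop B)^[T] F x - (∑ x ∈ Ω, (w x : ℝ) * F x) / Z| ≤ δ := by
    have e : ∑ x ∈ Ω, μ x * (Pop w prop B)^[T] F x - (∑ x ∈ Ω, (w x : ℝ) * F x) / Z =
        (∑ x ∈ Ω, (w x : ℝ) * ((Pop w prop B)^[T] g x - 1) * F x) / Z := by
      have h := Pop_iter_rev hpos hzero hsym T g F
      have h1 : ∑ x ∈ Ω, (w x : ℝ) * g x * (Pop w prop B)^[T] F x =
          (∑ x ∈ Ω, μ x * (Pop w prop B)^[T] F x) * Z := by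
        rw [sum_mul]
        exact sum_congr rfl fun x hx => by rw [hwg x hx]; ring
      have h2 : ∑ x ∈ Ω, (w x : ℝ) * ((Pop w prop B)^[T] g x - 1) * F x =
          ∑ x ∈ Ω, (w x : ℝ) * (Pop w prop B)^[T] g x * F x - ∑ x ∈ Ω, (w x : ℝ) * F x := by
        rw [← sum_sub_distrib]
        exact sum_congr rfl fun x _ => by ring
      rw [h2, ← h, h1]
      field_simp
    rw [e, abs_div, abs_of_pos hZ0, div_le_iff₀ hZ0]
    refine (abs_sum_le_sum_abs _ _).trans ?_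
    have hpt : ∀ x ∈ Ω, |(w x : ℝ) * ((Pop w prop B)^[T] g x - 1) * F x| ≤
        (w x : ℝ) * ((Pop w prop B)^[T] g x - 1) ^ 2 / (2 * δ) + δ / 2 * w x := by
      intro x hx
      set a := (Pop w prop B)^[T] g x - 1
      have h1 : |a| ≤ a ^ 2 / (2 * δ) + δ / 2 := by
        rw [div_add' _ _ _ (by positivity), le_div_iff₀ (by positivity), ← sq_abs a]
        nlinarith [sq_nonneg (|a| - δ)]
      rw [abs_mul, abs_mul, abs_of_pos (hw x hx), abs_of_nonneg (hF x).1]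
      calc (w x : ℝ) * |a| * F x ≤ w x * |a| * 1 :=
            mul_le_mul_of_nonneg_left (hF x).2 (mul_nonneg (hw x hx).le (abs_nonneg _))
        _ ≤ w x * (a ^ 2 / (2 * δ) + δ / 2) := by
            rw [mul_one]; exact mul_le_mul_of_nonneg_left h1 (hw x hx).le
        _ = _ := by ring
    refine (sum_le_sum hpt).trans ?_
    rw [sum_add_distrib, ← sum_div, ← mul_sum, ← hZ]
    have h3 : (∑ x ∈ Ω, (w x : ℝ) * ((Pop w prop B)^[T] g x - 1) ^ 2) / (2 * δ) ≤ δ / 2 * Z := by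
      rw [div_le_iff₀ (by positivity)]
      calc _ ≤ 2 * η * M ^ 2 * Z := hV
        _ ≤ δ ^ 2 * Z := mul_le_mul_of_nonneg_right hδ hZ0.le
        _ = _ := by ring
    linarith
  exact (abs_sub_le _ _ _).trans ((add_le_add hA hB).trans (add_comm _ _).le)

end Crest.Agent.R309
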