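import Crest.Agent.R309.Tail

/-!
# Row 309: the partition function of the last stage counts the flows
-/

set_option autoImplicit false

namespace Crest.Agent.R309.Raw

open Finset

variable {R : Raw} {κ : ℕ}

theorem mem_flows_iff (x : R.E → ℤ) : x ∈ R.flows ↔
    (∀ e, (R.kd e = 1 → x e = 0) ∧ (R.kd e ≠ 1 → R.lf e ≤ x e ∧ x e ≤ R.uf e)) ∧
      R.G.dv x = R.βf := by
  simp only [flows, mem_filter, Fintype.mem_piFinset]
  refine and_congr_left fun _ => forall_congr' fun e => ?_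
  by_cases he : R.kd e = 1 <;> simp [he]

theorem cf_mem_flows (h : R.Valid κ) : R.cf ∈ R.flows :=
  (mem_flows_iff _).2 ⟨fun e => ⟨h.hub_c e, fun _ => ⟨h.l_le_c e, h.c_le_u e⟩⟩, h.dv_c⟩

namespace FinalAux

theorem flows_range (h : R.Valid κ) {x : R.E → ℤ} (hx : x ∈ R.flows) (e : R.E) :
    R.lf e ≤ x e ∧ x e ≤ R.uf e := by
  obtain ⟨h1, h2⟩ := ((mem_flows_iff x).1 hx).1 e
  by_cases he : R.kd e = 1
  · rw [h1 he, ← h.hub_c e he]
    exact ⟨h.l_le_c e, h.c_le_u e⟩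
  · exact h2 he

theorem dst_eq_zero {k a b : ℤ} (h1 : a ≤ k) (h2 : k ≤ b) : dst k a b = 0 := by
  unfold dst
  omega

theorem φ_final_in {e : R.E} (he : R.kd e ≠ 1) {k : ℤ} (h1 : R.lf e ≤ k) (h2 : k ≤ R.uf e) :
    R.φ R.Ls e k = 1 := by
  have hD : (0 : ℤ) ≤ R.Dm e := by positivity
  have hex : R.ex R.Ls e = 0 := by
    unfold ex
    rw [if_neg he]
    split_ifs <;> simp
  unfold φ
  rw [if_pos (by omega), hex, dst_eq_zero h1 h2]
  simp

theorem Wφ_in (h : R.Valid κ) {e : R.E} (he : R.kd e ≠ 1) {k : ℤ} (h1 : R.lf e ≤ k)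
    (h2 : k ≤ R.uf e) : (W h R.Ls 8).φ e k = 1 := by
  have hD : (0 : ℤ) ≤ ((8 : Fin 9) : ℕ) * R.Dm e := by positivity
  simp only [W]
  rw [if_pos (by omega), φ_final_in he h1 h2]
  simp

theorem Wφ_flow (h : R.Valid κ) {x : R.E → ℤ} (hx : x ∈ R.flows) (e : R.E) :
    (W h R.Ls 8).φ e (x e) = 1 := by
  obtain ⟨h1, h2⟩ := flows_range h hx e
  by_cases he : R.kd e = 1
  · have hD : (0 : ℤ) ≤ ((8 : Fin 9) : ℕ) * R.Dm e := by positivity
    simp only [W]
    rw [if_pos (by omega), (((mem_flows_iff x).1 hx).1 e).1 he, ← h.hub_c e he, φ_centre h]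
    simp
  · exact Wφ_in h he h1 h2

theorem Wφ_le_one (h : R.Valid κ) (i : ℕ) (e : R.E) (k : ℤ) : (W h i 8).φ e k ≤ 1 := by
  simp only [W]
  split_ifs
  · exact_mod_cast φ_le_one h i e k
  · exact zero_le_one

theorem flows_subset_fib (h : R.Valid κ) : R.flows ⊆ fib R.G (W h R.Ls 8) R.βf := by
  intro x hx
  rw [mem_fib, Wt.mem_box]
  refine ⟨fun e => ?_, ((mem_flows_iff x).1 hx).2⟩
  have hD : (0 : ℤ) ≤ ((8 : Fin 9) : ℕ) * R.Dm e := by positivity
  have := flows_range h hx e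
  simp only [W]
  omega

theorem m_ge (h : R.Valid κ) : 1000 * κ ≤ R.m := by
  refine le_trans ?_ h.hm
  have h1 : 1 ≤ (R.nE + R.nV + 2) ^ 2 := Nat.one_le_pow _ _ (by omega)
  calc 1000 * κ = 1000 * 1 * 1 * κ := by ring
    _ ≤ _ := by gcongr; omega

theorem m_le (h : R.Valid κ) : R.m ≤ 2 ^ R.ℓ := (Nat.le_self_pow (by norm_num) _).trans h.hℓ

theorem ℓ_pos (h : R.Valid κ) : 1 ≤ R.ℓ := by
  have h1 := m_ge h
  have h2 := m_le h
  have h3 := h.one_le
  by_contra h4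
  have : R.ℓ = 0 := by omega
  rw [this] at h2
  omega

theorem Wφ_hub (h : R.Valid κ) {e : R.E} (he : R.kd e = 1) {k : ℤ} (hk : k ≠ 0) :
    (W h R.Ls 8).φ e k ≤ (1 / 2) ^ (2 * R.ℓ) := by
  have hD : R.Dm e = 0 := by simp [Dm, he]
  have hA : R.Am e = 0 := by simp [Am, he]
  have hB : R.Bm e = R.m ^ 6 := by simp [Bm, he]
  have hex : R.ex R.Ls e = R.Ls := by simp [ex, he]
  simp only [W, hD]
  split_ifs with h1
  swap
  · positivity
  simp only [Nat.cast_zero, mul_zero, sub_zero, add_zero] at h1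
  have hk1 : k = 1 ∨ k = -1 := by
    by_cases hr : R.rt (R.G.hd e) = R.G.hd e
    · have := h.hub_root e he hr
      omega
    · have := h.hub_nonroot e he hr
      omega
  have hd : dst k (R.cf e - R.Am e) (R.cf e + R.Am e) = 1 := by
    rw [hA, h.hub_c e he]
    unfold dst
    omega
  unfold φ
  rw [if_pos (by rw [hD]; simpa using h1), hd, hB, hex, dst_eq_zero h1.1 h1.2]
  have hm : 1 ≤ R.m ^ 6 := Nat.one_le_pow _ _ (by have := m_ge h; have := h.one_le; omega)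
  have h2 := Real.one_sub_div_pow_le_exp_neg (n := R.m ^ 6) (t := 1) (by exact_mod_cast hm)
  have h3 : Real.exp (-1) ≤ 1 / 2 := by
    rw [Real.exp_neg, one_div]
    exact inv_anti₀ (by norm_num) (by linarith [Real.add_one_le_exp 1])
  have h4 : (0 : ℝ) ≤ 1 - 1 / ((R.m ^ 6 : ℕ) : ℝ) := by
    rw [sub_nonneg, div_le_one (by exact_mod_cast hm)]
    exact_mod_cast hm
  have h5 := pow_le_pow_left₀ (pow_nonneg h4 _) (h2.trans h3) (2 * R.ℓ)
  rw [← pow_mul, mul_comm] at h5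
  unfold Ls
  push_cast at h5 ⊢
  simpa using h5

theorem Z_pin_le (h : R.Valid κ) (i : ℕ) (e : R.E) (t : ℤ) :
    Z R.G ((W h i 8).pin e t) R.βf ≤ 2 ^ R.ℓ := by
  have h1 : ((W h i 8).pin e t).box.card ≤ (R.box 8).card := by
    rw [← show (W h i 8).box = R.box 8 from W_box h i 8]
    unfold Wt.box
    rw [Fintype.card_piFinset, Fintype.card_piFinset]
    refine prod_le_prod' fun f _ => ?_
    by_cases hf : f = e
    · subst hf
      simp only [Wt.pin, Function.update_self, Icc_self, card_singleton]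
      exact card_pos.2 (nonempty_Icc.2 ((W h i 8).le f))
    · simp [Wt.pin, hf]
  calc Z R.G ((W h i 8).pin e t) R.βf ≤ (fib R.G ((W h i 8).pin e t) R.βf).card • (1 : ℝ) := by
        refine sum_le_card_nsmul _ _ _ fun x _ => ?_
        rw [Φ_pin_eq]
        refine mul_le_one₀ (by split_ifs <;> norm_num)
          (prod_nonneg fun f _ => (W h i 8).φ_nonneg _ _) ?_
        exact prod_le_one (fun f _ => (W h i 8).φ_nonneg _ _) fun f _ => Wφ_le_one h i _ _
    _ ≤ 2 ^ R.ℓ := by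
        rw [nsmul_one]
        exact_mod_cast (card_filter_le _ _).trans (h1.trans h.hΓ)

theorem Z_pin_ge (h : R.Valid κ) {x : R.E → ℤ} (hx : x ∈ R.flows) (e : R.E) :
    1 ≤ Z R.G ((W h R.Ls 8).pin e (x e)) R.βf := by
  have h1 := (mem_fib _ _ _ _).1 (flows_subset_fib h hx)
  have h2 : x ∈ fib R.G ((W h R.Ls 8).pin e (x e)) R.βf :=
    (mem_fib _ _ _ _).2 ⟨(mem_box_pin _ _ _ _).2 ⟨rfl, fun f _ => (Wt.mem_box _ _).1 h1.1 f⟩, h1.2⟩
  refine le_trans (le_of_eq ?_) (single_le_sum (fun y _ => Wt.Φ_nonneg _ y) h2)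
  rw [Φ_pin_eq, if_pos rfl, one_mul, prod_eq_one fun f _ => Wφ_flow h hx f]

theorem le_two_mul {a b : ℝ} {j : ℕ} (hj : 1 ≤ j) (hb : 0 ≤ b) (h : a ^ j * 1 ≤ b ^ j * 2 ^ j) :
    a ≤ 2 * b := by
  rw [mul_one, ← mul_pow, mul_comm] at h
  exact le_of_pow_le_pow_left₀ (by omega) (by positivity) h

theorem room (h : R.Valid κ) {e : R.E} (he : 2 ≤ R.kd e) :
    ((R.ℓ : ℤ) + 1) * ((8 + (1600 * R.nE * κ : ℕ)) * R.Dm e) ≤ R.uf e - R.lf e := by
  refine le_trans ?_ (h.big_lo e he)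
  have h1 : (R.ℓ + 1) * (8 + 1600 * R.nE * κ) ≤ R.m := by
    refine le_trans ?_ h.hm
    have h2 := h.one_le
    have h3 : 8 + 1600 * R.nE * κ ≤ 1000 * (R.nE + R.nV + 2) ^ 2 * κ := by
      have : 4 * R.nE + 4 ≤ (R.nE + R.nV + 2) ^ 2 := by
        generalize R.nE = a
        generalize R.nV = b
        nlinarith [Nat.zero_le (a * a), Nat.zero_le (a * b), Nat.zero_le (b * b)]
      nlinarith [Nat.mul_le_mul_right κ this]
    calc (R.ℓ + 1) * (8 + 1600 * R.nE * κ) ≤ (R.ℓ + 1) * (1000 * (R.nE + R.nV + 2) ^ 2 * κ) :=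
          Nat.mul_le_mul_left _ h3
      _ = _ := by ring
  have h2 : (R.ℓ + 1) * ((8 + 1600 * R.nE * κ) * R.Dm e) ≤ R.qf e * R.m ^ 5 := by
    rw [← mul_assoc]
    refine (Nat.mul_le_mul_right _ h1).trans (le_of_eq ?_)
    simp only [Dm, if_pos he]
    ring
  exact_mod_cast h2

theorem Dm_pos (h : R.Valid κ) {e : R.E} (he : 2 ≤ R.kd e) : 0 < R.Dm e := by
  obtain ⟨j, -, hj⟩ := h.q_pow e
  have := m_ge h
  have := h.one_le
  simp only [Dm, if_pos he, hj]
  have : 0 < R.m := by omega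
  positivity

/-- Averaging: a short tail against a long plateau. -/
theorem avg {g : ℤ → ℝ} {S T : Finset ℤ} {D z : ℕ} (hD : 0 < D) (hz : 0 < z)
    (hS : S.card = z * D) (hT : T.card = 8 * D) (hg : ∀ t ∈ T, ∀ s ∈ S, g t ≤ 2 * g s) :
    ∑ t ∈ T, g t ≤ 16 / z * ∑ s ∈ S, g s := by
  have h1 : ∑ s ∈ S, ∑ t ∈ T, g t ≤ ∑ s ∈ S, ∑ _t ∈ T, 2 * g s :=
    sum_le_sum fun s hs => sum_le_sum fun t ht => hg t ht s hs
  simp only [sum_const, hS, hT, nsmul_eq_mul, ← mul_sum] at h1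
  push_cast at h1
  have hD' : (0 : ℝ) < D := by exact_mod_cast hD
  have hz' : (0 : ℝ) < z := by exact_mod_cast hz
  rw [div_mul_eq_mul_div, le_div_iff₀ hz']
  nlinarith

theorem I_ind_le (h : R.Valid κ) (e : R.E) (p : ℤ → Prop) [DecidablePred p] (T : Finset ℤ)
    (hT : ∀ k, (W h R.Ls 8).lo e ≤ k → k ≤ (W h R.Ls 8).hi e → p k → k ∈ T) :
    I R.G (W h R.Ls 8) R.βf (fun x => if p (x e) then 1 else 0) ≤
      ∑ t ∈ T, Z R.G ((W h R.Ls 8).pin e t) R.βf := by
  rw [I_pin_sum _ _ _ _ e]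
  calc _ ≤ ∑ k ∈ Icc ((W h R.Ls 8).lo e) ((W h R.Ls 8).hi e),
        if p k then Z R.G ((W h R.Ls 8).pin e k) R.βf else 0 := by
        refine sum_le_sum fun k _ => ?_
        have : I R.G ((W h R.Ls 8).pin e k) R.βf (fun x => if p (x e) then 1 else 0) =
            if p k then Z R.G ((W h R.Ls 8).pin e k) R.βf else 0 := by
          unfold I Z
          split_ifs with hp
          · exact sum_congr rfl fun x hx => by
              simp only [eq_of_mem_fib_pin hx, if_pos hp, mul_one]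
          · exact sum_eq_zero fun x hx => by
              simp only [eq_of_mem_fib_pin hx, if_neg hp, mul_zero]
        rw [this]
        refine mul_le_of_le_one_left ?_ (Wφ_le_one h _ _ _)
        split_ifs
        · exact Z_nonneg _ _ _
        · exact le_rfl
    _ ≤ _ := by
        rw [← sum_filter]
        refine sum_le_sum_of_subset_of_nonneg (fun k hk => ?_) fun _ _ _ => Z_nonneg _ _ _
        simp only [mem_filter, mem_Icc] at hk
        exact hT k hk.1.1 hk.1.2 hk.2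

theorem plateau_le (h : R.Valid κ) {e : R.E} (he : 2 ≤ R.kd e) (S : Finset ℤ)
    (hS : ∀ s ∈ S, R.lf e ≤ s ∧ s ≤ R.uf e) :
    ∑ s ∈ S, Z R.G ((W h R.Ls 8).pin e s) R.βf ≤ Z0 h R.Ls := by
  unfold Z0
  rw [Z_pin_sum _ _ _ e]
  calc _ = ∑ s ∈ S, (W h R.Ls 8).φ e s * Z R.G ((W h R.Ls 8).pin e s) R.βf :=
        sum_congr rfl fun s hs => by rw [Wφ_in h (by omega) (hS s hs).1 (hS s hs).2, one_mul]
    _ ≤ _ := by
        refine sum_le_sum_of_subset_of_nonneg (fun s hs => ?_)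
          fun _ _ _ => mul_nonneg (Wt.φ_nonneg _ _ _) (Z_nonneg _ _ _)
        have hD : (0 : ℤ) ≤ ((8 : Fin 9) : ℕ) * R.Dm e := by positivity
        have := hS s hs
        simp only [W, mem_Icc]
        omega

theorem up_le (h : R.Valid κ) {e : R.E} (he : 2 ≤ R.kd e) :
    I R.G (W h R.Ls 8) R.βf (fun x => if R.uf e < x e then 1 else 0) ≤
      16 / (1600 * R.nE * κ : ℕ) * Z0 h R.Ls := by
  have hr := room h he
  have hD := Dm_pos h he
  have hz : 0 < 1600 * R.nE * κ := by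
    have := e.pos
    have := h.one_le
    positivity
  generalize 1600 * R.nE * κ = z at hr hz
  have hℓD : (0 : ℤ) ≤ R.ℓ * ((8 + z) * R.Dm e) := by positivity
  have hzD : (0 : ℤ) ≤ z * R.Dm e := by positivity
  refine (I_ind_le h e (fun k => R.uf e < k) (Ioc (R.uf e) (R.uf e + 8 * R.Dm e))
    fun k _ h2 h3 => mem_Ioc.2 ⟨h3, h2⟩).trans ?_
  refine (avg (S := Ioc (R.uf e - z * R.Dm e) (R.uf e)) hD hz ?_ ?_ ?_).trans ?_
  · rw [Int.card_Ioc]
    zify
    rw [Int.toNat_of_nonneg (by omega)]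
    ring
  · rw [Int.card_Ioc]
    omega
  · intro t ht s hs
    rw [mem_Ioc] at ht hs
    obtain ⟨x, hx, hxe⟩ := h.wit_l e he
    have h1 := Z_pin_ge h hx e
    rw [hxe] at h1
    have h2 := pin_growth R.G h.noLoop (W h R.Ls 8) R.βf e (s := s) (D := t - s) (j := R.ℓ)
      (by omega) (by
        have : (R.ℓ : ℤ) * (t - s) ≤ R.ℓ * ((8 + z) * R.Dm e) :=
          mul_le_mul_of_nonneg_left (by nlinarith) (by positivity)
        nlinarith) one_pos h1 (Z_pin_le h _ e)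
    rw [add_sub_cancel] at h2
    exact le_two_mul (ℓ_pos h) (Z_nonneg _ _ _) h2
  · refine mul_le_mul_of_nonneg_left (plateau_le h he _ fun s hs => ?_) (by positivity)
    rw [mem_Ioc] at hs
    exact ⟨by nlinarith, hs.2⟩

theorem lo_le (h : R.Valid κ) {e : R.E} (he : 2 ≤ R.kd e) :
    I R.G (W h R.Ls 8) R.βf (fun x => if x e < R.lf e then 1 else 0) ≤
      16 / (1600 * R.nE * κ : ℕ) * Z0 h R.Ls := by
  have hr := room h he
  have hD := Dm_pos h he
  have hz : 0 < 1600 * R.nE * κ := by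
    have := e.pos
    have := h.one_le
    positivity
  generalize 1600 * R.nE * κ = z at hr hz
  have hℓD : (0 : ℤ) ≤ R.ℓ * ((8 + z) * R.Dm e) := by positivity
  have hzD : (0 : ℤ) ≤ z * R.Dm e := by positivity
  refine (I_ind_le h e (fun k => k < R.lf e) (Ico (R.lf e - 8 * R.Dm e) (R.lf e))
    fun k h2 _ h3 => mem_Ico.2 ⟨h2, h3⟩).trans ?_
  refine (avg (S := Ico (R.lf e) (R.lf e + z * R.Dm e)) hD hz ?_ ?_ ?_).trans ?_
  · rw [Int.card_Ico]
    zify
    rw [Int.toNat_of_nonneg (by omega)]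
    ring
  · rw [Int.card_Ico]
    omega
  · intro t ht s hs
    rw [mem_Ico] at ht hs
    obtain ⟨x, hx, hxe⟩ := h.wit_u e he
    have h1 := Z_pin_ge h hx e
    rw [hxe] at h1
    have h2 := pin_growth' R.G h.noLoop (W h R.Ls 8) R.βf e (s := s) (D := s - t) (j := R.ℓ)
      (by omega) (by
        have : (R.ℓ : ℤ) * (s - t) ≤ R.ℓ * ((8 + z) * R.Dm e) :=
          mul_le_mul_of_nonneg_left (by nlinarith) (by positivity)
        nlinarith) one_pos h1 (Z_pin_le h _ e)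
    rw [sub_sub_cancel] at h2
    exact le_two_mul (ℓ_pos h) (Z_nonneg _ _ _) h2
  · refine mul_le_mul_of_nonneg_left (plateau_le h he _ fun s hs => ?_) (by positivity)
    rw [mem_Ico] at hs
    exact ⟨hs.1, by nlinarith⟩

theorem pointwise (h : R.Valid κ) {x : R.E → ℤ} (hx : x ∈ fib R.G (W h R.Ls 8) R.βf) :
    (W h R.Ls 8).Φ x ≤ (if x ∈ R.flows then 1 else 0) + (1 / 2) ^ (2 * R.ℓ) +
      ∑ e ∈ univ.filter fun e => 2 ≤ R.kd e,
        ((W h R.Ls 8).Φ x * (if R.uf e < x e then 1 else 0) +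
          (W h R.Ls 8).Φ x * (if x e < R.lf e then 1 else 0)) := by
  have h0 := (W h R.Ls 8).Φ_nonneg x
  have hnn : ∀ e ∈ univ.filter fun e => 2 ≤ R.kd e,
      0 ≤ (W h R.Ls 8).Φ x * (if R.uf e < x e then 1 else 0) +
        (W h R.Ls 8).Φ x * (if x e < R.lf e then 1 else 0) := by
    intro e _
    split_ifs <;> positivity
  have hs := sum_nonneg hnn
  have hp : (0 : ℝ) ≤ (1 / 2) ^ (2 * R.ℓ) := by positivity
  by_cases hf : x ∈ R.flows
  · have : (W h R.Ls 8).Φ x ≤ 1 :=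
      prod_le_one (fun f _ => (W h R.Ls 8).φ_nonneg _ _) fun f _ => Wφ_le_one h _ _ _
    rw [if_pos hf]
    linarith
  rw [if_neg hf]
  obtain ⟨hb, hdv⟩ := (mem_fib _ _ _ _).1 hx
  rw [mem_flows_iff, not_and'] at hf
  obtain ⟨e, he⟩ := not_forall.1 (hf hdv)
  by_cases hk : R.kd e = 1
  · have h1 : x e ≠ 0 := by tauto
    have : (W h R.Ls 8).Φ x ≤ (1 / 2) ^ (2 * R.ℓ) := by
      rw [Wt.Φ, ← mul_prod_erase univ _ (mem_univ e)]
      refine (mul_le_of_le_one_right (Wt.φ_nonneg _ _ _) ?_).trans (Wφ_hub h hk h1)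
      exact prod_le_one (fun f _ => (W h R.Ls 8).φ_nonneg _ _) fun f _ => Wφ_le_one h _ _ _
    linarith
  · have h1 : ¬ (R.lf e ≤ x e ∧ x e ≤ R.uf e) := by tauto
    have h2 := (Wt.mem_box _ _).1 hb e
    have h3 : 2 ≤ R.kd e := by
      by_contra h3
      have : R.Dm e = 0 := by simp [Dm, h3]
      simp only [W, this] at h2
      omega
    have h4 := single_le_sum hnn (mem_filter.2 ⟨mem_univ e, h3⟩)
    have h5 : (W h R.Ls 8).Φ x ≤ (W h R.Ls 8).Φ x * (if R.uf e < x e then 1 else 0) +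
        (W h R.Ls 8).Φ x * (if x e < R.lf e then 1 else 0) := by
      split_ifs
      · linarith
      · linarith
      · linarith
      · omega
    linarith

end FinalAux

open FinalAux

theorem final_lower (h : R.Valid κ) : (R.flows.card : ℝ) ≤ Z0 h R.Ls := by
  calc (R.flows.card : ℝ) = ∑ x ∈ R.flows, (W h R.Ls 8).Φ x := by
        have : ∀ x ∈ R.flows, (W h R.Ls 8).Φ x = 1 :=
          fun x hx => prod_eq_one fun f _ => Wφ_flow h hx f
        rw [sum_congr rfl this]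
        simp
    _ ≤ _ := sum_le_sum_of_subset_of_nonneg (flows_subset_fib h) fun x _ _ => Wt.Φ_nonneg _ x

theorem final_upper (h : R.Valid κ) :
    Z0 h R.Ls ≤ (1 + 1 / (20 * (κ : ℝ))) * R.flows.card := by
  have hκ : (1 : ℝ) ≤ κ := by exact_mod_cast h.one_le
  have hN : (1 : ℝ) ≤ R.flows.card := by exact_mod_cast card_pos.2 ⟨_, cf_mem_flows h⟩
  have hZ : 0 ≤ Z0 h R.Ls := Z_nonneg _ _ _
  have h1 := sum_le_sum fun x hx => pointwise h (x := x) hx
  rw [sum_add_distrib, sum_add_distrib, sum_comm] at h1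
  have h2 : ∑ x ∈ fib R.G (W h R.Ls 8) R.βf, (if x ∈ R.flows then (1 : ℝ) else 0) ≤
      R.flows.card := by
    rw [sum_boole]
    exact_mod_cast card_le_card fun x hx => (mem_filter.1 hx).2
  have h3 : ∑ _x ∈ fib R.G (W h R.Ls 8) R.βf, (1 / 2 : ℝ) ^ (2 * R.ℓ) ≤ 1 / (1000 * κ) := by
    rw [sum_const, nsmul_eq_mul]
    have h4 : ((fib R.G (W h R.Ls 8) R.βf).card : ℝ) ≤ 2 ^ R.ℓ := by
      exact_mod_cast (card_filter_le _ _).trans h.hΓ
    have h5 : (1000 * κ : ℝ) ≤ 2 ^ R.ℓ := by exact_mod_cast (m_ge h).trans (m_le h)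
    calc _ ≤ 2 ^ R.ℓ * (1 / 2 : ℝ) ^ (2 * R.ℓ) := by gcongr
      _ = 1 / 2 ^ R.ℓ := by
        rw [two_mul, pow_add, ← mul_assoc, ← mul_pow]
        simp
      _ ≤ _ := by gcongr
  have h4 : ∑ e ∈ univ.filter fun e => 2 ≤ R.kd e, ∑ x ∈ fib R.G (W h R.Ls 8) R.βf,
      ((W h R.Ls 8).Φ x * (if R.uf e < x e then 1 else 0) +
        (W h R.Ls 8).Φ x * (if x e < R.lf e then 1 else 0)) ≤ 1 / (50 * κ) * Z0 h R.Ls := by
    refine (sum_le_card_nsmul _ _ (2 * (16 / (1600 * R.nE * κ : ℕ) * Z0 h R.Ls))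
      fun e he => ?_).trans ?_
    · rw [sum_add_distrib, two_mul]
      exact add_le_add (up_le h (mem_filter.1 he).2) (lo_le h (mem_filter.1 he).2)
    · rw [nsmul_eq_mul]
      have h5 : ((univ.filter fun e => 2 ≤ R.kd e).card : ℝ) ≤ R.nE := by
        exact_mod_cast (card_le_univ _).trans (by simp)
      refine (mul_le_mul_of_nonneg_right h5 (by positivity)).trans ?_
      rcases Nat.eq_zero_or_pos R.nE with h6 | h6
      · rw [h6]
        simp only [Nat.cast_zero, zero_mul]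
        positivity
      · apply le_of_eq
        have : (0 : ℝ) < R.nE := by exact_mod_cast h6
        push_cast
        field_simp
        ring
  have h5 : Z0 h R.Ls ≤ R.flows.card + 1 / (1000 * κ) + 1 / (50 * κ) * Z0 h R.Ls :=
    h1.trans (add_le_add (add_le_add h2 h3) h4)
  set a : ℝ := 1 / κ with ha
  have ha0 : 0 < a := by positivity
  have ha1 : a ≤ 1 := by rw [ha, div_le_one (by linarith)]; exact hκ
  have e1 : (1 : ℝ) / (1000 * κ) = a / 1000 := by rw [ha]; field_simp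
  have e2 : (1 : ℝ) / (50 * κ) = a / 50 := by rw [ha]; field_simp
  have e3 : (1 : ℝ) / (20 * κ) = a / 20 := by rw [ha]; field_simp
  rw [e1, e2] at h5
  rw [e3]
  have h6 : 0 < 1 - a / 50 := by linarith
  refine le_of_mul_le_mul_left ?_ h6
  nlinarith [mul_nonneg ha0.le (sub_nonneg.2 hN), mul_nonneg ha0.le (sub_nonneg.2 ha1),
    mul_nonneg (mul_nonneg ha0.le (sub_nonneg.2 ha1)) (sub_nonneg.2 hN)]

end Crest.Agent.R309.Raw
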