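import Crest.Agent.R309.Samp
import Crest.Agent.R309.Final

/-!
# Row 309: one stage of the estimator
-/

set_option autoImplicit false

namespace Crest.Agent.R309.Raw

open Finset

variable {R : Raw} {κ : ℕ}

/-- Quotient of two approximations. -/
theorem ratio_bounds {a b p q δ : ℝ} (hp : 0 < p) (hq : 0 < q) (hδ0 : 0 ≤ δ) (hδ : δ ≤ 1 / 10)
    (ha : |a - p| ≤ δ * p) (hb : |b - q| ≤ δ * q) :
    (1 - 3 * δ) * (p / q) ≤ a / b ∧ a / b ≤ (1 + 3 * δ) * (p / q) := by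
  obtain ⟨ha1, ha2⟩ := abs_le.1 ha
  obtain ⟨hb1, hb2⟩ := abs_le.1 hb
  have hb0 : 0 < b := by nlinarith
  have hpq : 0 < p * q := mul_pos hp hq
  constructor
  · rw [← mul_div_assoc, div_le_div_iff₀ hq hb0]
    have h1 : (1 - 3 * δ) * p * b ≤ (1 - 3 * δ) * p * ((1 + δ) * q) :=
      mul_le_mul_of_nonneg_left (by linarith) (by nlinarith)
    have h2 : (1 - δ) * p * q ≤ a * q := mul_le_mul_of_nonneg_right (by linarith) hq.le
    nlinarith [mul_nonneg hδ0 hpq.le, mul_nonneg (mul_nonneg hδ0 hδ0) hpq.le]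
  · rw [← mul_div_assoc, div_le_div_iff₀ hb0 hq]
    have h1 : (1 + 3 * δ) * p * ((1 - δ) * q) ≤ (1 + 3 * δ) * p * b :=
      mul_le_mul_of_nonneg_left (by linarith) (by nlinarith)
    have h2 : a * q ≤ (1 + δ) * p * q := mul_le_mul_of_nonneg_right (by linarith) hq.le
    have h3 : 0 ≤ δ * (1 - 3 * δ) * (p * q) :=
      mul_nonneg (mul_nonneg hδ0 (by linarith)) hpq.le
    nlinarith

/-- Indicator of a class. -/
noncomputable def chi (R : Raw) (U H : R.V) (x : R.E → ℤ) : ℝ :=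
  if R.G.dv x = R.βf + dl H - dl U then 1 else 0

/-- Half of the ratio of consecutive weights on the perfect class. -/
noncomputable def rho (R : Raw) (i : ℕ) (x : R.E → ℤ) : ℝ :=
  (if R.G.dv x = R.βf then (R.Φ (i + 1) x : ℝ) / R.Φ i x else 0) / 2

/-- Total weight. -/
noncomputable def tot (R : Raw) (i : ℕ) (t : Tab) : ℝ := ∑ x ∈ R.Ω, (R.w i t x : ℝ)

/-- Expectation under the target of stage `i`. -/
noncomputable def pi (R : Raw) (i : ℕ) (t : Tab) (F : (R.E → ℤ) → ℝ) : ℝ :=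
  (∑ x ∈ R.Ω, (R.w i t x : ℝ) * F x) / R.tot i t

theorem chi_mem (U H : R.V) (x : R.E → ℤ) : 0 ≤ R.chi U H x ∧ R.chi U H x ≤ 1 := by
  unfold chi; split_ifs <;> norm_num

theorem rho_mem (h : R.Valid κ) {i : ℕ} (hi : i < R.Ls) (x : R.E → ℤ) :
    0 ≤ R.rho i x ∧ R.rho i x ≤ 1 := by
  unfold rho
  split_ifs
  · have h0 : (0 : ℝ) ≤ R.Φ i x := by exact_mod_cast Φ_nonneg h i x
    have h1 : (0 : ℝ) ≤ R.Φ (i + 1) x := by exact_mod_cast Φ_nonneg h (i + 1) x
    have h2 : (R.Φ (i + 1) x : ℝ) ≤ 3 / 2 * R.Φ i x := by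
      have := (Rat.cast_le (K := ℝ)).2 (Φ_succ h hi x).1
      push_cast at this
      exact this
    refine ⟨by positivity, ?_⟩
    have : (R.Φ (i + 1) x : ℝ) / R.Φ i x ≤ 2 := div_le_of_le_mul₀ h0 (by norm_num) (by linarith)
    linarith
  · norm_num

theorem cnt_eq (xs : List (R.E → ℤ)) (U H : R.V) :
    (R.cnt xs U H : ℝ) = (xs.map (R.chi U H)).sum := by
  unfold cnt
  induction xs with
  | nil => simp
  | cons x xs ih =>
    rw [List.countP_cons, List.map_cons, List.sum_cons, Nat.cast_add, ih, add_comm]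
    unfold chi
    by_cases hx : R.G.dv x = R.βf + dl H - dl U <;> simp [hx]

theorem sum_rho_eq (xs : List (R.E → ℤ)) (i : ℕ) :
    (((xs.map fun x => if R.G.dv x = R.βf then R.Φ (i + 1) x / R.Φ i x else 0).sum : ℚ) : ℝ) =
      2 * (xs.map (R.rho i)).sum := by
  induction xs with
  | nil => simp
  | cons x xs ih =>
    rw [List.map_cons, List.sum_cons, List.map_cons, List.sum_cons, Rat.cast_add, ih, mul_add]
    unfold rho
    by_cases hx : R.G.dv x = R.βf
    · simp only [hx, if_true, Rat.cast_div]; ring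
    · simp [hx]

theorem tv_ofFn (g : R.V → R.V → ℚ) (U H : R.V) :
    R.tv (List.ofFn fun U : R.V => List.ofFn fun H : R.V => g U H) U H = g U H := by
  unfold tv
  have e : (List.ofFn fun U : R.V => List.ofFn fun H : R.V => g U H).getD U [] =
      List.ofFn fun H : R.V => g U H := by
    rw [List.getD_eq_getElem _ _ (by rw [List.length_ofFn]; exact U.2), List.getElem_ofFn]
  rw [e, List.getD_eq_getElem _ _ (by rw [List.length_ofFn]; exact H.2), List.getElem_ofFn]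

/-- Sums over a class. -/
theorem sum_class (h : R.Valid κ) (i : ℕ) (t : Tab) {U H : R.V} (hU : R.rt U = U)
    (hH : R.rt H = H) (F : (R.E → ℤ) → ℝ) :
    ∑ x ∈ R.Ω, (R.w i t x : ℝ) * (if R.G.dv x = R.βf + dl H - dl U then F x else 0) =
      (if U = H then 1 else (R.tv t U H : ℝ)) *
        ∑ x ∈ fib R.G (W h i 8) (R.βf + dl H - dl U), (R.Φ i x : ℝ) * F x := by
  classical
  have e : fib R.G (W h i 8) (R.βf + dl H - dl U) =
      R.Ω.filter fun x => R.G.dv x = R.βf + dl H - dl U := by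
    ext x
    rw [mem_fib, W_box, mem_filter, Ω, mem_filter]
    constructor
    · rintro ⟨h1, h2⟩
      exact ⟨⟨h1, U, H, hU, hH, h2⟩, h2⟩
    · rintro ⟨⟨h1, _⟩, h2⟩
      exact ⟨h1, h2⟩
  rw [e, sum_filter, mul_sum]
  refine sum_congr rfl fun x _ => ?_
  by_cases hx : R.G.dv x = R.βf + dl H - dl U
  · rw [if_pos hx, if_pos hx, w_of_class h i t hU hH hx]
    split_ifs <;> push_cast <;> ring
  · rw [if_neg hx, if_neg hx, mul_zero, mul_zero]

theorem pi_chi (h : R.Valid κ) (i : ℕ) (t : Tab) {U H : R.V} (hU : R.rt U = U)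
    (hH : R.rt H = H) :
    R.pi i t (R.chi U H) =
      (if U = H then 1 else (R.tv t U H : ℝ)) * Zc h i 8 U H / R.tot i t := by
  unfold pi chi
  rw [sum_class h i t hU hH fun _ => 1]
  congr 2
  unfold Zc Z
  exact sum_congr rfl fun x _ => by rw [W8_Φ, mul_one]

theorem pi_rho (h : R.Valid κ) (i : ℕ) (t : Tab) :
    R.pi i t (R.rho i) = Z0 h (i + 1) / 2 / R.tot i t := by
  have e : R.βf + dl R.star - dl R.star = R.βf := by simp
  have h1 := sum_class h i t h.rt_star h.rt_star fun x => (R.Φ (i + 1) x : ℝ) / R.Φ i x / 2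
  rw [e, if_pos rfl, one_mul] at h1
  unfold pi
  congr 1
  have h2 : ∀ x, R.rho i x =
      if R.G.dv x = R.βf then (R.Φ (i + 1) x : ℝ) / R.Φ i x / 2 else 0 := by
    intro x
    unfold rho
    split_ifs <;> simp
  simp only [h2]
  rw [h1, Z0, Z, sum_div]
  refine sum_congr rfl fun x hx => ?_
  have hx' : x ∈ R.box 8 := ((mem_fib _ _ _ _).1 hx).1
  have h0 : (0 : ℝ) < R.Φ i x := by exact_mod_cast Φ_pos h i hx'
  rw [W8_Φ]
  field_simp

theorem m_ge (h : R.Valid κ) :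
    1000 * ((R.ℓ : ℝ) + 1) * ((R.nV : ℝ) + 1) ^ 2 * κ ≤ R.m := by
  have h1 : (1000 * (R.ℓ + 1) * (R.nE + R.nV + 2) ^ 2 * κ : ℕ) ≤ (R.m : ℝ) := by
    exact_mod_cast h.hm
  refine le_trans ?_ h1
  push_cast
  have : (0 : ℝ) ≤ R.nE := by positivity
  have h2 : (R.nV : ℝ) + 1 ≤ R.nE + R.nV + 2 := by linarith
  gcongr

theorem m_ge' (h : R.Valid κ) : 1000 * ((R.nV : ℝ) + 1) ^ 2 ≤ R.m := by
  refine le_trans ?_ (m_ge h)
  have h1 : (1 : ℝ) ≤ κ := by exact_mod_cast h.one_le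
  have h2 : (0 : ℝ) ≤ R.ℓ := by positivity
  have h3 : (0 : ℝ) ≤ ((R.nV : ℝ) + 1) ^ 2 := by positivity
  calc _ = 1000 * 1 * ((R.nV : ℝ) + 1) ^ 2 * 1 := by ring
    _ ≤ _ := by gcongr; linarith

theorem N_ge (R : Raw) : (1 : ℝ) ≤ ((R.nV : ℝ) + 1) ^ 2 := by
  have : (0 : ℝ) ≤ R.nV := by positivity
  nlinarith

theorem m_ge_thousand (h : R.Valid κ) : (1000 : ℝ) ≤ R.m := by
  have := m_ge' h
  have := N_ge R
  linarith

/-- The empirical mean of a bounded function is close to its mean under the target. -/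
theorem draw_close (h : R.Valid κ) {ts : List Tab} {i : ℕ} (hlen : ts.length = i + 1)
    (hi : i ≤ R.Ls) (hts : ∀ j, j ≤ i → Good h j (ts.getD j [])) (F : (R.E → ℤ) → ℝ)
    (hF : ∀ x, 0 ≤ F x ∧ F x ≤ 1) :
    Pr R.Bstage (fun u => 2 / (R.m : ℝ) ^ 8 <
      |((draws (R.samp ts) R.Bsamp R.Rs u).map F).sum / R.Rs - R.pi i (ts.getD i []) F|) ≤
      1 / (R.m : ℝ) ^ 8 := by
  have hm := m_ge_thousand h
  have hm0 : (0 : ℝ) < R.m := by linarith
  have hm0' : 0 < R.m := by exact_mod_cast hm0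
  have h1 := cheb_draws (R.samp ts) F (θ := 1 / (R.m : ℝ) ^ 8) (B := R.Bsamp) (R := R.Rs)
    (n := R.Bstage) hF (by unfold Rs; positivity) le_rfl (by positivity)
  have h2 := samp_close h hlen hi hts F hF
  have h3 : 1 / (R.m : ℝ) ^ 9 ≤ 1 / (R.m : ℝ) ^ 8 := by
    apply one_div_le_one_div_of_le (by positivity)
    exact pow_le_pow_right₀ (by linarith) (by norm_num)
  refine le_trans (Pr_mono fun u _ hu => ?_) (h1.trans_eq ?_)
  · by_contra hc
    rw [not_lt] at hc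
    have := abs_sub_le (((draws (R.samp ts) R.Bsamp R.Rs u).map F).sum / R.Rs)
      (Ex R.Bsamp fun u => F (R.samp ts u)) (R.pi i (ts.getD i []) F)
    unfold pi tot at this hu
    have e : 2 / (R.m : ℝ) ^ 8 = 1 / (R.m : ℝ) ^ 8 + 1 / (R.m : ℝ) ^ 8 := by ring
    linarith
  · unfold Rs
    push_cast
    field_simp

/-- The relative accuracy of the empirical means. -/
noncomputable def del (R : Raw) : ℝ := 32 * ((R.nV : ℝ) + 1) ^ 2 / (R.m : ℝ) ^ 8

theorem del_nonneg (R : Raw) : 0 ≤ R.del := by unfold del; positivity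

theorem del_le' (h : R.Valid κ) : R.del ≤ 1 / (R.m : ℝ) ^ 7 := by
  have hm := m_ge_thousand h
  have hm' := m_ge' h
  have hN := N_ge R
  unfold del
  rw [div_le_div_iff₀ (by positivity) (by positivity)]
  calc _ = (32 * ((R.nV : ℝ) + 1) ^ 2) * (R.m : ℝ) ^ 7 := by ring
    _ ≤ R.m * (R.m : ℝ) ^ 7 := by gcongr; linarith
    _ = _ := by ring

theorem del_le (h : R.Valid κ) : R.del ≤ 1 / 10 := by
  have hm := m_ge_thousand h
  refine (del_le' h).trans (one_div_le_one_div_of_le (by norm_num) ?_)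
  calc (10 : ℝ) ≤ R.m := by linarith
    _ = (R.m : ℝ) ^ 1 := by ring
    _ ≤ _ := pow_le_pow_right₀ (by linarith) (by norm_num)

theorem rel_of_abs (h : R.Valid κ) {a p : ℝ} (hp : 1 / (16 * ((R.nV : ℝ) + 1) ^ 2) ≤ p)
    (ha : |a - p| ≤ 2 / (R.m : ℝ) ^ 8) : |a - p| ≤ R.del * p := by
  have hm := m_ge_thousand h
  have hN := N_ge R
  refine ha.trans (le_trans (le_of_eq ?_) (mul_le_mul_of_nonneg_left hp (del_nonneg R)))
  unfold del
  field_simp
  norm_num

theorem tot_pos {h : R.Valid κ} {i : ℕ} {t : Tab} (ht : Good h i t) : 0 < R.tot i t :=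
  (Z0_pos h i).trans_le (tot_bounds ht).1

theorem div_tot_ge {h : R.Valid κ} {i : ℕ} {t : Tab} (ht : Good h i t) {a : ℝ}
    (ha : Z0 h i / 4 ≤ a) : 1 / (16 * ((R.nV : ℝ) + 1) ^ 2) ≤ a / R.tot i t := by
  have hN := N_ge R
  have h1 := tot_pos ht
  have h2 : R.tot i t ≤ 4 * ((R.nV : ℝ) + 1) ^ 2 * Z0 h i := (tot_bounds ht).2
  rw [div_le_div_iff₀ (by positivity) h1]
  nlinarith

theorem Z0_succ (h : R.Valid κ) {i : ℕ} (hi : i < R.Ls) :
    Z0 h (i + 1) ≤ 3 / 2 * Z0 h i ∧ Z0 h i ≤ 3 / 2 * Z0 h (i + 1) := by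
  have := Zc_succ h hi R.star R.star
  rwa [Zc_self, Zc_self] at this

/-- The empirical frequency of the perfect class. -/
theorem star_rel {h : R.Valid κ} {i : ℕ} {t : Tab} (ht : Good h i t) {xs : List (R.E → ℤ)}
    (h0 : |(xs.map (R.chi R.star R.star)).sum / R.Rs - R.pi i t (R.chi R.star R.star)| ≤
      2 / (R.m : ℝ) ^ 8) :
    |(R.cnt xs R.star R.star : ℝ) / R.Rs - Z0 h i / R.tot i t| ≤
      R.del * (Z0 h i / R.tot i t) := by
  rw [pi_chi h i t h.rt_star h.rt_star, if_pos rfl, one_mul, Zc_self, ← cnt_eq] at h0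
  have := Z0_pos h i
  exact rel_of_abs h (div_tot_ge ht (by linarith)) h0

theorem Rs_pos (h : R.Valid κ) : (0 : ℝ) < R.Rs := by
  have hm := m_ge_thousand h
  unfold Rs
  push_cast
  positivity

/-- The new table is good. -/
theorem new_good {h : R.Valid κ} {i : ℕ} (hi : i < R.Ls) {t : Tab} (ht : Good h i t)
    {xs : List (R.E → ℤ)}
    (hc : ∀ U H, R.rt U = U → R.rt H = H →
      |(xs.map (R.chi U H)).sum / R.Rs - R.pi i t (R.chi U H)| ≤ 2 / (R.m : ℝ) ^ 8) :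
    Good h (i + 1) (List.ofFn fun U : R.V => List.ofFn fun H : R.V =>
      R.tv t U H * R.cnt xs R.star R.star / R.cnt xs U H) := by
  intro U H hU hH hne
  rw [tv_ofFn]
  have h0 := star_rel ht (hc _ _ h.rt_star h.rt_star)
  have h1 := hc U H hU hH
  rw [pi_chi h i t hU hH, if_neg hne, ← cnt_eq] at h1
  have h2 := rel_of_abs h (div_tot_ge ht (ht U H hU hH hne).1) h1
  have hT := tot_pos ht
  have hZ := Z0_pos h i
  have hZ' := Z0_pos h (i + 1)
  have hC := Zc_pos h i 8 hU hH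
  have hC' := Zc_pos h (i + 1) 8 hU hH
  have htv : (0 : ℝ) < R.tv t U H := by exact_mod_cast ht.pos hU hH hne
  have hR := Rs_pos h
  obtain ⟨h3, h4⟩ := ratio_bounds (by positivity) (by positivity) (del_nonneg R) (del_le h) h0 h2
  have e1 : (R.cnt xs R.star R.star : ℝ) / R.Rs / (R.cnt xs U H / R.Rs) =
      R.cnt xs R.star R.star / R.cnt xs U H := by
    rw [div_div_div_cancel_right₀ hR.ne']
  have e2 : Z0 h i / R.tot i t / (R.tv t U H * Zc h i 8 U H / R.tot i t) =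
      Z0 h i / (R.tv t U H * Zc h i 8 U H) := by
    rw [div_div_div_cancel_right₀ hT.ne']
  rw [e1, e2] at h3 h4
  push_cast
  rw [mul_div_assoc]
  set q : ℝ := R.cnt xs R.star R.star / R.cnt xs U H
  have hd := del_le h
  have hd0 := del_nonneg R
  obtain ⟨h5, h6⟩ := Zc_succ h hi U H
  obtain ⟨h7, h8⟩ := Z0_succ h hi
  have h9 : 7 / 10 * Z0 h i ≤ R.tv t U H * q * Zc h i 8 U H := by
    have : 7 / 10 * (Z0 h i / (R.tv t U H * Zc h i 8 U H)) ≤ q :=
      le_trans (mul_le_mul_of_nonneg_right (by linarith) (by positivity)) h3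
    rw [← mul_div_assoc, div_le_iff₀ (by positivity)] at this
    linarith
  have h10 : R.tv t U H * q * Zc h i 8 U H ≤ 13 / 10 * Z0 h i := by
    have : q ≤ 13 / 10 * (Z0 h i / (R.tv t U H * Zc h i 8 U H)) :=
      le_trans h4 (mul_le_mul_of_nonneg_right (by linarith) (by positivity))
    rw [← mul_div_assoc, le_div_iff₀ (by positivity)] at this
    linarith
  have hq : 0 ≤ R.tv t U H * q := by positivity
  have h11 := mul_le_mul_of_nonneg_left h5 hq
  have h12 := mul_le_mul_of_nonneg_left h6 hq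
  constructor <;> linarith

/-- The new factor of the estimate. -/
theorem new_ratio {h : R.Valid κ} {i : ℕ} (hi : i < R.Ls) {t : Tab} (ht : Good h i t)
    {xs : List (R.E → ℤ)}
    (h0 : |(xs.map (R.chi R.star R.star)).sum / R.Rs - R.pi i t (R.chi R.star R.star)| ≤
      2 / (R.m : ℝ) ^ 8)
    (h1 : |(xs.map (R.rho i)).sum / R.Rs - R.pi i t (R.rho i)| ≤ 2 / (R.m : ℝ) ^ 8) :
    (1 - 3 * R.del) * (Z0 h (i + 1) / Z0 h i) ≤
        2 * (xs.map (R.rho i)).sum / R.cnt xs R.star R.star ∧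
      2 * (xs.map (R.rho i)).sum / R.cnt xs R.star R.star ≤
        (1 + 3 * R.del) * (Z0 h (i + 1) / Z0 h i) := by
  have h0' := star_rel ht h0
  rw [pi_rho h] at h1
  obtain ⟨h7, h8⟩ := Z0_succ h hi
  have hT := tot_pos ht
  have hZ := Z0_pos h i
  have hZ' := Z0_pos h (i + 1)
  have hR := Rs_pos h
  have h2 := rel_of_abs h (div_tot_ge ht (by linarith)) h1
  obtain ⟨h3, h4⟩ := ratio_bounds (by positivity) (by positivity) (del_nonneg R) (del_le h) h2 h0'
  rw [div_div_div_cancel_right₀ hR.ne', div_div_div_cancel_right₀ hT.ne'] at h3 h4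
  have e : Z0 h (i + 1) / 2 / Z0 h i = Z0 h (i + 1) / Z0 h i / 2 := by ring
  rw [e] at h3 h4
  rw [mul_div_assoc]
  constructor <;> linarith

end Crest.Agent.R309.Raw
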