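import Crest.Agent.R309.Samp
import Crest.Agent.R309.Final
import Crest.Agent.R309.AnnealAux

/-!
# Row 309: analysis of the estimator
-/

set_option autoImplicit false

namespace Crest.Agent.R309.Raw

open Finset

variable {R : Raw} {κ : ℕ}

theorem est_nonneg (h : R.Valid κ) (u : List Bool) : 0 ≤ R.est u := by
  unfold est
  refine foldT_inv (step := R.stage) (fun _ s => 0 ≤ s.2) (by positivity) ?_ _ _
  intro i s v hs
  unfold stage
  refine div_nonneg (mul_nonneg hs (List.sum_nonneg ?_)) (by positivity)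
  intro a ha
  obtain ⟨x, _, rfl⟩ := List.mem_map.1 ha
  split_ifs
  · exact div_nonneg (Φ_nonneg h _ x) (Φ_nonneg h _ x)
  · exact le_rfl

/-- The invariant of the annealing. -/
def Inv (h : R.Valid κ) (i : ℕ) (s : List Tab × ℚ) : Prop :=
  s.1.length = i + 1 ∧ (∀ j, j ≤ i → Good h j (s.1.getD j [])) ∧
    (1 - 6 * i * R.del) * (R.PA / Z0 h 0 * Z0 h i) ≤ s.2 ∧
    (s.2 : ℝ) ≤ (1 + 6 * i * R.del) * (R.PA / Z0 h 0 * Z0 h i)

theorem inv_zero (h : R.Valid κ) : Inv h 0 ([R.t0], (R.PA : ℚ)) := by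
  have hZ := Z0_pos h 0
  refine ⟨rfl, fun j hj => ?_, ?_, ?_⟩
  · obtain rfl : j = 0 := by omega
    exact good_t0 h
  · simp [div_mul_cancel₀ _ hZ.ne']
  · simp [div_mul_cancel₀ _ hZ.ne']

theorem Ls_del (h : R.Valid κ) : 6 * R.Ls * R.del ≤ 1 / (20 * (κ : ℝ)) := by
  have hm := m_ge_thousand h
  have h1 := m_ge h
  have hN := N_ge R
  have hκ : (1 : ℝ) ≤ κ := by exact_mod_cast h.one_le
  have hℓ : (0 : ℝ) ≤ R.ℓ := by positivity
  have e : 6 * R.Ls * R.del = 384 * R.ℓ * ((R.nV : ℝ) + 1) ^ 2 / (R.m : ℝ) ^ 2 := by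
    unfold Ls del
    push_cast
    field_simp
    ring
  rw [e, div_le_div_iff₀ (by positivity) (by positivity)]
  have h2 : (R.ℓ : ℝ) * ((R.nV : ℝ) + 1) ^ 2 * κ * 1000 ≤ R.m := by
    refine le_trans ?_ h1
    nlinarith [mul_nonneg (by positivity : (0 : ℝ) ≤ ((R.nV : ℝ) + 1) ^ 2) (by positivity : (0 : ℝ) ≤ κ)]
  have h3 : 0 ≤ (R.ℓ : ℝ) * ((R.nV : ℝ) + 1) ^ 2 * κ := by positivity
  nlinarith

theorem Ls_del' (h : R.Valid κ) {i : ℕ} (hi : i ≤ R.Ls) : 6 * i * R.del ≤ 1 / 20 := by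
  have hκ : (1 : ℝ) ≤ κ := by exact_mod_cast h.one_le
  have h1 : (i : ℝ) ≤ R.Ls := by exact_mod_cast hi
  have h2 := del_nonneg R
  calc 6 * i * R.del ≤ 6 * R.Ls * R.del := by gcongr
    _ ≤ 1 / (20 * (κ : ℝ)) := Ls_del h
    _ ≤ 1 / 20 := one_div_le_one_div_of_le (by norm_num) (by linarith)

/-- A stage whose empirical means are accurate preserves the invariant. -/
theorem inv_step (h : R.Valid κ) {i : ℕ} (hi : i < R.Ls) {s : List Tab × ℚ} (hs : Inv h i s)
    (u : List Bool)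
    (hc : ∀ U H, R.rt U = U → R.rt H = H →
      |((draws (R.samp s.1) R.Bsamp R.Rs u).map (R.chi U H)).sum / R.Rs -
        R.pi i (s.1.getD i []) (R.chi U H)| ≤ 2 / (R.m : ℝ) ^ 8)
    (hr : |((draws (R.samp s.1) R.Bsamp R.Rs u).map (R.rho i)).sum / R.Rs -
        R.pi i (s.1.getD i []) (R.rho i)| ≤ 2 / (R.m : ℝ) ^ 8) :
    Inv h (i + 1) (R.stage s u) := by
  obtain ⟨hlen, hts, hlo, hup⟩ := hs
  have ht := hts i le_rfl
  unfold stage
  simp only [hlen, Nat.add_sub_cancel]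
  refine ⟨by simp [hlen], fun j hj => ?_, ?_⟩
  · rcases Nat.lt_or_ge j (i + 1) with hj' | hj'
    · rw [List.getD_append _ _ _ _ (by omega)]
      exact hts j (by omega)
    · obtain rfl : j = i + 1 := by omega
      rw [List.getD_append_right _ _ _ _ (by omega), hlen, Nat.sub_self, List.getD_cons_zero]
      exact new_good hi ht hc
  · obtain ⟨h1, h2⟩ := new_ratio hi ht (hc _ _ h.rt_star h.rt_star) hr
    have e : (((s.2 * ((draws (R.samp s.1) R.Bsamp R.Rs u).map fun x =>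
        if R.G.dv x = R.βf then R.Φ (i + 1) x / R.Φ i x else 0).sum /
        R.cnt (draws (R.samp s.1) R.Bsamp R.Rs u) R.star R.star : ℚ)) : ℝ) =
        s.2 * (2 * ((draws (R.samp s.1) R.Bsamp R.Rs u).map (R.rho i)).sum /
          R.cnt (draws (R.samp s.1) R.Bsamp R.Rs u) R.star R.star) := by
      rw [Rat.cast_div, Rat.cast_mul, sum_rho_eq, Rat.cast_natCast, mul_div_assoc]
    simp only [e]
    set q : ℝ := 2 * ((draws (R.samp s.1) R.Bsamp R.Rs u).map (R.rho i)).sum /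
          R.cnt (draws (R.samp s.1) R.Bsamp R.Rs u) R.star R.star
    have hZ := Z0_pos h i
    have hZ' := Z0_pos h (i + 1)
    have hZ0 := Z0_pos h 0
    have hd := del_le h
    have hd0 := del_nonneg R
    have hi' := Ls_del' h hi.le
    have hi0 : 0 ≤ 6 * i * R.del := by positivity
    have hX : 0 ≤ R.PA / Z0 h 0 * Z0 h i := by positivity
    have hX' : 0 ≤ R.PA / Z0 h 0 * Z0 h (i + 1) := by positivity
    have e2 : R.PA / Z0 h 0 * Z0 h i * (Z0 h (i + 1) / Z0 h i) = R.PA / Z0 h 0 * Z0 h (i + 1) := by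
      field_simp
    have hs0 : (0 : ℝ) ≤ s.2 := le_trans (mul_nonneg (by linarith) hX) hlo
    have hq0 : 0 ≤ q := le_trans (mul_nonneg (by linarith) (by positivity)) h1
    push_cast
    constructor
    · calc _ ≤ ((1 - 6 * i * R.del) * (1 - 3 * R.del)) * (R.PA / Z0 h 0 * Z0 h (i + 1)) :=
            mul_le_mul_of_nonneg_right (by nlinarith) hX'
        _ = (1 - 6 * i * R.del) * (R.PA / Z0 h 0 * Z0 h i) *
            ((1 - 3 * R.del) * (Z0 h (i + 1) / Z0 h i)) := by rw [← e2]; ring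
        _ ≤ _ := mul_le_mul hlo h1 (mul_nonneg (by linarith) (by positivity)) hs0
    · calc _ ≤ (1 + 6 * i * R.del) * (R.PA / Z0 h 0 * Z0 h i) *
            ((1 + 3 * R.del) * (Z0 h (i + 1) / Z0 h i)) :=
            mul_le_mul hup h2 hq0 (mul_nonneg (by linarith) hX)
        _ = ((1 + 6 * i * R.del) * (1 + 3 * R.del)) * (R.PA / Z0 h 0 * Z0 h (i + 1)) := by
            rw [← e2]; ring
        _ ≤ _ := mul_le_mul_of_nonneg_right (by nlinarith) hX'

/-- A stage preserves the invariant with high probability. -/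
theorem stage_bad (h : R.Valid κ) {i : ℕ} (hi : i < R.Ls) {s : List Tab × ℚ} (hs : Inv h i s) :
    Pr R.Bstage (fun u => ¬ Inv h (i + 1) (R.stage s u)) ≤
      (((R.nV : ℝ) + 1) ^ 2 + 1) / (R.m : ℝ) ^ 8 := by
  have hd := fun F hF => draw_close h hs.1 hi.le hs.2.1 F hF
  calc _ ≤ Pr R.Bstage (fun u =>
        (∃ p ∈ (univ : Finset (R.V × R.V)), 2 / (R.m : ℝ) ^ 8 <
          |((draws (R.samp s.1) R.Bsamp R.Rs u).map (R.chi p.1 p.2)).sum / R.Rs -
            R.pi i (s.1.getD i []) (R.chi p.1 p.2)|) ∨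
        2 / (R.m : ℝ) ^ 8 < |((draws (R.samp s.1) R.Bsamp R.Rs u).map (R.rho i)).sum / R.Rs -
            R.pi i (s.1.getD i []) (R.rho i)|) := by
        refine Pr_mono fun u _ hu => ?_
        by_contra hc
        rw [not_or, not_exists, not_lt] at hc
        refine hu (inv_step h hi hs u (fun U H _ _ => ?_) hc.2)
        have := hc.1 (U, H)
        rw [not_and, not_lt] at this
        exact this (mem_univ _)
    _ ≤ _ := by
        refine (Pr_or_le _ _ _).trans ?_
        rw [add_div]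
        refine add_le_add ((Pr_exists_le _ _ _).trans ?_) (hd _ (rho_mem h hi))
        refine (sum_le_sum fun p _ => hd _ (chi_mem p.1 p.2)).trans_eq ?_
        rw [sum_const, card_univ, Fintype.card_prod, Fintype.card_fin, nsmul_eq_mul]
        push_cast
        ring

theorem inv_final (h : R.Valid κ) {s : List Tab × ℚ} (hs : Inv h R.Ls s) :
    |(s.2 : ℝ) - R.flows.card| ≤ R.flows.card / κ := by
  obtain ⟨-, -, hlo, hup⟩ := hs
  have hκ : (1 : ℝ) ≤ κ := by exact_mod_cast h.one_le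
  have h1 := Ls_del h
  have h2 := init_upper h h.rt_star h.rt_star
  have h3 := init_lower h h.rt_star h.rt_star
  rw [Zc_self] at h2 h3
  have h4 := final_lower h
  have h5 := final_upper h
  have hZ0 := Z0_pos h 0
  have hd0 : 0 ≤ 6 * R.Ls * R.del := by have := del_nonneg R; positivity
  have e : (R.flows.card : ℝ) / κ = 20 * (1 / (20 * (κ : ℝ))) * R.flows.card := by
    field_simp
  have hη : 1 / (20 * (κ : ℝ)) ≤ 1 / 20 := one_div_le_one_div_of_le (by norm_num) (by linarith)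
  have hη0 : 0 ≤ 1 / (20 * (κ : ℝ)) := by positivity
  rw [e]
  set η : ℝ := 1 / (20 * (κ : ℝ))
  set C : ℝ := (R.flows.card : ℝ)
  have hC : 0 ≤ C := by positivity
  set a : ℝ := R.PA / Z0 h 0 with ha
  have ha0 : 0 ≤ a := by positivity
  have ha1 : 1 - η ≤ a := by
    rw [ha, le_div_iff₀ hZ0]
    have : (0 : ℝ) ≤ R.PA := by positivity
    nlinarith [mul_le_mul_of_nonneg_left h2 (by linarith : 0 ≤ 1 - η), mul_nonneg hη0 hη0]
  have ha2 : a ≤ 1 + 2 * η := by
    rw [ha, div_le_iff₀ hZ0]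
    have : (0 : ℝ) ≤ R.PA := by positivity
    nlinarith [mul_le_mul_of_nonneg_left h3 (by linarith : 0 ≤ 1 + 2 * η),
      mul_nonneg (mul_nonneg hη0 (by linarith : 0 ≤ 1 - 2 * η)) this]
  have h6 : (1 - η) * ((1 - η) * C) ≤ s.2 := by
    refine le_trans ?_ hlo
    exact mul_le_mul (by linarith) (mul_le_mul ha1 h4 hC ha0) (mul_nonneg (by linarith) hC)
      (by linarith)
  have h7 : (s.2 : ℝ) ≤ (1 + η) * ((1 + 2 * η) * ((1 + η) * C)) := by
    refine hup.trans ?_
    exact mul_le_mul (by linarith) (mul_le_mul ha2 h5 (by linarith) (by linarith))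
      (mul_nonneg ha0 (by linarith)) (by linarith)
  have h8 : (1 + η) * ((1 + 2 * η) * (1 + η)) ≤ 1 + 20 * η := by nlinarith [mul_nonneg hη0 hη0]
  have h9 : 1 - 20 * η ≤ (1 - η) * (1 - η) := by nlinarith
  have h10 := mul_le_mul_of_nonneg_right h8 hC
  have h11 := mul_le_mul_of_nonneg_right h9 hC
  rw [abs_le]
  constructor <;> linarith

theorem est_good (h : R.Valid κ) {n : ℕ} (hn : R.Btot ≤ n) :
    31 / 32 ≤ Pr n fun u => |(R.est u : ℝ) - R.flows.card| ≤ R.flows.card / κ := by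
  have h1 := Pr_foldT_bad (step := R.stage) (B := R.Bstage) (t := R.Ls) hn (Inv h) (inv_zero h)
    fun i s hi hs => stage_bad h hi hs
  rw [Pr_not] at h1
  have h2 : R.Ls * ((((R.nV : ℝ) + 1) ^ 2 + 1) / (R.m : ℝ) ^ 8) ≤ 1 / 32 := by
    have h3 := Ls_del' h le_rfl
    have hN := N_ge R
    have hm := m_ge_thousand h
    have h4 : (((R.nV : ℝ) + 1) ^ 2 + 1) / (R.m : ℝ) ^ 8 ≤ R.del := by
      unfold del
      gcongr
      linarith
    have h5 := mul_le_mul_of_nonneg_left h4 (by positivity : (0 : ℝ) ≤ R.Ls)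
    linarith
  refine le_trans (by linarith) (Pr_mono (p := fun u =>
    Inv h R.Ls (foldT R.stage R.Bstage R.Ls ([R.t0], (R.PA : ℚ)) u)) fun u _ hu => ?_)
  exact inv_final h hu

end Crest.Agent.R309.Raw
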