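import Crest.Agent.R309.K

/-!
# Row 309: the recursive coupling of two positions of the head of the worm
-/

set_option autoImplicit false

namespace Crest.Agent.R309.CA

open Finset

variable {V E : Type} [Fintype V] [DecidableEq V] [Fintype E] [DecidableEq E]

theorem sum_shift (S : Finset ℤ) (σ : ℤ) (f : ℤ → ℝ) (h : ∀ k, f k ≠ 0 → k ∈ S ∧ k + σ ∈ S) :
    ∑ k ∈ S, f k = ∑ k ∈ S, f (k - σ) := by
  rw [← finsum_eq_sum_of_support_subset f (fun k hk => (h k hk).1),
    ← finsum_eq_sum_of_support_subset (fun k => f (k - σ))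
      (fun k hk => by simpa using (h _ hk).2)]
  exact (finsum_comp_equiv (Equiv.subRight σ)).symm

omit [Fintype E] [DecidableEq E] in
theorem mem_of_φ_ne (W : Wt E) {e : E} {k : ℤ} (h : W.φ e k ≠ 0) : k ∈ Icc (W.lo e) (W.hi e) := by
  by_contra hk
  refine h (W.zero e k ?_)
  rw [mem_Icc] at hk
  omega

/-- the edge `e` joins `a` to `d`, and `σ` is its orientation -/
def Or (G : Net V E) (e : E) (a d : V) (σ : ℤ) : Prop :=
  (σ = 1 ∧ G.tl e = a ∧ G.hd e = d) ∨ (σ = -1 ∧ G.tl e = d ∧ G.hd e = a)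

omit [Fintype V] [Fintype E] [DecidableEq E] in
theorem Or.bd {G : Net V E} {e : E} {a d : V} {σ : ℤ} (h : Or G e a d σ) :
    σ • G.bd e = dl d - dl a := by
  rcases h with ⟨rfl, rfl, rfl⟩ | ⟨rfl, rfl, rfl⟩ <;> simp [Net.bd]

theorem Or.I_shift {G : Net V E} {e : E} {a d : V} {σ : ℤ} (h : Or G e a d σ) (W : Wt E)
    (β : V → ℤ) (F : (E → ℤ) → ℝ) (k : ℤ) :
    I G (W.pin e (k + σ)) (β + dl d) F = I G (W.pin e k) (β + dl a) fun x => F (x + σ • ue e) := by
  rw [← I_pin_shift, h.bd]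
  congr 1
  abel

theorem Or.Z_shift {G : Net V E} {e : E} {a d : V} {σ : ℤ} (h : Or G e a d σ) (W : Wt E)
    (β : V → ℤ) (k : ℤ) : Z G (W.pin e (k + σ)) (β + dl d) = Z G (W.pin e k) (β + dl a) := by
  rw [← I_one, h.I_shift, I_one]

theorem Or.Z_base {G : Net V E} {e : E} {a d : V} {σ : ℤ} (h : Or G e a d σ) (W : Wt E)
    (β : V → ℤ) (k : ℤ) : Z G (W.pin e (σ * k)) β = Z G (W.pin e 0) (β - k • (dl d - dl a)) := by
  rw [← Z_pin_shift G W (β - k • (dl d - dl a)) e 0 (σ * k), zero_add, mul_comm σ k, mul_smul,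
    h.bd, sub_add_cancel]

theorem Or.Dir_eq {G : Net V E} {e : E} {a d : V} {σ : ℤ} (h : Or G e a d σ) (W : Wt E)
    (γ : V → ℤ) {τ : V → ℝ} (hτ : ∀ v, 0 ≤ τ v) (F : (E → ℤ) → ℝ) :
    Dir G W γ τ F e = ∑ k ∈ Icc (W.lo e) (W.hi e),
      min (τ a * W.φ e k) (τ d * W.φ e (k + σ)) *
        I G (W.pin e k) (γ + dl a) fun x => (F (x + σ • ue e) - F x) ^ 2 := by
  rw [Dir_self G W γ hτ]
  have h' := h
  rcases h with ⟨rfl, rfl, rfl⟩ | ⟨rfl, rfl, rfl⟩
  · simp only [one_smul]
  · rw [sum_shift _ 1]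
    · refine sum_congr rfl fun k _ => ?_
      have := h'.I_shift W γ (fun x => (F (x + ue e) - F x) ^ 2) k
      rw [sub_add_cancel, min_comm, sub_eq_add_neg k 1, this]
      congr 2
      funext x
      rw [neg_smul, one_smul, neg_add_cancel_right]
      ring
    · intro k hk
      have h1 := left_ne_zero_of_mul hk
      have h2 : 0 ≤ τ (G.tl e) * W.φ e k := mul_nonneg (hτ _) (W.φ_nonneg _ _)
      have h3 : 0 ≤ τ (G.hd e) * W.φ e (k + 1) := mul_nonneg (hτ _) (W.φ_nonneg _ _)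
      constructor
      · refine mem_of_φ_ne W fun h0 => h1 ?_
        rw [h0, mul_zero]; exact min_eq_left h3
      · refine mem_of_φ_ne W fun h0 => h1 ?_
        rw [h0, mul_zero]; exact min_eq_right h2

theorem exists_edge (G : Net V E) (W : Wt E) (γ : V → ℤ) {a b : V}
    (ha : 0 < Z G W (γ + dl a)) (hb : 0 < Z G W (γ + dl b)) (hab : a ≠ b) :
    ∃ e d σ, W.lo e < W.hi e ∧ Or G e a d σ := by
  by_contra hn
  obtain ⟨x, hx⟩ := (Z_pos_iff _ _ _).1 ha
  obtain ⟨y, hy⟩ := (Z_pos_iff _ _ _).1 hb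
  rw [mem_fib] at hx hy
  have := dv_const_of_pinned G W (a := a) (fun e he => by
    refine (W.le e).eq_or_lt.resolve_right fun hlt => hn ?_
    rcases he with he | he
    · exact ⟨e, G.hd e, 1, hlt, .inl ⟨rfl, he, rfl⟩⟩
    · exact ⟨e, G.tl e, -1, hlt, .inr ⟨rfl, rfl, he⟩⟩) hx.1 hy.1
  rw [hx.2, hy.2] at this
  simp [dl, hab] at this

theorem coupling {G : Net V E} (hG : G.NoLoop) (W : Wt E) (γ : V → ℤ) {a b d : V} {e : E} {σ : ℤ}
    (h : Or G e a d σ) (ha : 0 < Z G W (γ + dl a)) (hb : 0 < Z G W (γ + dl b)) :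
    ∃ s m : ℤ → ℝ, (∀ k, 0 ≤ s k) ∧ (∀ k, 0 ≤ m k) ∧
      (∀ k, W.φ e k * Z G (W.pin e k) (γ + dl a) / Z G W (γ + dl a) = s k + m k) ∧
      ∀ k, W.φ e k * Z G (W.pin e k) (γ + dl b) / Z G W (γ + dl b) = s k + m (k - σ) := by
  have hσ : σ = 1 ∨ σ = -1 := h.imp And.left And.left
  have hσσ : σ * σ = 1 := by rcases hσ with rfl | rfl <;> norm_num
  set N : ℤ := |W.lo e| + |W.hi e| with hN
  let r : (V → ℤ) → ℤ → ℝ := fun β k => W.φ e (σ * k) * Z G (W.pin e (σ * k)) β / Z G W β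
  have hr0 : ∀ β k, 0 ≤ r β k := fun β k =>
    div_nonneg (mul_nonneg (W.φ_nonneg _ _) (Z_nonneg _ _ _)) (Z_nonneg _ _ _)
  have hlo := abs_le.1 (le_refl |W.lo e|)
  have hhi := abs_le.1 (le_refl |W.hi e|)
  have hlo' := abs_nonneg (W.lo e)
  have hhi' := abs_nonneg (W.hi e)
  have hrz : ∀ β k, k < -N ∨ N < k → r β k = 0 := fun β k hk => by
    simp only [r]
    rw [W.zero e (σ * k) (by rcases hσ with rfl | rfl <;> omega), zero_mul, zero_div]
  have hr1 : ∀ β, 0 < Z G W β → ∑ k ∈ Icc (-N) N, r β k = 1 := fun β hβ => by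
    simp only [r]
    rw [← sum_div, div_eq_one_iff_eq hβ.ne', Z_pin_sum G W β e]
    have h1 : ∑ k ∈ Icc (-N) N, W.φ e (σ * k) * Z G (W.pin e (σ * k)) β =
        ∑ k ∈ Icc (-N) N, W.φ e k * Z G (W.pin e k) β := by
      rcases hσ with rfl | rfl
      · simp only [one_mul]
      · refine sum_equiv (Equiv.neg ℤ) (fun k => ?_) fun k _ => by simp
        simp only [mem_Icc, Equiv.neg_apply]
        omega
    rw [h1]
    refine (sum_subset (fun k hk => ?_) fun k _ hk => ?_).symm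
    · rw [mem_Icc] at hk ⊢
      omega
    · by_contra hne
      exact hk (mem_of_φ_ne W (left_ne_zero_of_mul hne))
  have hdiv : ∀ {x y z w : ℝ}, x * y ≤ z * w → x / Z G W (γ + dl a) * (y / Z G W (γ + dl b)) ≤
      z / Z G W (γ + dl a) * (w / Z G W (γ + dl b)) := fun h => by
    rw [div_mul_div_comm, div_mul_div_comm]
    exact div_le_div_of_nonneg_right h (mul_pos ha hb).le
  obtain ⟨s, m, hs, hm, hp, hq⟩ := exists_coupling (lo := -N) (hi := N) (hr0 (γ + dl a))
    (hr0 (γ + dl b)) (hrz _) (hrz _) (hr1 _ ha) (hr1 _ hb)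
    (fun i j hij => by
      refine hdiv ?_
      have hK := K_multi G hG (W.pin e 0) (γ - j • (dl d - dl a)) a b d (sub_nonneg.2 hij)
      have e1 : γ - j • (dl d - dl a) + dl a = γ + dl a - j • (dl d - dl a) := by abel
      have e2 : γ - j • (dl d - dl a) + dl b = γ + dl b - j • (dl d - dl a) := by abel
      have e3 : γ - j • (dl d - dl a) + (j - i) • (dl d - dl a) + dl b =
          γ + dl b - i • (dl d - dl a) := by rw [sub_smul]; abel
      have e4 : γ - j • (dl d - dl a) + (j - i) • (dl d - dl a) + dl a =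
          γ + dl a - i • (dl d - dl a) := by rw [sub_smul]; abel
      rw [e1, e2, e3, e4, ← h.Z_base, ← h.Z_base, ← h.Z_base, ← h.Z_base] at hK
      have := mul_le_mul_of_nonneg_left hK
        (mul_nonneg (W.φ_nonneg e (σ * i)) (W.φ_nonneg e (σ * j)))
      linarith)
    (fun i j hij => by
      refine hdiv ?_
      rcases hij.eq_or_lt with rfl | hlt
      · exact le_rfl
      have hK := K_multi G hG (W.pin e 0) (γ - (i + 1) • (dl d - dl a)) d b a (sub_nonneg.2 hij)
      have e1 : γ - (i + 1) • (dl d - dl a) + dl d = γ + dl a - i • (dl d - dl a) := by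
        rw [add_smul, one_smul]; abel
      have e2 : γ - (i + 1) • (dl d - dl a) + dl b = γ + dl b - (i + 1) • (dl d - dl a) := by abel
      have e3 : γ - (i + 1) • (dl d - dl a) + (j - i) • (dl a - dl d) + dl b =
          γ + dl b - (j + 1) • (dl d - dl a) := by
        rw [← neg_sub (dl d) (dl a), smul_neg, sub_smul, add_smul, add_smul, one_smul]; abel
      have e4 : γ - (i + 1) • (dl d - dl a) + (j - i) • (dl a - dl d) + dl d =
          γ + dl a - j • (dl d - dl a) := by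
        rw [← neg_sub (dl d) (dl a), smul_neg, sub_smul, add_smul, one_smul]; abel
      rw [e1, e2, e3, e4, ← h.Z_base, ← h.Z_base, ← h.Z_base, ← h.Z_base] at hK
      have hφ : W.φ e (σ * i) * W.φ e (σ * (j + 1)) ≤ W.φ e (σ * j) * W.φ e (σ * (i + 1)) := by
        rcases hσ with rfl | rfl
        · have := W.φ_lc e (i := 1 * i) (j := 1 * (i + 1)) (k := 1 * j) (l := 1 * (j + 1))
            (by omega) (by omega) (by omega) (by omega)
          linarith
        · have := W.φ_lc e (i := -1 * (j + 1)) (j := -1 * j) (k := -1 * (i + 1)) (l := -1 * i)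
            (by omega) (by omega) (by omega) (by omega)
          linarith
      have := mul_le_mul hφ hK (mul_nonneg (Z_nonneg _ _ _) (Z_nonneg _ _ _))
        (mul_nonneg (W.φ_nonneg _ _) (W.φ_nonneg _ _))
      linarith)
  have hk : ∀ k, σ * (σ * k) = k := fun k => by rw [← mul_assoc, hσσ, one_mul]
  refine ⟨fun k => s (σ * k), fun k => m (σ * k), fun k => hs _, fun k => hm _, fun k => ?_,
    fun k => ?_⟩
  · have := hp (σ * k)
    simp only [r, hk] at this
    exact this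
  · have := hq (σ * k)
    simp only [r, hk] at this
    simp only [this, mul_sub, hσσ]

/-- weighted average -/
noncomputable def av (G : Net V E) (W : Wt E) (β : V → ℤ) (F : (E → ℤ) → ℝ) : ℝ :=
  I G W β F / Z G W β

theorem Z_mul_av (G : Net V E) (W : Wt E) (β : V → ℤ) (F : (E → ℤ) → ℝ) :
    Z G W β * av G W β F = I G W β F := by
  rcases (Z_nonneg G W β).eq_or_lt with h | h
  · have : fib G W β = ∅ := by
      rw [← not_nonempty_iff_eq_empty, ← Z_pos_iff, ← h]; exact lt_irrefl _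
    rw [← h, zero_mul, I, this, sum_empty]
  · rw [av, mul_div_cancel₀ _ h.ne']

theorem av_pin (G : Net V E) (W : Wt E) (β : V → ℤ) (F : (E → ℤ) → ℝ) (e : E) :
    av G W β F = ∑ k ∈ Icc (W.lo e) (W.hi e),
      W.φ e k * Z G (W.pin e k) β / Z G W β * av G (W.pin e k) β F := by
  rw [av, I_pin_sum G W β F e, sum_div]
  refine sum_congr rfl fun k _ => ?_
  rw [← Z_mul_av]; ring

theorem av_sub (G : Net V E) (W : Wt E) (β : V → ℤ) (F F' : (E → ℤ) → ℝ) :
    av G W β (fun x => F x - F' x) = av G W β F - av G W β F' := by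
  simp only [av, I, mul_sub, sum_sub_distrib, sub_div]

theorem decomp {G : Net V E} {W : Wt E} {γ : V → ℤ} {a b d : V} {e : E} {σ : ℤ}
    (h : Or G e a d σ) {s m : ℤ → ℝ} (hs : ∀ k, 0 ≤ s k) (hm : ∀ k, 0 ≤ m k)
    (hp : ∀ k, W.φ e k * Z G (W.pin e k) (γ + dl a) / Z G W (γ + dl a) = s k + m k)
    (hq : ∀ k, W.φ e k * Z G (W.pin e k) (γ + dl b) / Z G W (γ + dl b) = s k + m (k - σ))
    (F : (E → ℤ) → ℝ) :
    av G W (γ + dl a) F - av G W (γ + dl b) F =
      ∑ k ∈ Icc (W.lo e) (W.hi e),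
        m k * av G (W.pin e k) (γ + dl a) (fun x => F x - F (x + σ • ue e)) +
      ∑ k ∈ Icc (W.lo e) (W.hi e),
        (s k * (av G (W.pin e k) (γ + dl a) F - av G (W.pin e k) (γ + dl b) F) +
        m (k - σ) * (av G (W.pin e k) (γ + dl d) F - av G (W.pin e k) (γ + dl b) F)) := by
  have h1 : ∑ k ∈ Icc (W.lo e) (W.hi e), m k * av G (W.pin e (k + σ)) (γ + dl d) F =
      ∑ k ∈ Icc (W.lo e) (W.hi e), m (k - σ) * av G (W.pin e k) (γ + dl d) F := by
    rw [sum_shift _ σ]
    · simp only [sub_add_cancel]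
    · intro k hk
      have hk' := (hm k).lt_of_ne' (left_ne_zero_of_mul hk)
      constructor
      · refine mem_of_φ_ne W fun h0 => ?_
        have := hp k
        rw [h0, zero_mul, zero_div] at this
        linarith [hs k]
      · refine mem_of_φ_ne W fun h0 => ?_
        have := hq (k + σ)
        rw [h0, zero_mul, zero_div, add_sub_cancel_right] at this
        linarith [hs (k + σ)]
  have h2 : ∀ k, av G (W.pin e k) (γ + dl a) (fun x => F x - F (x + σ • ue e)) =
      av G (W.pin e k) (γ + dl a) F - av G (W.pin e (k + σ)) (γ + dl d) F := fun k => by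
    rw [av_sub]
    simp only [av, h.I_shift, h.Z_shift]
  rw [av_pin G W _ F e, av_pin G W (γ + dl b) F e]
  simp only [hp, hq, h2, mul_sub, add_mul, sum_add_distrib, sum_sub_distrib, h1]
  ring

end Crest.Agent.R309.CA
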