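import Crest.Agent.R309.K
import Crest.Agent.R309.CAAux

/-!
# Row 309: comparing the averages of a function over two positions of the head of the worm
-/

set_option autoImplicit false

namespace Crest.Agent.R309

open Finset

variable {V E : Type} [Fintype V] [DecidableEq V] [Fintype E] [DecidableEq E]

namespace CA

/-- the unpinned edges -/
def U (W : Wt E) : Finset E := univ.filter fun f => W.lo f < W.hi f

theorem U_pin (W : Wt E) (e : E) (k : ℤ) : U (W.pin e k) = (U W).erase e := by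
  ext f
  by_cases h : f = e
  · subst h; simp [U, Wt.pin]
  · simp [U, Wt.pin, h]

/-- the energy of an edge -/
noncomputable def T (G : Net V E) (W : Wt E) (τ : V → ℝ) (β : V → ℤ) (f : E) : ℝ :=
  Z G W (β - dl (G.tl f)) / τ (G.tl f) + Z G W (β - dl (G.hd f)) / τ (G.hd f)

theorem T_nonneg (G : Net V E) (W : Wt E) {τ : V → ℝ} (hτ : ∀ v, 0 < τ v) (β : V → ℤ) (f : E) :
    0 ≤ T G W τ β f :=
  add_nonneg (div_nonneg (Z_nonneg _ _ _) (hτ _).le) (div_nonneg (Z_nonneg _ _ _) (hτ _).le)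

theorem T_pin_sum (G : Net V E) (W : Wt E) (τ : V → ℝ) (β : V → ℤ) (f e : E) :
    T G W τ β f = ∑ k ∈ Icc (W.lo e) (W.hi e), W.φ e k * T G (W.pin e k) τ β f := by
  simp only [T, mul_add, sum_add_distrib, Z_pin_sum G W _ e, sum_div, mul_div_assoc]

theorem Or.T_shift {G : Net V E} {e : E} {a d : V} {σ : ℤ} (h : Or G e a d σ) (W : Wt E)
    (τ : V → ℝ) (β : V → ℤ) (k : ℤ) (f : E) :
    T G (W.pin e (k + σ)) τ (β + dl d) f = T G (W.pin e k) τ (β + dl a) f := by
  simp only [T, add_sub_right_comm β, h.Z_shift]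

/-- the moves of the head along the chosen edge -/
theorem move_le {G : Net V E} {W : Wt E} {γ : V → ℤ} {a b d : V} {e : E} {σ : ℤ} {τ : V → ℝ}
    (hτ : ∀ v, 0 < τ v) (h : Or G e a d σ) (ha : 0 < Z G W (γ + dl a))
    (hb : 0 < Z G W (γ + dl b)) {s m : ℤ → ℝ} (hs : ∀ k, 0 ≤ s k) (hm : ∀ k, 0 ≤ m k)
    (hp : ∀ k, W.φ e k * Z G (W.pin e k) (γ + dl a) / Z G W (γ + dl a) = s k + m k)
    (hq : ∀ k, W.φ e k * Z G (W.pin e k) (γ + dl b) / Z G W (γ + dl b) = s k + m (k - σ))
    (F : (E → ℤ) → ℝ) {α : ℝ} (hα : 0 < α) :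
    2 * ∑ k ∈ Icc (W.lo e) (W.hi e),
        m k * av G (W.pin e k) (γ + dl a) (fun x => F x - F (x + σ • ue e)) ≤
      α * (T G W τ (γ + dl a + dl b) e / (Z G W (γ + dl a) * Z G W (γ + dl b))) +
        Dir G W γ τ F e / α := by
  have hT : T G W τ (γ + dl a + dl b) e =
      Z G W (γ + dl b) / τ a + Z G W (γ + dl a + dl b - dl d) / τ d := by
    have e1 : γ + dl a + dl b - dl a = γ + dl b := by abel
    rcases h with ⟨-, h1, h2⟩ | ⟨-, h1, h2⟩
    · rw [T, h1, h2, e1]
    · rw [T, h1, h2, e1, add_comm]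
  have hT2 : T G W τ (γ + dl a + dl b) e / (Z G W (γ + dl a) * Z G W (γ + dl b)) =
      ∑ k ∈ Icc (W.lo e) (W.hi e), W.φ e k *
        (Z G (W.pin e k) (γ + dl a) / Z G W (γ + dl a) ^ 2 / τ a +
          Z G (W.pin e k) (γ + dl a + dl b - dl d) /
            (Z G W (γ + dl a) * Z G W (γ + dl b)) / τ d) := by
    simp only [mul_add, sum_add_distrib, ← mul_div_assoc, ← sum_div, ← Z_pin_sum, hT]
    field_simp
  rw [hT2, h.Dir_eq W γ fun v => (hτ v).le, mul_sum, mul_sum, sum_div, ← sum_add_distrib]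
  refine sum_le_sum fun k _ => ?_
  set A := Z G (W.pin e k) (γ + dl a) with hA
  set D := Z G (W.pin e k) (γ + dl a + dl b - dl d) with hD
  set c := min (τ a * W.φ e k) (τ d * W.φ e (k + σ)) with hc
  have hA0 : 0 ≤ A := Z_nonneg _ _ _
  have hD0 : 0 ≤ D := Z_nonneg _ _ _
  have hφ0 := W.φ_nonneg e k
  have hφ1 := W.φ_nonneg e (k + σ)
  have hτa := hτ a
  have hτd := hτ d
  have hc0 : 0 ≤ c := le_min (by positivity) (by positivity)
  have hI0 : 0 ≤ I G (W.pin e k) (γ + dl a) fun x => (F (x + σ • ue e) - F x) ^ 2 :=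
    sum_nonneg fun x _ => mul_nonneg (Wt.Φ_nonneg _ _) (sq_nonneg _)
  rcases (hm k).eq_or_lt with h0 | h0
  · rw [← h0, zero_mul, mul_zero]
    positivity
  have hD' : Z G (W.pin e (k + σ)) (γ + dl b) = D := by
    have := h.Z_shift W (γ + dl b - dl d) k
    rw [sub_add_cancel] at this
    rw [this, hD]
    congr 1
    abel
  have h1 : m k ≤ W.φ e k * A / Z G W (γ + dl a) := by rw [hp]; linarith [hs k]
  have h2 : m k ≤ W.φ e (k + σ) * D / Z G W (γ + dl b) := by
    rw [← hD', hq, add_sub_cancel_right]; linarith [hs (k + σ)]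
  have hφA : 0 < W.φ e k * A := by
    have := h0.trans_le h1
    rwa [div_pos_iff_of_pos_right ha] at this
  have hφD : 0 < W.φ e (k + σ) * D := by
    have := h0.trans_le h2
    rwa [div_pos_iff_of_pos_right hb] at this
  have hφp : 0 < W.φ e k := pos_of_mul_pos_left hφA hA0
  have hφp' : 0 < W.φ e (k + σ) := pos_of_mul_pos_left hφD hD0
  have hAp : 0 < A := pos_of_mul_pos_right hφA hφ0
  have hcp : 0 < c := lt_min (by positivity) (by positivity)
  have h3 : 2 * (m k * av G (W.pin e k) (γ + dl a) fun x => F x - F (x + σ • ue e)) ≤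
      α * (m k ^ 2 / (c * A)) +
        c * (I G (W.pin e k) (γ + dl a) fun x => (F (x + σ • ue e) - F x) ^ 2) / α := by
    have e1 : α * (m k ^ 2 / (c * A)) = ∑ x ∈ fib G (W.pin e k) (γ + dl a),
        (W.pin e k).Φ x * (α * (m k / A) ^ 2 / c) := by
      rw [← sum_mul]
      change _ = A * _
      field_simp
    rw [e1, av, ← hA, I, I, sum_div, mul_sum, mul_sum, mul_sum, sum_div, ← sum_add_distrib]
    refine sum_le_sum fun x _ => ?_
    have hΦ := (W.pin e k).Φ_nonneg x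
    set u := F (x + σ • ue e) - F x with hu
    have hu' : F x - F (x + σ • ue e) = -u := by rw [hu]; ring
    have h4 : 0 ≤ (W.pin e k).Φ x * ((α * (m k / A) + c * u) ^ 2 / (α * c)) := by positivity
    have h5 : (W.pin e k).Φ x * (α * (m k / A) ^ 2 / c) + c * ((W.pin e k).Φ x * u ^ 2) / α -
        2 * (m k * ((W.pin e k).Φ x * -u / A)) =
        (W.pin e k).Φ x * ((α * (m k / A) + c * u) ^ 2 / (α * c)) := by
      field_simp
      ring
    rw [hu']
    linarith
  refine h3.trans (add_le_add_left (mul_le_mul_of_nonneg_left ?_ hα.le) _)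
  have h6 : m k ^ 2 / (τ a * W.φ e k * A) ≤ W.φ e k * (A / Z G W (γ + dl a) ^ 2 / τ a) := by
    calc _ ≤ (W.φ e k * A / Z G W (γ + dl a)) ^ 2 / (τ a * W.φ e k * A) := by gcongr
      _ = _ := by field_simp
  have h7 : m k ^ 2 / (τ d * W.φ e (k + σ) * A) ≤
      W.φ e k * (D / (Z G W (γ + dl a) * Z G W (γ + dl b)) / τ d) := by
    calc _ ≤ (W.φ e k * A / Z G W (γ + dl a)) * (W.φ e (k + σ) * D / Z G W (γ + dl b)) /
          (τ d * W.φ e (k + σ) * A) := by rw [sq]; gcongr
      _ = _ := by field_simp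
  have h8 : 0 ≤ W.φ e k * (A / Z G W (γ + dl a) ^ 2 / τ a) := by positivity
  have h9 : 0 ≤ W.φ e k * (D / (Z G W (γ + dl a) * Z G W (γ + dl b)) / τ d) := by positivity
  rw [mul_add]
  rcases min_choice (τ a * W.φ e k) (τ d * W.φ e (k + σ)) with h' | h'
  · rw [hc, h']; linarith
  · rw [hc, h']; linarith

theorem energy (G : Net V E) (hG : G.NoLoop) (γ : V → ℤ) {τ : V → ℝ} (hτ : ∀ v, 0 < τ v)
    (F : (E → ℤ) → ℝ) (n : ℕ) : ∀ W : Wt E, W.free = n → ∀ a b : V, 0 < Z G W (γ + dl a) →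
      0 < Z G W (γ + dl b) → ∀ α : ℝ, 0 < α →
      2 * (av G W (γ + dl a) F - av G W (γ + dl b) F) ≤
        α * ((∑ f ∈ U W, T G W τ (γ + dl a + dl b) f) / (Z G W (γ + dl a) * Z G W (γ + dl b))) +
          (∑ f, Dir G W γ τ F f) / α := by
  have hτ' : ∀ v, 0 ≤ τ v := fun v => (hτ v).le
  induction n using Nat.strong_induction_on with
  | _ n ih =>
  intro W hW a b ha hb α hα
  have hDn : ∀ W' : Wt E, 0 ≤ ∑ f, Dir G W' γ τ F f := fun W' =>
    sum_nonneg fun f _ => Dir_nonneg G W' γ hτ' F f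
  have hTn : ∀ (W' : Wt E) (S : Finset E) β, 0 ≤ ∑ f ∈ S, T G W' τ β f := fun W' S β =>
    sum_nonneg fun f _ => T_nonneg G W' hτ β f
  by_cases hab : a = b
  · subst hab
    have := hDn W
    have := hTn W (U W) (γ + dl a + dl a)
    rw [sub_self, mul_zero]
    positivity
  obtain ⟨e, d, σ, he, h⟩ := exists_edge G W γ ha hb hab
  obtain ⟨s, m, hs, hm, hp, hq⟩ := coupling hG W γ h ha hb
  have hmove := move_le hτ h ha hb hs hm hp hq F hα
  -- the recursive bound for one weight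
  have hrec : ∀ k c w, 0 ≤ w → w ≤ s k + m (k - σ) → (0 < w → 0 < Z G (W.pin e k) (γ + dl c)) →
      2 * (w * (av G (W.pin e k) (γ + dl c) F - av G (W.pin e k) (γ + dl b) F)) ≤
        α / Z G W (γ + dl b) * (w / Z G (W.pin e k) (γ + dl c) *
          ∑ f ∈ (U W).erase e, T G (W.pin e k) τ (γ + dl b + dl c) f) +
        w * (Z G W (γ + dl b) / Z G (W.pin e k) (γ + dl b)) *
          ((∑ f, Dir G (W.pin e k) γ τ F f) / α) := by
    intro k c w hw0 hw hc
    rcases hw0.eq_or_lt with rfl | hw0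
    · simp
    have hD : 0 < Z G (W.pin e k) (γ + dl b) := by
      have h1 := hw0.trans_le hw
      rw [← hq, div_pos_iff_of_pos_right hb] at h1
      exact pos_of_mul_pos_right h1 (W.φ_nonneg _ _)
    have hC := hc hw0
    have := ih _ (hW ▸ free_pin_lt W he k) (W.pin e k) rfl c b hC hD
      (α * Z G (W.pin e k) (γ + dl b) / Z G W (γ + dl b)) (by positivity)
    rw [U_pin, add_right_comm γ] at this
    have := mul_le_mul_of_nonneg_left this hw0.le
    refine le_of_eq_of_le (by ring) (this.trans_eq ?_)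
    field_simp
  have hA : ∀ k, 0 < s k + m k → 0 < Z G (W.pin e k) (γ + dl a) := fun k h1 => by
    rw [← hp, div_pos_iff_of_pos_right ha] at h1
    exact pos_of_mul_pos_right h1 (W.φ_nonneg _ _)
  let R : ℤ → ℝ := fun k => ∑ f ∈ (U W).erase e, T G (W.pin e k) τ (γ + dl b + dl a) f
  have hR0 : ∀ k, 0 ≤ R k := fun k => hTn _ _ _
  have hstep : ∀ k, 2 * (s k * (av G (W.pin e k) (γ + dl a) F - av G (W.pin e k) (γ + dl b) F) +
      m (k - σ) * (av G (W.pin e k) (γ + dl d) F - av G (W.pin e k) (γ + dl b) F)) ≤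
      α / Z G W (γ + dl b) * (s k / Z G (W.pin e k) (γ + dl a) * R k +
        m (k - σ) / Z G (W.pin e (k - σ)) (γ + dl a) * R (k - σ)) +
      W.φ e k * (∑ f, Dir G (W.pin e k) γ τ F f) / α := by
    intro k
    have e1 : Z G (W.pin e k) (γ + dl d) = Z G (W.pin e (k - σ)) (γ + dl a) := by
      rw [← h.Z_shift, sub_add_cancel]
    have h1 := hrec k a (s k) (hs k) (by linarith [hm (k - σ)])
      fun h => hA k (by linarith [hm k])
    have h2 := hrec k d (m (k - σ)) (hm _) (by linarith [hs k])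
      fun h => e1 ▸ hA (k - σ) (by linarith [hs (k - σ)])
    have e2 : ∑ f ∈ (U W).erase e, T G (W.pin e k) τ (γ + dl b + dl d) f = R (k - σ) :=
      sum_congr rfl fun f _ => by rw [← h.T_shift, sub_add_cancel]
    rw [e1, e2] at h2
    have h3 : (s k + m (k - σ)) * (Z G W (γ + dl b) / Z G (W.pin e k) (γ + dl b)) ≤ W.φ e k := by
      rw [← hq]
      rcases (Z_nonneg G (W.pin e k) (γ + dl b)).eq_or_lt with h0 | h0
      · rw [← h0, div_zero, mul_zero]; exact W.φ_nonneg _ _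
      · exact le_of_eq (by field_simp)
    have h4 := mul_le_mul_of_nonneg_right h3 (div_nonneg (hDn (W.pin e k)) hα.le)
    have e3 : ∑ f ∈ (U W).erase e, T G (W.pin e k) τ (γ + dl b + dl a) f = R k := rfl
    rw [e3] at h1
    rw [mul_div_assoc]
    linarith
  have hsum := sum_le_sum fun k (_ : k ∈ Icc (W.lo e) (W.hi e)) => hstep k
  have hsh : ∑ k ∈ Icc (W.lo e) (W.hi e), m k / Z G (W.pin e k) (γ + dl a) * R k =
      ∑ k ∈ Icc (W.lo e) (W.hi e),
        m (k - σ) / Z G (W.pin e (k - σ)) (γ + dl a) * R (k - σ) := by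
    refine sum_shift _ σ _ fun k hk => ?_
    have hk' := (hm k).lt_of_ne' (fun h0 => hk (by rw [h0, zero_div, zero_mul]))
    constructor
    · refine mem_of_φ_ne W fun h0 => ?_
      have := hp k
      rw [h0, zero_mul, zero_div] at this
      linarith [hs k]
    · refine mem_of_φ_ne W fun h0 => ?_
      have := hq (k + σ)
      rw [h0, zero_mul, zero_div, add_sub_cancel_right] at this
      linarith [hs (k + σ)]
  rw [← mul_sum] at hsum
  conv_rhs at hsum =>
    rw [sum_add_distrib, ← mul_sum, sum_add_distrib, ← sum_div, ← hsh, ← sum_add_distrib]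
  have hE : ∑ k ∈ Icc (W.lo e) (W.hi e), (s k / Z G (W.pin e k) (γ + dl a) * R k +
      m k / Z G (W.pin e k) (γ + dl a) * R k) ≤
      (∑ f ∈ (U W).erase e, T G W τ (γ + dl a + dl b) f) / Z G W (γ + dl a) := by
    rw [sum_congr rfl fun f _ => T_pin_sum G W τ _ f e, sum_comm, sum_div]
    refine sum_le_sum fun k _ => ?_
    rw [← mul_sum, add_right_comm γ, ← add_mul, ← add_div, ← hp, mul_div_right_comm _ (R k)]
    refine mul_le_mul_of_nonneg_right ?_ (hR0 k)
    rcases (Z_nonneg G (W.pin e k) (γ + dl a)).eq_or_lt with h0 | h0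
    · rw [← h0, div_zero]; exact div_nonneg (W.φ_nonneg _ _) ha.le
    · exact le_of_eq (by field_simp)
  have hD : ∑ k ∈ Icc (W.lo e) (W.hi e), W.φ e k * ∑ f, Dir G (W.pin e k) γ τ F f =
      ∑ f ∈ univ.erase e, Dir G W γ τ F f := by
    rw [sum_congr rfl fun f hf => Dir_pin_sum G W γ hτ' F (ne_of_mem_erase hf), sum_comm]
    refine sum_congr rfl fun k _ => ?_
    rw [← mul_sum, sum_erase _ (Dir_pinned G (W.pin e k) γ hτ' F (by simp [Wt.pin]))]
  rw [hD] at hsum
  have hE' := mul_le_mul_of_nonneg_left hE (div_nonneg hα.le hb.le)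
  have heU : e ∈ U W := mem_filter.2 ⟨mem_univ _, he⟩
  rw [decomp h hs hm hp hq F, ← add_sum_erase _ _ heU, ← add_sum_erase _ _ (mem_univ e), add_div,
    add_div, mul_add, mul_add]
  have e4 : α / Z G W (γ + dl b) * ((∑ f ∈ (U W).erase e, T G W τ (γ + dl a + dl b) f) /
      Z G W (γ + dl a)) = α * ((∑ f ∈ (U W).erase e, T G W τ (γ + dl a + dl b) f) /
        (Z G W (γ + dl a) * Z G W (γ + dl b))) := by field_simp
  linarith

theorem abs_av_le (G : Net V E) (W : Wt E) (β : V → ℤ) {F : (E → ℤ) → ℝ} {d : ℝ} (hd : 0 ≤ d)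
    (hF : ∀ x, |F x| ≤ d) : |av G W β F| ≤ d := by
  rcases (Z_nonneg G W β).eq_or_lt with h0 | h0
  · rw [av, ← h0, div_zero, abs_zero]; exact hd
  rw [av, abs_div, abs_of_pos h0, div_le_iff₀ h0, I, Z, mul_sum]
  refine (abs_sum_le_sum_abs _ _).trans (sum_le_sum fun x _ => ?_)
  rw [abs_mul, abs_of_nonneg (W.Φ_nonneg x), mul_comm]
  exact mul_le_mul_of_nonneg_right (hF x) (W.Φ_nonneg x)

theorem lip (G : Net V E) (hG : G.NoLoop) (γ : V → ℤ) (F : (E → ℤ) → ℝ) {δ : ℝ} (hδ : 0 ≤ δ)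
    (n : ℕ) : ∀ W : Wt E, W.free ≤ n → (∀ e ∈ U W, ∀ x, |F (x + ue e) - F x| ≤ δ) →
      ∀ a b : V, 0 < Z G W (γ + dl a) → 0 < Z G W (γ + dl b) →
      av G W (γ + dl a) F - av G W (γ + dl b) F ≤ n * δ := by
  induction n with
  | zero =>
    intro W hW _ a b ha hb
    by_cases hab : a = b
    · simp [hab]
    obtain ⟨e, d, σ, he, -⟩ := exists_edge G W γ ha hb hab
    have := free_pin_lt W he 0
    omega
  | succ n ih =>
    intro W hW hF a b ha hb
    by_cases hab : a = b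
    · rw [hab, sub_self]; positivity
    obtain ⟨e, d, σ, he, h⟩ := exists_edge G W γ ha hb hab
    obtain ⟨s, m, hs, hm, hp, hq⟩ := coupling hG W γ h ha hb
    have heU : e ∈ U W := mem_filter.2 ⟨mem_univ _, he⟩
    have hone : ∀ β, 0 < Z G W β →
        ∑ k ∈ Icc (W.lo e) (W.hi e), W.φ e k * Z G (W.pin e k) β / Z G W β = 1 := fun β hβ => by
      rw [← sum_div, ← Z_pin_sum, div_self hβ.ne']
    have hA : ∀ k, 0 < s k + m k → 0 < Z G (W.pin e k) (γ + dl a) := fun k h1 => by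
      rw [← hp, div_pos_iff_of_pos_right ha] at h1
      exact pos_of_mul_pos_right h1 (W.φ_nonneg _ _)
    have hrec : ∀ k c w, 0 ≤ w → w ≤ s k + m (k - σ) → (0 < w → 0 < Z G (W.pin e k) (γ + dl c)) →
        w * (av G (W.pin e k) (γ + dl c) F - av G (W.pin e k) (γ + dl b) F) ≤ w * (n * δ) := by
      intro k c w hw0 hw hc
      rcases hw0.eq_or_lt with rfl | hw0
      · simp
      have hD : 0 < Z G (W.pin e k) (γ + dl b) := by
        have h1 := hw0.trans_le hw
        rw [← hq, div_pos_iff_of_pos_right hb] at h1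
        exact pos_of_mul_pos_right h1 (W.φ_nonneg _ _)
      refine mul_le_mul_of_nonneg_left (ih (W.pin e k) ?_ ?_ c b (hc hw0) hD) hw0.le
      · have := free_pin_lt W he k
        omega
      · intro f hf
        rw [U_pin] at hf
        exact hF f (mem_of_mem_erase hf)
    have h1 : ∑ k ∈ Icc (W.lo e) (W.hi e),
        m k * av G (W.pin e k) (γ + dl a) (fun x => F x - F (x + σ • ue e)) ≤ δ := by
      refine le_of_le_of_eq (sum_le_sum fun k _ => ?_)
        (by rw [← sum_mul, hone _ ha, one_mul] : ∑ k ∈ Icc (W.lo e) (W.hi e),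
          W.φ e k * Z G (W.pin e k) (γ + dl a) / Z G W (γ + dl a) * δ = δ)
      rw [hp]
      refine (mul_le_mul_of_nonneg_left (le_of_abs_le (abs_av_le G _ _ hδ fun x => ?_))
        (hm k)).trans (mul_le_mul_of_nonneg_right (by linarith [hs k]) hδ)
      rcases h with ⟨rfl, -⟩ | ⟨rfl, -⟩
      · rw [one_smul, abs_sub_comm]; exact hF e heU x
      · have := hF e heU (x + (-1 : ℤ) • ue e)
        rwa [neg_smul, one_smul, neg_add_cancel_right, ← one_smul ℤ (ue e), ← neg_smul] at this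
    have h2 : ∑ k ∈ Icc (W.lo e) (W.hi e),
        (s k * (av G (W.pin e k) (γ + dl a) F - av G (W.pin e k) (γ + dl b) F) +
        m (k - σ) * (av G (W.pin e k) (γ + dl d) F - av G (W.pin e k) (γ + dl b) F)) ≤ n * δ := by
      refine le_of_le_of_eq (sum_le_sum fun k _ => ?_)
        (by rw [← sum_mul, hone _ hb, one_mul] : ∑ k ∈ Icc (W.lo e) (W.hi e),
          W.φ e k * Z G (W.pin e k) (γ + dl b) / Z G W (γ + dl b) * (n * δ) = n * δ)
      have e1 : Z G (W.pin e k) (γ + dl d) = Z G (W.pin e (k - σ)) (γ + dl a) := by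
        rw [← h.Z_shift, sub_add_cancel]
      rw [hq, add_mul]
      exact add_le_add
        (hrec k a (s k) (hs k) (by linarith [hm (k - σ)]) fun h => hA k (by linarith [hm k]))
        (hrec k d (m (k - σ)) (hm _) (by linarith [hs k])
          fun h => e1 ▸ hA (k - σ) (by linarith [hs (k - σ)]))
    rw [decomp h hs hm hp hq F]
    push_cast
    linarith

end CA

/-- Energy bound. -/
theorem CA (G : Net V E) (hG : G.NoLoop) (W : Wt E) (γ : V → ℤ) {τ : V → ℝ} (hτ : ∀ v, 0 < τ v)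
    (F : (E → ℤ) → ℝ) {a b : V} (ha : 0 < Z G W (γ + dl a)) (hb : 0 < Z G W (γ + dl b)) :
    (I G W (γ + dl a) F / Z G W (γ + dl a) - I G W (γ + dl b) F / Z G W (γ + dl b)) ^ 2 ≤
      (∑ e, (Z G W (γ + dl a + dl b - dl (G.tl e)) / τ (G.tl e) +
          Z G W (γ + dl a + dl b - dl (G.hd e)) / τ (G.hd e))) /
        (Z G W (γ + dl a) * Z G W (γ + dl b)) * ∑ e, Dir G W γ τ F e := by
  set X := (∑ e, (Z G W (γ + dl a + dl b - dl (G.tl e)) / τ (G.tl e) +
          Z G W (γ + dl a + dl b - dl (G.hd e)) / τ (G.hd e))) /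
        (Z G W (γ + dl a) * Z G W (γ + dl b)) with hX
  set Y := ∑ e, Dir G W γ τ F e with hY
  have hY0 : 0 ≤ Y := sum_nonneg fun f _ => Dir_nonneg G W γ (fun v => (hτ v).le) F f
  have hXU : (∑ f ∈ CA.U W, CA.T G W τ (γ + dl a + dl b) f) /
      (Z G W (γ + dl a) * Z G W (γ + dl b)) ≤ X :=
    div_le_div_of_nonneg_right (sum_le_sum_of_subset_of_nonneg (subset_univ _)
      fun f _ _ => CA.T_nonneg G W hτ _ f) (mul_pos ha hb).le
  have hX0 : 0 ≤ X := le_trans (div_nonneg (sum_nonneg fun f _ => CA.T_nonneg G W hτ _ f)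
    (mul_pos ha hb).le) hXU
  set Δ := CA.av G W (γ + dl a) F - CA.av G W (γ + dl b) F with hΔ
  change Δ ^ 2 ≤ X * Y
  have h1 : ∀ α : ℝ, 0 < α → 2 * |Δ| ≤ α * X + Y / α := fun α hα => by
    have h2 := CA.energy G hG γ hτ F _ W rfl a b ha hb α hα
    have h3 := CA.energy G hG γ hτ F _ W rfl b a hb ha α hα
    rw [add_right_comm γ, mul_comm (Z G W (γ + dl b))] at h3
    have h4 := mul_le_mul_of_nonneg_left hXU hα.le
    rcases abs_choice Δ with h | h <;> rw [h] <;> linarith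
  have h5 : discrim X (-(2 * |Δ|)) Y ≤ 0 := discrim_le_zero fun x => by
    rcases le_or_gt x 0 with hx | hx
    · have := mul_nonneg hX0 (mul_self_nonneg x)
      have := mul_nonneg (abs_nonneg Δ) (neg_nonneg.2 hx)
      linarith
    · have h6 := mul_le_mul_of_nonneg_right (h1 x hx) hx.le
      rw [add_mul, div_mul_cancel₀ _ hx.ne'] at h6
      linarith
  rw [discrim, neg_sq, mul_pow, sq_abs] at h5
  linarith

/-- Lipschitz bound. -/
theorem CA_sup (G : Net V E) (hG : G.NoLoop) (W : Wt E) (γ : V → ℤ) (F : (E → ℤ) → ℝ) {d : ℝ}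
    (hd : 0 ≤ d) (hF : ∀ e, W.lo e < W.hi e → ∀ x, |F (x + ue e) - F x| ≤ d) {a b : V}
    (ha : 0 < Z G W (γ + dl a)) (hb : 0 < Z G W (γ + dl b)) :
    |I G W (γ + dl a) F / Z G W (γ + dl a) - I G W (γ + dl b) F / Z G W (γ + dl b)| ≤
      Fintype.card E * d := by
  have hF' : ∀ e ∈ CA.U W, ∀ x, |F (x + ue e) - F x| ≤ d := fun e he =>
    hF e (mem_filter.1 he).2
  have h1 := CA.lip G hG γ F hd _ W (free_le W) hF' a b ha hb
  have h2 := CA.lip G hG γ F hd _ W (free_le W) hF' b a hb ha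
  exact abs_sub_le_iff.2 ⟨h1, h2⟩

end Crest.Agent.R309
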