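import Crest.Agent.R309.CA

/-!
# Row 309: weak Poincaré inequality for the unit worm moves, with scales `q e`
-/

set_option autoImplicit false

namespace Crest.Agent.R309

open Finset

variable {V E : Type} [Fintype V] [DecidableEq V] [Fintype E] [DecidableEq E]

namespace PoinAux

section
variable (G : Net V E) (W : Wt E) (γ : V → ℤ)

lemma I_mono {F F' : (E → ℤ) → ℝ} (h : ∀ x, F x ≤ F' x) : I G W γ F ≤ I G W γ F' :=
  sum_le_sum fun x _ => mul_le_mul_of_nonneg_left (h x) (W.Φ_nonneg x)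

lemma I_nonneg {F : (E → ℤ) → ℝ} (h : ∀ x, 0 ≤ F x) : 0 ≤ I G W γ F :=
  sum_nonneg fun x _ => mul_nonneg (W.Φ_nonneg x) (h x)

lemma I_const (c : ℝ) : I G W γ (fun _ => c) = Z G W γ * c := (sum_mul _ _ _).symm

lemma I_sub (F F' : (E → ℤ) → ℝ) : I G W γ (fun x => F x - F' x) = I G W γ F - I G W γ F' :=
  (sum_congr rfl fun _ _ => mul_sub _ _ _).trans (sum_sub_distrib _ _)

lemma I_sq (F : (E → ℤ) → ℝ) (c : ℝ) : I G W γ (fun x => (F x - c) ^ 2) =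
    I G W γ (fun x => F x ^ 2) - 2 * c * I G W γ F + c ^ 2 * Z G W γ := by
  show ∑ x ∈ fib G W γ, W.Φ x * (F x - c) ^ 2 = ∑ x ∈ fib G W γ, W.Φ x * F x ^ 2 -
    2 * c * ∑ x ∈ fib G W γ, W.Φ x * F x + c ^ 2 * ∑ x ∈ fib G W γ, W.Φ x
  rw [mul_sum, mul_sum, ← sum_sub_distrib, ← sum_add_distrib]
  exact sum_congr rfl fun _ _ => by ring

lemma I_eq_mean (F : (E → ℤ) → ℝ) : I G W γ F = Z G W γ * (I G W γ F / Z G W γ) := by
  rcases (Z_nonneg G W γ).eq_or_lt with h | h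
  · have he : fib G W γ = ∅ := not_nonempty_iff_eq_empty.1 fun hn =>
      ((Z_pos_iff G W γ).2 hn).ne h
    rw [← h, zero_mul]
    show ∑ x ∈ fib G W γ, _ = _
    rw [he, sum_empty]
  · rw [mul_div_cancel₀ _ h.ne']

lemma I_sq_le (F : (E → ℤ) → ℝ) (c c' : ℝ) : I G W γ (fun x => (F x - c) ^ 2) ≤
    I G W γ (fun x => (F x - c') ^ 2) + Z G W γ * (I G W γ F / Z G W γ - c) ^ 2 := by
  have h := I_eq_mean G W γ F
  have h0 := Z_nonneg G W γ
  rw [I_sq, I_sq]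
  generalize I G W γ F / Z G W γ = m at h ⊢
  rw [h]
  nlinarith [mul_nonneg h0 (sq_nonneg (m - c'))]

lemma jensen (F : (E → ℤ) → ℝ) :
    Z G W γ * (I G W γ F / Z G W γ) ^ 2 ≤ I G W γ fun x => F x ^ 2 := by
  have h := I_eq_mean G W γ F
  have h1 := I_nonneg G W γ (F := fun x => (F x - I G W γ F / Z G W γ) ^ 2) fun _ => sq_nonneg _
  rw [I_sq] at h1
  generalize I G W γ F / Z G W γ = m at h h1 ⊢
  rw [h] at h1
  linarith

lemma abs_mean_le {F : (E → ℤ) → ℝ} {d : ℝ} (h : ∀ x, |F x| ≤ d) (hZ : 0 < Z G W γ) :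
    |I G W γ F / Z G W γ| ≤ d := by
  have h1 := I_mono G W γ (F' := fun _ => d) fun x => (abs_le.1 (h x)).2
  have h2 := I_mono G W γ (F := fun _ => -d) fun x => (abs_le.1 (h x)).1
  rw [I_const] at h1 h2
  rw [abs_le, le_div_iff₀ hZ, div_le_iff₀ hZ]
  constructor <;> linarith

lemma shift_I (F : (E → ℤ) → ℝ) (e : E) (k : ℤ) {γ' : V → ℤ}
    (h : γ' = γ + (dl (G.hd e) - dl (G.tl e))) :
    I G (W.pin e (k + 1)) γ' F = I G (W.pin e k) γ fun x => F (x + ue e) := by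
  have := I_pin_shift G W γ F e k 1
  rw [one_smul, one_smul] at this
  rw [h]
  exact this

lemma shift_Z (e : E) (k : ℤ) {γ' : V → ℤ} (h : γ' = γ + (dl (G.hd e) - dl (G.tl e))) :
    Z G (W.pin e (k + 1)) γ' = Z G (W.pin e k) γ := by
  have := Z_pin_shift G W γ e k 1
  rw [one_smul] at this
  rw [h]
  exact this

omit [Fintype E] in
lemma pin_pinned (e : E) (k : ℤ) : (W.pin e k).lo e = (W.pin e k).hi e :=
  (show (W.pin e k).lo e = k from Function.update_self ..).trans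
    (show (W.pin e k).hi e = k from Function.update_self ..).symm

omit [Fintype E] in
lemma lt_of_pin {e f : E} {k : ℤ} (h : (W.pin e k).lo f < (W.pin e k).hi f) : W.lo f < W.hi f := by
  by_cases hf : f = e
  · subst hf; exact absurd (pin_pinned W f k) h.ne
  · have h1 : (W.pin e k).lo f = W.lo f := Function.update_of_ne hf _ _
    have h2 : (W.pin e k).hi f = W.hi f := Function.update_of_ne hf _ _
    rwa [h1, h2] at h

omit [Fintype E] in
lemma width_pin (e f : E) (k : ℤ) :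
    (W.pin e k).hi f - (W.pin e k).lo f + 1 ≤ W.hi f - W.lo f + 1 := by
  by_cases hf : f = e
  · subst hf
    have := pin_pinned W f k
    have := W.le f
    omega
  · have h1 : (W.pin e k).lo f = W.lo f := Function.update_of_ne hf _ _
    have h2 : (W.pin e k).hi f = W.hi f := Function.update_of_ne hf _ _
    rw [h1, h2]

/-- The weighted energy of one system. -/
noncomputable def PP (τ : V → ℝ) (q : E → ℝ) (F : (E → ℤ) → ℝ) : ℝ :=
  ∑ f, q f ^ 2 * Dir G W γ τ F f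

/-- The mass of one system of defects. -/
noncomputable def RR (τ : V → ℝ) : ℝ := ∑ h, Z G W (γ - dl h) / τ h

variable {τ : V → ℝ} (hτ : ∀ v, 0 < τ v)
include hτ

lemma PP_nonneg (q : E → ℝ) (F : (E → ℤ) → ℝ) : 0 ≤ PP G W γ τ q F :=
  sum_nonneg fun f _ => mul_nonneg (sq_nonneg _) (Dir_nonneg G W γ (fun v => (hτ v).le) F f)

lemma RR_nonneg : 0 ≤ RR G W γ τ := sum_nonneg fun h _ => div_nonneg (Z_nonneg _ _ _) (hτ h).le

lemma PP_pin (q : E → ℝ) (F : (E → ℤ) → ℝ) (e : E) :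
    ∑ k ∈ Icc (W.lo e) (W.hi e), W.φ e k * PP G (W.pin e k) γ τ q F + q e ^ 2 * Dir G W γ τ F e =
      PP G W γ τ q F := by
  have h0 := fun v => (hτ v).le
  have h1 : ∀ k, W.φ e k * PP G (W.pin e k) γ τ q F =
      ∑ f ∈ univ.erase e, q f ^ 2 * (W.φ e k * Dir G (W.pin e k) γ τ F f) := fun k => by
    unfold PP
    rw [← sum_erase_add _ _ (mem_univ e), Dir_pinned G _ γ h0 F (pin_pinned W e k), mul_zero,
      add_zero, mul_sum]
    exact sum_congr rfl fun _ _ => mul_left_comm _ _ _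
  rw [sum_congr rfl fun k _ => h1 k, sum_comm]
  unfold PP
  rw [← sum_erase_add _ _ (mem_univ e)]
  congr 1
  refine sum_congr rfl fun f hf => ?_
  rw [← mul_sum, Dir_pin_sum G W γ h0 F (ne_of_mem_erase hf)]

omit hτ in
lemma RR_pin (e : E) :
    ∑ k ∈ Icc (W.lo e) (W.hi e), W.φ e k * RR G (W.pin e k) γ τ = RR G W γ τ := by
  unfold RR
  rw [sum_congr rfl fun k _ => mul_sum _ _ _, sum_comm]
  refine sum_congr rfl fun h _ => ?_
  rw [Z_pin_sum G W _ e, sum_div]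
  exact sum_congr rfl fun _ _ => (mul_div_assoc _ _ _).symm

end

lemma arith_good {m p0 p1 Z0 Z1 a b J S D M n τ : ℝ} (hm0 : 0 ≤ m) (h0 : m ≤ p0 * Z0)
    (h1 : m ≤ p1 * Z1) (hZ0 : 0 < Z0) (hZ1 : 0 < Z1) (hp1 : 0 ≤ p1) (hM : 1 ≤ M)
    (hZ : Z1 ≤ M * τ * Z0) (ha : Z0 * a ^ 2 ≤ J) (hb : b ^ 2 ≤ S / (Z0 * Z1) * D) (hD : 0 ≤ D)
    (hS : S ≤ n * (2 * (M * Z0))) :
    m * (a - b) ^ 2 ≤ 2 * M * (min (1 * p0) (τ * p1) * J) + 4 * n * M * (p1 * D) := by
  have k1 : m ≤ M * min (1 * p0) (τ * p1) * Z0 := by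
    rcases min_choice (1 * p0) (τ * p1) with h | h <;> rw [h]
    · nlinarith
    · nlinarith [mul_le_mul_of_nonneg_left hZ hp1]
  have k0 : 0 ≤ M * min (1 * p0) (τ * p1) := nonneg_of_mul_nonneg_left (hm0.trans k1) hZ0
  have k2 : m * a ^ 2 ≤ M * min (1 * p0) (τ * p1) * J :=
    (mul_le_mul_of_nonneg_right k1 (sq_nonneg a)).trans
      ((mul_assoc _ _ _).trans_le (mul_le_mul_of_nonneg_left ha k0))
  have k3 : S / (Z0 * Z1) ≤ 2 * n * M / Z1 := by
    rw [div_le_div_iff₀ (mul_pos hZ0 hZ1) hZ1]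
    nlinarith [mul_le_mul_of_nonneg_right hS hZ1.le]
  have k4 : m * b ^ 2 ≤ p1 * Z1 * (2 * n * M / Z1 * D) :=
    mul_le_mul h1 (hb.trans (mul_le_mul_of_nonneg_right k3 hD)) (sq_nonneg b) (hm0.trans h1)
  have k5 : p1 * Z1 * (2 * n * M / Z1 * D) = 2 * n * M * (p1 * D) := by field_simp
  nlinarith [mul_nonneg hm0 (sq_nonneg (a + b))]

lemma arith_bad {m p0 Z0 a b R M n q : ℝ} (h0 : m ≤ p0 * Z0) (hp0 : 0 ≤ p0) (hZ0 : 0 ≤ Z0)
    (hM : 1 ≤ M) (hR : M * Z0 ≤ R) (hq : 0 < q) (ha : |a| ≤ 1 / q) (hb : |b| ≤ n * (1 / q)) :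
    q ^ 2 * (m * (a - b) ^ 2) ≤ (n + 1) ^ 2 / M * (p0 * R) := by
  have k1 : |q * (a - b)| ≤ n + 1 := by
    rw [abs_mul, abs_of_pos hq, ← le_div_iff₀' hq]
    refine (abs_sub a b).trans ?_
    rw [add_div, div_eq_mul_one_div n]
    linarith
  have k2 : (q * (a - b)) ^ 2 ≤ (n + 1) ^ 2 := sq_le_sq' (abs_le.1 k1).1 (abs_le.1 k1).2
  have k3 : m ≤ p0 * R / M := by
    rw [le_div_iff₀ (by linarith)]
    nlinarith [mul_le_mul_of_nonneg_left hR hp0,
      mul_le_mul_of_nonneg_right h0 (show 0 ≤ M by linarith)]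
  have k4 : 0 ≤ p0 * R / M :=
    div_nonneg (mul_nonneg hp0 ((mul_nonneg (by linarith) hZ0).trans hR)) (by linarith)
  calc q ^ 2 * (m * (a - b) ^ 2) = m * (q * (a - b)) ^ 2 := by ring
    _ ≤ p0 * R / M * (n + 1) ^ 2 := mul_le_mul k3 k2 (sq_nonneg _) k4
    _ = _ := by ring

variable (G : Net V E) (hG : G.NoLoop) (W : Wt E) (γ : V → ℤ)
include hG

/-- The bound for one step along the edge `e`. -/
lemma step_le {τ : V → ℝ} (hτ : ∀ v, 0 < τ v) {q : E → ℝ} (hq : ∀ e, 0 < q e) {M : ℝ}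
    (hM : 1 ≤ M) (F : (E → ℤ) → ℝ) (hF : ∀ e x, |F (x + ue e) - F x| ≤ 1 / q e) {e : E}
    (hτ1 : τ (G.tl e) = 1) (he : ∀ f, W.lo f < W.hi f → q e ≤ q f) (k : ℤ) :
    q e ^ 2 * (min (W.φ e k * Z G (W.pin e k) γ) (W.φ e (k + 1) * Z G (W.pin e (k + 1)) γ) *
      (I G (W.pin e (k + 1)) γ F / Z G (W.pin e (k + 1)) γ -
        I G (W.pin e k) γ F / Z G (W.pin e k) γ) ^ 2) ≤
      2 * M * (q e ^ 2 * (min (τ (G.tl e) * W.φ e k) (τ (G.hd e) * W.φ e (k + 1)) *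
        I G (W.pin e k) (γ - dl (G.tl e) + dl (G.tl e)) fun x => (F (x + ue e) - F x) ^ 2)) +
      4 * Fintype.card E * M * (W.φ e (k + 1) * PP G (W.pin e (k + 1)) (γ - dl (G.tl e)) τ q F) +
      ((Fintype.card E : ℝ) + 1) ^ 2 / M * (W.φ e k * RR G (W.pin e k) (γ + dl (G.tl e)) τ) := by
  have hτ0 := fun v => (hτ v).le
  have p0 := W.φ_nonneg e k
  have p1 := W.φ_nonneg e (k + 1)
  have hM0 : 0 ≤ M := zero_le_one.trans hM
  have t1 : 0 ≤ 2 * M * (q e ^ 2 * (min (τ (G.tl e) * W.φ e k) (τ (G.hd e) * W.φ e (k + 1)) *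
      I G (W.pin e k) (γ - dl (G.tl e) + dl (G.tl e)) fun x => (F (x + ue e) - F x) ^ 2)) :=
    mul_nonneg (by linarith) (mul_nonneg (sq_nonneg _) (mul_nonneg
      (le_min (mul_nonneg (hτ0 _) p0) (mul_nonneg (hτ0 _) p1)) (I_nonneg _ _ _ fun _ => sq_nonneg _)))
  have t2 : 0 ≤ 4 * Fintype.card E * M *
      (W.φ e (k + 1) * PP G (W.pin e (k + 1)) (γ - dl (G.tl e)) τ q F) :=
    mul_nonneg (by positivity) (mul_nonneg p1 (PP_nonneg _ _ _ hτ _ _))
  have t3 : 0 ≤ ((Fintype.card E : ℝ) + 1) ^ 2 / M *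
      (W.φ e k * RR G (W.pin e k) (γ + dl (G.tl e)) τ) :=
    mul_nonneg (by positivity) (mul_nonneg p0 (RR_nonneg _ _ _ hτ))
  have m0 := le_min (mul_nonneg p0 (Z_nonneg G (W.pin e k) γ))
    (mul_nonneg p1 (Z_nonneg G (W.pin e (k + 1)) γ))
  rcases m0.eq_or_lt with hm | hm
  · rw [← hm, zero_mul, mul_zero]
    exact add_nonneg (add_nonneg t1 t2) t3
  have Z0 : 0 < Z G (W.pin e k) γ := pos_of_mul_pos_right (lt_min_iff.1 hm).1 p0
  have Z1 : 0 < Z G (W.pin e (k + 1)) γ := pos_of_mul_pos_right (lt_min_iff.1 hm).2 p1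
  have eu : γ - dl (G.tl e) + dl (G.tl e) = γ := sub_add_cancel _ _
  have ev : γ - dl (G.tl e) + dl (G.hd e) = γ + (dl (G.hd e) - dl (G.tl e)) := by abel
  have ha : 0 < Z G (W.pin e (k + 1)) (γ - dl (G.tl e) + dl (G.hd e)) := by
    rwa [shift_Z G W γ e k ev]
  have hb : 0 < Z G (W.pin e (k + 1)) (γ - dl (G.tl e) + dl (G.tl e)) := by rwa [eu]
  have es : I G (W.pin e (k + 1)) γ F / Z G (W.pin e (k + 1)) γ -
      I G (W.pin e k) γ F / Z G (W.pin e k) γ =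
      I G (W.pin e k) γ (fun x => F (x + ue e) - F x) / Z G (W.pin e k) γ -
        (I G (W.pin e k) γ (fun x => F (x + ue e)) / Z G (W.pin e k) γ -
          I G (W.pin e (k + 1)) γ F / Z G (W.pin e (k + 1)) γ) := by
    rw [I_sub]; ring
  rw [es]
  by_cases hg : ∀ h, Z G (W.pin e k) (γ + dl (G.tl e) - dl h) / τ h ≤ M * Z G (W.pin e k) γ
  · have c := CA G hG (W.pin e (k + 1)) (γ - dl (G.tl e)) hτ F ha hb
    have ez : ∀ h, Z G (W.pin e (k + 1)) (γ - dl (G.tl e) + dl (G.hd e) + dl (G.tl e) - dl h) =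
        Z G (W.pin e k) (γ + dl (G.tl e) - dl h) := fun h => shift_Z G W _ e k (by abel)
    rw [shift_I G W γ F e k ev, shift_Z G W γ e k ev, eu,
      sum_congr rfl fun f _ => by rw [ez, ez]] at c
    have hv := hg (G.hd e)
    rw [div_le_iff₀ (hτ _), ← shift_Z G W _ e k (γ' := γ) (by abel), mul_right_comm] at hv
    have k1 := arith_good m0 (min_le_left _ _) (min_le_right _ _) Z0 Z1 p1 hM hv
      (jensen G (W.pin e k) γ fun x => F (x + ue e) - F x) c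
      (sum_nonneg fun f _ => Dir_nonneg _ _ _ hτ0 F f) (n := Fintype.card E)
      ((sum_le_card_nsmul _ _ (2 * (M * Z G (W.pin e k) γ)) fun f _ =>
        (add_le_add (hg _) (hg _)).trans_eq (two_mul _).symm).trans_eq (by rw [card_univ, nsmul_eq_mul]))
    have k2 : q e ^ 2 * ∑ f, Dir G (W.pin e (k + 1)) (γ - dl (G.tl e)) τ F f ≤
        PP G (W.pin e (k + 1)) (γ - dl (G.tl e)) τ q F := by
      rw [mul_sum]
      refine sum_le_sum fun f _ => ?_
      rcases ((W.pin e (k + 1)).le f).eq_or_lt with h | h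
      · rw [Dir_pinned G _ _ hτ0 F h, mul_zero, mul_zero]
      · exact mul_le_mul_of_nonneg_right (pow_le_pow_left₀ (hq e).le (he f (lt_of_pin W h)) 2)
          (Dir_nonneg _ _ _ hτ0 F f)
    have k3 := mul_le_mul_of_nonneg_left k1 (sq_nonneg (q e))
    have k4 := mul_le_mul_of_nonneg_left k2
      (show 0 ≤ 4 * Fintype.card E * M * W.φ e (k + 1) by positivity)
    rw [hτ1, eu]
    refine k3.trans (le_trans ?_ (le_add_of_nonneg_right t3))
    rw [mul_add]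
    exact add_le_add (mul_left_comm _ _ _).le
      ((le_of_eq (by ring)).trans (k4.trans_eq (mul_assoc _ _ _)))
  · obtain ⟨h, hh⟩ := not_forall.1 hg
    have c := CA_sup G hG (W.pin e (k + 1)) (γ - dl (G.tl e)) F (one_div_pos.2 (hq e)).le
      (fun f hf x => (hF f x).trans (one_div_le_one_div_of_le (hq e) (he f (lt_of_pin W hf)))) ha hb
    rw [shift_I G W γ F e k ev, shift_Z G W γ e k ev, eu] at c
    have k1 : M * Z G (W.pin e k) γ ≤ RR G (W.pin e k) (γ + dl (G.tl e)) τ :=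
      (not_le.1 hh).le.trans (single_le_sum (f := fun h => Z G (W.pin e k) (γ + dl (G.tl e) - dl h) / τ h)
        (fun h _ => div_nonneg (Z_nonneg _ _ _) (hτ0 h)) (mem_univ h))
    have k2 := arith_bad (min_le_left _ (W.φ e (k + 1) * Z G (W.pin e (k + 1)) γ)) p0 Z0.le hM k1
      (hq e) (abs_mean_le G (W.pin e k) γ (hF e) Z0) c
    exact k2.trans (le_add_of_nonneg_left (add_nonneg t1 t2))

lemma edge_le {τ : V → ℝ} (hτ : ∀ v, 0 < τ v) {q : E → ℝ} (hq : ∀ e, 0 < q e) {M : ℝ}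
    (hM : 1 ≤ M) (F : (E → ℤ) → ℝ) (hF : ∀ e x, |F (x + ue e) - F x| ≤ 1 / q e) {e : E}
    (hτ1 : τ (G.tl e) = 1) (he : ∀ f, W.lo f < W.hi f → q e ≤ q f) :
    q e ^ 2 * ∑ k ∈ Ico (W.lo e) (W.hi e),
      min (W.φ e k * Z G (W.pin e k) γ) (W.φ e (k + 1) * Z G (W.pin e (k + 1)) γ) *
      (I G (W.pin e (k + 1)) γ F / Z G (W.pin e (k + 1)) γ -
        I G (W.pin e k) γ F / Z G (W.pin e k) γ) ^ 2 ≤
      ((Fintype.card E : ℝ) + 1) ^ 2 *
        (4 * M * PP G W (γ - dl (G.tl e)) τ q F + RR G W (γ + dl (G.tl e)) τ / M) := by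
  have hτ0 := fun v => (hτ v).le
  have hM0 : 0 ≤ M := zero_le_one.trans hM
  rw [mul_sum]
  refine (sum_le_sum fun k _ => step_le G hG W γ hτ hq hM F hF hτ1 he k).trans ?_
  rw [sum_add_distrib, sum_add_distrib, ← mul_sum, ← mul_sum, ← mul_sum, ← mul_sum]
  have a1 := sum_le_sum_of_subset_of_nonneg (Ico_subset_Icc_self (a := W.lo e) (b := W.hi e))
    (f := fun k => min (τ (G.tl e) * W.φ e k) (τ (G.hd e) * W.φ e (k + 1)) *
      I G (W.pin e k) (γ - dl (G.tl e) + dl (G.tl e)) fun x => (F (x + ue e) - F x) ^ 2)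
    fun k _ _ => mul_nonneg (le_min (mul_nonneg (hτ0 _) (W.φ_nonneg _ _))
      (mul_nonneg (hτ0 _) (W.φ_nonneg _ _))) (I_nonneg _ _ _ fun _ => sq_nonneg _)
  rw [← Dir_self G W _ hτ0 F e] at a1
  have a2 : ∑ k ∈ Ico (W.lo e) (W.hi e),
      W.φ e (k + 1) * PP G (W.pin e (k + 1)) (γ - dl (G.tl e)) τ q F ≤
      ∑ k ∈ Icc (W.lo e) (W.hi e), W.φ e k * PP G (W.pin e k) (γ - dl (G.tl e)) τ q F := by
    rw [← sum_image (g := fun k : ℤ => k + 1)
      (f := fun k => W.φ e k * PP G (W.pin e k) (γ - dl (G.tl e)) τ q F)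
      fun _ _ _ _ h => add_right_cancel h]
    refine sum_le_sum_of_subset_of_nonneg (fun j hj => ?_)
      fun k _ _ => mul_nonneg (W.φ_nonneg _ _) (PP_nonneg _ _ _ hτ _ _)
    obtain ⟨k, hk, rfl⟩ := mem_image.1 hj
    rw [mem_Ico] at hk
    rw [mem_Icc]
    omega
  have a3 := sum_le_sum_of_subset_of_nonneg (Ico_subset_Icc_self (a := W.lo e) (b := W.hi e))
    (f := fun k => W.φ e k * RR G (W.pin e k) (γ + dl (G.tl e)) τ)
    fun k _ _ => mul_nonneg (W.φ_nonneg _ _) (RR_nonneg _ _ _ hτ)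
  rw [RR_pin] at a3
  have a4 := PP_pin G W (γ - dl (G.tl e)) hτ q F e
  have a5 : 0 ≤ ∑ k ∈ Icc (W.lo e) (W.hi e), W.φ e k * PP G (W.pin e k) (γ - dl (G.tl e)) τ q F :=
    sum_nonneg fun k _ => mul_nonneg (W.φ_nonneg _ _) (PP_nonneg _ _ _ hτ _ _)
  have a6 := mul_nonneg (sq_nonneg (q e)) (Dir_nonneg G W (γ - dl (G.tl e)) hτ0 F e)
  have hn : (0 : ℝ) ≤ Fintype.card E := Nat.cast_nonneg _
  have b1 := mul_le_mul_of_nonneg_left (mul_le_mul_of_nonneg_left a1 (sq_nonneg (q e)))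
    (show 0 ≤ 2 * M by positivity)
  have b2 := mul_le_mul_of_nonneg_left a2 (show 0 ≤ 4 * Fintype.card E * M by positivity)
  have b3 := mul_le_mul_of_nonneg_left a3
    (show 0 ≤ ((Fintype.card E : ℝ) + 1) ^ 2 / M by positivity)
  refine (add_le_add (add_le_add b1 b2) b3).trans ?_
  rw [← a4]
  generalize ∑ k ∈ Icc (W.lo e) (W.hi e), W.φ e k * PP G (W.pin e k) (γ - dl (G.tl e)) τ q F = A
    at a5 ⊢
  generalize q e ^ 2 * Dir G W (γ - dl (G.tl e)) τ F e = B at a6 ⊢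
  generalize (Fintype.card E : ℝ) = n at hn ⊢
  have c1 := mul_nonneg hM0 a5
  have c2 := mul_nonneg hM0 a6
  have c3 : (n + 1) ^ 2 * (4 * M * (A + B) + RR G W (γ + dl (G.tl e)) τ / M) =
      2 * M * B + 4 * n * M * A + (n + 1) ^ 2 / M * RR G W (γ + dl (G.tl e)) τ +
        (4 * (n ^ 2 + n + 1) * (M * A) + (4 * n ^ 2 + 8 * n + 2) * (M * B)) := by ring
  rw [c3]
  exact le_add_of_nonneg_right (by positivity)

lemma main {t : V → V → ℝ} (ht : ∀ u h, 0 < t u h) (ht1 : ∀ u, t u u = 1) {q : E → ℝ}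
    (hq : ∀ e, 0 < q e) {ϱ M : ℝ} (hM : 1 ≤ M) (F : (E → ℤ) → ℝ)
    (hF : ∀ e x, |F (x + ue e) - F x| ≤ 1 / q e) (n : ℕ) : ∀ W : Wt E, W.free ≤ n →
      (∀ e, ((W.hi e - W.lo e + 1 : ℤ) : ℝ) ≤ ϱ * q e) →
      ∃ c : ℝ, I G W γ (fun x => (F x - c) ^ 2) ≤ n * (ϱ ^ 2 * ((Fintype.card E : ℝ) + 1) ^ 2 *
        (4 * M * ∑ u, PP G W (γ - dl u) (t u) q F + (∑ u, RR G W (γ + dl u) (t u)) / M)) := by
  have hM0 : 0 ≤ M := zero_le_one.trans hM
  have nn : ∀ W : Wt E, 0 ≤ ∑ u, PP G W (γ - dl u) (t u) q F ∧ 0 ≤ ∑ u, RR G W (γ + dl u) (t u) :=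
    fun W => ⟨sum_nonneg fun u _ => PP_nonneg _ _ _ (ht u) _ _,
      sum_nonneg fun u _ => RR_nonneg _ _ _ (ht u)⟩
  have base : ∀ W : Wt E, (univ.filter fun e => W.lo e < W.hi e) = ∅ →
      I G W γ (fun x => (F x - F W.lo) ^ 2) = 0 := fun W h => by
    refine sum_eq_zero fun x hx => ?_
    have hx' := (W.mem_box x).1 ((mem_fib G W γ x).1 hx).1
    obtain rfl : x = W.lo := funext fun e => by
      have h1 := filter_eq_empty_iff.1 h (mem_univ e)
      have h2 := hx' e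
      omega
    show _ * (F W.lo - F W.lo) ^ 2 = 0
    rw [sub_self, sq, mul_zero, mul_zero]
  induction n with
  | zero =>
    intro W h _
    exact ⟨_, (base W (card_eq_zero.1 (Nat.le_zero.1 h))).trans_le (by rw [Nat.cast_zero, zero_mul])⟩
  | succ n ih =>
    intro W h hW
    obtain ⟨n1, n2⟩ := nn W
    rcases (univ.filter fun e => W.lo e < W.hi e).eq_empty_or_nonempty with h0 | h0
    · exact ⟨_, (base W h0).trans_le (by positivity)⟩
    obtain ⟨e, he, hmin⟩ := exists_min_image _ q h0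
    have he' : W.lo e < W.hi e := (mem_filter.1 he).2
    choose c hc using fun k => ih (W.pin e k) (Nat.lt_succ_iff.1 ((free_pin_lt W he' k).trans_le h))
      fun f => (Int.cast_le.2 (width_pin W e f k)).trans (hW f)
    obtain ⟨c0, hc0⟩ := poincare_1d (W.le e) (z := fun k => W.φ e k * Z G (W.pin e k) γ)
      (g := fun k => I G (W.pin e k) γ F / Z G (W.pin e k) γ)
      (fun k => mul_nonneg (W.φ_nonneg _ _) (Z_nonneg _ _ _))
      fun i j k _ hij hjk _ => marg_qc G hG W γ e hij hjk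
    have a1 := edge_le G hG W γ (ht (G.tl e)) hq hM F hF (ht1 _)
      fun f hf => hmin f (mem_filter.2 ⟨mem_univ _, hf⟩)
    have a2 : PP G W (γ - dl (G.tl e)) (t (G.tl e)) q F ≤ ∑ u, PP G W (γ - dl u) (t u) q F :=
      single_le_sum (f := fun u => PP G W (γ - dl u) (t u) q F)
        (fun u _ => PP_nonneg _ _ _ (ht u) _ _) (mem_univ _)
    have a3 : RR G W (γ + dl (G.tl e)) (t (G.tl e)) ≤ ∑ u, RR G W (γ + dl u) (t u) :=
      single_le_sum (f := fun u => RR G W (γ + dl u) (t u))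
        (fun u _ => RR_nonneg _ _ _ (ht u)) (mem_univ _)
    have a4 : ((W.hi e - W.lo e + 1 : ℤ) : ℝ) ^ 2 ≤ ϱ ^ 2 * q e ^ 2 := by
      rw [← mul_pow]
      exact pow_le_pow_left₀ (Int.cast_nonneg (by omega)) (hW e) 2
    have a5 := (hc0.trans (mul_le_mul_of_nonneg_right a4 (sum_nonneg fun k _ => mul_nonneg
      (le_min (mul_nonneg (W.φ_nonneg _ _) (Z_nonneg _ _ _))
        (mul_nonneg (W.φ_nonneg _ _) (Z_nonneg _ _ _))) (sq_nonneg _)))).trans
      ((mul_assoc _ _ _).trans_le (mul_le_mul_of_nonneg_left a1 (sq_nonneg ϱ)))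
    have a6 : ∑ k ∈ Icc (W.lo e) (W.hi e), W.φ e k * ∑ u, PP G (W.pin e k) (γ - dl u) (t u) q F ≤
        ∑ u, PP G W (γ - dl u) (t u) q F := by
      rw [sum_congr rfl fun k _ => mul_sum _ _ _, sum_comm]
      refine sum_le_sum fun u _ => ?_
      rw [← PP_pin G W _ (ht u) q F e]
      exact le_add_of_nonneg_right
        (mul_nonneg (sq_nonneg _) (Dir_nonneg _ _ _ (fun v => (ht u v).le) _ _))
    have a7 : ∑ k ∈ Icc (W.lo e) (W.hi e), W.φ e k * ∑ u, RR G (W.pin e k) (γ + dl u) (t u) =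
        ∑ u, RR G W (γ + dl u) (t u) := by
      rw [sum_congr rfl fun k _ => mul_sum _ _ _, sum_comm]
      exact sum_congr rfl fun u _ => RR_pin G W _ e
    refine ⟨c0, ?_⟩
    rw [I_pin_sum G W γ _ e]
    have a8 : ∀ k, W.φ e k * I G (W.pin e k) γ (fun x => (F x - c0) ^ 2) ≤
        n * (ϱ ^ 2 * ((Fintype.card E : ℝ) + 1) ^ 2) * (4 * M) *
          (W.φ e k * ∑ u, PP G (W.pin e k) (γ - dl u) (t u) q F) +
        n * (ϱ ^ 2 * ((Fintype.card E : ℝ) + 1) ^ 2) / M *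
          (W.φ e k * ∑ u, RR G (W.pin e k) (γ + dl u) (t u)) +
        W.φ e k * Z G (W.pin e k) γ * (I G (W.pin e k) γ F / Z G (W.pin e k) γ - c0) ^ 2 :=
      fun k => (mul_le_mul_of_nonneg_left ((I_sq_le G (W.pin e k) γ F c0 (c k)).trans
        (add_le_add (hc k) le_rfl)) (W.φ_nonneg e k)).trans_eq (by ring)
    refine (sum_le_sum fun k _ => a8 k).trans ?_
    rw [sum_add_distrib, sum_add_distrib, ← mul_sum, ← mul_sum, a7]
    have b1 := mul_le_mul_of_nonneg_left a6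
      (show 0 ≤ n * (ϱ ^ 2 * ((Fintype.card E : ℝ) + 1) ^ 2) * (4 * M) by positivity)
    have b2 : ϱ ^ 2 * (((Fintype.card E : ℝ) + 1) ^ 2 *
        (4 * M * PP G W (γ - dl (G.tl e)) (t (G.tl e)) q F +
          RR G W (γ + dl (G.tl e)) (t (G.tl e)) / M)) ≤ ϱ ^ 2 * (((Fintype.card E : ℝ) + 1) ^ 2 *
        (4 * M * ∑ u, PP G W (γ - dl u) (t u) q F + (∑ u, RR G W (γ + dl u) (t u)) / M)) := by
      gcongr
    refine (add_le_add (add_le_add b1 le_rfl) (a5.trans b2)).trans_eq ?_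
    rw [Nat.cast_succ]
    ring

end PoinAux

open PoinAux in
/-- `t u h` is the weight of the states with tail `u` and head `h`. -/
theorem fine_poincare (G : Net V E) (hG : G.NoLoop) (W : Wt E) (γ : V → ℤ) {t : V → V → ℝ}
    (ht : ∀ u h, 0 < t u h) (ht1 : ∀ u, t u u = 1) {q : E → ℝ} (hq : ∀ e, 0 < q e) {ϱ M : ℝ}
    (hM : 1 ≤ M) (hW : ∀ e, ((W.hi e - W.lo e + 1 : ℤ) : ℝ) ≤ ϱ * q e) (F : (E → ℤ) → ℝ)
    (hF : ∀ e x, |F (x + ue e) - F x| ≤ 1 / q e) :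
    ∃ c : ℝ, I G W γ (fun x => (F x - c) ^ 2) ≤
      ϱ ^ 2 * ((Fintype.card E : ℝ) + 1) ^ 3 *
        (4 * M * ∑ u, ∑ f, q f ^ 2 * Dir G W (γ - dl u) (t u) F f +
          (∑ u, ∑ h, Z G W (γ + dl u - dl h) / t u h) / M) := by
  obtain ⟨c, hc⟩ := main G hG γ ht ht1 hq hM F hF (Fintype.card E + 1) W
    ((free_le W).trans (Nat.le_succ _)) hW
  refine ⟨c, hc.trans_eq ?_⟩
  unfold PP RR
  rw [Nat.cast_succ]
  ring

end Crest.Agent.R309
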