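import Crest.Agent.R309.Smooth
import Crest.Agent.R309.Poin

/-!
# Row 309: weak Poincaré inequality for the chain
-/

set_option autoImplicit false

namespace Crest.Agent.R309.Raw

open Finset PoinAux

variable {R : Raw} {κ : ℕ}

namespace CP

theorem m_ge (h : R.Valid κ) : 1000 * (R.ℓ + 1) * (R.nE + R.nV + 2) ^ 2 ≤ R.m :=
  (Nat.le_mul_of_pos_right _ h.one_le).trans h.hm

theorem m_ge' (h : R.Valid κ) : 1000 * ((R.nE : ℝ) + R.nV + 2) ^ 2 ≤ R.m := by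
  have h1 : 1000 * (R.nE + R.nV + 2) ^ 2 ≤ R.m :=
    le_trans (Nat.mul_le_mul_right _ (by omega)) (m_ge h)
  exact_mod_cast h1

theorem m_ge'' (h : R.Valid κ) : 1000 * (R.ℓ + 1) ≤ R.m :=
  (Nat.le_mul_of_pos_right _ (by positivity)).trans (m_ge h)

theorem one_le_q (h : R.Valid κ) (e : R.E) : (1 : ℝ) ≤ R.qf e := by
  obtain ⟨j, -, hj⟩ := h.q_pow e
  rw [hj]
  exact_mod_cast Nat.one_le_two_pow

theorem width (h : R.Valid κ) (i : ℕ) (e : R.E) :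
    (((W h i 4).hi e - (W h i 4).lo e + 1 : ℤ) : ℝ) ≤ 3 * (R.m : ℝ) ^ 5 * R.qf e := by
  have h1 : (W h i 4).hi e - (W h i 4).lo e + 1 ≤ 3 * (R.m : ℤ) ^ 5 * R.qf e := by
    change R.uf e + (4 : ℕ) * (R.Dm e : ℤ) - (R.lf e - (4 : ℕ) * (R.Dm e : ℤ)) + 1 ≤ _
    unfold Dm
    split_ifs with he
    · have h2 := h.big_hi e he
      have h3 : (8 : ℤ) ≤ R.m := by have := m_ge'' h; omega
      have h4 := mul_le_mul_of_nonneg_left h3 (show (0 : ℤ) ≤ R.qf e * R.m ^ 4 by positivity)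
      push_cast at h2 ⊢
      linarith
    · have h2 := h.small_w e (by omega)
      rw [h.small_q e (by omega)]
      have h3 : (0 : ℤ) ≤ R.m ^ 5 := by positivity
      push_cast at h2 ⊢
      linarith
  exact_mod_cast h1

theorem Zc_nonneg (h : R.Valid κ) (i : ℕ) (a : Fin 9) (r p : R.V) : 0 ≤ Zc h i a r p :=
  Z_nonneg _ _ _

theorem half (h : R.Valid κ) {i : ℕ} (hi : i ≤ R.Ls) {U H : R.V} (hU : R.rt U = U)
    (hH : R.rt H = H) : Zc h i 8 U H ≤ 2 * Zc h i 4 U H := by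
  have h1 := tail h hi hU hH
  have h2 : 2 ≤ 2 ^ R.ℓ := by
    have := m_ge'' h
    exact le_trans (le_trans (by omega) (Nat.le_self_pow (by norm_num) _)) h.hℓ
  have h3 : Zc h i 8 U H / 2 ^ R.ℓ ≤ Zc h i 8 U H / 2 :=
    div_le_div_of_nonneg_left (Zc_nonneg h i 8 U H) two_pos (by exact_mod_cast h2)
  linarith

theorem Z_div_τ {h : R.Valid κ} {i : ℕ} {t : Tab} (ht : Good h i t) (u p H : R.V) :
    Zc h i 4 p H / R.τ t u p ≤ 8 * Zc h i 8 (R.rt u) (R.rt H) := by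
  have h1 := Zc_shift h i p H
  have h0 := τ_pos ht u p
  rw [div_le_iff₀ h0]
  unfold τ at h0 ⊢
  split_ifs at h0 ⊢ with e
  · rw [← e] at h1
    linarith [Zc_nonneg h i 8 (R.rt u) (R.rt H)]
  · have h2 := (ht _ _ (h.rt_rt u) (h.rt_rt p) e).1
    have h3 := Zc_triangle h i 8 (R.rt u) (R.rt p) (R.rt H)
    rw [Zc_self] at h3
    refine le_of_mul_le_mul_right ?_ (Z0_pos h i)
    have h4 := mul_le_mul_of_nonneg_left h3 h0.le
    have h5 := mul_le_mul_of_nonneg_left h2 (Zc_nonneg h i 8 (R.rt p) (R.rt H))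
    have h6 := mul_le_mul_of_nonneg_right h1 (Z0_pos h i).le
    linarith

theorem DD_nonneg {h : R.Valid κ} {i : ℕ} {t : Tab} (ht : Good h i t) (F : (R.E → ℤ) → ℝ)
    (e : R.E) (s : ℤ) : 0 ≤ R.DD i t F e s := by
  have := wt_nonneg (fun x hx => w_pos ht hx) fun x hx => w_eq_zero h i t hx
  exact sum_nonneg fun z _ => mul_nonneg (le_min (this _) (this _)) (sq_nonneg _)

/-- The class without defect. -/
theorem zero_le {h : R.Valid κ} {i : ℕ} {t : Tab} (ht : Good h i t) {F : (R.E → ℤ) → ℝ}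
    (hF : ∀ x, 0 ≤ F x ∧ F x ≤ 1) {M : ℝ} (hM : 1 ≤ M) :
    ∃ c : ℝ, (0 ≤ c ∧ c ≤ 1) ∧ I R.G (W h i 4) R.βf (fun x => (R.sm F x - c) ^ 2) ≤
      72 * (R.m : ℝ) ^ 10 * ((R.nE : ℝ) + 1) ^ 3 *
        (M * ((R.nV : ℝ) + 1) * ∑ e, R.DD i t F e (R.qf e) +
          ((R.nV : ℝ) + 1) ^ 2 * Z0 h i / M) := by
  obtain ⟨c, hc⟩ := fine_poincare R.G h.noLoop (W h i 4) R.βf (τ_pos ht) (fun u => if_pos rfl)
    (fun e => one_pos.trans_le (one_le_q h e)) hM (width h i) (R.sm F) (sm_lip h hF)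
  refine ⟨max 0 (min c 1), ⟨le_max_left _ _, max_le zero_le_one (min_le_right _ _)⟩,
    ((I_mono _ _ _ fun x => ?_).trans hc).trans ?_⟩
  · obtain ⟨h0, h1⟩ := sm_mem h hF x
    rcases le_total c 1 with h2 | h2
    · rw [min_eq_left h2]
      rcases le_total 0 c with h3 | h3
      · rw [max_eq_right h3]
      · rw [max_eq_left h3]; nlinarith
    · rw [min_eq_right h2, max_eq_right zero_le_one]; nlinarith
  · have a1 : ∑ u, ∑ f, (R.qf f : ℝ) ^ 2 * Dir R.G (W h i 4) (R.βf - dl u) (R.τ t u) (R.sm F) f ≤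
        ((R.nV : ℝ) + 1) * (2 * ∑ e, R.DD i t F e (R.qf e)) := by
      refine (sum_le_card_nsmul _ _ (2 * ∑ e, R.DD i t F e (R.qf e)) fun u _ => ?_).trans_eq
        (by simp)
      rw [mul_sum]
      exact sum_le_sum fun f _ => Dir_sm ht F u f
    have a2 : ∑ u, ∑ p, Z R.G (W h i 4) (R.βf + dl u - dl p) / R.τ t u p ≤
        ((R.nV : ℝ) + 1) * (((R.nV : ℝ) + 1) * (8 * Z0 h i)) := by
      refine (sum_le_card_nsmul _ _ (((R.nV : ℝ) + 1) * (8 * Z0 h i)) fun u _ => ?_).trans_eq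
        (by simp)
      refine (sum_le_card_nsmul _ _ (8 * Z0 h i) fun p _ => ?_).trans_eq (by simp)
      exact (Z_div_τ ht u p u).trans_eq (by rw [Zc_self])
    have hM0 : 0 ≤ M := zero_le_one.trans hM
    rw [Fintype.card_fin]
    calc _ ≤ (3 * (R.m : ℝ) ^ 5) ^ 2 * ((R.nE : ℝ) + 1) ^ 3 *
          (4 * M * (((R.nV : ℝ) + 1) * (2 * ∑ e, R.DD i t F e (R.qf e))) +
            ((R.nV : ℝ) + 1) * (((R.nV : ℝ) + 1) * (8 * Z0 h i)) / M) := by gcongr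
      _ = _ := by ring

theorem arith_class {t Ia Ib Za Zb Z8 Z0 X Y n D ξ : ℝ} (ht : 0 ≤ t) (hZa : 0 < Za) (hZb : 0 < Zb)
    (hZ0 : 0 < Z0) (hIb : 0 ≤ Ib) (hξ : 0 < ξ) (hn : 0 ≤ n) (hY0 : 0 ≤ Y) (h1 : Za ≤ Z8)
    (h2 : Z8 ≤ 2 * Za) (h3 : Z0 ≤ 2 * Zb) (h4 : t * Z8 ≤ 4 * Z0) (hX : X ≤ n * (16 * Z8))
    (hY : Y ≤ 8 * D) (hc : (Ia / Za - Ib / Zb) ^ 2 ≤ X / (Za * Zb) * Y) :
    t * Ia ≤ 8 * Ib + 4 * ξ * Z0 + 512 * n * D / ξ := by
  have k1 : X / (Za * Zb) ≤ 64 * n / Z0 := by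
    rw [div_le_div_iff₀ (mul_pos hZa hZb) hZ0]
    calc X * Z0 ≤ n * (16 * (2 * Za)) * (2 * Zb) :=
          mul_le_mul (hX.trans (by gcongr)) h3 hZ0.le (by positivity)
      _ = _ := by ring
  have k2 : (Ia / Za - Ib / Zb) ^ 2 ≤ 64 * n / Z0 * (8 * D) :=
    hc.trans (mul_le_mul k1 hY hY0 (by positivity))
  have k3 : Ia / Za - Ib / Zb ≤ ξ + 64 * n / Z0 * (8 * D) / (4 * ξ) := by
    rw [← sub_le_iff_le_add', le_div_iff₀ (by positivity)]
    nlinarith [sq_nonneg (Ia / Za - Ib / Zb - 2 * ξ)]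
  have k4 : Ib / Zb ≤ 2 * Ib / Z0 := by
    rw [div_le_div_iff₀ hZb hZ0]
    nlinarith [mul_le_mul_of_nonneg_left h3 hIb]
  have hD : 0 ≤ D := by linarith
  calc t * Ia = t * Za * (Ia / Za) := by field_simp
    _ ≤ t * Za * (2 * Ib / Z0 + ξ + 64 * n / Z0 * (8 * D) / (4 * ξ)) :=
        mul_le_mul_of_nonneg_left (by linarith) (by positivity)
    _ ≤ 4 * Z0 * (2 * Ib / Z0 + ξ + 64 * n / Z0 * (8 * D) / (4 * ξ)) :=
        mul_le_mul_of_nonneg_right ((mul_le_mul_of_nonneg_left h1 ht).trans h4) (by positivity)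
    _ = _ := by field_simp; ring

/-- The classes with a defect. -/
theorem class_le {h : R.Valid κ} {i : ℕ} (hi : i ≤ R.Ls) {t : Tab} (ht : Good h i t)
    {F : (R.E → ℤ) → ℝ} (hF : ∀ x, 0 ≤ F x ∧ F x ≤ 1) {c : ℝ} (hc : 0 ≤ c ∧ c ≤ 1) {ξ : ℝ}
    (hξ : 0 < ξ) {U H : R.V} (hU : R.rt U = U) (hH : R.rt H = H) (hne : U ≠ H) :
    (R.tv t U H : ℝ) * I R.G (W h i 4) (R.βf + dl H - dl U) (fun x => (R.sm F x - c) ^ 2) ≤
      8 * I R.G (W h i 4) R.βf (fun x => (R.sm F x - c) ^ 2) + 4 * ξ * Z0 h i +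
        512 * R.nE * (∑ e, R.DD i t F e (R.qf e)) / ξ := by
  have ea : R.βf - dl U + dl H = R.βf + dl H - dl U := by abel
  have eb : R.βf - dl U + dl U = R.βf := by abel
  have ec : R.βf + dl U - dl U = R.βf := by abel
  have ed : R.βf + dl H - dl U + dl U = R.βf + dl H := by abel
  have ha : 0 < Z R.G (W h i 4) (R.βf + dl H - dl U) := Zc_pos h i 4 hU hH
  have hb : 0 < Z R.G (W h i 4) R.βf := by simpa only [Zc, ec] using Zc_pos h i 4 hU hU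
  have hτ := fun p => (τ_pos ht U p).le
  have c1 := CA R.G h.noLoop (W h i 4) (R.βf - dl U) (τ_pos ht U) (fun x => (R.sm F x - c) ^ 2)
    (a := H) (b := U) (by rwa [ea]) (by rwa [eb])
  rw [ea, eb, ed] at c1
  refine arith_class (by exact_mod_cast (ht.pos hU hH hne).le) ha hb (Z0_pos h i)
    (I_nonneg _ _ _ fun _ => sq_nonneg _) hξ (Nat.cast_nonneg _)
    (sum_nonneg fun e _ => Dir_nonneg _ _ _ hτ _ e) (Zc_mono h i U H) (half h hi hU hH)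
    (by simpa only [Z0, Zc, ec] using half h hi hU hU) (ht U H hU hH hne).2 ?_ ?_ c1
  · refine (sum_le_card_nsmul _ _ (16 * Zc h i 8 U H) fun e _ => ?_).trans_eq (by simp)
    have h1 := Z_div_τ ht U (R.G.tl e) H
    have h2 := Z_div_τ ht U (R.G.hd e) H
    rw [hU, hH] at h1 h2
    exact (add_le_add h1 h2).trans_eq (by ring)
  · rw [mul_sum]
    refine sum_le_sum fun e _ => ?_
    have h1 := Dir_sm ht F U e
    have h2 := mul_le_mul_of_nonneg_right (one_le_pow₀ (n := 2) (one_le_q h e))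
      (Dir_nonneg R.G (W h i 4) (R.βf - dl U) hτ (R.sm F) e)
    have h3 : Dir R.G (W h i 4) (R.βf - dl U) (R.τ t U) (fun x => (R.sm F x - c) ^ 2) e ≤
        4 * Dir R.G (W h i 4) (R.βf - dl U) (R.τ t U) (R.sm F) e := by
      unfold Dir
      rw [mul_sum]
      refine sum_le_sum fun x _ => ?_
      rw [mul_left_comm]
      refine mul_le_mul_of_nonneg_left ?_ (le_min (mul_nonneg (hτ _) (Wt.Φ_nonneg _ _))
        (mul_nonneg (hτ _) (Wt.Φ_nonneg _ _)))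
      have h4 := sm_mem h hF x
      have h5 := sm_mem h hF (x + ue e)
      have h6 : (R.sm F (x + ue e) + R.sm F x - 2 * c) ^ 2 ≤ 2 ^ 2 :=
        sq_le_sq' (by linarith) (by linarith)
      nlinarith [mul_le_mul_of_nonneg_right h6 (sq_nonneg (R.sm F (x + ue e) - R.sm F x))]
    linarith

theorem I_box4 (h : R.Valid κ) (i : ℕ) (γ : R.V → ℤ) (H : (R.E → ℤ) → ℝ) :
    I R.G (W h i 8) γ (fun x => if x ∈ R.box 4 then H x else 0) = I R.G (W h i 4) γ H := by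
  unfold I
  simp only [mul_ite, mul_zero]
  rw [← sum_filter]
  refine sum_congr ?_ fun x hx => ?_
  · ext x
    rw [mem_filter, mem_fib, mem_fib]
    exact ⟨fun hx => ⟨hx.2, hx.1.2⟩, fun hx => ⟨⟨box_mono R (by norm_num) hx.1, hx.2⟩, hx.1⟩⟩
  · rw [W8_Φ, W_Φ h i 4 ((mem_fib _ _ _ _).1 hx).1]

/-- The outer margin. -/
theorem out_le {h : R.Valid κ} {i : ℕ} (hi : i ≤ R.Ls) {t : Tab} (ht : Good h i t) :
    ∑ x ∈ R.Ω, (R.w i t x : ℝ) * (1 - if x ∈ R.box 4 then 1 else 0) ≤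
      (∑ x ∈ R.Ω, (R.w i t x : ℝ)) / 2 ^ R.ℓ := by
  have h1 := sum_Ω h i t fun _ => 1
  simp only [mul_one, I_one] at h1
  rw [sum_Ω h, h1, add_div, sum_div]
  simp only [I_sub, I_box4, I_one, sum_div]
  refine add_le_add ?_ (sum_le_sum fun U _ => sum_le_sum fun H _ => ?_)
  · simpa only [Zc, add_sub_cancel_right] using tail h hi h.rt_star h.rt_star
  · split_ifs with hc
    · rw [mul_div_assoc]
      exact mul_le_mul_of_nonneg_left (tail h hi hc.1 hc.2.1)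
        (by exact_mod_cast (ht.pos hc.1 hc.2.1 hc.2.2).le)
    · rw [zero_div]

theorem arith_fin {m n a b e L T Z D₁ D₂ S A P : ℝ} (hn : 2 ≤ n) (hm : 1000 * n ^ 2 ≤ m)
    (ha0 : 1 ≤ a) (ha : a ≤ n) (he0 : 0 ≤ e) (he : e + 1 ≤ n) (hL : m ^ 64 ≤ L) (hZ0 : 0 ≤ Z)
    (hZ : Z ≤ T) (hD₁ : 0 ≤ D₁) (hD₂ : 0 ≤ D₂) (hS : D₁ + D₂ ≤ 8 * (e + 1) * S) (hA0 : 0 ≤ A)
    (hA : A ≤ 72 * m ^ 10 * (e + 1) ^ 3 * (m ^ 50 * a * D₁ + a ^ 2 * Z / m ^ 50))
    (hb : b ≤ A + a * (a * (8 * A + 4 * (1 / m ^ 37) * Z + 512 * e * D₁ / (1 / m ^ 37))))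
    (hP : P ≤ T / L + 2 * (2 * e * D₂) + 2 * b) : P ≤ m ^ 64 * S + 1 / m ^ 36 * T := by
  have hn0 : 0 < n := by linarith
  have hn1 : 1 ≤ n := by linarith
  have hm1 : 4000 ≤ m := by nlinarith
  have hm0 : 0 < m := by linarith
  have hT : 0 ≤ T := hZ0.trans hZ
  have ha1 : 0 ≤ a := by linarith
  have he1 : e ≤ n := by linarith
  have hS0 : 0 ≤ S := nonneg_of_mul_nonneg_right ((add_nonneg hD₁ hD₂).trans hS) (by positivity)
  have k0 : 10 ^ 12 * n ^ 8 ≤ m ^ 4 := (le_of_eq (by ring)).trans (pow_le_pow_left₀ (by positivity) hm 4)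
  have k1 : A ≤ 72 * n ^ 4 * m ^ 60 * D₁ + 72 * n ^ 5 / m ^ 40 * T :=
    calc A ≤ 72 * m ^ 10 * n ^ 3 * (m ^ 50 * n * D₁ + n ^ 2 * T / m ^ 50) := hA.trans (by gcongr)
      _ = _ := by field_simp
  have k2 : b ≤ 9 * n ^ 2 * A + 4 * n ^ 2 / m ^ 37 * T + 512 * n ^ 3 * m ^ 37 * D₁ :=
    calc b ≤ n ^ 2 * A + n * (n * (8 * A + 4 * (1 / m ^ 37) * T + 512 * n * D₁ / (1 / m ^ 37))) := by
          refine hb.trans (add_le_add (le_mul_of_one_le_left hA0 (one_le_pow₀ hn1)) ?_)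
          gcongr
      _ = _ := by field_simp; ring
  have k3 : n ^ 3 * m ^ 37 ≤ n ^ 6 * m ^ 60 := by gcongr <;> linarith
  have k4 : n ≤ n ^ 6 * m ^ 60 :=
    (le_self_pow₀ hn1 (by norm_num)).trans (le_mul_of_one_le_right (by positivity)
      (one_le_pow₀ (by linarith)))
  have k5 : 1 / L ≤ 1 / m ^ 36 / 4 := by
    rw [div_div]
    refine one_div_le_one_div_of_le (by positivity) (le_trans ?_ hL)
    calc m ^ 36 * 4 ≤ m ^ 36 * m ^ 28 := by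
          gcongr
          exact le_trans (by linarith) (le_self_pow₀ (by linarith) (by norm_num))
      _ = _ := by ring
  have k6 : 8 * n ^ 2 / m ^ 37 ≤ 1 / m ^ 36 / 4 := by
    rw [div_div, div_le_div_iff₀ (by positivity) (by positivity)]
    calc 8 * n ^ 2 * (m ^ 36 * 4) = 32 * n ^ 2 * m ^ 36 := by ring
      _ ≤ m * m ^ 36 := by gcongr; nlinarith
      _ = _ := by ring
  have k7 : n ^ 7 ≤ n ^ 8 := by gcongr; norm_num
  have k8 : 1296 * n ^ 7 / m ^ 40 ≤ 1 / m ^ 36 / 4 := by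
    rw [div_div, div_le_div_iff₀ (by positivity) (by positivity)]
    calc 1296 * n ^ 7 * (m ^ 36 * 4) = 5184 * n ^ 7 * m ^ 36 := by ring
      _ ≤ m ^ 4 * m ^ 36 := by gcongr; linarith [pow_pos hn0 8]
      _ = _ := by ring
  have k9 : 2400 * (n ^ 6 * m ^ 60) * (D₁ + D₂) ≤ m ^ 64 * S :=
    calc _ ≤ 2400 * (n ^ 6 * m ^ 60) * (8 * n * S) := by
          gcongr
          exact hS.trans (by gcongr)
      _ = 19200 * n ^ 7 * (m ^ 60 * S) := by ring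
      _ ≤ m ^ 4 * (m ^ 60 * S) := by gcongr; linarith [pow_pos hn0 8]
      _ = _ := by ring
  have l1 := mul_le_mul_of_nonneg_left k1 (show 0 ≤ 18 * n ^ 2 by positivity)
  have l2 : 18 * n ^ 2 * (72 * n ^ 4 * m ^ 60 * D₁ + 72 * n ^ 5 / m ^ 40 * T) =
      1296 * (n ^ 6 * m ^ 60 * D₁) + 1296 * n ^ 7 / m ^ 40 * T := by ring
  have l3 := mul_le_mul_of_nonneg_right k3 hD₁
  have l4 := mul_le_mul_of_nonneg_right (he1.trans k4) hD₂
  have l5 := mul_le_mul_of_nonneg_right k5 hT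
  have l6 := mul_le_mul_of_nonneg_right k6 hT
  have l7 := mul_le_mul_of_nonneg_right k8 hT
  have l8 : 0 ≤ n ^ 6 * m ^ 60 * D₁ := by positivity
  have l9 : 0 ≤ n ^ 6 * m ^ 60 * D₂ := by positivity
  have l10 : 0 ≤ 1 / m ^ 36 * T := by positivity
  have e1 : T / L = 1 / L * T := by ring
  have e2 : 8 * n ^ 2 / m ^ 37 * T = 2 * (4 * n ^ 2 / m ^ 37 * T) := by ring
  have e3 : 1 / m ^ 36 / 4 * T = 1 / m ^ 36 * T / 4 := by ring
  linarith

end CP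

open CP in
theorem weakP {h : R.Valid κ} {i : ℕ} (hi : i ≤ R.Ls) {t : Tab} (ht : Good h i t) :
    WeakP (R.w i t) R.Ω R.prop R.Bp ((R.m : ℝ) ^ 64) (1 / (R.m : ℝ) ^ 36) := by
  intro F hF
  have hm := m_ge' h
  have hE : (0 : ℝ) ≤ R.nE := Nat.cast_nonneg _
  have hV : (0 : ℝ) ≤ R.nV := Nat.cast_nonneg _
  have hm1 : (1 : ℝ) ≤ R.m := by have := m_ge'' h; exact_mod_cast (by omega : 1 ≤ R.m)
  obtain ⟨c, hc, hA⟩ := zero_le ht hF (M := (R.m : ℝ) ^ 50) (one_le_pow₀ hm1)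
  have hD := DD_le_MDir ht F
  rw [sum_add_distrib] at hD
  have hA0 := I_nonneg R.G (W h i 4) R.βf (F := fun x => (R.sm F x - c) ^ 2) fun _ => sq_nonneg _
  have hD₁ := sum_nonneg fun e (_ : e ∈ univ) => DD_nonneg ht F e (R.qf e)
  refine ⟨c, arith_fin (b := ∑ x ∈ R.Ω, (R.w i t x : ℝ) *
      if x ∈ R.box 4 then (R.sm F x - c) ^ 2 else 0) (by linarith) hm (by linarith) (by linarith)
    hE (by linarith) (L := 2 ^ R.ℓ) (by exact_mod_cast h.hℓ) (Z0_pos h i).le (tot_bounds ht).1 hD₁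
    (sum_nonneg fun e _ => div_nonneg (sum_nonneg fun s _ => DD_nonneg ht F e s)
      (Nat.cast_nonneg _)) hD hA0 hA ?_ ?_⟩
  · rw [sum_Ω h]
    simp only [I_box4]
    refine add_le_add le_rfl ?_
    refine (sum_le_card_nsmul _ _ _ fun U _ => (sum_le_card_nsmul _ _
      (8 * I R.G (W h i 4) R.βf (fun x => (R.sm F x - c) ^ 2) + 4 * (1 / (R.m : ℝ) ^ 37) * Z0 h i +
        512 * R.nE * (∑ e, R.DD i t F e (R.qf e)) / (1 / (R.m : ℝ) ^ 37))
      fun H _ => ?_)).trans_eq ?_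
    · split_ifs with hc'
      · exact class_le hi ht hF hc (by positivity) hc'.1 hc'.2.1 hc'.2.2
      · have := Z0_pos h i
        positivity
    · simp only [card_univ, Fintype.card_fin, nsmul_eq_mul, Nat.cast_add, Nat.cast_one]
  · have h1 := out_le hi ht
    have h2 := sub_sm ht F
    rw [← filter_mem_eq_inter, sum_filter] at h2
    refine le_trans ?_ (add_le_add (add_le_add h1 (mul_le_mul_of_nonneg_left h2 zero_le_two)) le_rfl)
    rw [mul_sum, mul_sum, ← sum_add_distrib, ← sum_add_distrib]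
    refine sum_le_sum fun x hx => ?_
    have h3 : (0 : ℝ) ≤ R.w i t x := by exact_mod_cast (w_pos ht hx).le
    split_ifs with hb
    · have h4 : (F x - c) ^ 2 ≤ 2 * (F x - R.sm F x) ^ 2 + 2 * (R.sm F x - c) ^ 2 := by
        nlinarith [sq_nonneg (F x - 2 * R.sm F x + c)]
      linarith [mul_le_mul_of_nonneg_left h4 h3]
    · have h4 : (F x - c) ^ 2 ≤ 1 ^ 2 := sq_le_sq' (by linarith [hF x]) (by linarith [hF x])
      linarith [mul_le_mul_of_nonneg_left h4 h3]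

end Crest.Agent.R309.Raw
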