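import Crest.Agent.R309.ImplAux

/-!
# Row 309: the estimator runs in polynomial time
-/

set_option autoImplicit false

namespace Crest.Agent.R309

open Crest.Agent.Lib.PolyTime

namespace Impl

variable {α : Type} [PEnc α] {R : α → Raw}

/-- Vectors are encoded as the lists of their entries. -/
@[reducible] def vecEnc {n : ℕ} : PEnc (Fin n → ℤ) := PEnc.ofInj List.ofFn List.ofFn_injective

attribute [local instance] vecEnc

/-- `poly_foldT` for a state space that depends on the input. -/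
theorem foldT_dep {σ : α → Type} [∀ a, PEnc (σ a)] {step : ∀ a, σ a → List Bool → σ a}
    {B t S : α → ℕ} {s : ∀ a, σ a} {u : α → List Bool}
    (hstep : Poly fun p : (Σ a, σ a) × List Bool => enc (step p.1.1 p.1.2 p.2)) (hB : Poly B)
    (ht : Poly t) (htb : PB t) (hs : Poly fun a => enc (s a)) (hu : Poly u)
    (I : ∀ a, ℕ → σ a → Prop) (h0 : ∀ a, I a 0 (s a))
    (hI : ∀ a i x v, I a i x → I a (i + 1) (step a x v))
    (hS : PB S) (hsz : ∀ a i x, i ≤ t a → I a i x → sz x ≤ S a) :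
    Poly fun a => enc (foldT (step a) (B a) (t a) (s a) (u a)) := by
  have h := poly_foldT (σ := Σ a, σ a) (step := fun _ x v => ⟨x.1, step x.1 x.2 v⟩)
    (s := fun a => ⟨a, s a⟩) (S := fun a => sz a + S a + 1)
    (Poly.sigmaMk (f := fun p : (α × Σ a, σ a) × List Bool => p.1.2.1)
      Poly.id'.fst.snd.sigmaFst
      (hstep.comp (g := fun p : (α × Σ a, σ a) × List Bool => (p.1.2, p.2))
        (Poly.id'.fst.snd.pair Poly.id'.snd))) hB ht htb
    (Poly.sigmaMk Poly.id' hs) hu (fun a i x => ∃ y, x = ⟨a, y⟩ ∧ I a i y)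
    (fun a => ⟨_, rfl, h0 a⟩)
    (by rintro a i _ v - - ⟨y, rfl, hy⟩; exact ⟨_, rfl, hI a i y v hy⟩)
    ((PB.sz_id.add hS).add (PB.const 1))
    (by
      rintro a i _ hi ⟨y, rfl, hy⟩
      have := hsz a i y hi hy
      rw [sz_sigma]
      dsimp only
      omega)
  refine (Poly.sigmaSnd_enc h).congr fun a => ?_
  rw [foldT_sim (step := step a) (Sigma.mk a) (fun _ _ => rfl)]

theorem sz_vec_le {n k : ℕ} {x : Fin n → ℤ} (h : ∀ e, ht (x e) ≤ 2 ^ k) :
    sz x ≤ n * (8 * k + 16 + 1) + 1 := by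
  have := sz_list_le (l := List.ofFn x) (B := 8 * k + 16) fun y hy => by
    obtain ⟨e, rfl⟩ := List.mem_ofFn.1 hy
    exact PArith.sz_le _ _ (h e)
  rwa [List.length_ofFn] at this

theorem ht_vec_le {n : ℕ} (x : Fin n → ℤ) (e : Fin n) :
    ht (x e) ≤ 2 ^ (2 * sz (List.ofFn x)) :=
  (ht_le _).trans (Nat.pow_le_pow_right (by norm_num)
    (Nat.mul_le_mul_left _ (sz_le_of_mem (List.mem_ofFn.2 ⟨e, rfl⟩))))

/-- The proposals have polynomial size. -/
theorem exists_prop_bound : ∃ K : Raw → ℕ, PB K ∧ ∀ (R : Raw) (v : List Bool) (e : R.E),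
    v.length ≤ R.Bp → ht (R.prop v e) ≤ 2 ^ K R := by
  obtain ⟨q, hq⟩ := (p_prop (R := fun p : Raw × List Bool => p.1) (u := fun p => p.2)
    Poly.id'.fst Poly.id'.snd).pb_sz
  refine ⟨fun R => 2 * q.eval (sz R + (4 * R.Bp + 1) + 1), (PB.const 2).mul
    (((PB.sz_id.add (((PB.const 4).mul (b_Bp Poly.id')).add (PB.const 1))).add
      (PB.const 1)).eval q), fun R v e hv => (ht_vec_le _ e).trans ?_⟩
  refine Nat.pow_le_pow_right (by norm_num) (Nat.mul_le_mul_left _
    ((hq (R, v)).trans (eval_mono q ?_)))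
  have := sz_listBool_le v
  rw [sz_pair]
  omega

theorem ht_mstep {R : Raw} {K k : ℕ}
    (hK : ∀ (v : List Bool) (e : R.E), v.length ≤ R.Bp → ht (R.prop v e) ≤ 2 ^ K)
    (w : (R.E → ℤ) → ℚ) {x : R.E → ℤ} (hx : ∀ e, ht (x e) ≤ 2 ^ k) (u : List Bool) (e : R.E) :
    ht (mstep w R.prop R.Bp R.ba x u e) ≤ 2 ^ (k + K) := by
  unfold mstep
  split_ifs
  · rw [pow_add]
    exact (ht_add _ _).trans (Nat.mul_le_mul (hx e) (hK _ e (by simp)))
  · exact (hx e).trans (Nat.pow_le_pow_right (by norm_num) (by omega))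

theorem ht_run {R : Raw} {K k : ℕ}
    (hK : ∀ (v : List Bool) (e : R.E), v.length ≤ R.Bp → ht (R.prop v e) ≤ 2 ^ K)
    (i : ℕ) (t : Tab) {x : R.E → ℤ} (hx : ∀ e, ht (x e) ≤ 2 ^ k) (u : List Bool) (e : R.E) :
    ht (R.run i t x u e) ≤ 2 ^ (k + R.Tn * K) :=
  foldT_inv (step := mstep (R.w i t) R.prop R.Bp R.ba) (B := R.Bs) (s := x)
    (fun j y => ∀ e, ht (y e) ≤ 2 ^ (k + j * K)) (by simpa using hx)
    (fun j y v hy e => by
      rw [Nat.succ_mul j, ← add_assoc]
      exact ht_mstep hK _ hy v e) R.Tn u e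

section vec
variable {x : ∀ a, (R a).E → ℤ} {U H : ∀ a, (R a).V} {i : α → ℕ} {t : α → Tab}
  {ts : α → List Tab} {u : α → List Bool}

theorem p_run (hR : Poly R) (hi : Poly i) (bi : PB i) (ht' : Poly t)
    (hx : Poly fun a => List.ofFn (x a)) (hu : Poly u) :
    Poly fun a => List.ofFn ((R a).run (i a) (t a) (x a) (u a)) := by
  obtain ⟨K, hK, hKb⟩ := exists_prop_bound
  have c : Poly fun p : (Σ a, ((R a).E → ℤ)) × List Bool => p.1.1 := Poly.id'.fst.sigmaFst
  have c2 : Poly fun p : (Σ a, ((R a).E → ℤ)) × List Bool => List.ofFn p.1.2 :=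
    (Poly.sigmaSnd_enc Poly.id'.fst).of_enc fun _ => rfl
  refine (foldT_dep (σ := fun a => (R a).E → ℤ)
    (step := fun a => mstep ((R a).w (i a) (t a)) (R a).prop (R a).Bp (R a).ba)
    (B := fun a => (R a).Bs) (t := fun a => (R a).Tn) (s := x) (u := u)
    (S := fun a => (R a).nE *
      (8 * (2 * sz (List.ofFn (x a)) + (R a).Tn * K (R a)) + 16 + 1) + 1)
    ((p_mstep (R := fun p : (Σ a, ((R a).E → ℤ)) × List Bool => R p.1.1) (x := fun p => p.1.2)
      (hR.comp c) (hi.comp c) (bi.comp c) (ht'.comp c) c2 Poly.id'.snd).of_enc fun _ => rfl)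
    (p_Bs hR) (p_Tn hR) (b_Tn hR) (hx.of_enc fun _ => rfl) hu
    (fun a j y => ∀ e, ht (y e) ≤ 2 ^ (2 * sz (List.ofFn (x a)) + j * K (R a)))
    (fun a e => by simpa using ht_vec_le (x a) e)
    (fun a j y v hy e => by
      rw [Nat.succ_mul j, ← add_assoc]
      exact ht_mstep (hKb _) _ hy v e)
    (((b_nE hR).mul ((((PB.const 8).mul (((PB.const 2).mul hx.pb_sz).add
      ((b_Tn hR).mul (hK.comp hR)))).add (PB.const 16)).add (PB.const 1))).add (PB.const 1))
    fun a j y hj hy => sz_vec_le fun e => (hy e).trans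
      (Nat.pow_le_pow_right (by norm_num) (by gcongr))).of_enc fun _ => rfl

theorem samp_eq (R : Raw) (ts : List Tab) (u : List Bool) :
    R.samp ts u = (foldT (fun (s : Un × (R.E → ℤ)) v =>
      ((⟨s.1.n + 1⟩ : Un), R.run s.1.n (ts.getD s.1.n []) s.2 v)) (R.Tn * R.Bs) ts.length
      (⟨0⟩, R.init (u.take (R.nE * R.ℓ))) (u.drop (R.nE * R.ℓ))).2 := by
  unfold Raw.samp
  exact congrArg Prod.snd (foldT_sim (fun s : Un × (R.E → ℤ) => (s.1.n, s.2)) (fun _ _ => rfl)
    _ _ (⟨0⟩, R.init (u.take (R.nE * R.ℓ))) _)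

theorem p_samp (hR : Poly R) (hts : Poly ts) (hu : Poly u) :
    Poly fun a => List.ofFn ((R a).samp (ts a) (u a)) := by
  obtain ⟨K, hK, hKb⟩ := exists_prop_bound
  have c : Poly fun p : (Σ a, Un × ((R a).E → ℤ)) × List Bool => p.1.1 := Poly.id'.fst.sigmaFst
  have c1 : Poly fun p : (Σ a, Un × ((R a).E → ℤ)) × List Bool => p.1.2.1 :=
    (Poly.sigmaSnd_enc Poly.id'.fst).left.of_enc fun _ => rfl
  have c2 : Poly fun p : (Σ a, Un × ((R a).E → ℤ)) × List Bool => List.ofFn p.1.2.2 :=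
    (Poly.sigmaSnd_enc Poly.id'.fst).right.of_enc fun _ => rfl
  have hn := (p_nE hR).mul (p_ℓ hR)
  have hx := p_init hR (Poly.take hn hu)
  simp only [samp_eq]
  refine (foldT_dep (σ := fun a => Un × ((R a).E → ℤ))
    (step := fun a s v => ((⟨s.1.n + 1⟩ : Un), (R a).run s.1.n ((ts a).getD s.1.n []) s.2 v))
    (B := fun a => (R a).Tn * (R a).Bs) (t := fun a => (ts a).length)
    (s := fun a => (⟨0⟩, (R a).init ((u a).take ((R a).nE * (R a).ℓ))))
    (u := fun a => (u a).drop ((R a).nE * (R a).ℓ))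
    (S := fun a => 2 * (ts a).length + 1 + ((R a).nE *
      (8 * (2 * sz (List.ofFn ((R a).init ((u a).take ((R a).nE * (R a).ℓ)))) +
        (ts a).length * ((R a).Tn * K (R a))) + 16 + 1) + 1) + 1)
    (((Poly.unMk (c1.unVal.add (cst 1)) ((PB.unVal c1).add (PB.const 1))).pair
      (p_run (R := fun p : (Σ a, Un × ((R a).E → ℤ)) × List Bool => R p.1.1)
        (x := fun p => p.1.2.2) (hR.comp c) c1.unVal (PB.unVal c1)
        ((hts.comp c).listGetD c1.unVal (cst [])) c2 Poly.id'.snd)).of_enc fun _ => rfl)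
    ((p_Tn hR).mul (p_Bs hR)) hts.length (PB.length hts)
    (((cst (⟨0⟩ : Un)).pair hx).of_enc fun _ => rfl) (Poly.drop hn hu)
    (fun a j y => y.1.n = j ∧ ∀ e, ht (y.2 e) ≤
      2 ^ (2 * sz (List.ofFn ((R a).init ((u a).take ((R a).nE * (R a).ℓ)))) +
        j * ((R a).Tn * K (R a))))
    (fun a => ⟨rfl, fun e => by simpa using ht_vec_le _ e⟩)
    (fun a j y v hy => ⟨by rw [← hy.1], fun e => by
      rw [Nat.succ_mul j, ← add_assoc]
      exact ht_run (hKb _) _ _ hy.2 v e⟩)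
    (((((PB.const 2).mul (PB.length hts)).add (PB.const 1)).add
      (((b_nE hR).mul ((((PB.const 8).mul (((PB.const 2).mul hx.pb_sz).add
        ((PB.length hts).mul ((b_Tn hR).mul (hK.comp hR))))).add (PB.const 16)).add
          (PB.const 1))).add (PB.const 1))).add (PB.const 1))
    fun a j y hj hy => ?_).right.of_enc fun _ => rfl
  rw [sz_prod, sz_un, hy.1]
  refine Nat.add_le_add_right (Nat.add_le_add (by omega) (sz_vec_le fun e => (hy.2 e).trans
    (Nat.pow_le_pow_right (by norm_num) (by gcongr)))) 1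

theorem p_cnt (hR : Poly R) (hts : Poly ts) (hu : Poly u) (hU : Poly fun a => (U a : ℕ))
    (hH : Poly fun a => (H a : ℕ)) :
    Poly fun a => (R a).cnt (draws ((R a).samp (ts a)) (R a).Bsamp (R a).Rs (u a)) (U a) (H a) := by
  have c : Poly fun p : α × List Bool => p.1 := Poly.id'.fst
  refine ((poly_chunks (p_Bsamp hR) (p_Rs hR) (b_Rs hR) hu).countP
    (f := fun a v => decide ((R a).G.dv ((R a).samp (ts a) v) = (R a).βf + dl (H a) - dl (U a)))
    (p_cls (R := fun p : α × List Bool => R p.1) (x := fun p => (R p.1).samp (ts p.1) p.2)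
      (U := fun p => U p.1) (H := fun p => H p.1) (hR.comp c)
      (p_samp (hR.comp c) (hts.comp c) Poly.id'.snd) (hU.comp c) (hH.comp c))).congr fun a => ?_
  rw [Raw.cnt, draws, List.countP_map]
  rfl

end vec

/-- The new list of tables. -/
def st1 (R : Raw) (ts : List Tab) (u : List Bool) : List Tab := (R.stage (ts, 0) u).1

/-- The new factor of the estimate. -/
def fac (R : Raw) (ts : List Tab) (u : List Bool) : ℚ :=
  ((draws (R.samp ts) R.Bsamp R.Rs u).map fun x =>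
    if R.G.dv x = R.βf then R.Φ ts.length x / R.Φ (ts.length - 1) x else 0).sum /
      R.cnt (draws (R.samp ts) R.Bsamp R.Rs u) R.star R.star

theorem foldT_stage (R : Raw) (B j : ℕ) (ts : List Tab) (q : ℚ) (u : List Bool) :
    foldT R.stage B j (ts, q) u = (foldT (st1 R) B j ts u,
      q * ∏ i ∈ Finset.range j, fac R (foldT (st1 R) B i ts u) (blk B i u)) := by
  induction j with
  | zero => simp [foldT_zero]
  | succ j ih =>
    rw [foldT_succ, ih, foldT_succ, Finset.prod_range_succ, ← mul_assoc]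
    refine Prod.ext rfl ?_
    simp only [Raw.stage, fac, mul_div_assoc]

section stage
variable {ts : α → List Tab} {u : α → List Bool}

theorem p_fac (hR : Poly R) (hts : Poly ts) (hu : Poly u) :
    Poly fun a => fac (R a) (ts a) (u a) := by
  have c : Poly fun p : α × List Bool => p.1 := Poly.id'.fst
  have hx := p_samp (R := fun p : α × List Bool => R p.1) (hR.comp c) (hts.comp c) Poly.id'.snd
  refine Poly.ratDiv (Poly.listSum ?_) (p_cnt hR hts hu (p_star hR) (p_star hR)).natCastRat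
  refine ((poly_chunks (p_Bsamp hR) (p_Rs hR) (b_Rs hR) hu).map
    (f := fun a v => if (R a).G.dv ((R a).samp (ts a) v) = (R a).βf then
      (R a).Φ (ts a).length ((R a).samp (ts a) v) /
        (R a).Φ ((ts a).length - 1) ((R a).samp (ts a) v) else 0)
    (Poly.ite (p_cls0 (hR.comp c) hx) (Poly.ratDiv
      (p_Φ (hR.comp c) (hts.comp c).length (PB.length (hts.comp c)) hx)
      (p_Φ (hR.comp c) ((hts.comp c).length.sub (cst 1)) ((PB.length (hts.comp c)).sub _) hx))
      (cst 0))).congr fun a => ?_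
  rw [draws, List.map_map]
  rfl

theorem p_st1 (hR : Poly R) (hts : Poly ts) (hu : Poly u) :
    Poly fun a => st1 (R a) (ts a) (u a) := by
  refine hts.append (Poly.cons (Poly.ofFn (p_nV hR) (b_nV hR)
    (Poly.ofFn (p_nV (hR.comp ctx)) (b_nV (hR.comp ctx)) ?_)) (cst []))
  have c := (ctx (n := fun a => (R a).nV + 1)).comp
    (ctx (n := fun p : Σ a, Fin ((R a).nV + 1) => (R p.1).nV + 1))
  have hU := (idx (n := fun a => (R a).nV + 1)).comp
    (ctx (n := fun p : Σ a, Fin ((R a).nV + 1) => (R p.1).nV + 1))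
  have hH := idx (n := fun p : Σ a, Fin ((R a).nV + 1) => (R p.1).nV + 1)
  have hR2 := hR.comp c
  have ht2 := hts.comp c
  have hu2 := hu.comp c
  exact ((p_tv (ht2.listGetD (ht2.length.sub (cst 1)) (cst [])) hU hH).ratMul
    (p_cnt hR2 ht2 hu2 (p_star hR2) (p_star hR2)).natCastRat).ratDiv
    (p_cnt hR2 ht2 hu2 hU hH).natCastRat

end stage

theorem ht_natCast (n : ℕ) : ht (n : ℚ) ≤ 2 ^ n := by
  rw [ht_rat]
  simpa using Nat.lt_two_pow_self (n := n)

theorem ht_inv (q : ℚ) : ht q⁻¹ ≤ ht q := by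
  rw [ht_rat, ht_rat, Rat.num_inv, Rat.den_inv]
  split_ifs with h
  · simp [h, Nat.one_le_iff_ne_zero]
  · rw [Int.natAbs_mul, Int.natAbs_sign_of_ne_zero h]
    simp [add_comm]

theorem ht_natCast_le {n N : ℕ} (h : n ≤ N) : ht (n : ℚ) ≤ 2 ^ N :=
  (ht_natCast n).trans (Nat.pow_le_pow_right (by norm_num) h)

/-- The shape and the height of a table. -/
def TabOK (n k : ℕ) (t : Tab) : Prop :=
  t.length ≤ n ∧ ∀ r ∈ t, r.length ≤ n ∧ ∀ z ∈ r, ht z ≤ 2 ^ k

theorem TabOK.mono {n k k' : ℕ} {t : Tab} (h : TabOK n k t) (hk : k ≤ k') : TabOK n k' t :=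
  ⟨h.1, fun r hr => ⟨(h.2 r hr).1, fun z hz =>
    ((h.2 r hr).2 z hz).trans (Nat.pow_le_pow_right (by norm_num) hk)⟩⟩

theorem TabOK.ofFn {n k : ℕ} {f : Fin n → Fin n → ℚ} (h : ∀ i j, ht (f i j) ≤ 2 ^ k) :
    TabOK n k (List.ofFn fun i => List.ofFn fun j => f i j) := by
  refine ⟨by simp, fun r hr => ?_⟩
  obtain ⟨i, rfl⟩ := List.mem_ofFn.1 hr
  refine ⟨by simp, fun z hz => ?_⟩
  obtain ⟨j, rfl⟩ := List.mem_ofFn.1 hz
  exact h i j

theorem TabOK.sz_le {n k : ℕ} {t : Tab} (h : TabOK n k t) :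
    sz t ≤ n * (n * (8 * k + 16 + 1) + 1 + 1) + 1 := by
  refine (sz_list_le (B := n * (8 * k + 16 + 1) + 1) fun r hr => ?_).trans (by gcongr; exact h.1)
  exact (sz_list_le (B := 8 * k + 16) fun z hz => PArith.sz_le _ _ ((h.2 r hr).2 z hz)).trans
    (by gcongr; exact (h.2 r hr).1)

theorem getD_mem_or {β : Type} (l : List β) (i : ℕ) (d : β) : l.getD i d ∈ l ∨ l.getD i d = d := by
  by_cases h : i < l.length
  · exact Or.inl (by rw [List.getD_eq_getElem _ _ h]; exact List.getElem_mem h)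
  · exact Or.inr (List.getD_eq_default _ _ (not_lt.1 h))

theorem ht_tv {R : Raw} {n k : ℕ} {ts : List Tab} (h : ∀ t ∈ ts, TabOK n k t) (j : ℕ)
    (U H : R.V) : ht (R.tv (ts.getD j []) U H) ≤ 2 ^ k := by
  have h0 : ht (0 : ℚ) ≤ 2 ^ k := Nat.one_le_two_pow
  unfold Raw.tv
  rcases getD_mem_or ((ts.getD j []).getD U []) H 0 with h1 | h1
  · rcases getD_mem_or (ts.getD j []) U [] with h2 | h2
    · rcases getD_mem_or ts j [] with h3 | h3
      · exact ((h _ h3).2 _ h2).2 _ h1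
      · rw [h3] at h2
        simp at h2
    · rw [h2] at h1
      simp at h1
  · rw [h1]
    exact h0

theorem cnt_le (R : Raw) (g : List Bool → R.E → ℤ) (B : ℕ) (u : List Bool) (U H : R.V) :
    R.cnt (draws g B R.Rs u) U H ≤ R.Rs :=
  List.countP_le_length.trans (length_draws ..).le

theorem p_tabs {j : α → ℕ} {u : α → List Bool} (hR : Poly R) (hj : Poly j) (bj : PB j)
    (hu : Poly u) : Poly fun a => foldT (st1 (R a)) (R a).Bstage (j a) [(R a).t0] (u a) := by
  have c : Poly fun p : (α × List Tab) × List Bool => p.1.1 := Poly.id'.fst.fst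
  have bn := b_nV hR
  have bR := b_Rs hR
  refine poly_foldT (step := fun a => st1 (R a))
    (S := fun a => (j a + 1) * (((R a).nV + 1) * (((R a).nV + 1) *
      (8 * (1 + j a * ((R a).Rs + (R a).Rs)) + 16 + 1) + 1 + 1) + 1 + 1) + 1)
    (p_st1 (hR.comp c) Poly.id'.fst.snd Poly.id'.snd) (p_Bstage hR) hj bj
    ((p_t0 hR).cons (cst [])) hu
    (fun a i ts => ts.length = i + 1 ∧
      ∀ t ∈ ts, TabOK ((R a).nV + 1) (1 + i * ((R a).Rs + (R a).Rs)) t)
    (fun a => ⟨rfl, fun t ht' => ?_⟩) (fun a i ts v _ _ h => ⟨?_, fun t ht' => ?_⟩)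
    (((bj.add (PB.const 1)).mul (((bn.mul (((bn.mul ((((PB.const 8).mul ((PB.const 1).add
      (bj.mul (bR.add bR)))).add (PB.const 16)).add (PB.const 1))).add (PB.const 1)).add
        (PB.const 1))).add (PB.const 1)).add (PB.const 1))).add (PB.const 1))
    fun a i ts hi h => ?_
  · rw [List.mem_singleton.1 ht']
    exact TabOK.ofFn fun _ _ => by simp [ht_rat]
  · simp [st1, Raw.stage, h.1]
  · rcases List.mem_append.1 ht' with h1 | h1
    · exact (h.2 t h1).mono (by rw [Nat.succ_mul]; omega)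
    · rw [List.mem_singleton.1 h1]
      refine TabOK.ofFn fun U H => ?_
      rw [div_eq_mul_inv, Nat.succ_mul, ← add_assoc, ← add_assoc, pow_add, pow_add]
      exact (ht_mul _ _).trans (Nat.mul_le_mul ((ht_mul _ _).trans (Nat.mul_le_mul
        (ht_tv h.2 _ U H) (ht_natCast_le (cnt_le ..)))) ((ht_inv _).trans
          (ht_natCast_le (cnt_le ..))))
  · refine (sz_list_le fun t ht' => ((h.2 t ht').mono
      (k' := 1 + j a * ((R a).Rs + (R a).Rs)) (by gcongr)).sz_le).trans ?_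
    rw [h.1]
    gcongr

theorem p_est {u : α → List Bool} (hR : Poly R) (hu : Poly u) :
    Poly fun a => (R a).est (u a) := by
  have c : Poly fun p : α × Un => p.1 := Poly.id'.fst
  have c2 : Poly fun p : α × Un => p.2 := Poly.id'.snd
  refine ((p_PA hR).natCastRat.ratMul (Poly.prod_range
    (f := fun a i => fac (R a) (foldT (st1 (R a)) (R a).Bstage i [(R a).t0] (u a))
      (blk (R a).Bstage i (u a))) (p_Ls hR) (b_Ls hR)
    (p_fac (hR.comp c) (p_tabs (hR.comp c) c2.unVal (PB.unVal c2) (hu.comp c))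
      (poly_blk (p_Bstage (hR.comp c)) c2.unVal (hu.comp c))))).congr fun a => ?_
  rw [Raw.est, foldT_stage]

end Impl

theorem pb_Btot : PB fun R : Raw => R.Btot := Impl.b_Btot Poly.id'

theorem poly_est : Poly fun p : Raw × List Bool => p.1.est p.2 :=
  Impl.p_est Poly.id'.fst Poly.id'.snd

end Crest.Agent.R309
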