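import Crest.Agent.R309.Pre
import Crest.Agent.R309.Anneal
import Crest.Agent.R309.Impl

/-!
# Row 309: approximate counting of integer flows
-/

set_option autoImplicit false

namespace Crest.Agent.R309

open Crest.Agent.Lib.PolyTime

theorem exists_est : ∃ (Est : (NetL × Un) × List Bool → ℚ) (p : Polynomial ℕ), Poly Est ∧
    ∀ (N : NetL) (κ : Un), N.WF → 1 ≤ κ.n →
      (∀ u, 0 ≤ Est ((N, κ), u)) ∧ (N.flows = ∅ → ∀ u, Est ((N, κ), u) = 0) ∧
      ∀ n, p.eval (sz (N, κ)) ≤ n → 31 / 32 ≤
        Pr n fun u => |(Est ((N, κ), u) : ℝ) - N.flows.card| ≤ N.flows.card / κ.n := by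
  obtain ⟨pre, hpre, hspec⟩ := exists_pre
  have hP : Poly fun a : (NetL × Un) × List Bool =>
      (pre a.1).elim (0 : ℚ) fun R => R.est a.2 := by
    refine Poly.optionElim (o := fun a : (NetL × Un) × List Bool => pre a.1)
      (f := fun _ => (0 : ℚ)) (g := fun a R => R.est a.2) (by fun_prop) (by fun_prop) ?_
    exact poly_est.comp (g := fun p : ((NetL × Un) × List Bool) × Raw => (p.2, p.1.2))
      (by fun_prop)
  have hB : PB fun a : NetL × Un => (pre a).elim 0 fun R => R.Btot := by
    obtain ⟨q, hq⟩ := pb_Btot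
    refine (PB.eval hpre.pb_sz q).mono fun a => ?_
    cases h : pre a with
    | none => simp
    | some R =>
      refine (hq R).trans (eval_mono q ?_)
      simp
  obtain ⟨p, hp⟩ := hB
  refine ⟨_, p, hP, fun N κ hN hκ => ?_⟩
  obtain ⟨h0, h1⟩ := hspec N κ hN hκ
  cases h : pre (N, κ) with
  | none =>
    refine ⟨fun u => by simp [h], fun _ u => by simp [h], fun n _ => ?_⟩
    have : Pr n (fun u => |(((pre ((N, κ), u).1).elim (0 : ℚ) fun R => R.est u : ℚ) : ℝ) -
        N.flows.card| ≤ N.flows.card / κ.n) = 1 := by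
      unfold Pr
      rw [Ex_congr (G := fun _ => 1) fun u _ => ind_true (by simp [h, h0 h]), Ex_const]
    rw [this]; norm_num
  | some R =>
    obtain ⟨hV, hc⟩ := h1 R h
    refine ⟨fun u => by simpa [h] using Raw.est_nonneg hV u, fun he => ?_, fun n hn => ?_⟩
    · exfalso
      have : R.flows.card = 0 := by rw [hc, he]; rfl
      rw [Finset.card_eq_zero] at this
      have hm := Raw.cf_mem_flows hV
      rw [this] at hm
      simp at hm
    · have hb : R.Btot ≤ n := by
        have := hp (N, κ)
        simp only [h, Option.elim] at this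
        exact this.trans hn
      have := Raw.est_good hV hb
      rw [hc] at this
      simpa [h] using this

end Crest.Agent.R309
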