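import Mathlib

/-!
# Row 309: two one-dimensional lemmas
-/

set_option autoImplicit false

namespace Crest.Agent.R309

open Finset

namespace Couple

/-- tail sums -/
noncomputable def tail (S : Finset ℤ) (p : ℤ → ℝ) (k : ℤ) : ℝ := ∑ i ∈ S, if k ≤ i then p i else 0

theorem tail_eq {lo hi : ℤ} {p : ℤ → ℝ} (hp0 : ∀ k, k < lo ∨ hi < k → p k = 0) (k : ℤ) :
    tail (Icc lo hi) p k = p k + tail (Icc lo hi) p (k + 1) := by
  have h1 : ∀ i, (if k ≤ i then p i else 0) =
      (if k = i then p i else 0) + if k + 1 ≤ i then p i else 0 := fun i => by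
    split_ifs <;> first | omega | simp
  unfold tail
  simp only [h1, sum_add_distrib, sum_ite_eq]
  congr 1
  split_ifs with h
  · rfl
  · rw [mem_Icc] at h
    exact (hp0 k (by omega)).symm

theorem tail_le {S : Finset ℤ} {p q : ℤ → ℝ} (hp1 : ∑ k ∈ S, p k = 1) (hq1 : ∑ k ∈ S, q k = 1)
    (h1 : ∀ i j, i ≤ j → p j * q i ≤ p i * q j) (k : ℤ) : tail S p k ≤ tail S q k := by
  have e : ∀ p : ℤ → ℝ, ∑ i ∈ S, p i = 1 →
      ∑ i ∈ S, (if k ≤ i then 0 else p i) = 1 - tail S p k := fun p hp => by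
    rw [← hp, tail, ← sum_sub_distrib]
    exact sum_congr rfl fun i _ => by split_ifs <;> simp
  have h : (∑ j ∈ S, if k ≤ j then p j else 0) * ∑ i ∈ S, (if k ≤ i then 0 else q i) ≤
      (∑ j ∈ S, if k ≤ j then q j else 0) * ∑ i ∈ S, (if k ≤ i then 0 else p i) := by
    rw [sum_mul_sum, sum_mul_sum]
    refine sum_le_sum fun j _ => sum_le_sum fun i _ => ?_
    split_ifs with h2 h3 h3
    · simp
    · rw [mul_comm (q j)]
      exact h1 i j (by omega)
    · simp
    · simp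
  rw [e p hp1, e q hq1] at h
  unfold tail at h ⊢
  nlinarith

theorem sum_Ico_sub_eq (g : ℤ → ℝ) {a b : ℤ} (h : a ≤ b) :
    ∑ j ∈ Ico a b, (g (j + 1) - g j) = g b - g a := by
  induction b, h using Int.leInduction with
  | base => simp
  | succ b hb ih =>
    rw [← insert_Ico_right_eq_Ico_add_one hb, sum_insert right_notMem_Ico, ih]
    ring

theorem path_le {lo hi a b : ℤ} {z g : ℤ → ℝ} (hz : ∀ k, 0 ≤ z k) (ha : lo ≤ a) (hab : a ≤ b)
    (hb : b ≤ hi) {w : ℝ} (hw0 : 0 ≤ w) (hw : ∀ j, a ≤ j → j ≤ b → w ≤ z j) :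
    w * (g b - g a) ^ 2 ≤ ((hi - lo + 1 : ℤ) : ℝ) *
      ∑ k ∈ Ico lo hi, min (z k) (z (k + 1)) * (g (k + 1) - g k) ^ 2 := by
  have hc : ((Ico a b).card : ℝ) ≤ ((hi - lo + 1 : ℤ) : ℝ) := by
    have : ((Ico a b).card : ℤ) ≤ hi - lo + 1 := by
      rw [Int.card_Ico]
      omega
    exact_mod_cast this
  calc w * (g b - g a) ^ 2 ≤ w * ((Ico a b).card * ∑ j ∈ Ico a b, (g (j + 1) - g j) ^ 2) := by
        rw [← sum_Ico_sub_eq g hab]
        exact mul_le_mul_of_nonneg_left sq_sum_le_card_mul_sum_sq hw0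
    _ = (Ico a b).card * ∑ j ∈ Ico a b, w * (g (j + 1) - g j) ^ 2 := by
        rw [← mul_sum]
        ring
    _ ≤ _ := by
        refine mul_le_mul hc ?_ (sum_nonneg fun _ _ => by positivity)
          ((Nat.cast_nonneg _).trans hc)
        refine le_trans (sum_le_sum fun j hj => ?_) (sum_le_sum_of_subset_of_nonneg
          (Ico_subset_Ico ha hb) fun j _ _ => mul_nonneg (le_min (hz _) (hz _)) (sq_nonneg _))
        rw [mem_Ico] at hj
        exact mul_le_mul_of_nonneg_right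
          (le_min (hw j hj.1 hj.2.le) (hw (j + 1) (by omega) (by omega))) (sq_nonneg _)

end Couple

open Couple

set_option linter.unusedVariables false in
/-- Likelihood-ratio orderings `p ≼ q ≼ p + 1` give a coupling in which the second variable equals
the first one (`s`) or the first one plus one (`m`). -/
theorem exists_coupling {lo hi : ℤ} {p q : ℤ → ℝ} (hp : ∀ k, 0 ≤ p k) (hq : ∀ k, 0 ≤ q k)
    (hp0 : ∀ k, k < lo ∨ hi < k → p k = 0) (hq0 : ∀ k, k < lo ∨ hi < k → q k = 0)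
    (hp1 : ∑ k ∈ Icc lo hi, p k = 1) (hq1 : ∑ k ∈ Icc lo hi, q k = 1)
    (h1 : ∀ i j, i ≤ j → p j * q i ≤ p i * q j)
    (h2 : ∀ i j, i ≤ j → p i * q (j + 1) ≤ p j * q (i + 1)) :
    ∃ s m : ℤ → ℝ, (∀ k, 0 ≤ s k) ∧ (∀ k, 0 ≤ m k) ∧ (∀ k, p k = s k + m k) ∧
      ∀ k, q k = s k + m (k - 1) := by
  refine ⟨fun k => tail (Icc lo hi) p k - tail (Icc lo hi) q (k + 1),
    fun k => tail (Icc lo hi) q (k + 1) - tail (Icc lo hi) p (k + 1), fun k => ?_, fun k => ?_,
    fun k => ?_, fun k => ?_⟩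
  · have hsub : Icc lo hi ⊆ Icc (lo - 1) hi := Icc_subset_Icc_left (by omega)
    have e1 : ∀ φ : ℤ → Prop, ∀ [DecidablePred φ],
        ∑ i ∈ Icc (lo - 1) hi, (if φ i then p i else 0) =
          ∑ i ∈ Icc lo hi, if φ i then p i else 0 := fun φ _ => by
      refine (sum_subset hsub fun i _ hi' => ?_).symm
      rw [mem_Icc] at hi'
      rw [hp0 i (by omega), ite_self]
    have e2 : ∀ φ : ℤ → Prop, ∀ [DecidablePred φ],
        ∑ i ∈ Icc (lo - 1) hi, (if φ (i + 1) then q (i + 1) else 0) =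
          ∑ i ∈ Icc lo hi, if φ i then q i else 0 := fun φ _ => by
      have h3 : ∑ i ∈ Icc (lo - 1) hi, (if φ (i + 1) then q (i + 1) else 0) =
          ∑ i ∈ Icc lo (hi + 1), if φ i then q i else 0 :=
        sum_bij' (fun i _ => i + 1) (fun i _ => i - 1)
          (fun i hi => by rw [mem_Icc] at hi ⊢; omega) (fun i hi => by rw [mem_Icc] at hi ⊢; omega)
          (fun i _ => by simp) (fun i _ => by simp) fun i _ => rfl
      rw [h3]
      refine (sum_subset (Icc_subset_Icc_right (by omega)) fun i _ hi' => ?_).symm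
      rw [mem_Icc] at hi'
      rw [hq0 i (by omega), ite_self]
    have h := tail_le (S := Icc (lo - 1) hi) (p := fun i => q (i + 1)) (q := p)
      (by simpa [hq1] using e2 fun _ => True) (by simpa [hp1] using e1 fun _ => True)
      (fun i j hij => by simpa only [mul_comm] using h2 i j hij) k
    have e3 := e2 fun i => k + 1 ≤ i
    simp only [add_le_add_iff_right] at e3
    unfold tail at h ⊢
    rw [e1 fun i => k ≤ i, e3] at h
    exact sub_nonneg.2 h
  · exact sub_nonneg.2 (tail_le hp1 hq1 h1 _)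
  · simp only [tail_eq hp0 k]
    ring
  · simp only [tail_eq hq0 k, sub_add_cancel]
    ring

/-- Poincaré inequality for a unimodal weight on an interval of integers. -/
theorem poincare_1d {lo hi : ℤ} (hle : lo ≤ hi) {z g : ℤ → ℝ} (hz : ∀ k, 0 ≤ z k)
    (huni : ∀ i j k, lo ≤ i → i ≤ j → j ≤ k → k ≤ hi → min (z i) (z k) ≤ z j) :
    ∃ c : ℝ, ∑ k ∈ Icc lo hi, z k * (g k - c) ^ 2 ≤
      ((hi - lo + 1 : ℤ) : ℝ) ^ 2 *
        ∑ k ∈ Ico lo hi, min (z k) (z (k + 1)) * (g (k + 1) - g k) ^ 2 := by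
  obtain ⟨c, hc, hmax⟩ := exists_max_image (Icc lo hi) z (nonempty_Icc.2 hle)
  rw [mem_Icc] at hc
  refine ⟨g c, ?_⟩
  have h : ∀ k ∈ Icc lo hi, z k * (g k - g c) ^ 2 ≤ ((hi - lo + 1 : ℤ) : ℝ) *
      ∑ k ∈ Ico lo hi, min (z k) (z (k + 1)) * (g (k + 1) - g k) ^ 2 := fun k hk => by
    have hk' := mem_Icc.1 hk
    rcases le_total c k with h | h
    · refine path_le hz hc.1 h hk'.2 (hz k) fun j h1 h2 => ?_
      have := huni c j k hc.1 h1 h2 hk'.2
      rwa [min_eq_right (hmax k hk)] at this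
    · rw [sub_sq_comm]
      refine path_le hz hk'.1 h hc.2 (hz k) fun j h1 h2 => ?_
      have := huni k j c hk'.1 h1 h2 hc.2
      rwa [min_eq_left (hmax k hk)] at this
  refine (sum_le_card_nsmul _ _ _ h).trans (le_of_eq ?_)
  have : ((Icc lo hi).card : ℝ) = ((hi - lo + 1 : ℤ) : ℝ) := by
    have : ((Icc lo hi).card : ℤ) = hi - lo + 1 := by
      rw [Int.card_Icc]
      omega
    exact_mod_cast this
  rw [nsmul_eq_mul, this]
  ring

end Crest.Agent.R309
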