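import Crest.Agent.R309.EndsAux

/-!
# Row 309: the first and the last stage of the annealing
-/

set_option autoImplicit false

namespace Crest.Agent.R309.Raw

open Finset Ends

variable {R : Raw} {κ : ℕ}

theorem two_Am_pos (h : R.Valid κ) {e : R.E} (he : R.kd e = 3) : 0 < 2 * R.Am e := by
  obtain ⟨j, -, hj⟩ := h.A_pow e he
  rw [hj]
  positivity

theorem PA_pos (h : R.Valid κ) : 0 < R.PA := by
  refine prod_pos fun e _ => ?_
  split_ifs with he
  · exact two_Am_pos h he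
  · exact Nat.one_pos

theorem mem_fib8 (h : R.Valid κ) (i : ℕ) (γ : R.V → ℤ) (x : R.E → ℤ) :
    x ∈ fib R.G (W h i 8) γ ↔ x ∈ R.box 8 ∧ R.G.dv x = γ := mem_fib _ _ _ _

theorem pow_le_aux (h : R.Valid κ) : (1 + 2 / (R.m : ℝ)) ^ R.nE ≤ 1 + 1 / (20 * (κ : ℝ)) := by
  have hm : (4000 : ℝ) ≤ R.m := by exact_mod_cast m_ge' h
  have hκ : (1 : ℝ) ≤ κ := by exact_mod_cast h.one_le
  have hmE := m_geE h
  have hE0 : (0 : ℝ) ≤ R.nE := Nat.cast_nonneg _
  have h1 : (R.nE : ℝ) * (2 / R.m) ≤ 1 / (40 * κ) := by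
    rw [← mul_div_assoc, div_le_div_iff₀ (by positivity) (by positivity)]
    nlinarith
  have h2 : 1 / (40 * (κ : ℝ)) ≤ 1 := div_le_one_of_le₀ (by linarith) (by positivity)
  have h3 := Real.abs_exp_sub_one_le (x := 1 / (40 * (κ : ℝ)))
    (by rwa [abs_of_nonneg (by positivity)])
  rw [abs_of_nonneg (a := 1 / (40 * (κ : ℝ))) (by positivity)] at h3
  calc (1 + 2 / (R.m : ℝ)) ^ R.nE ≤ Real.exp (2 / R.m) ^ R.nE :=
        pow_le_pow_left₀ (by positivity) (by linarith [Real.add_one_le_exp (2 / (R.m : ℝ))]) _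
    _ ≤ Real.exp (1 / (40 * κ)) := by
        rw [← Real.exp_nat_mul]
        exact Real.exp_le_exp.2 h1
    _ ≤ 1 + 2 * (1 / (40 * (κ : ℝ))) := by linarith [le_abs_self (Real.exp (1 / (40 * κ)) - 1)]
    _ = _ := by field_simp; ring

set_option linter.unusedVariables false in
theorem init_upper (h : R.Valid κ) {U H : R.V} (hU : R.rt U = U) (hH : R.rt H = H) :
    Zc h 0 8 U H ≤ (1 + 1 / (20 * (κ : ℝ))) * R.PA := by
  obtain ⟨p, hp⟩ : ∃ p : (R.E → ℤ) → R.E → ℤ,
      ∀ x e, p x e = if R.kd e = 0 ∨ R.kd e = 3 then x e else 0 := ⟨_, fun _ _ => rfl⟩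
  obtain ⟨g, hg⟩ : ∃ g : R.E → ℤ → ℝ,
      ∀ e k, g e k = if R.kd e = 0 ∨ R.kd e = 3 then (R.φ 0 e k : ℝ) else 1 := ⟨_, fun _ _ => rfl⟩
  obtain ⟨t, ht⟩ : ∃ t : R.E → Finset ℤ, ∀ e, t e = if R.kd e = 0 ∨ R.kd e = 3 then
      Icc (R.lf e - (8 : ℕ) * R.Dm e) (R.uf e + (8 : ℕ) * R.Dm e) else {0} := ⟨_, fun _ => rfl⟩
  obtain ⟨S, hS⟩ : ∃ S, S = fib R.G (W h 0 8) (R.βf + dl H - dl U) := ⟨_, rfl⟩
  have hS' : ∀ x ∈ S, x ∈ R.box 8 ∧ R.G.dv x = R.βf + dl H - dl U := fun x hx =>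
    (mem_fib8 h 0 _ x).1 (hS ▸ hx)
  have hg0 : ∀ e k, 0 ≤ g e k := fun e k => by
    rw [hg]
    split_ifs
    · exact_mod_cast φ_nonneg h 0 e k
    · exact zero_le_one
  have hinj : Set.InjOn p S := fun x hx y hy hxy => by
    obtain ⟨x1, x2⟩ := hS' x hx
    obtain ⟨y1, y2⟩ := hS' y hy
    refine eq_of_class h x1 y1 (x2.trans y2.symm) fun e he => ?_
    simpa only [hp, if_pos he] using congrFun hxy e
  have hZ : Zc h 0 8 U H = ∑ x ∈ S, (W h 0 8).Φ x := by rw [hS]; rfl
  calc Zc h 0 8 U H ≤ ∑ x ∈ S, ∏ e, g e (p x e) := by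
        rw [hZ]
        refine sum_le_sum fun x _ => ?_
        rw [W8_Φ, Φ]
        push_cast
        refine prod_le_prod (fun e _ => by exact_mod_cast φ_nonneg h 0 e _) fun e _ => ?_
        rw [hg, hp]
        split_ifs
        · exact le_rfl
        · exact_mod_cast φ_le_one h 0 e _
    _ = ∑ y ∈ S.image p, ∏ e, g e (y e) :=
        (sum_image (f := fun y => ∏ e, g e (y e)) hinj).symm
    _ ≤ ∑ y ∈ Fintype.piFinset t, ∏ e, g e (y e) := by
        refine sum_le_sum_of_subset_of_nonneg (fun y hy => ?_)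
          fun y _ _ => prod_nonneg fun e _ => hg0 e _
        obtain ⟨x, hx, rfl⟩ := mem_image.1 hy
        refine Fintype.mem_piFinset.2 fun e => ?_
        rw [hp, ht]
        split_ifs
        · exact Fintype.mem_piFinset.1 (hS' x hx).1 e
        · exact mem_singleton_self _
    _ = ∏ e, ∑ k ∈ t e, g e k := (prod_univ_sum t g).symm
    _ ≤ ∏ e : R.E, ((if R.kd e = 3 then 2 * R.Am e else 1 : ℕ) : ℝ) * (1 + 2 / R.m) := by
        refine prod_le_prod (fun e _ => sum_nonneg fun k _ => hg0 e k) fun e _ => ?_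
        by_cases he : R.kd e = 0 ∨ R.kd e = 3
        · simp only [hg, if_pos he]
          exact sum_φ_le h he _
        · simp only [hg, ht, if_neg he, if_neg (not_or.1 he).2, sum_singleton, Nat.cast_one,
            one_mul]
          linarith [div_nonneg zero_le_two (Nat.cast_nonneg (α := ℝ) R.m)]
    _ = (1 + 2 / R.m) ^ R.nE * R.PA := by
        rw [prod_mul_distrib, PA, Nat.cast_prod, mul_comm]
        simp
    _ ≤ _ := mul_le_mul_of_nonneg_right (pow_le_aux h) (Nat.cast_nonneg _)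

theorem init_lower (h : R.Valid κ) {U H : R.V} (hU : R.rt U = U) (hH : R.rt H = H) :
    (1 - 1 / (20 * (κ : ℝ))) * R.PA ≤ Zc h 0 8 U H := by
  obtain ⟨x, hx1, hx2, hx3, -⟩ := exists_ref h hU hH
  set t : R.E → Finset ℤ := fun e => if R.kd e = 3 then Ico (-(R.Am e : ℤ)) (R.Am e) else {0}
    with ht
  have hs : ∀ s ∈ Fintype.piFinset t, ∀ e, |s e| ≤ R.Am e := fun s hs e => by
    have h1 := Fintype.mem_piFinset.1 hs e
    simp only [ht] at h1
    split_ifs at h1
    · rw [mem_Ico] at h1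
      exact abs_le.2 ⟨h1.1, h1.2.le⟩
    · rw [mem_singleton.1 h1, abs_zero]
      positivity
  have hcard : (Fintype.piFinset t).card = R.PA := by
    rw [Fintype.card_piFinset, PA]
    refine prod_congr rfl fun e _ => ?_
    simp only [ht]
    split_ifs
    · rw [Int.card_Ico]
      omega
    · rfl
  have hinj : Set.InjOn (fun s : R.E → ℤ => x + ∑ g, s g • R.Lv g) (Fintype.piFinset t) := by
    intro s hs1 s' hs2 hss
    funext e
    by_cases he : R.kd e = 2
    · have a1 := hs s hs1 e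
      have a2 := hs s' hs2 e
      simp only [Am, he, Nat.reduceEqDiff, if_false, Nat.cast_zero, abs_nonpos_iff] at a1 a2
      rw [a1, a2]
    · have h1 := congrFun (add_left_cancel hss) e
      rwa [sum_Lv_apply h s he, sum_Lv_apply h s' he] at h1
  calc (1 - 1 / (20 * (κ : ℝ))) * R.PA = (Fintype.piFinset t).card • (1 - 1 / (20 * (κ : ℝ))) := by
        rw [hcard, nsmul_eq_mul, mul_comm]
    _ ≤ ∑ s ∈ Fintype.piFinset t, (W h 0 8).Φ (x + ∑ g, s g • R.Lv g) :=
        card_nsmul_le_sum _ _ _ fun s hs1 => by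
          rw [W8_Φ]
          exact (pt_spec h hx2 hx3 (hs s hs1)).2.2
    _ = ∑ y ∈ (Fintype.piFinset t).image fun s : R.E → ℤ => x + ∑ g, s g • R.Lv g,
          (W h 0 8).Φ y := (sum_image hinj).symm
    _ ≤ _ := by
        refine sum_le_sum_of_subset_of_nonneg (fun y hy => ?_) fun y _ _ => (W h 0 8).Φ_nonneg y
        obtain ⟨s, hs1, rfl⟩ := mem_image.1 hy
        obtain ⟨a1, a2, -⟩ := pt_spec h hx2 hx3 (hs s hs1)
        exact (mem_fib _ _ _ _).2 ⟨a2, a1.trans hx1⟩

theorem inv_le (h : R.Valid κ) : 1 / (20 * (κ : ℝ)) ≤ 1 / 20 := by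
  have hκ : (1 : ℝ) ≤ κ := by exact_mod_cast h.one_le
  gcongr
  linarith

theorem tv_t0 (U H : R.V) : R.tv R.t0 U H = 1 := by
  have h1 : R.t0.getD U [] = List.ofFn fun _ : R.V => 1 := by
    unfold t0
    rw [List.getD_eq_getElem _ _ (by rw [List.length_ofFn]; exact U.2), List.getElem_ofFn]
  unfold tv
  rw [h1, List.getD_eq_getElem _ _ (by rw [List.length_ofFn]; exact H.2), List.getElem_ofFn]

theorem sum_ind_le (n : ℕ) (c : ℤ) : ∑ i ∈ range n, ind ((i : ℤ) = c) ≤ 1 := by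
  classical
  have : ∑ i ∈ range n, ind ((i : ℤ) = c) = ((range n).filter fun i : ℕ => (i : ℤ) = c).card := by
    rw [← sum_boole]
    refine sum_congr rfl fun i _ => ?_
    unfold ind
    congr
  rw [this, Nat.cast_le_one]
  refine card_le_one.2 fun a ha b hb => ?_
  have := (mem_filter.1 ha).2.trans (mem_filter.1 hb).2.symm
  exact_mod_cast this

theorem good_t0 (h : R.Valid κ) : Good h 0 R.t0 := by
  intro U H hU hH _
  have h1 := init_upper h hU hH
  have h2 := init_lower h hU hH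
  have h3 := init_upper h h.rt_star h.rt_star
  have h4 := init_lower h h.rt_star h.rt_star
  rw [Zc_self] at h3 h4
  have h5 := inv_le h
  have h6 : (0 : ℝ) ≤ 1 / (20 * (κ : ℝ)) := by positivity
  have h7 : (0 : ℝ) ≤ R.PA := Nat.cast_nonneg _
  rw [tv_t0, Rat.cast_one, one_mul]
  constructor <;> nlinarith

theorem init_mem (h : R.Valid κ) (u : List Bool) :
    R.init u ∈ R.Ω ∧ R.G.dv (R.init u) = R.βf ∧ 1 / 2 ≤ R.Φ 0 (R.init u) := by
  obtain ⟨a1, a2, a3⟩ := pt_spec h (x := R.cf) (s := fun e => if R.kd e = 3 then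
    ((toNat (blk R.ℓ e u) % (2 * R.Am e) : ℕ) : ℤ) - R.Am e else 0) (fun _ _ => rfl)
    (fun e => ⟨h.l_le_c e, h.c_le_u e⟩) fun e => by
      split_ifs with he
      · have := Nat.mod_lt (toNat (blk R.ℓ e u)) (two_Am_pos h he)
        rw [abs_le]
        omega
      · simp
  rw [h.dv_c] at a1
  refine ⟨?_, a1, ?_⟩
  · unfold Ω
    exact mem_filter.2 ⟨a2, R.star, R.star, h.rt_star, h.rt_star,
      a1.trans (add_sub_cancel_right _ _).symm⟩
  · have h1 : ((1 / 2 : ℚ) : ℝ) ≤ R.Φ 0 (R.init u) := by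
      refine le_trans ?_ a3
      push_cast
      linarith [inv_le h]
    exact_mod_cast h1

theorem init_law (h : R.Valid κ) (y : R.E → ℤ) :
    Pr (R.nE * R.ℓ) (fun u => R.init u = y) ≤ 1 / R.PA := by
  set F : R.E → List Bool → ℝ := fun e v => if R.kd e = 3 then
    ind (((toNat v % (2 * R.Am e) : ℕ) : ℤ) = y e - R.cf e + R.Am e) else 1 with hF
  have hF0 : ∀ e v, 0 ≤ F e v := fun e v => by
    simp only [hF]
    split_ifs
    · exact ind_nonneg _
    · exact zero_le_one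
  calc Pr (R.nE * R.ℓ) (fun u => R.init u = y)
      ≤ Ex (R.nE * R.ℓ) fun u => ∏ e : R.E, F e (blk R.ℓ e u) := by
        refine Ex_mono fun u _ => ?_
        by_cases hu : R.init u = y
        · refine (ind_true hu).trans_le (prod_eq_one fun e _ => ?_).ge
          simp only [hF]
          split_ifs with he
          · refine ind_true ?_
            rw [← hu, init, Pi.add_apply, sum_Lv_apply h _ (by omega), if_pos he]
            ring
          · rfl
        · exact (ind_false hu).trans_le (prod_nonneg fun e _ => hF0 e _)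
    _ = ∏ e : R.E, Ex R.ℓ (F e) := Ex_prod_blk le_rfl F
    _ ≤ ∏ e : R.E, 1 / ((if R.kd e = 3 then 2 * R.Am e else 1 : ℕ) : ℝ) := by
        refine prod_le_prod (fun e _ => Ex_nonneg fun v _ => hF0 e v) fun e _ => ?_
        by_cases he : R.kd e = 3
        · obtain ⟨j, hj, hj'⟩ := h.A_pow e he
          simp only [hF, if_pos he, hj']
          rw [Ex_toNat_mod hj fun i => ind ((i : ℤ) = y e - R.cf e + R.Am e)]
          push_cast
          gcongr
          exact_mod_cast sum_ind_le _ _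
        · simp [hF, he]
    _ = _ := by rw [PA, Nat.cast_prod, prod_div_distrib, prod_const_one]

/-- The initial state is a warm start for stage `0`. -/
theorem init_warm (h : R.Valid κ) {y : R.E → ℤ} (hy : y ∈ R.Ω) :
    Pr (R.nE * R.ℓ) (fun u => R.init u = y) * ∑ x ∈ R.Ω, (R.w 0 R.t0 x : ℝ) ≤
      R.m * R.w 0 R.t0 y := by
  by_cases hex : ∃ u, R.init u = y
  swap
  · have h1 : Pr (R.nE * R.ℓ) (fun u => R.init u = y) = 0 := by
      simp [Pr, fun u => ind_false (not_exists.1 hex u)]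
    rw [h1, zero_mul]
    exact mul_nonneg (Nat.cast_nonneg _) (by exact_mod_cast (w_pos (good_t0 h) hy).le)
  obtain ⟨u, rfl⟩ := hex
  obtain ⟨-, a1, a2⟩ := init_mem h u
  have h1 : (1 / 2 : ℝ) ≤ R.w 0 R.t0 (R.init u) := by
    rw [w_of_class h 0 R.t0 h.rt_star h.rt_star (a1.trans (add_sub_cancel_right _ _).symm),
      if_pos rfl, mul_one]
    have : ((1 / 2 : ℚ) : ℝ) ≤ R.Φ 0 (R.init u) := by exact_mod_cast a2
    simpa using this
  have h2 := (tot_bounds (good_t0 h)).2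
  have h3 := init_upper h h.rt_star h.rt_star
  rw [Zc_self] at h3
  have h4 := init_law h (R.init u)
  have hP : (0 : ℝ) < R.PA := by exact_mod_cast PA_pos h
  have h5 := inv_le h
  have h6 := m_geV h
  have h7 : Z0 h 0 ≤ 2 * R.PA := h3.trans (by gcongr; linarith)
  calc _ ≤ 1 / R.PA * (4 * ((R.nV : ℝ) + 1) ^ 2 * (2 * R.PA)) := by
        refine mul_le_mul h4 (h2.trans (by gcongr)) ((Z0_pos h 0).le.trans
          (tot_bounds (good_t0 h)).1) (by positivity)
    _ = 16 * ((R.nV : ℝ) + 1) ^ 2 * (1 / 2) := by field_simp; ring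
    _ ≤ _ := by
        gcongr
        nlinarith [sq_nonneg ((R.nV : ℝ) + 1)]

end Crest.Agent.R309.Raw
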