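import Crest.Agent.R309.Tail

/-!
# Row 309: auxiliary estimates for the initial stage
-/

set_option autoImplicit false

namespace Crest.Agent.R309.Raw.Ends

open Finset

theorem dst_nonneg (k a b : ℤ) : 0 ≤ dst k a b := le_max_right _ _

theorem dst_le {k a b d : ℤ} (h0 : 0 ≤ d) (h1 : a - k ≤ d) (h2 : k - b ≤ d) : dst k a b ≤ d :=
  max_le (max_le h1 h2) h0

theorem sum_geom_le {r : ℝ} (h0 : 0 ≤ r) (h1 : r < 1) (S : Finset ℤ) (f : ℤ → ℕ)
    (hf : Set.InjOn f S) : ∑ k ∈ S, r ^ f k ≤ (1 - r)⁻¹ := by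
  rw [← sum_image (f := fun j => r ^ j) hf]
  exact sum_le_hasSum _ (fun _ _ => pow_nonneg h0 _) (hasSum_geometric_of_lt_one h0 h1)

theorem sum_exp_dst_le {x t : ℝ} (ht : 0 < t) (hx : 1 + 1 / t ≤ Real.exp x) (S : Finset ℤ)
    {a b : ℤ} (hab : a ≤ b) :
    ∑ k ∈ S, Real.exp (-x * (dst k a b : ℤ)) ≤ ((b - a + 1 : ℤ) : ℝ) + 2 * t := by
  set r := Real.exp (-x) with hr
  have hr0 : 0 < r := Real.exp_pos _
  have hrx : r * Real.exp x = 1 := by rw [hr, ← Real.exp_add]; simp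
  have hrt : r * (1 + t) ≤ t := by
    have h1 := mul_le_mul_of_nonneg_left hx (mul_pos hr0 ht).le
    have h2 : r * t * (1 + 1 / t) = r * (1 + t) := by field_simp; ring
    have h3 : r * t * Real.exp x = t := by rw [mul_right_comm, hrx, one_mul]
    linarith
  have hr1 : r < 1 := by nlinarith
  have hg : r * (1 - r)⁻¹ ≤ t := by
    rw [← div_eq_mul_inv, div_le_iff₀ (by linarith)]
    linarith
  have hp : ∀ j : ℕ, Real.exp (-x * ((j : ℤ) + 1 : ℤ)) = r * r ^ j := fun j => by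
    rw [hr, ← pow_succ', ← Real.exp_nat_mul]
    congr 1
    push_cast
    ring
  have h1 : ∀ k, Real.exp (-x * (dst k a b : ℤ)) = (if k ∈ Icc a b then 1 else 0) +
      ((if b < k then r * r ^ (k - b - 1).toNat else 0) +
        if k < a then r * r ^ (a - k - 1).toNat else 0) := fun k => by
    simp only [mem_Icc]
    rcases lt_or_ge b k with h | h
    · rw [if_neg (by omega), if_pos h, if_neg (by omega), ← hp, zero_add, add_zero]
      congr 3
      unfold dst
      omega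
    rcases lt_or_ge k a with h' | h'
    · rw [if_neg (by omega), if_neg (by omega), if_pos h', ← hp, zero_add, zero_add]
      congr 3
      unfold dst
      omega
    · have : dst k a b = 0 := by unfold dst; omega
      rw [if_pos ⟨h', h⟩, if_neg (by omega), if_neg (by omega), this]
      simp
  simp only [h1, sum_add_distrib, ← sum_filter, ← mul_sum]
  have h2 : ∑ _k ∈ S.filter (· ∈ Icc a b), (1 : ℝ) ≤ ((b - a + 1 : ℤ) : ℝ) := by
    rw [sum_const, nsmul_eq_mul, mul_one]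
    have h3 : (S.filter (· ∈ Icc a b)).card ≤ (Icc a b).card :=
      card_le_card fun k hk => (mem_filter.1 hk).2
    have h4 : ((S.filter (· ∈ Icc a b)).card : ℤ) ≤ b - a + 1 := by
      rw [Int.card_Icc] at h3
      omega
    exact_mod_cast h4
  have h3 := sum_geom_le hr0.le hr1 (S.filter fun k => b < k) (fun k => (k - b - 1).toNat)
    fun k hk k' hk' h => by
      have := (mem_filter.1 hk).2
      have := (mem_filter.1 hk').2
      simp only at h
      omega
  have h4 := sum_geom_le hr0.le hr1 (S.filter fun k => k < a) (fun k => (a - k - 1).toNat)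
    fun k hk k' hk' h => by
      have := (mem_filter.1 hk).2
      have := (mem_filter.1 hk').2
      simp only at h
      omega
  linarith [mul_le_mul_of_nonneg_left h3 hr0.le, mul_le_mul_of_nonneg_left h4 hr0.le]

variable {R : Raw} {κ : ℕ}

/-! ### numerics -/

theorem m_ge (h : R.Valid κ) : 1000 * (R.nE + R.nV + 2) ^ 2 * κ ≤ R.m :=
  le_trans (by gcongr; omega) h.hm

theorem m_ge' (h : R.Valid κ) : 4000 ≤ R.m := by
  have h1 := h.one_le
  calc 4000 = 1000 * 2 ^ 2 * 1 := by norm_num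
    _ ≤ 1000 * (R.nE + R.nV + 2) ^ 2 * κ := by gcongr; omega
    _ ≤ R.m := m_ge h

theorem m_geE (h : R.Valid κ) : 1000 * ((R.nE : ℝ) + 1) ^ 2 * κ ≤ R.m := by
  have : 1000 * (R.nE + 1) ^ 2 * κ ≤ R.m := le_trans (by gcongr <;> omega) (m_ge h)
  exact_mod_cast this

theorem m_geV (h : R.Valid κ) : 1000 * ((R.nV : ℝ) + 1) ^ 2 ≤ R.m := by
  have h1 := h.one_le
  have : 1000 * (R.nV + 1) ^ 2 * 1 ≤ R.m := le_trans (by gcongr <;> omega) (m_ge h)
  exact_mod_cast (mul_one (1000 * (R.nV + 1) ^ 2)).symm.trans_le this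

theorem m_lt (h : R.Valid κ) : R.m + 1 ≤ 2 ^ R.ℓ := by
  have h1 := m_ge' h
  calc R.m + 1 ≤ R.m ^ 2 := by nlinarith
    _ ≤ R.m ^ 64 := Nat.pow_le_pow_right (by omega) (by norm_num)
    _ ≤ _ := h.hℓ

theorem ℓ_pos (h : R.Valid κ) : 1 ≤ R.ℓ := by
  have h1 := m_lt h
  have h2 := m_ge' h
  by_contra h3
  have : R.ℓ = 0 := by omega
  rw [this] at h1
  omega

theorem q_pos (h : R.Valid κ) (e : R.E) : 1 ≤ R.qf e := by
  obtain ⟨j, -, hj⟩ := h.q_pow e
  rw [hj]
  exact Nat.one_le_two_pow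

/-! ### upper bounds for the weights -/

theorem φ_le_exp (h : R.Valid κ) {e : R.E} (he : R.kd e = 0 ∨ R.kd e = 3) (k : ℤ) :
    (R.φ 0 e k : ℝ) ≤ Real.exp (-((R.Ls : ℝ) / R.Bm e) *
      (dst k (R.cf e - R.Am e) (R.cf e + R.Am e) : ℤ)) := by
  unfold φ
  split_ifs with hk
  swap
  · simpa using (Real.exp_pos _).le
  have hm := m_ge' h
  have hl := h.l_le_c e
  have hu := h.c_le_u e
  have hA : (0 : ℤ) ≤ R.Am e := by positivity
  have hD : (0 : ℤ) ≤ R.Dm e := by positivity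
  have hex : R.ex 0 e = R.Ls := by rcases he with he | he <;> simp [ex, he]
  have hB : dst k (R.cf e - R.Am e) (R.cf e + R.Am e) ≤ R.Bm e := by
    refine (dst_le (d := R.uf e - R.lf e + 8 * R.Dm e) (by omega) (by omega) (by omega)).trans ?_
    rcases he with he | he
    · have h1 := h.small_w e (by omega)
      have h2 : R.m ^ 5 ≤ R.m ^ 6 := Nat.pow_le_pow_right (by omega) (by norm_num)
      simp only [Dm, Bm, he, Nat.reduceLeDiff, if_false]
      omega
    · have h1 := h.big_hi e (by omega)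
      have h2 : 2 * R.qf e * R.m ^ 5 + 8 * (R.qf e * R.m ^ 4) ≤ R.Ls * R.qf e * R.m := by
        have h3 := ℓ_pos h
        calc 2 * R.qf e * R.m ^ 5 + 8 * (R.qf e * R.m ^ 4)
            = (R.qf e * R.m ^ 4) * (2 * R.m + 8) := by ring
          _ ≤ (R.qf e * R.m ^ 4) * (2 * 1 * (R.m * R.m * R.m)) := by
              gcongr
              nlinarith [Nat.mul_le_mul hm hm]
          _ ≤ (R.qf e * R.m ^ 4) * (2 * R.ℓ * (R.m * R.m * R.m)) := by gcongr
          _ = _ := by unfold Ls; ring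
      simp only [Dm, Bm, he, Nat.reduceLeDiff, if_true]
      omega
  have hS : dst k (R.lf e) (R.uf e) ≤ 16 * R.Dm e := dst_le (by omega) (by omega) (by omega)
  push_cast
  have hB' : ((dst k (R.cf e - R.Am e) (R.cf e + R.Am e) : ℤ) : ℝ) ≤ R.Bm e := by exact_mod_cast hB
  have hS' : ((dst k (R.lf e) (R.uf e) : ℤ) : ℝ) ≤ 16 * R.Dm e := by exact_mod_cast hS
  have hd' : (0 : ℝ) ≤ ((dst k (R.lf e) (R.uf e) : ℤ) : ℝ) := by exact_mod_cast dst_nonneg _ _ _
  set d : ℝ := ((dst k (R.cf e - R.Am e) (R.cf e + R.Am e) : ℤ) : ℝ)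
  set d' : ℝ := ((dst k (R.lf e) (R.uf e) : ℤ) : ℝ)
  have h1 : d / R.Bm e ≤ 1 := div_le_one_of_le₀ hB' (Nat.cast_nonneg _)
  have h2 : d' / (16 * R.Dm e) ≤ 1 := div_le_one_of_le₀ hS' (by positivity)
  have h3 : (1 - d' / (16 * R.Dm e)) ^ R.m ≤ 1 :=
    pow_le_one₀ (by linarith) (by linarith [div_nonneg hd' (by positivity : (0 : ℝ) ≤ 16 * R.Dm e)])
  have h4 : (1 - d / R.Bm e) ^ R.Ls ≤ Real.exp (-(d / R.Bm e)) ^ R.Ls :=
    pow_le_pow_left₀ (by linarith) (Real.one_sub_le_exp_neg _) _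
  rw [hex]
  calc _ ≤ (1 - d / R.Bm e) ^ R.Ls * 1 := mul_le_mul_of_nonneg_left h3 (pow_nonneg (by linarith) _)
    _ ≤ Real.exp (-(d / R.Bm e)) ^ R.Ls := by rwa [mul_one]
    _ = _ := by
        rw [← Real.exp_nat_mul]
        congr 1
        ring

theorem sum_φ_le (h : R.Valid κ) {e : R.E} (he : R.kd e = 0 ∨ R.kd e = 3) (S : Finset ℤ) :
    ∑ k ∈ S, (R.φ 0 e k : ℝ) ≤
      ((if R.kd e = 3 then 2 * R.Am e else 1 : ℕ) : ℝ) * (1 + 2 / R.m) := by
  have hm : (4000 : ℝ) ≤ R.m := by exact_mod_cast m_ge' h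
  have hA : (0 : ℤ) ≤ R.Am e := by positivity
  refine (sum_le_sum fun k _ => φ_le_exp h he k).trans ?_
  rcases he with he | he
  · refine (sum_exp_dst_le (t := 1 / R.m) (by positivity) ?_ S (by omega)).trans (le_of_eq ?_)
    · have h1 : (R.Ls : ℝ) / R.Bm e = R.ℓ * 2 := by
        simp only [Ls, Bm, he, Nat.reduceLeDiff, if_false]
        push_cast
        field_simp
      have h2 : (R.m : ℝ) + 1 ≤ 2 ^ R.ℓ := by exact_mod_cast m_lt h
      have h3 : (2 : ℝ) ^ R.ℓ ≤ Real.exp 2 ^ R.ℓ :=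
        pow_le_pow_left₀ zero_le_two (by linarith [Real.add_one_le_exp 2]) _
      rw [h1, Real.exp_nat_mul, one_div_one_div]
      linarith
    · simp [Am, he]
      ring
  · have hq : (1 : ℝ) ≤ R.qf e := by exact_mod_cast q_pos h e
    have hl : (1 : ℝ) ≤ R.ℓ := by exact_mod_cast ℓ_pos h
    refine (sum_exp_dst_le (t := R.qf e * R.m) (by positivity) ?_ S (by omega)).trans ?_
    · have h1 : (R.Ls : ℝ) / R.Bm e = 1 / (R.qf e * R.m) := by
        simp only [Ls, Bm, he, Nat.reduceLeDiff, if_true]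
        push_cast
        field_simp
      rw [h1, add_comm]
      exact Real.add_one_le_exp _
    · simp only [Am, he, if_true]
      push_cast
      have : 2 * ((R.qf e : ℝ) * R.m ^ 2) * (1 + 2 / R.m) =
          2 * (R.qf e * R.m ^ 2) + 4 * (R.qf e * R.m) := by
        field_simp
        ring
      rw [this]
      nlinarith

/-- a state of a class is determined by its values on the small and the non-tree edges -/
theorem eq_of_class (h : R.Valid κ) {x y : R.E → ℤ} (hx : x ∈ R.box 8) (hy : y ∈ R.box 8)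
    (hd : R.G.dv x = R.G.dv y) (he : ∀ e, R.kd e = 0 ∨ R.kd e = 3 → x e = y e) : x = y := by
  have h0 : R.G.dv (x - y) = 0 := by rw [dv_sub, hd, sub_self]
  have h1 := eq_sum_Lv h (x - y)
  simp only [h0, Pi.zero_apply, zero_smul, sum_const_zero, add_zero] at h1
  have h2 : ∀ e, R.kd e = 1 → R.rt (R.G.hd e) ≠ R.G.hd e → (x - y) e = 0 := by
    intro e h3 h4
    have a1 := mem_Icc.1 (Fintype.mem_piFinset.1 hx e)
    have a2 := mem_Icc.1 (Fintype.mem_piFinset.1 hy e)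
    obtain ⟨a3, a4⟩ := h.hub_nonroot e h3 h4
    simp only [Dm, h3, Nat.reduceLeDiff, if_false, a3, a4] at a1 a2
    rw [Pi.sub_apply]
    omega
  have h3 : ∀ e, R.kd e ≠ 2 → (x - y) e = 0 := by
    intro e h4
    have h5 := h.kd_le e
    by_cases h6 : R.kd e = 1
    swap
    · exact sub_eq_zero.2 (he e (by omega))
    by_cases h7 : R.rt (R.G.hd e) = R.G.hd e
    swap
    · exact h2 e h6 h7
    have h8 := congrFun h0 (R.G.hd e)
    rw [h1, dv_sum, Finset.sum_apply, sum_eq_single e (fun g _ hg => ?_) (by simp)] at h8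
    · have h9 : R.G.hd e ≠ R.star := fun h9 => h.noLoop e ((h.hub_tl e h6).trans h9.symm)
      rw [dv_smul, dv_Lv h, h7, h.hub_tl e h6, h.rt_star] at h8
      simpa [dl, h9] using h8
    · rw [dv_smul, Pi.smul_apply, smul_eq_mul]
      have g1 := h.kd_le g
      by_cases g2 : R.kd g = 2
      · simp [h.L_tree g g2]
      by_cases g3 : R.kd g = 1
      swap
      · rw [show (x - y) g = 0 from sub_eq_zero.2 (he g (by omega)), zero_mul]
      by_cases g4 : R.rt (R.G.hd g) = R.G.hd g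
      swap
      · rw [h2 g g3 g4, zero_mul]
      have h9 : R.G.hd e ≠ R.star := fun h9 => h.noLoop e ((h.hub_tl e h6).trans h9.symm)
      have g5 : R.G.hd e ≠ R.G.hd g := fun g5 => hg (h.hub_inj g e g3 h6 g5.symm)
      rw [dv_Lv h, g4, h.hub_tl g g3, h.rt_star]
      simp [dl, h9, g5]
  rw [← sub_eq_zero, h1]
  refine sum_eq_zero fun e _ => ?_
  by_cases h4 : R.kd e = 2
  · rw [h.L_tree e h4, smul_zero]
  · rw [h3 e h4, zero_smul]

/-! ### the initial states -/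

theorem φ_ge (h : R.Valid κ) {e : R.E} (he : 2 ≤ R.kd e) {k : ℤ}
    (hk : |k - R.cf e| ≤ 2 * R.nE * (R.qf e * R.m ^ 2))
    (hk3 : R.kd e = 3 → |k - R.cf e| ≤ R.Am e) : 1 - (R.nE : ℝ) / (8 * R.m) ≤ R.φ 0 e k := by
  have hm := m_ge' h
  have hl := h.l_le_c e
  have hu := h.c_le_u e
  have hq := q_pos h e
  have hE : R.nE ≤ R.m := by
    have h1 := h.one_le
    calc R.nE ≤ 1000 * (R.nE + R.nV + 2) ^ 2 * 1 := by
          nlinarith [Nat.le_self_pow two_ne_zero (R.nE + R.nV + 2)]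
      _ ≤ 1000 * (R.nE + R.nV + 2) ^ 2 * κ := by gcongr
      _ ≤ _ := m_ge h
  have hD : R.Dm e = R.qf e * R.m ^ 4 := if_pos he
  have h1 : 2 * R.nE * (R.qf e * R.m ^ 2) ≤ 8 * R.Dm e := by
    rw [hD]
    calc 2 * R.nE * (R.qf e * R.m ^ 2) ≤ 8 * (R.m * R.m) * (R.qf e * R.m ^ 2) := by
          gcongr
          · norm_num
          · nlinarith
      _ = _ := by ring
  have h1' : (2 * R.nE * (R.qf e * R.m ^ 2) : ℤ) ≤ 8 * R.Dm e := by exact_mod_cast h1
  rw [abs_le] at hk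
  have h2 : (1 - (dst k (R.cf e - R.Am e) (R.cf e + R.Am e) : ℚ) / R.Bm e) ^ R.ex 0 e = 1 := by
    by_cases h3 : R.kd e = 3
    · have h4 := abs_le.1 (hk3 h3)
      have : dst k (R.cf e - R.Am e) (R.cf e + R.Am e) = 0 :=
        le_antisymm (dst_le le_rfl (by omega) (by omega)) (dst_nonneg _ _ _)
      simp [this]
    · have h4 := h.kd_le e
      have : R.kd e = 2 := by omega
      simp [ex, this]
  have hS : dst k (R.lf e) (R.uf e) ≤ 2 * R.nE * (R.qf e * R.m ^ 2) :=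
    dst_le (by positivity) (by omega) (by omega)
  rw [φ, if_pos (by omega), h2, one_mul, hD]
  push_cast
  have hS' : ((dst k (R.lf e) (R.uf e) : ℤ) : ℝ) ≤ 2 * R.nE * (R.qf e * R.m ^ 2) := by
    exact_mod_cast hS
  set d' : ℝ := ((dst k (R.lf e) (R.uf e) : ℤ) : ℝ)
  have hm' : (4000 : ℝ) ≤ R.m := by exact_mod_cast hm
  have hq' : (1 : ℝ) ≤ R.qf e := by exact_mod_cast hq
  have hE' : (R.nE : ℝ) ≤ R.m := by exact_mod_cast hE
  have h3 : d' / (16 * (R.qf e * R.m ^ 4)) ≤ R.nE / (8 * R.m ^ 2) := by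
    calc d' / (16 * (R.qf e * R.m ^ 4))
        ≤ 2 * R.nE * (R.qf e * R.m ^ 2) / (16 * (R.qf e * R.m ^ 4)) := by gcongr
      _ = _ := by field_simp; ring
  have h4 : (R.nE : ℝ) / (8 * R.m ^ 2) ≤ 1 := div_le_one_of_le₀ (by nlinarith) (by positivity)
  calc 1 - (R.nE : ℝ) / (8 * R.m) = 1 + R.m * -(R.nE / (8 * R.m ^ 2)) := by field_simp; ring
    _ ≤ (1 + -(R.nE / (8 * R.m ^ 2))) ^ R.m := one_add_mul_le_pow (by linarith) _
    _ ≤ _ := pow_le_pow_left₀ (by linarith) (by linarith) _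

theorem sum_Lv_apply (h : R.Valid κ) (s : R.E → ℤ) {e : R.E} (he : R.kd e ≠ 2) :
    (∑ g, s g • R.Lv g) e = s e := by
  rw [Finset.sum_apply, sum_eq_single e (fun g _ hg => by simp [Lv_other h he hg.symm]) (by simp)]
  simp [Lv_self h he]

theorem pt_spec (h : R.Valid κ) {x s : R.E → ℤ} (hx : ∀ e, R.kd e ≠ 1 → x e = R.cf e)
    (hx' : ∀ e, R.lf e ≤ x e ∧ x e ≤ R.uf e) (hs : ∀ e, |s e| ≤ R.Am e) :
    R.G.dv (x + ∑ g, s g • R.Lv g) = R.G.dv x ∧ x + ∑ g, s g • R.Lv g ∈ R.box 8 ∧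
      1 - 1 / (20 * (κ : ℝ)) ≤ R.Φ 0 (x + ∑ g, s g • R.Lv g) := by
  have hs0 : ∀ e, R.kd e ≠ 3 → s e = 0 := fun e he => by simpa [Am, he] using hs e
  have hsq : ∀ e, |s e| ≤ R.qf e * R.m ^ 2 := fun e => by
    by_cases he : R.kd e = 3
    · simpa [Am, he] using hs e
    · rw [hs0 e he, abs_zero]
      positivity
  have hκ : (1 : ℝ) ≤ κ := by exact_mod_cast h.one_le
  have hm : (4000 : ℝ) ≤ R.m := by exact_mod_cast m_ge' h
  have hmE := m_geE h
  have hE0 : (0 : ℝ) ≤ R.nE := Nat.cast_nonneg _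
  have hδ0 : 0 ≤ (R.nE : ℝ) / (8 * R.m) := by positivity
  have hδ1 : (R.nE : ℝ) / (8 * R.m) ≤ 1 := div_le_one_of_le₀ (by nlinarith) (by positivity)
  have hφ : ∀ e, 1 - (R.nE : ℝ) / (8 * R.m) ≤ R.φ 0 e ((x + ∑ g, s g • R.Lv g) e) := by
    intro e
    have h1 := h.kd_le e
    rw [Pi.add_apply]
    by_cases h2 : R.kd e = 2
    · refine φ_ge h h2.ge ?_ (by omega)
      rw [hx e (by omega), add_sub_cancel_left, Finset.sum_apply]
      refine (abs_sum_le_sum_abs _ _).trans ((sum_le_card_nsmul _ _ (2 * (R.qf e * R.m ^ 2) : ℤ)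
        fun g _ => ?_).trans (le_of_eq ?_))
      · rw [Pi.smul_apply, smul_eq_mul, abs_mul]
        calc |s g| * |R.Lv g e| ≤ (R.qf g * R.m ^ 2) * |R.Lv g e| := by gcongr; exact hsq g
          _ = R.m ^ 2 * (R.qf g * |R.Lv g e|) := by ring
          _ ≤ R.m ^ 2 * (2 * R.qf e) := mul_le_mul_of_nonneg_left (Lv_tree h g h2) (by positivity)
          _ = _ := by ring
      · simp
        ring
    rw [sum_Lv_apply h s h2]
    by_cases h3 : R.kd e = 3
    · refine φ_ge h (by omega) ?_ fun _ => ?_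
      · rw [hx e (by omega), add_sub_cancel_left]
        have h4 : (1 : ℤ) ≤ R.nE := by exact_mod_cast e.pos
        refine (hsq e).trans (le_mul_of_one_le_left (by positivity) (by omega))
      · rw [hx e (by omega), add_sub_cancel_left]
        exact hs e
    rw [hs0 e h3, add_zero]
    by_cases h4 : R.kd e = 1
    · have h5 := hx' e
      have : R.φ 0 e (x e) = 1 := by simp [φ, ex, Dm, h4, h5]
      rw [this]
      simpa using hδ0
    · rw [hx e h4, φ_centre h]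
      simpa using hδ0
  have hΦ : 1 - 1 / (20 * (κ : ℝ)) ≤ R.Φ 0 (x + ∑ g, s g • R.Lv g) := by
    rw [Φ]
    push_cast
    calc 1 - 1 / (20 * (κ : ℝ)) ≤ 1 + R.nE * -((R.nE : ℝ) / (8 * R.m)) := by
          rw [mul_neg, ← sub_eq_add_neg, sub_le_sub_iff_left, ← mul_div_assoc,
            div_le_div_iff₀ (by positivity) (by positivity)]
          nlinarith
      _ ≤ (1 + -((R.nE : ℝ) / (8 * R.m))) ^ R.nE := one_add_mul_le_pow (by linarith) _
      _ = ∏ _e : R.E, (1 - (R.nE : ℝ) / (8 * R.m)) := by simp [sub_eq_add_neg]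
      _ ≤ _ := prod_le_prod (fun _ _ => by linarith) fun e _ => hφ e
  refine ⟨?_, ?_, hΦ⟩
  · rw [dv_add, dv_sum, add_eq_left]
    refine sum_eq_zero fun e _ => ?_
    by_cases he : R.kd e = 3
    · rw [dv_smul, dv_Lv h, h.big_rt e (by omega), sub_self, smul_zero]
    · rw [hs0 e he, zero_smul, dv_zero]
  · by_contra hb
    rw [Φ_eq_zero R 0 hb] at hΦ
    have : 1 / (20 * (κ : ℝ)) ≤ 1 / 20 := by gcongr; linarith
    norm_num at hΦ this
    linarith

end Crest.Agent.R309.Raw.Ends
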