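import Crest.Agent.R309.Law

/-!
# Row 309: the correction step of the exact sampler
-/

set_option autoImplicit false

namespace Crest.Agent.R309.ExactAux

open Finset Crest.Agent.Lib.PolyTime

/-! ## Selection from a weighted list -/

/-- Total weight. -/
def tot (W : List (List ℕ × ℕ)) : ℕ := (W.map Prod.snd).sum

/-- The entry whose interval contains `U`. -/
def sel (U : ℕ) : List (List ℕ × ℕ) → Option (List ℕ)
  | [] => none
  | e :: W => if tot W ≤ U ∧ U < e.2 + tot W then some e.1 else sel U W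

theorem tot_cons (e : List ℕ × ℕ) (W : List (List ℕ × ℕ)) : tot (e :: W) = e.2 + tot W := by
  simp [tot]

theorem sel_none {U : ℕ} {W : List (List ℕ × ℕ)} (h : tot W ≤ U) : sel U W = none := by
  induction W with
  | nil => rfl
  | cons e W ih =>
    rw [tot_cons] at h
    rw [sel, if_neg (by omega), ih (by omega)]

theorem sel_mem {U : ℕ} {W : List (List ℕ × ℕ)} {y : List ℕ} (h : sel U W = some y) :
    y ∈ W.map Prod.fst := by
  induction W with
  | nil => simp [sel] at h
  | cons e W ih =>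
    rw [sel] at h
    split_ifs at h
    · simp [← Option.some.inj h]
    · simp only [List.map_cons, List.mem_cons]
      exact .inr (ih h)

theorem sz_sel (U : ℕ) (W : List (List ℕ × ℕ)) : sz (sel U W) ≤ sz W + 2 := by
  induction W with
  | nil => simp [sel]
  | cons e W ih =>
    have := sz_fst_le e
    rw [sel]
    split_ifs
    · simp only [sz_some, sz_cons]
      omega
    · simp only [sz_cons]
      omega

theorem poly_sel {α : Type} [PEnc α] {U : α → ℕ} {W : α → List (List ℕ × ℕ)} (hU : Poly U)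
    (hW : Poly W) : Poly fun a => sel (U a) (W a) := by
  refine Poly.listRec (f := fun a l => sel (U a) l) (g := fun _ => none)
    (h := fun a e l r => if tot l ≤ U a ∧ U a < e.2 + tot l then some e.1 else r) hW
    (by fun_prop) (by unfold tot; fun_prop) (fun _ => rfl) (fun _ _ _ => rfl)
    (B := fun a => sz (W a) + 2) (by fun_prop) fun a l hl => ?_
  exact (sz_sel _ _).trans (Nat.add_le_add_right (sz_le_of_sublist hl.sublist) _)

theorem sum_sel (W : List (List ℕ × ℕ)) {N : ℕ} (hN : tot W ≤ N) (y : List ℕ) :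
    ∑ U ∈ range N, ind (sel U W = some y) =
      (W.map fun e => if e.1 = y then (e.2 : ℝ) else 0).sum := by
  induction W with
  | nil => simp [sel, ind]
  | cons e W ih =>
    rw [tot_cons] at hN
    have h1 : ∀ U, ind (sel U (e :: W) = some y) =
        (if U ∈ Ico (tot W) (e.2 + tot W) then if e.1 = y then 1 else 0 else 0) +
          ind (sel U W = some y) := fun U => by
      rw [sel]
      simp only [mem_Ico]
      split_ifs with h h'
      · simp [ind, h', sel_none h.1]
      · simp [ind, h', sel_none h.1]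
      · simp
    simp only [h1, sum_add_distrib, ih (by omega), List.map_cons, List.sum_cons]
    congr 1
    rw [sum_ite_mem, inter_eq_right.2 fun U hU => mem_range.2 ((mem_Ico.1 hU).2.trans_le hN)]
    split_ifs <;> simp

theorem Pr_sel (W : List (List ℕ × ℕ)) {B : ℕ} (hB : tot W ≤ 2 ^ B) (y : List ℕ) :
    Pr B (fun v => sel (toNat v) W = some y) =
      (W.map fun e => if e.1 = y then (e.2 : ℝ) else 0).sum / 2 ^ B := by
  rw [Pr, Ex_toNat B fun U => ind (sel U W = some y), sum_sel W hB]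

theorem sum_key {β : Type} [DecidableEq β] {L : List (β × ℕ)} (hL : (L.map Prod.fst).Nodup)
    (F : β × ℕ → ℝ) {e : β × ℕ} (he : e ∈ L) :
    (L.map fun p => if p.1 = e.1 then F p else 0).sum = F e := by
  induction L with
  | nil => simp at he
  | cons p L ih =>
    rw [List.map_cons, List.nodup_cons] at hL
    rw [List.map_cons, List.sum_cons]
    rcases List.mem_cons.1 he with rfl | he
    · rw [if_pos rfl, List.sum_eq_zero, add_zero]
      intro z hz
      obtain ⟨q, hq, rfl⟩ := List.mem_map.1 hz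
      exact if_neg fun h => hL.1 (List.mem_map.2 ⟨q, hq, h⟩)
    · rw [if_neg fun h : p.1 = e.1 => hL.1 (List.mem_map.2 ⟨e, he, h.symm⟩), zero_add,
        ih hL.2 he]

/-! ## The correcting weights -/

/-- The entries of the law that belong to admissible outputs. -/
def ent (ok : List ℕ → Bool) (L : List (Option (List ℕ) × ℕ)) : List (List ℕ × ℕ) :=
  L.filterMap fun e => e.1.bind fun y => if ok y then some (y, e.2) else none

/-- The largest weight. -/
def wmax (M : List (List ℕ × ℕ)) : ℕ := (M.map Prod.snd).foldr max 0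

/-- The correcting weights. -/
def cw (K : ℕ) (M : List (List ℕ × ℕ)) : List (List ℕ × ℕ) :=
  M.map fun e => (e.1, (2 ^ K - 1) * (wmax M - e.2))

theorem mem_ent {ok : List ℕ → Bool} {L : List (Option (List ℕ) × ℕ)} {e : List ℕ × ℕ} :
    e ∈ ent ok L ↔ (some e.1, e.2) ∈ L ∧ ok e.1 = true := by
  simp only [ent, List.mem_filterMap, Option.bind_eq_some_iff]
  constructor
  · rintro ⟨⟨o, w⟩, h1, y, h2, h3⟩
    simp only at h2 h3
    split_ifs at h3 with h4
    obtain rfl := Option.some.inj h3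
    exact ⟨h2 ▸ h1, h4⟩
  · exact fun h => ⟨_, h.1, e.1, rfl, by simp [h.2]⟩

theorem nodup_ent (ok : List ℕ → Bool) {L : List (Option (List ℕ) × ℕ)}
    (hL : (L.map Prod.fst).Nodup) : ((ent ok L).map Prod.fst).Nodup := by
  have : (ent ok L).map Prod.fst =
      (L.map Prod.fst).filterMap fun o => o.bind fun y => if ok y then some y else none := by
    rw [ent, List.map_filterMap, List.filterMap_map]
    refine List.filterMap_congr fun e _ => ?_
    obtain ⟨_ | y, w⟩ := e
    · rfl
    · by_cases h : ok y <;> simp [h]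
  rw [this]
  refine hL.filterMap fun a a' b h h' => ?_
  simp only [Option.mem_def, Option.bind_eq_some_iff] at h h'
  obtain ⟨y, rfl, h⟩ := h
  obtain ⟨y', rfl, h'⟩ := h'
  split_ifs at h h'
  rw [Option.some.inj h, Option.some.inj h']

theorem le_wmax {M : List (List ℕ × ℕ)} {e : List ℕ × ℕ} (he : e ∈ M) : e.2 ≤ wmax M := by
  induction M with
  | nil => simp at he
  | cons p M ih =>
    rcases List.mem_cons.1 he with rfl | he
    · exact le_max_left _ _
    · exact (ih he).trans (le_max_right _ _)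

theorem wmax_le {M : List (List ℕ × ℕ)} {c : ℝ} (hc : 0 ≤ c) (h : ∀ e ∈ M, (e.2 : ℝ) ≤ c) :
    (wmax M : ℝ) ≤ c := by
  induction M with
  | nil => simpa [wmax] using hc
  | cons p M ih =>
    have : wmax (p :: M) = max p.2 (wmax M) := rfl
    rw [this, Nat.cast_max]
    exact max_le (h p List.mem_cons_self) (ih fun e he => h e (List.mem_cons_of_mem _ he))

theorem poly_cw {α : Type} [PEnc α] {K : α → ℕ} {M : α → List (List ℕ × ℕ)} (hK : Poly K)
    (hK' : PB K) (hM : Poly M) : Poly fun a => cw (K a) (M a) := by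
  have h1 : Poly fun a => wmax (M a) :=
    Poly.foldr_select (h := fun _ x s => max x s) (by fun_prop) (by fun_prop) (by fun_prop)
      fun _ x s => (max_choice x s).symm
  have h2 : Poly fun a => 2 ^ K a - 1 := by fun_prop
  have h3 : Poly fun p : ℕ × ℕ × List (List ℕ × ℕ) =>
      p.2.2.map fun e => (e.1, p.1 * (p.2.1 - e.2)) := by fun_prop
  exact h3.comp (h2.pair (h1.pair hM))

theorem corr_law {T : Finset (List ℕ)} {ok : List ℕ → Bool} (hok : ∀ y, y ∈ T ↔ ok y = true)
    {g : List Bool → Option (List ℕ)} {B K : ℕ} {L : List (Option (List ℕ) × ℕ)}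
    (hL : (L.map Prod.fst).Nodup) (hR : Rep B g L) {γ : ℝ} (h0 : 0 < γ)
    (hγ : T.card * γ ≤ 1 / 2) (hK : 1 ≤ K)
    (hp : ∀ y ∈ T, |Pr B (fun u => g u = some y) - γ| ≤ γ / 2 ^ K) (hT : T.Nonempty) :
    ∃ c : ℝ, γ / 4 ≤ c ∧ ∀ y ∈ T, (1 - 1 / 2 ^ K) * Pr B (fun u => g u = some y) +
      1 / 2 ^ K * Pr B (fun v => sel (toNat v) (cw K (ent ok L)) = some y) = c := by
  have hB : (0 : ℝ) < 2 ^ B := by positivity
  have hK0 : (0 : ℝ) < 2 ^ K := by positivity
  have hK2 : (2 : ℝ) ≤ 2 ^ K := le_self_pow₀ one_le_two (by omega)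
  have hK3 : γ / 2 ^ K ≤ γ / 2 := div_le_div_of_nonneg_left h0.le two_pos hK2
  have hr : ∀ y, (L.map fun p => if p.1 = some y then (p.2 : ℝ) else 0).sum =
      2 ^ B * Pr B fun u => g u = some y := fun y => by
    rw [Pr, ← hR fun o => ind (o = some y)]
    congr 1
    refine List.map_congr_left fun p _ => ?_
    by_cases h : p.1 = some y <;> simp [ind, h]
  have hw : ∀ e ∈ ent ok L, (e.2 : ℝ) = 2 ^ B * Pr B fun u => g u = some e.1 := fun e he => by
    rw [← hr, ← sum_key hL (fun p => (p.2 : ℝ)) (mem_ent.1 he).1]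
  have hex : ∀ y ∈ T, ∃ e ∈ ent ok L, e.1 = y := fun y hy => by
    by_contra hc
    have h1 := hr y
    rw [List.sum_eq_zero] at h1
    · have h2 := (abs_le.1 (hp y hy)).1
      have h3 := (mul_eq_zero.1 h1.symm).resolve_left hB.ne'
      linarith
    · intro z hz
      obtain ⟨p, hp, rfl⟩ := List.mem_map.1 hz
      refine if_neg fun h => hc ⟨(y, p.2), mem_ent.2 ⟨?_, (hok y).1 hy⟩, rfl⟩
      rw [← h]
      exact hp
  have hT' : ∀ e ∈ ent ok L, e.1 ∈ T := fun e he => (hok _).2 (mem_ent.1 he).2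
  have hmax : (wmax (ent ok L) : ℝ) ≤ 2 ^ B * (γ + γ / 2 ^ K) :=
    wmax_le (by positivity) fun e he => by
      rw [hw e he]
      exact mul_le_mul_of_nonneg_left (by linarith [(abs_le.1 (hp _ (hT' e he))).2]) hB.le
  have hcast : ∀ e ∈ ent ok L, (((2 ^ K - 1) * (wmax (ent ok L) - e.2) : ℕ) : ℝ) =
      (2 ^ K - 1) * (wmax (ent ok L) - e.2) := fun e he => by
    rw [Nat.cast_mul, Nat.cast_sub (le_wmax he), Nat.cast_sub Nat.one_le_two_pow]
    simp
  have hlen : (ent ok L).length ≤ T.card := by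
    rw [← List.length_map Prod.fst, ← List.toFinset_card_of_nodup (nodup_ent ok hL)]
    refine card_le_card fun y hy => ?_
    obtain ⟨e, he, rfl⟩ := List.mem_map.1 (List.mem_toFinset.1 hy)
    exact hT' e he
  have htot : tot (cw K (ent ok L)) ≤ 2 ^ B := by
    have h1 : (tot (cw K (ent ok L)) : ℝ) ≤ (ent ok L).length * (2 ^ B * (2 * γ)) := by
      rw [tot, Nat.cast_list_sum, cw, List.map_map, List.map_map, ← nsmul_eq_mul,
        ← List.length_map (as := ent ok L)]
      refine List.sum_le_card_nsmul _ _ fun z hz => ?_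
      obtain ⟨e, he, rfl⟩ := List.mem_map.1 hz
      simp only [Function.comp_apply]
      have h2 : (wmax (ent ok L) : ℝ) - e.2 ≤ 2 ^ B * (2 * (γ / 2 ^ K)) := by
        rw [hw e he]
        nlinarith [mul_le_mul_of_nonneg_left (abs_le.1 (hp _ (hT' e he))).1 hB.le]
      rw [hcast e he]
      calc _ ≤ 2 ^ K * (2 ^ B * (2 * (γ / 2 ^ K))) :=
            mul_le_mul (by linarith) h2 (sub_nonneg.2 (by exact_mod_cast le_wmax he)) hK0.le
        _ = _ := by field_simp
    have h2 : ((ent ok L).length : ℝ) ≤ T.card := by exact_mod_cast hlen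
    have h3 : (tot (cw K (ent ok L)) : ℝ) ≤ 2 ^ B := by
      refine (h1.trans (mul_le_mul_of_nonneg_right h2 (by positivity))).trans ?_
      nlinarith [mul_le_mul_of_nonneg_left hγ hB.le]
    exact_mod_cast h3
  refine ⟨(1 - 1 / 2 ^ K) * (wmax (ent ok L) / 2 ^ B), ?_, fun y hy => ?_⟩
  · obtain ⟨y, hy⟩ := hT
    obtain ⟨e, he, rfl⟩ := hex y hy
    have h1 : γ / 2 ≤ wmax (ent ok L) / 2 ^ B := by
      rw [le_div_iff₀ hB]
      have h2 : (e.2 : ℝ) ≤ wmax (ent ok L) := by exact_mod_cast le_wmax he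
      rw [hw e he] at h2
      nlinarith [mul_le_mul_of_nonneg_left (abs_le.1 (hp _ hy)).1 hB.le]
    have h2 : (1 : ℝ) / 2 ^ K ≤ 1 / 2 := one_div_le_one_div_of_le two_pos hK2
    nlinarith
  · obtain ⟨e, he, rfl⟩ := hex y hy
    have h1 := sum_key (nodup_ent ok hL)
      (fun p => (((2 ^ K - 1) * (wmax (ent ok L) - p.2) : ℕ) : ℝ)) he
    rw [Pr_sel _ htot, cw, List.map_map]
    erw [h1]
    rw [hcast e he, hw e he]
    field_simp
    ring

/-! ## Costs -/

theorem cmp_ite {α β : Type} [PEnc α] [PEnc β] {c : α → Bool} {f g : α → β} {T U U' : α → ℕ}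
    (hc : Cmp c T) (hf : Cmp f U) (hg : Cmp g U') :
    Cmp (fun a => if c a then f a else g a) fun a => T a + if c a then U a else U' a := by
  refine hc.caseV (U := fun a => if c a then U a else U' a) ?_ ?_
  · have key : ∀ a : {a // enc (c a) = V.nil}, c a.1 = false := fun a => by
      have := a.2
      cases h : c a.1 <;> simp_all
    exact (hg.of_enc Subtype.val (fun _ => rfl) fun a => by simp [key a]).mono
      fun a => by simp [key a]
  · have key : ∀ a : {a // enc (c a) ≠ V.nil}, c a.1 = true := fun a => by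
      have := a.2
      cases h : c a.1 <;> simp_all
    exact (hf.of_enc Subtype.val (fun _ => rfl) fun a => by simp [key a]).mono
      fun a => by simp [key a]

theorem exists_cmp_pow : ∃ p : Polynomial ℕ,
    Cmp (fun s : Un => Un.mk (2 ^ s.n)) fun s => p.eval (2 ^ s.n) := by
  let step : Un × Un → Un ⊕ Un × Un := fun s =>
    if s.1.n = 0 then .inl s.2 else .inr (⟨s.1.n - 1⟩, ⟨s.2.n + s.2.n⟩)
  have hs : Poly step := by fun_prop
  have hi : Poly fun s : Un => (s, Un.mk 1) := by fun_prop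
  obtain ⟨p, q, h⟩ := Poly.loop_cmp hi hs
  have key : ∀ i a B : ℕ, 2 * i + 2 * (a * 2 ^ i) + 3 ≤ B →
      Runs step B (⟨i⟩, ⟨a⟩) ⟨a * 2 ^ i⟩ (i + 1) := by
    intro i
    induction i with
    | zero => exact fun a B hB => .stop 0 (by simp [sz_un] at hB ⊢; omega) (by simp [step])
    | succ i ih =>
      intro a B hB
      have h1 : a ≤ a * 2 ^ (i + 1) := Nat.le_mul_of_pos_right _ (by positivity)
      have h2 : (a + a) * 2 ^ i = a * 2 ^ (i + 1) := by ring
      refine .next (s' := (⟨i⟩, ⟨a + a⟩)) (by simp [sz_un]; omega) (by simp [step]) ?_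
      rw [← h2]
      exact ih _ _ (by omega)
  refine ⟨p.comp (3 * Polynomial.X) + Polynomial.X * q.comp (7 * Polynomial.X),
    (h (N := fun s => s.n + 1) (B := fun s => 7 * 2 ^ s.n) fun s => ?_).mono fun s => ?_⟩
  · have := key s.n 1 (7 * 2 ^ s.n) (by have := s.n.lt_two_pow_self; omega)
    rwa [one_mul] at this
  · have h1 := s.n.lt_two_pow_self
    have h2 := eval_mono p (show sz s ≤ 3 * 2 ^ s.n by rw [sz_un]; omega)
    simp only [Polynomial.eval_add, Polynomial.eval_mul, Polynomial.eval_comp, Polynomial.eval_X,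
      Polynomial.eval_ofNat]
    exact Nat.add_le_add h2 (Nat.mul_le_mul_right _ h1)

/-- A polynomial-time function of an input padded to length `2 ^ s`. -/
theorem exists_cmp_pad {α β : Type} [PEnc α] [PEnc β] {s : α → ℕ} (hs : Poly s) (hs' : PB s)
    {f : α × Un → β} (hf : Poly f) : ∃ p : Polynomial ℕ,
      Cmp (fun a => f (a, ⟨2 ^ s a⟩)) fun a => p.eval (sz a + 2 ^ s a) := by
  obtain ⟨p₀, h₀⟩ := exists_cmp_pow
  obtain ⟨p₁, h₁⟩ := (hs.unMk hs').exists_poly
  obtain ⟨p₂, h₂⟩ := hf.exists_poly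
  refine ⟨Polynomial.X + (p₁ + p₀) + 1 + p₂.comp (2 * Polynomial.X + 2),
    (h₂.comp ((Cmp.cast (f := fun a : α => a) fun _ => rfl).pair (h₀.comp h₁))).mono fun a => ?_⟩
  have e₀ := eval_mono p₀ (Nat.le_add_left (2 ^ s a) (sz a))
  have e₁ := eval_mono p₁ (Nat.le_add_right (sz a) (2 ^ s a))
  have e₂ := eval_mono p₂ (show sz (a, Un.mk (2 ^ s a)) ≤ 2 * (sz a + 2 ^ s a) + 2 by
    rw [sz_pair, sz_un]; simp only; omega)
  simp only [Polynomial.eval_add, Polynomial.eval_mul, Polynomial.eval_comp, Polynomial.eval_X,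
    Polynomial.eval_ofNat, Polynomial.eval_one]
  generalize 2 ^ s a = t at *
  omega

theorem eval_le_pow (p : Polynomial ℕ) : ∃ C d : ℕ, ∀ s, 1 ≤ s → p.eval s ≤ C * s ^ d := by
  induction p using Polynomial.induction_on' with
  | add p q hp hq =>
    obtain ⟨C, d, h⟩ := hp
    obtain ⟨C', d', h'⟩ := hq
    refine ⟨C + C', d + d', fun s hs => ?_⟩
    have h1 : s ^ d ≤ s ^ (d + d') := Nat.pow_le_pow_right hs (by omega)
    have h2 : s ^ d' ≤ s ^ (d + d') := Nat.pow_le_pow_right hs (by omega)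
    have := h s hs
    have := h' s hs
    rw [Polynomial.eval_add]
    nlinarith
  | monomial k c => exact ⟨c, k, fun s _ => by simp [Polynomial.eval_monomial]⟩

theorem eval_two_pow (p : Polynomial ℕ) : ∃ C : ℕ, ∀ z, 1 ≤ z → p.eval (2 ^ z) ≤ 2 ^ (C * z) := by
  obtain ⟨C, d, h⟩ := eval_le_pow p
  refine ⟨C + d, fun z hz => (h _ Nat.one_le_two_pow).trans ?_⟩
  rw [add_mul, pow_add, ← pow_mul, mul_comm z]
  exact Nat.mul_le_mul_right _ (C.lt_two_pow_self.le.trans
    (Nat.pow_le_pow_right two_pos (Nat.le_mul_of_pos_right _ hz)))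

theorem size_sq_le {t : ℕ} (ht : 5 ≤ t) : (t ^ 2 + 1).size ≤ t := by
  rw [Nat.size_le]
  induction t, ht using Nat.le_induction with
  | base => norm_num
  | succ t ht ih => rw [pow_succ 2 t]; nlinarith

theorem Ex_mix {K n : ℕ} (F G : List Bool → ℝ) :
    Ex (K + n) (fun u => if toNat (u.take K) = 0 then G (u.drop K) else F (u.drop K)) =
      (1 - 1 / 2 ^ K) * Ex n F + 1 / 2 ^ K * Ex n G := by
  rw [Ex_split (Nat.le_add_right K n) fun u v => if toNat u = 0 then G v else F v,
    Nat.add_sub_cancel_left]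
  have h1 : ∀ u : List Bool, (Ex n fun v => if toNat u = 0 then G v else F v) =
      Ex n F + if toNat u = 0 then Ex n G - Ex n F else 0 := fun u => by
    split_ifs <;> simp
  simp only [h1]
  rw [Ex_add, Ex_const, Ex_toNat K fun i => if i = 0 then Ex n G - Ex n F else 0, sum_ite_eq',
    if_pos (mem_range.2 (by positivity))]
  ring

end Crest.Agent.R309.ExactAux
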