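import Crest.Agent.R309.JVVPoly

/-!
# Row 309: the exact law of a round, computed in time polynomial in the number of states
-/

set_option autoImplicit false

namespace Crest.Agent.R309

open Crest.Agent.Lib.PolyTime

/-- The weighted list `L` counts the tapes of length `n` by the value of `g`. -/
def Rep {σ : Type} (n : ℕ) (g : List Bool → σ) (L : List (σ × ℕ)) : Prop :=
  ∀ F : σ → ℝ, (L.map fun p => (p.2 : ℝ) * F p.1).sum = 2 ^ n * Ex n fun u => F (g u)

namespace LawAux

section rep
variable {σ τ : Type}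

theorem rep_congr {n : ℕ} {g g' : List Bool → σ} {L : List (σ × ℕ)} (h : Rep n g L)
    (e : ∀ u, u.length = n → g u = g' u) : Rep n g' L := fun F => by
  rw [h F, Ex_congr fun u hu => by rw [e u hu]]

theorem sum_allBits (n : ℕ) (F : List Bool → ℝ) :
    ((Poly.allBits n).map F).sum = 2 ^ n * Ex n F := by
  induction n generalizing F with
  | zero => simp [Poly.allBits, Ex_zero]
  | succ n ih =>
    have : ∀ l : List (List Bool), ((l.flatMap fun w => [false :: w, true :: w]).map F).sum =
        (l.map fun w => F (false :: w)).sum + (l.map fun w => F (true :: w)).sum := by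
      intro l
      induction l with
      | nil => simp
      | cons w l ih => simp [ih]; ring
    rw [Poly.allBits, this, ih, ih, Ex_succ]
    ring

theorem rep_base (n : ℕ) (g : List Bool → σ) :
    Rep n g ((Poly.allBits n).map fun u => (g u, 1)) := fun F => by
  rw [List.map_map, ← sum_allBits]
  congr 1
  exact List.map_congr_left fun u _ => by simp

theorem rep_const (n : ℕ) (c : σ) : Rep n (fun _ => c) [(c, 2 ^ n)] := fun F => by simp

theorem rep_map {n : ℕ} {g : List Bool → σ} {L : List (σ × ℕ)} (h : Rep n g L) (f : σ → τ) :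
    Rep n (fun u => f (g u)) (L.map fun p => (f p.1, p.2)) := fun F => by
  rw [List.map_map, ← h fun x => F (f x)]
  rfl

/-- sequential composition of weighted lists -/
def bindL (L : List (σ × ℕ)) (M : σ → List (τ × ℕ)) : List (τ × ℕ) :=
  L.flatMap fun p => (M p.1).map fun q => (q.1, p.2 * q.2)

theorem sum_bindL (L : List (σ × ℕ)) (M : σ → List (τ × ℕ)) (F : τ → ℝ) :
    ((bindL L M).map fun p => (p.2 : ℝ) * F p.1).sum =
      (L.map fun p => (p.2 : ℝ) * ((M p.1).map fun q => (q.2 : ℝ) * F q.1).sum).sum := by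
  unfold bindL
  induction L with
  | nil => simp
  | cons p L ih =>
    rw [List.flatMap_cons, List.map_append, List.sum_append, ih, List.map_cons, List.sum_cons,
      List.map_map, ← List.sum_map_mul_left]
    congr 2
    exact List.map_congr_left fun q _ => by simp [mul_assoc]

theorem rep_bind {n m : ℕ} {g : List Bool → σ} {h : σ → List Bool → τ} {L : List (σ × ℕ)}
    {M : σ → List (τ × ℕ)} (hL : Rep n g L) (hM : ∀ x, Rep m (h x) (M x)) :
    Rep (n + m) (fun u => h (g (u.take n)) (u.drop n)) (bindL L M) := fun F => by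
  rw [sum_bindL, Ex_split (Nat.le_add_right n m) fun u v => F (h (g u) v),
    Nat.add_sub_cancel_left]
  simp only [hM _ F]
  rw [hL fun x => 2 ^ m * Ex m fun v => F (h x v), Ex_mul_left, pow_add, mul_assoc]

variable [DecidableEq σ]

/-- total weight of a key -/
def wt (L : List (σ × ℕ)) (x : σ) : ℕ := ((L.filter fun p => decide (p.1 = x)).map Prod.snd).sum

/-- merge equal keys and drop keys of weight zero -/
def compress (L : List (σ × ℕ)) : List (σ × ℕ) :=
  ((L.map Prod.fst).dedup.filter fun x => decide (0 < wt L x)).map fun x => (x, wt L x)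

theorem wt_cast (L : List (σ × ℕ)) (x : σ) :
    (wt L x : ℝ) = (L.map fun p => (p.2 : ℝ) * if p.1 = x then 1 else 0).sum := by
  unfold wt
  induction L with
  | nil => simp
  | cons p L ih =>
    by_cases h : p.1 = x
    · simpa [h] using ih
    · simpa [h] using ih

theorem sum_eq_wt (L : List (σ × ℕ)) (A : Finset σ) (hA : ∀ p ∈ L, p.1 ∈ A) (F : σ → ℝ) :
    (L.map fun p => (p.2 : ℝ) * F p.1).sum = ∑ x ∈ A, (wt L x : ℝ) * F x := by
  simp only [wt_cast]
  induction L with
  | nil => simp
  | cons p L ih =>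
    simp only [List.map_cons, List.sum_cons, add_mul, Finset.sum_add_distrib]
    rw [ih fun q hq => hA q (List.mem_cons_of_mem _ hq)]
    congr 1
    simp [hA p List.mem_cons_self]

theorem keys_compress (L : List (σ × ℕ)) : (compress L).map Prod.fst =
    (L.map Prod.fst).dedup.filter fun x => decide (0 < wt L x) := by
  simp [compress, Function.comp_def]

theorem nodup_compress (L : List (σ × ℕ)) : ((compress L).map Prod.fst).Nodup := by
  rw [keys_compress]
  exact (List.nodup_dedup _).filter _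

theorem rep_compress {n : ℕ} {g : List Bool → σ} {L : List (σ × ℕ)} (h : Rep n g L) :
    Rep n g (compress L) := fun F => by
  rw [← h F, sum_eq_wt L (L.map Prod.fst).toFinset
    (fun p hp => List.mem_toFinset.2 (List.mem_map_of_mem hp)), compress, List.map_map,
    ← List.sum_toFinset _ ((List.nodup_dedup _).filter _)]
  refine Finset.sum_subset (fun x hx => by simpa using (by simpa using hx : _ ∧ _).1)
    fun x hx hx' => ?_
  have : wt L x = 0 := by
    by_contra h0
    exact hx' (by simpa using ⟨by simpa using hx, Nat.pos_of_ne_zero h0⟩)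
  simp [this]

theorem mem_compress {n : ℕ} {g : List Bool → σ} {L : List (σ × ℕ)} (h : Rep n g L)
    {p : σ × ℕ} (hp : p ∈ compress L) : (∃ u, g u = p.1) ∧ p.2 ≤ 2 ^ n := by
  obtain ⟨x, hx, rfl⟩ := List.mem_map.1 hp
  have h0 : 0 < wt L x := by simpa using (List.mem_filter.1 hx).2
  have h1 := h fun y => if y = x then 1 else 0
  rw [← wt_cast] at h1
  constructor
  · by_contra h2
    push Not at h2
    simp only [h2, if_false, Ex_const, mul_zero, Nat.cast_eq_zero] at h1
    omega
  · have h2 : (Ex n fun u => if g u = x then (1 : ℝ) else 0) ≤ 1 :=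
      (Ex_mono (G := fun _ => 1) fun u _ => by split_ifs <;> norm_num).trans_eq (Ex_const _ _)
    have h3 : (wt L x : ℝ) ≤ 2 ^ n := by
      rw [h1]
      exact mul_le_of_le_one_right (by positivity) h2
    exact_mod_cast h3

theorem rep_fold {step : σ → List Bool → σ} {B : ℕ} {M : σ → List (σ × ℕ)}
    (hM : ∀ x, Rep B (step x) (M x)) (s : σ) (i : ℕ) :
    Rep (i * B) (foldT step B i s) ((fun L => compress (bindL L M))^[i] [(s, 1)]) := by
  induction i with
  | zero => rw [Nat.zero_mul]; exact fun F => by simp [foldT_zero]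
  | succ i ih =>
    rw [Function.iterate_succ_apply', Nat.succ_mul]
    refine rep_compress (rep_congr (rep_bind ih hM) fun u hu => ?_)
    rw [foldT_succ, foldT_take step le_rfl, blk, List.take_of_length_le]
    simp [hu]

end rep

section haslaw
variable {α β σ τ : Type} [PEnc α] [PEnc β] [PEnc σ] [PEnc τ]

/-- the law of `g` can be computed in polynomial time -/
def HasLaw (n : α → ℕ) (g : α → List Bool → σ) : Prop :=
  ∃ L : α → List (σ × ℕ), Poly L ∧ ∀ a, Rep (n a) (g a) (L a)

theorem HasLaw.congr {n : α → ℕ} {g g' : α → List Bool → σ} (h : HasLaw n g)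
    (e : ∀ a u, u.length = n a → g a u = g' a u) : HasLaw n g' := by
  obtain ⟨L, h1, h2⟩ := h
  exact ⟨L, h1, fun a => rep_congr (h2 a) (e a)⟩

theorem HasLaw.comp {n : α → ℕ} {g : α → List Bool → σ} (h : HasLaw n g) {f : β → α}
    (hf : Poly f) : HasLaw (fun b => n (f b)) fun b => g (f b) := by
  obtain ⟨L, h1, h2⟩ := h
  exact ⟨fun b => L (f b), h1.comp hf, fun b => h2 _⟩

theorem HasLaw.base {n : α → ℕ} {g : α → List Bool → σ} (hn : Poly n) (hb : PB fun a => 2 ^ n a)
    (hg : Poly fun x : α × List Bool => g x.1 x.2) : HasLaw n g :=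
  ⟨_, (Poly.allBits' hn hb).map (f := fun a u => (g a u, 1)) (by fun_prop),
    fun a => rep_base (n a) (g a)⟩

theorem HasLaw.const {n : α → ℕ} {c : α → σ} (hn : Poly n) (hb : PB n) (hc : Poly c) :
    HasLaw n fun a _ => c a :=
  ⟨fun a => [(c a, 2 ^ n a)], by fun_prop, fun a => rep_const (n a) (c a)⟩

theorem HasLaw.map {n : α → ℕ} {g : α → List Bool → σ} (h : HasLaw n g) {f : α → σ → τ}
    (hf : Poly fun x : α × σ => f x.1 x.2) : HasLaw n fun a u => f a (g a u) := by
  obtain ⟨L, h1, h2⟩ := h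
  exact ⟨_, h1.map (f := fun a p => (f a p.1, p.2)) (by fun_prop), fun a => rep_map (h2 a) (f a)⟩

theorem poly_bindL {L : α → List (σ × ℕ)} {M : α → σ → List (τ × ℕ)} (hL : Poly L)
    (hM : Poly fun x : α × σ => M x.1 x.2) : Poly fun a => bindL (L a) (M a) := by
  unfold bindL
  fun_prop

theorem poly_compress [DecidableEq σ] {L : α → List (σ × ℕ)} (hL : Poly L) :
    Poly fun a => compress (L a) := by
  unfold compress wt
  fun_prop

theorem HasLaw.bind {n m : α → ℕ} {g : α → List Bool → σ} {h : α → σ → List Bool → τ}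
    (hg : HasLaw n g) (hh : HasLaw (fun x : α × σ => m x.1) fun x => h x.1 x.2) :
    HasLaw (fun a => n a + m a) fun a u => h a (g a (u.take (n a))) (u.drop (n a)) := by
  obtain ⟨L, h1, h2⟩ := hg
  obtain ⟨M, h3, h4⟩ := hh
  exact ⟨fun a => bindL (L a) fun x => M (a, x), poly_bindL h1 h3,
    fun a => rep_bind (h2 a) fun x => h4 (a, x)⟩

theorem HasLaw.elim {n : α → ℕ} {o : α → Option β} {g : α → List Bool → σ}
    {h : α → β → List Bool → σ} (ho : Poly o) (hg : HasLaw n g)
    (hh : HasLaw (fun x : α × β => n x.1) fun x => h x.1 x.2) :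
    HasLaw n fun a u => (o a).elim (g a u) fun i => h a i u := by
  obtain ⟨L, h1, h2⟩ := hg
  obtain ⟨M, h3, h4⟩ := hh
  refine ⟨fun a => (o a).elim (L a) fun i => M (a, i), ho.optionElim h1 h3, fun a => ?_⟩
  dsimp only
  cases o a with
  | none => exact h2 a
  | some i => exact h4 (a, i)

theorem HasLaw.fold [DecidableEq σ] {B t N S : α → ℕ} {step : α → σ → List Bool → σ} {s : α → σ}
    (hstep : HasLaw (fun x : α × σ => B x.1) fun x => step x.1 x.2) (ht : Poly t) (htb : PB t)
    (hB : PB B) (hs : Poly s) (hN : PB N) (hS : PB S)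
    (hA : ∀ a i, i ≤ t a → ∃ A : Finset σ, A.card ≤ N a ∧
      ∀ u, foldT (step a) (B a) i (s a) u ∈ A)
    (hsz : ∀ a i, i ≤ t a → ∀ u, sz (foldT (step a) (B a) i (s a) u) ≤ S a) :
    HasLaw (fun a => t a * B a) fun a => foldT (step a) (B a) (t a) (s a) := by
  obtain ⟨M, h3, h4⟩ := hstep
  refine ⟨fun a => (fun L => compress (bindL L fun x => M (a, x)))^[t a] [(s a, 1)], ?_,
    fun a => rep_fold (fun x => h4 (a, x)) _ _⟩
  refine Poly.iterate (h := fun a L => compress (bindL L fun x => M (a, x))) ht htb (by fun_prop)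
    (poly_compress (poly_bindL (by fun_prop) (by fun_prop)))
    (B := fun a => N a * (S a + (4 * (t a * B a + 1) + 1) + 1 + 1) + 1 + sz [(s a, 1)])
    (by fun_prop) fun a i hi => ?_
  cases i with
  | zero => simp
  | succ i =>
    have h4' : ∀ x, Rep (B a) (step a x) (M (a, x)) := fun x => h4 (a, x)
    have h5 := rep_bind (rep_fold h4' (s a) i) h4'
    replace h5 := rep_congr h5 (g' := foldT (step a) (B a) (i + 1) (s a)) fun u hu => by
      rw [foldT_succ, foldT_take _ le_rfl, blk, List.take_of_length_le]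
      simp [hu]
    rw [Function.iterate_succ_apply']
    generalize bindL _ _ = L at h5
    obtain ⟨A, hA1, hA2⟩ := hA a _ hi
    refine le_trans ?_ (Nat.le_add_right _ _)
    refine (sz_list_le (B := S a + (4 * (t a * B a + 1) + 1) + 1) fun p hp => ?_).trans ?_
    · obtain ⟨⟨u, hu⟩, h6⟩ := mem_compress h5 hp
      rw [sz_prod, ← hu]
      have h7 := hsz a _ hi u
      have h8 : sz p.2 ≤ 4 * (t a * B a + 1) + 1 := by
        refine sz_le_of_lt_two_pow (lt_of_le_of_lt h6 (Nat.pow_lt_pow_right (by norm_num) ?_))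
        have := Nat.mul_le_mul_right (B a) hi
        rw [Nat.succ_mul] at this
        omega
      omega
    · have h6 : (compress L).length ≤ N a := by
        rw [← List.length_map (f := Prod.fst), ← List.toFinset_card_of_nodup (nodup_compress L)]
        refine le_trans (Finset.card_le_card fun x hx => ?_) hA1
        obtain ⟨p, hp, rfl⟩ := List.mem_map.1 (List.mem_toFinset.1 hx)
        obtain ⟨⟨u, hu⟩, -⟩ := mem_compress h5 hp
        rw [← hu]
        exact hA2 u
      gcongr

theorem law_three {ρ : Type} [PEnc ρ] {n1 n2 n3 : α → ℕ} {g1 : α → List Bool → σ}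
    {g2 : α → List Bool → τ} {g3 : α × σ × τ → List Bool → ρ} (h1 : HasLaw n1 g1)
    (h2 : HasLaw n2 g2) (h3 : HasLaw (fun x : α × σ × τ => n3 x.1) g3) :
    HasLaw (fun a => n1 a + n2 a + n3 a) fun a u =>
      g3 (a, g1 a (u.take (n1 a)), g2 a ((u.drop (n1 a)).take (n2 a))) (u.drop (n1 a + n2 a)) := by
  have h12 := HasLaw.bind (m := n2) (h := fun a j v => (j, g2 a v)) h1
    ((h2.comp (f := fun x : α × σ => x.1) (by fun_prop)).map (f := fun x s => (x.2, s))
      (by fun_prop))
  refine (HasLaw.bind (m := n3) (h := fun a x => g3 (a, x)) h12 h3).congr fun a u _ => ?_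
  rw [List.take_take, List.drop_take, min_eq_left (by omega), Nat.add_sub_cancel_left]

end haslaw

/-- lists of length `n` with entries at most `k` -/
def boxL (n k : ℕ) : Finset (List ℕ) :=
  (Finset.univ : Finset (Fin n → Fin (k + 1))).image fun f => List.ofFn fun i => (f i : ℕ)

theorem card_boxL (n k : ℕ) : (boxL n k).card ≤ (k + 1) ^ n :=
  Finset.card_image_le.trans (by simp)

theorem mem_boxL {n k : ℕ} {l : List ℕ} (h1 : l.length = n) (h2 : ∀ x ∈ l, x ≤ k) :
    l ∈ boxL n k := by
  subst h1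
  refine Finset.mem_image.2 ⟨fun i => ⟨l[i], Nat.lt_succ_of_le (h2 _ (by simp))⟩, by simp, ?_⟩
  simp

theorem sz_box {n k : ℕ} {l : List ℕ} (h1 : l.length = n) (h2 : ∀ x ∈ l, x ≤ k) :
    sz l ≤ n * (4 * sz k + 1) + 1 := by
  subst h1
  exact sz_list_le fun x hx => sz_le_of_le (h2 x hx)

theorem votes_inv (f : List Bool → ℕ) (size B i : ℕ) (u : List Bool) :
    (foldT (fun cs v => incr cs (f v)) B i (List.replicate size 0) u).length = size ∧
      ∀ x ∈ foldT (fun cs v => incr cs (f v)) B i (List.replicate size 0) u, x ≤ i := by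
  refine foldT_inv (fun i (cs : List ℕ) => cs.length = size ∧ ∀ x ∈ cs, x ≤ i) ⟨by simp, by simp⟩
    (fun i cs v h => ⟨by simp [incr, h.1], fun x hx => ?_⟩) i u
  obtain ⟨j, hj, rfl⟩ := List.getElem_of_mem hx
  simp only [incr, List.getElem_modify]
  have hj' : j < cs.length := by simpa [incr] using hj
  have := h.2 cs[j] (List.getElem_mem hj')
  split_ifs <;> omega

theorem voteMed_le (f : List Bool → ℕ) (m B k : ℕ) (u : List Bool) :
    voteMed f (m + 1) B k u ≤ m := by
  unfold voteMed medC
  rw [(votes_inv f (m + 1) B k u).1]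
  cases e : List.find? _ _ with
  | none => simp
  | some j =>
    have := List.mem_range.1 (List.mem_of_find?_eq_some e)
    simpa using Nat.le_of_lt_succ this

section concrete
variable {α : Type} [PEnc α]

theorem law_voteMed {f : α → List Bool → ℕ} {size B k : α → ℕ} (hf : HasLaw B f)
    (hsize : Poly size) (hsize' : PB size) (hB : PB B) (hk : Poly k) (hk' : PB k)
    (hN : PB fun a => (k a + 1) ^ size a) :
    HasLaw (fun a => k a * B a) fun a => voteMed (f a) (size a) (B a) (k a) := by
  have h1 : HasLaw (fun x : α × List ℕ => B x.1) fun x v => incr x.2 (f x.1 v) :=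
    (hf.comp (f := fun x : α × List ℕ => x.1) (by fun_prop)).map
      (f := fun x j => incr x.2 j) (by unfold incr; fun_prop)
  have h2 := HasLaw.fold (step := fun a cs v => incr cs (f a v))
    (s := fun a => List.replicate (size a) 0) (S := fun a => size a * (4 * sz (k a) + 1) + 1)
    h1 hk hk' hB (by fun_prop) hN (by fun_prop)
    (fun a i hi => ⟨boxL (size a) (k a), card_boxL _ _, fun u =>
      mem_boxL (votes_inv _ _ _ _ u).1 fun x hx => ((votes_inv _ _ _ _ u).2 x hx).trans hi⟩)
    fun a i hi u =>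
      sz_box (votes_inv _ _ _ _ u).1 fun x hx => ((votes_inv _ _ _ _ u).2 x hx).trans hi
  exact h2.map (f := fun a cs => medC cs (k a)) (by unfold medC; fun_prop)

theorem acc_inv (P Q i : ℕ) (u : List Bool) :
    foldT (accStep Q) 1 i (P, none) u ∈
      ({((fun r => if Q ≤ 2 * r then 2 * r - Q else 2 * r)^[i] P, none), (0, some true),
        (0, some false)} : Finset (ℕ × Option Bool)) := by
  refine foldT_inv (fun i s => s ∈ ({((fun r => if Q ≤ 2 * r then 2 * r - Q else 2 * r)^[i] P,
    none), (0, some true), (0, some false)} : Finset (ℕ × Option Bool))) (by simp)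
    (fun i s v h => ?_) i u
  simp only [Finset.mem_insert, Finset.mem_singleton] at h ⊢
  rcases h with rfl | rfl | rfl
  · unfold accStep
    rw [Function.iterate_succ_apply']
    simp only [Option.isSome_none, Bool.false_eq_true, if_false]
    split_ifs <;> simp [*]
  · simp [accStep]
  · simp [accStep]

theorem acc_iter_le (P Q i : ℕ) :
    (fun r => if Q ≤ 2 * r then 2 * r - Q else 2 * r)^[i] P ≤ 2 ^ i * P := by
  induction i with
  | zero => simp
  | succ i ih =>
    rw [Function.iterate_succ_apply', pow_succ', mul_assoc]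
    split_ifs <;> omega

theorem law_accept {P Q b : α → ℕ} (hP : Poly P) (hQ : Poly Q) (hb : Poly b) (hb' : PB b) :
    HasLaw b fun a => accept (P a) (Q a) (b a) := by
  have h1 : HasLaw (fun _ : α × ℕ × Option Bool => 1) fun x v => accStep (Q x.1) x.2 v :=
    HasLaw.base (by fun_prop) (by fun_prop) (by unfold accStep; fun_prop)
  have h2 := HasLaw.fold (B := fun _ => 1) (step := fun a => accStep (Q a))
    (s := fun a => (P a, none)) (N := fun _ => 3) (S := fun a => 4 * (b a + sz (P a)) + 10)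
    h1 hb hb' (by fun_prop) (by fun_prop) (by fun_prop) (by fun_prop)
    (fun a i _ => ⟨_, Finset.card_le_three, acc_inv _ _ _⟩)
    fun a i hi u => by
      have h := acc_inv (P a) (Q a) i u
      simp only [Finset.mem_insert, Finset.mem_singleton] at h
      have h0 : sz (0 : ℕ) = 1 := rfl
      rcases h with h | h | h <;> rw [h]
      · have : sz ((fun r => if Q a ≤ 2 * r then 2 * r - Q a else 2 * r)^[i] (P a)) ≤
            4 * (b a + sz (P a)) + 1 := by
          refine sz_le_of_lt_two_pow (lt_of_le_of_lt (acc_iter_le _ _ _) ?_)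
          rw [pow_add]
          exact Nat.mul_lt_mul_of_le_of_lt (Nat.pow_le_pow_right (by norm_num) hi)
            (lt_two_pow_sz _) (by positivity)
        simp only [sz_pair, sz_none]
        omega
      · simp only [sz_pair, sz_some, sz_true, h0]
        omega
      · simp only [sz_pair, sz_some, sz_false, h0]
        omega
  simp only [mul_one] at h2
  exact h2.map (f := fun a s => decide (Q a ≤ P a) || s.2 == some true) (by fun_prop)

theorem jp_comp {β : Type} [PEnc β] {p : α → JP} (hp : JPoly p) {f : β → α} (hf : Poly f) :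
    JPoly fun b => p (f b) :=
  ⟨hp.c.comp hf, hp.Nm.comp hf, hp.g.comp hf, hp.k.comp hf, hp.r0.comp hf, hp.b.comp hf,
    hp.Dp.comp hf, hp.Am.comp hf, hp.zc.comp hf, hp.c'.comp hf, hp.g'.comp hf, hp.k'.comp hf,
    hp.r0'.comp hf, hp.b'.comp hf, hp.Dp'.comp hf, hp.Am'.comp hf, hp.zc'.comp hf⟩

theorem getD_le {l : List ℕ} {N : ℕ} (h : ∀ x ∈ l, x ≤ N) (i : ℕ) : l.getD i 0 ≤ N := by
  rw [List.getD_eq_getElem?_getD]
  cases e : l[i]? with
  | none => simp
  | some x => exact h x (List.mem_of_getElem? e)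

theorem walk_inv (p : JP) (est : List ℕ → List ℕ → List Bool → ℚ) (i : ℕ) (u : List Bool) :
    (fun s : List ℕ × List ℕ × ℕ => (s.1.length = p.c ∧ ∀ x ∈ s.1, x ≤ p.Nm) ∧
      (s.2.1.length = p.c ∧ ∀ x ∈ s.2.1, x ≤ p.Nm) ∧ s.2.2 ≤ 2 ^ (p.g * i))
    (foldT (p.walk est) p.Bw i (List.replicate p.c 0, List.replicate p.c p.Nm, 1) u) := by
  refine foldT_inv (fun i (s : List ℕ × List ℕ × ℕ) => (s.1.length = p.c ∧ ∀ x ∈ s.1, x ≤ p.Nm) ∧
      (s.2.1.length = p.c ∧ ∀ x ∈ s.2.1, x ≤ p.Nm) ∧ s.2.2 ≤ 2 ^ (p.g * i))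
    ⟨⟨by simp, by simp⟩, ⟨by simp, by simp +contextual [List.mem_replicate]⟩, by simp⟩
    (fun i s v h => ?_) i u
  obtain ⟨h1, h2, h3⟩ := h
  have h4 : ∀ j, j ≤ 2 ^ p.g → s.2.2 * j ≤ 2 ^ (p.g * (i + 1)) := fun j hj => by
    rw [Nat.mul_succ, pow_add]
    exact Nat.mul_le_mul h3 hj
  unfold JP.walk
  cases e : pivot p.c s.1 s.2.1 with
  | none => exact ⟨h1, h2, h4 _ le_rfl⟩
  | some j =>
    have h5 : s.1.getD j 0 < s.2.1.getD j 0 := by simpa using List.find?_some e
    have h6 := getD_le h2.2 j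
    simp only [Option.elim_some, JP.move]
    split_ifs
    · refine ⟨h1, ⟨by simp [h2.1], fun x hx => ?_⟩, h4 _ (voteMed_le _ _ _ _ _)⟩
      rcases List.mem_or_eq_of_mem_set hx with h7 | rfl
      · exact h2.2 x h7
      · unfold midp
        omega
    · refine ⟨⟨by simp [h1.1], fun x hx => ?_⟩, h2, h4 _ (Nat.sub_le _ _)⟩
      rcases List.mem_or_eq_of_mem_set hx with h7 | rfl
      · exact h1.2 x h7
      · unfold midp
        omega

theorem pow_le_size (k s : ℕ) : (k + 1) ^ s ≤ 2 ^ (s * (k + 1).size) := by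
  rw [mul_comm, pow_mul]
  exact Nat.pow_le_pow_left (Nat.lt_size_self _).le _

theorem law_round {p : α → JP} (hp : JPoly p) (hpad : PB fun a => 2 ^ (p a).padExp)
    {est : α → List ℕ → List ℕ → List Bool → ℚ}
    (hest : Poly fun a : α × List ℕ × List ℕ × List Bool => est a.1 a.2.1 a.2.2.1 a.2.2.2)
    {ok : α → List ℕ → Bool} (hok : Poly fun a : α × List ℕ => ok a.1 a.2) :
    HasLaw (fun a => (p a).Br) fun a => (p a).round (est a) (ok a) := by
  obtain ⟨c, Nm, g, k, r0, b, Dp, Am, zc, hpe⟩ : ∃ c Nm g k r0 b Dp Am zc : α → ℕ,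
      ∀ a, p a = ⟨c a, Nm a, g a, k a, r0 a, b a, Dp a, Am a, zc a⟩ :=
    ⟨_, _, _, _, _, _, _, _, _, fun _ => rfl⟩
  obtain ⟨hc, hNm, hg, hk, hr0, hb, hDp, hAm, hzc, c', g', k', r0', b', Dp', Am', zc'⟩ := hp
  simp only [hpe] at hc hNm hg hk hr0 hb hDp hAm hzc c' g' k' r0' b' Dp' Am' zc'
  have g'' : PB g := g'.mono fun _ => Nat.lt_two_pow_self.le
  obtain ⟨G, hG⟩ : ∃ G : α → ℕ, ∀ a, 2 ^ g a = G a := ⟨_, fun _ => rfl⟩
  have hG1 : Poly G := Poly.congr (f := fun a => 2 ^ g a) (by fun_prop) hG
  have hG2 : PB G := g'.mono fun a => (hG a).ge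
  have hpow : ∀ {e : α → ℕ}, (∀ a, e a ≤ 2 * r0 a + (G a + Am a + 2) * (k a + 1).size +
      2 * c a * (Nm a).size + g a * (Dp a + 1) + 8) → PB fun a => 2 ^ e a :=
    fun h => hpad.mono fun a => Nat.pow_le_pow_right (by norm_num)
      (by simpa only [hpe, JP.padExp, hG] using h a)
  have hest' : ∀ {β : Type} [PEnc β] {f : β → α} {l h : β → List ℕ} {v : β → List Bool},
      Poly f → Poly l → Poly h → Poly v → Poly fun x => est (f x) (l x) (h x) (v x) :=
    fun hf hl hh hv => hest.comp (hf.pair (hl.pair (hh.pair hv)))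
  -- the vote for the exponent
  have hA : HasLaw (fun a => k a * r0 a)
      fun a => voteMed ((p a).voteA (est a)) (Am a + 1) (r0 a) (k a) := by
    refine law_voteMed (HasLaw.base hr0 (hpow fun a => by omega) ?_)
      (by fun_prop) (by fun_prop) r0' hk k' ?_
    · have := hest' (f := fun x : α × List Bool => x.1)
        (l := fun x => List.replicate (c x.1) 0) (h := fun x => List.replicate (c x.1) (Nm x.1))
        (v := fun x => x.2) (by fun_prop) (by fun_prop) (by fun_prop) (by fun_prop)
      simp only [hpe, JP.voteA]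
      exact Poly.natMin (by fun_prop) (Poly.clog (Lib.PolyTime.Poly.const _)
        ((Lib.PolyTime.Poly.const _).ratMul this).ratNatCeil)
    · refine (hpow (e := fun a => (Am a + 1) * (k a + 1).size) fun a => ?_).mono
        fun a => pow_le_size _ _
      have : (Am a + 1) * (k a + 1).size ≤ (G a + Am a + 2) * (k a + 1).size :=
        Nat.mul_le_mul_right _ (by omega)
      omega
  -- one step of the walk
  have hW : HasLaw (fun x : α × List ℕ × List ℕ × ℕ => k x.1 * (2 * r0 x.1) + g x.1)
      fun x => (p x.1).walk (est x.1) x.2 := by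
    have e : ∀ x : α × List ℕ × List ℕ × ℕ, (p x.1).walk (est x.1) x.2 = fun u =>
        (pivot (c x.1) x.2.1 x.2.2.1).elim (x.2.1, x.2.2.1, x.2.2.2 * G x.1) fun i =>
          (p x.1).move x.2 i (voteMed ((p x.1).vote1 (est x.1) x.2.1 x.2.2.1 i) (G x.1 + 1)
            (2 * r0 x.1) (k x.1) (u.take (k x.1 * (2 * r0 x.1))))
            ((u.drop (k x.1 * (2 * r0 x.1))).take (g x.1)) := by
      intro x
      funext u
      simp only [JP.walk, hpe, hG]
    simp only [e]
    refine HasLaw.elim (by unfold pivot; fun_prop)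
      (HasLaw.const (by fun_prop) (by fun_prop) (by fun_prop)) ?_
    refine HasLaw.bind (n := fun x : (α × List ℕ × List ℕ × ℕ) × ℕ =>
        k x.1.1 * (2 * r0 x.1.1)) (m := fun x => g x.1.1)
      (g := fun x => voteMed ((p x.1.1).vote1 (est x.1.1) x.1.2.1 x.1.2.2.1 x.2)
        (G x.1.1 + 1) (2 * r0 x.1.1) (k x.1.1))
      (h := fun x j v => (p x.1.1).move x.1.2 x.2 j (v.take (g x.1.1))) ?_ ?_
    · refine law_voteMed (HasLaw.base (by fun_prop) ?_ ?_) (by fun_prop) (by fun_prop)
        (by fun_prop) (by fun_prop) (by fun_prop) ?_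
      · exact (hpow (e := fun a => 2 * r0 a) fun a => by omega).comp
          (f := fun x : (α × List ℕ × List ℕ × ℕ) × ℕ => x.1.1) (by fun_prop)
      · have h1 := hest' (f := fun x : ((α × List ℕ × List ℕ × ℕ) × ℕ) × List Bool => x.1.1.1)
          (l := fun x => x.1.1.2.1)
          (h := fun x => x.1.1.2.2.1.set x.1.2 (midp x.1.1.2.1 x.1.1.2.2.1 x.1.2))
          (v := fun x => x.2.take (r0 x.1.1.1)) (by fun_prop) (by fun_prop)
          (by unfold midp; fun_prop) (by fun_prop)
        have h2 := hest' (f := fun x : ((α × List ℕ × List ℕ × ℕ) × ℕ) × List Bool => x.1.1.1)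
          (l := fun x => x.1.1.2.1.set x.1.2 (midp x.1.1.2.1 x.1.1.2.2.1 x.1.2 + 1))
          (h := fun x => x.1.1.2.2.1)
          (v := fun x => x.2.drop (r0 x.1.1.1)) (by fun_prop) (by unfold midp; fun_prop)
          (by fun_prop) (by fun_prop)
        have h3 : Poly fun x : ((α × List ℕ × List ℕ × ℕ) × ℕ) × List Bool =>
            (2 : ℚ) ^ g x.1.1.1 := by fun_prop
        simp only [hpe, JP.vote1, hG]
        exact Poly.natMax (by fun_prop) (Poly.natMin (by fun_prop)
          ((h3.ratMul h1).ratDiv (h1.ratAdd h2)).ratNatFloor)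
      · refine PB.comp (g := fun a => (k a + 1) ^ (G a + 1)) ?_
          (f := fun x : (α × List ℕ × List ℕ × ℕ) × ℕ => x.1.1) (by fun_prop)
        refine (hpow (e := fun a => (G a + 1) * (k a + 1).size) fun a => ?_).mono
          fun a => pow_le_size _ _
        have : (G a + 1) * (k a + 1).size ≤ (G a + Am a + 2) * (k a + 1).size :=
          Nat.mul_le_mul_right _ (by omega)
        omega
    · refine HasLaw.base (by fun_prop) (by simp only [hG]; fun_prop) ?_
      simp only [hpe, JP.move, midp, hG]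
      fun_prop
  -- the walk
  have hF : HasLaw (fun a => Dp a * (k a * (2 * r0 a) + g a)) fun a => foldT ((p a).walk (est a))
      (k a * (2 * r0 a) + g a) (Dp a) (List.replicate (c a) 0, List.replicate (c a) (Nm a), 1) := by
    have hI : ∀ a i u, (fun s : List ℕ × List ℕ × ℕ => (s.1.length = c a ∧ ∀ x ∈ s.1, x ≤ Nm a) ∧
        (s.2.1.length = c a ∧ ∀ x ∈ s.2.1, x ≤ Nm a) ∧ s.2.2 ≤ 2 ^ (g a * i))
        (foldT ((p a).walk (est a)) (k a * (2 * r0 a) + g a) i
          (List.replicate (c a) 0, List.replicate (c a) (Nm a), 1) u) := by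
      intro a i u
      have := walk_inv (p a) (est a) i u
      rw [hpe] at this ⊢
      exact this
    refine HasLaw.fold (N := fun a => 2 ^ (2 * c a * (Nm a).size + g a * (Dp a + 1) + 8))
      (S := fun a => 2 * (c a * (4 * sz (Nm a) + 1) + 1) + (4 * (g a * Dp a + 1) + 1) + 2)
      hW hDp Dp' (by fun_prop) (by fun_prop) (hpow fun a => by omega) (by fun_prop)
      (fun a i hi => ?_) fun a i hi u => ?_
    · refine ⟨boxL (c a) (Nm a) ×ˢ boxL (c a) (Nm a) ×ˢ
        Finset.range (2 ^ (g a * Dp a) + 1), ?_, fun u => ?_⟩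
      · rw [Finset.card_product, Finset.card_product, Finset.card_range]
        have h1 : (boxL (c a) (Nm a)).card ≤ 2 ^ (c a * (Nm a).size) := by
          refine (card_boxL _ _).trans ?_
          rw [mul_comm, pow_mul]
          exact Nat.pow_le_pow_left (Nat.lt_size_self _) _
        have h2 : 2 ^ (g a * Dp a) + 1 ≤ 2 ^ (g a * Dp a + 1) := by
          have : 1 ≤ 2 ^ (g a * Dp a) := Nat.one_le_two_pow
          omega
        refine (Nat.mul_le_mul h1 (Nat.mul_le_mul h1 h2)).trans ?_
        rw [← pow_add, ← pow_add]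
        refine Nat.pow_le_pow_right (by norm_num) ?_
        rw [Nat.mul_succ, mul_assoc 2 (c a)]
        omega
      · obtain ⟨h1, h2, h3⟩ := hI a i u
        refine Finset.mem_product.2 ⟨mem_boxL h1.1 h1.2, Finset.mem_product.2
          ⟨mem_boxL h2.1 h2.2, Finset.mem_range.2 (Nat.lt_succ_of_le (h3.trans ?_))⟩⟩
        exact Nat.pow_le_pow_right (by norm_num) (Nat.mul_le_mul_left _ hi)
    · obtain ⟨h1, h2, h3⟩ := hI a i u
      have h4 := sz_box h1.1 h1.2
      have h5 := sz_box h2.1 h2.2
      have h6 := sz_le_of_lt_two_pow (lt_of_le_of_lt h3 (Nat.pow_lt_pow_right (by norm_num)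
        (Nat.lt_succ_of_le (Nat.mul_le_mul_left (g a) hi))))
      rw [sz_prod, sz_prod]
      omega
  -- the end of the round
  have hE : HasLaw (fun x : α × ℕ × List ℕ × List ℕ × ℕ => b x.1)
      fun x => (p x.1).finish (ok x.1) (min x.2.1 (Am x.1)) x.2.2 := by
    have h1 := law_accept (P := fun x : α × ℕ × List ℕ × List ℕ × ℕ => 2 ^ (g x.1 * Dp x.1))
      (Q := fun x => 2 ^ (min x.2.1 (Am x.1)) * x.2.2.2.2) (b := fun x => b x.1)
      (by fun_prop) (by fun_prop) (by fun_prop) (by fun_prop)
    have h2 : Poly fun x : (α × ℕ × List ℕ × List ℕ × ℕ) × Bool => ok x.1.1 x.1.2.2.1 :=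
      hok.comp (g := fun x : (α × ℕ × List ℕ × List ℕ × ℕ) × Bool => (x.1.1, x.1.2.2.1))
        (by fun_prop)
    refine (h1.map (f := fun x c => if c && ok x.1 x.2.2.1 then some x.2.2.1 else none)
      (Poly.ite (Poly.congr (Poly.and (f := fun x => x.2) (by fun_prop) h2) fun x => by simp)
        (by fun_prop) (by fun_prop))).congr fun x u _ => ?_
    simp only [hpe, JP.finish]
  have e : (fun a => (p a).Br) = fun a => k a * r0 a + Dp a * (k a * (2 * r0 a) + g a) + b a := by
    funext a
    simp only [hpe, JP.Br, JP.Bw]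
  rw [e]
  refine (law_three hA hF hE).congr fun a u _ => ?_
  rw [min_eq_left (voteMed_le _ _ _ _ _)]
  simp only [JP.round, JP.Bw, hpe]

end concrete

end LawAux

theorem JPoly.exists_law {α : Type} [PEnc α] {p : α → JP} (hp : JPoly p)
    {est : α → List ℕ → List ℕ → List Bool → ℚ}
    (hest : Poly fun a : α × List ℕ × List ℕ × List Bool => est a.1 a.2.1 a.2.2.1 a.2.2.2)
    {ok : α → List ℕ → Bool} (hok : Poly fun a : α × List ℕ => ok a.1 a.2) :
    ∃ law : α × Un → List (Option (List ℕ) × ℕ), Poly law ∧ ∀ (a : α) (pad : Un),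
      2 ^ (p a).padExp ≤ pad.n → ((law (a, pad)).map Prod.fst).Nodup ∧
        Rep (p a).Br ((p a).round (est a) (ok a)) (law (a, pad)) := by
  obtain ⟨L, h1, h2⟩ := LawAux.law_round
    (α := {x : α × Un // 2 ^ (p x.1).padExp ≤ x.2.n}) (p := fun x => p x.1.1)
    (LawAux.jp_comp hp (by fun_prop))
    (PB.mono (h := fun x => x.1.2.n) (by fun_prop) fun x => x.2)
    (est := fun x => est x.1.1) (hest.comp (g := fun a : {x : α × Un //
      2 ^ (p x.1).padExp ≤ x.2.n} × List ℕ × List ℕ × List Bool => (a.1.1.1, a.2)) (by fun_prop))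
    (ok := fun x => ok x.1.1) (hok.comp (g := fun a : {x : α × Un //
      2 ^ (p x.1).padExp ≤ x.2.n} × List ℕ => (a.1.1.1, a.2)) (by fun_prop))
  refine ⟨fun x => if h : 2 ^ (p x.1).padExp ≤ x.2.n then LawAux.compress (L ⟨x, h⟩) else [],
    ?_, fun a pad h => ?_⟩
  · have h3 := hp.poly_padExp
    have h4 := hp.pb_padExp
    have h5 : Poly fun a => 2 ^ (p a).padExp := Poly.pow (Lib.PolyTime.Poly.const _) h3 h4
    exact Poly.dite (Poly.decide_le (h5.comp (g := fun x : α × Un => x.1) (by fun_prop))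
      (by fun_prop)) (LawAux.poly_compress h1) (Lib.PolyTime.Poly.const _)
  · simp only [dif_pos h]
    exact ⟨LawAux.nodup_compress _, LawAux.rep_compress (h2 ⟨(a, pad), h⟩)⟩

end Crest.Agent.R309
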