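import Crest.Agent.R309.JVVInst
import Crest.Agent.R309.Law
import Crest.Agent.R309.ExactAux

/-!
# Row 309: an exactly uniform round with polynomial expected cost
-/

set_option autoImplicit false

namespace Crest.Agent.R309

open Crest.Agent.Lib.PolyTime

namespace ExactAux

/-- The exact round for given margins and a given accuracy parameter. -/
theorem exists_mix : ∃ (r : (List ℕ × List ℕ) × Un → ℕ)
    (f : ((List ℕ × List ℕ) × Un) × List Bool → Option (List ℕ))
    (T G : ((List ℕ × List ℕ) × Un) × List Bool → ℕ) (E : List ℕ × List ℕ → ℕ),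
    Poly r ∧ PB r ∧ Cmp f T ∧ PB G ∧ PB E ∧ (∀ a, a.2.n ≤ r a) ∧
    (∀ a u, sz a.1 ≤ a.2.n → u.length = r a → T (a, u) ≤ G (a, u) +
      if toNat (u.take a.2.n) = 0 then 2 ^ (E a.1 * (a.2.n + 1).size) else 0) ∧
    ∀ (rs cs : List ℕ) (k : Un), rs.sum = cs.sum → 1 ≤ k.n →
      (∀ u y, f (((rs, cs), k), u) = some y → y ∈ Tabs rs cs) ∧
      ∃ c : ℝ, 1 / (256 * (Tabs rs cs).card) ≤ c ∧
        ∀ y ∈ Tabs rs cs, Pr (r ((rs, cs), k)) (fun u => f (((rs, cs), k), u) = some y) = c := by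
  obtain ⟨p, est, q, hp, hest, hq, hγ⟩ := exists_round
  have hok : Poly fun a : ((List ℕ × List ℕ) × Un) × List ℕ => okT a.1.1.1 a.1.1.2 a.2 := by
    fun_prop
  obtain ⟨law, hlaw, hL⟩ := hp.exists_law hest (ok := fun a => okT a.1.1 a.1.2) hok
  have hBr := hp.poly_Br
  have hBr' := hp.pb_Br
  have hpad := hp.poly_padExp
  have hpad' := hp.pb_padExp
  obtain ⟨T₀, hT₀, c₀⟩ : Poly fun z : ((List ℕ × List ℕ) × Un) × List Bool =>
      decide (toNat (z.2.take z.1.2.n) = 0) := by fun_prop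
  obtain ⟨T₁, hT₁, c₁⟩ := (hp.poly_round hest (ok := fun a => okT a.1.1 a.1.2) hok).comp
    (g := fun z : ((List ℕ × List ℕ) × Un) × List Bool => (z.1, z.2.drop z.1.2.n)) (by fun_prop)
  have hent : Poly fun a : (List ℕ × List ℕ) × List (Option (List ℕ) × ℕ) =>
      ent (okT a.1.1 a.1.2) a.2 := by
    unfold ent
    fun_prop
  have hslow : Poly fun z : (((List ℕ × List ℕ) × Un) × List Bool) × Un =>
      sel (toNat (z.1.2.drop z.1.1.2.n))
        (cw z.1.1.2.n (ent (okT z.1.1.1.1 z.1.1.1.2) (law (z.1.1, z.2)))) :=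
    poly_sel (by fun_prop) (poly_cw (by fun_prop) (by fun_prop)
      (hent.comp (g := fun z : (((List ℕ × List ℕ) × Un) × List Bool) × Un =>
        (z.1.1.1, law (z.1.1, z.2))) (by fun_prop)))
  obtain ⟨Q, c₂⟩ := exists_cmp_pad (s := fun z : ((List ℕ × List ℕ) × Un) × List Bool =>
    (p z.1).padExp) (hpad.comp Poly.id'.fst) (hpad'.comp Poly.id'.fst) hslow
  obtain ⟨P, hP⟩ : PB fun a : (List ℕ × List ℕ) × Un => sz a + 4 * (a.2.n + (p a).Br) + 2 := by
    have := PB.sz_id (α := (List ℕ × List ℕ) × Un)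
    fun_prop
  obtain ⟨C₁, hC₁⟩ := eval_two_pow (P.comp (3 * Polynomial.X))
  obtain ⟨C₂, hC₂⟩ := eval_two_pow Q
  refine ⟨fun a => a.2.n + (p a).Br, _, _, fun z => T₀ z + T₁ z,
    fun a => C₂ * (C₁ + q.eval (sz a) + 1), by fun_prop, by fun_prop, cmp_ite c₀ c₂ c₁,
    by fun_prop, ?_, fun a => Nat.le_add_right _ _, fun a u ha hu => ?_,
    fun rs cs k h hk => ⟨fun u y hy => ?_, ?_⟩⟩
  · have := PB.sz_id (α := List ℕ × List ℕ)
    fun_prop
  · simp only [decide_eq_true_eq]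
    split_ifs
    · suffices Q.eval (sz (a, u) + 2 ^ (p a).padExp) ≤
          2 ^ (C₂ * (C₁ + q.eval (sz a.1) + 1) * (a.2.n + 1).size) by omega
      set z := (a.2.n + 1).size
      have hz : 1 ≤ z := Nat.size_pos.2 (by omega)
      have h1 : a.2.n + 1 < 2 ^ z := Nat.lt_size_self _
      have h2 : sz (a, u) ≤ 2 ^ (C₁ * z) := by
        have h3 := sz_listBool_le u
        have h4 := hP a
        have h5 := eval_mono P (show sz a ≤ 3 * 2 ^ z by rw [sz_prod, sz_un]; omega)
        have h6 := hC₁ z hz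
        simp only [Polynomial.eval_mul, Polynomial.eval_comp, Polynomial.eval_X,
          Polynomial.eval_ofNat] at h6
        simp only at hu h4
        rw [sz_pair]
        omega
      have h3 : 2 ^ (C₁ * z) ≤ 2 ^ ((C₁ + q.eval (sz a.1)) * z) :=
        Nat.pow_le_pow_right two_pos (Nat.mul_le_mul_right _ (by omega))
      have h4 : 2 ^ (p a).padExp ≤ 2 ^ ((C₁ + q.eval (sz a.1)) * z) :=
        Nat.pow_le_pow_right two_pos ((hq a).trans (Nat.mul_le_mul_right _ (by omega)))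
      have h5 : 2 ^ ((C₁ + q.eval (sz a.1)) * z + 1) ≤ 2 ^ ((C₁ + q.eval (sz a.1) + 1) * z) :=
        Nat.pow_le_pow_right two_pos (by rw [add_one_mul]; omega)
      rw [pow_succ] at h5
      rw [mul_assoc]
      exact (eval_mono Q (by omega)).trans (hC₂ _ (Nat.mul_pos (by omega) hz))
    · omega
  · rw [mem_Tabs]
    split_ifs at hy
    · have h1 := sel_mem hy
      rw [cw, List.map_map] at h1
      obtain ⟨e, he, rfl⟩ := List.mem_map.1 h1
      exact (mem_ent.1 he).2
    · exact JP.round_ok _ _ _ hy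
  · obtain ⟨γ, h1, h2, h3⟩ := hγ rs cs k h
    obtain ⟨h4, h5⟩ := hL ((rs, cs), k) ⟨2 ^ (p ((rs, cs), k)).padExp⟩ le_rfl
    have hne := Tabs_nonempty h
    have hN : (0 : ℝ) < (Tabs rs cs).card := by exact_mod_cast hne.card_pos
    obtain ⟨c, hc, hc'⟩ := corr_law (mem_Tabs rs cs) h4 h5 (lt_of_lt_of_le (by positivity) h1)
      (by rw [le_div_iff₀ (by positivity)] at h2; linarith) hk (fun y hy => h3 y hy _ le_rfl) hne
    refine ⟨c, le_trans ?_ hc, fun y hy => ?_⟩
    · rw [div_le_iff₀ (by positivity)] at h1 ⊢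
      linarith
    · rw [← hc' y hy, Pr, Pr, Pr, ← Ex_mix]
      refine Ex_congr fun u _ => ?_
      simp only [decide_eq_true_eq]
      split_ifs <;> rfl

end ExactAux

open ExactAux in
theorem exists_exact_round : ∃ (r : List ℕ → Un) (f : List ℕ × List Bool → Option (List ℕ))
    (T : List ℕ × List Bool → ℕ) (C d : ℕ), Poly r ∧ Cmp f T ∧
    ∀ rs cs : List ℕ, rs.sum = cs.sum → ∀ x, x = rs.length :: cs.length :: (rs ++ cs) →
      (∀ u y, f (x, u) = some y → y ∈ Tabs rs cs) ∧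
      (∃ c : ℝ, 1 / (256 * (Tabs rs cs).card) ≤ c ∧
        ∀ y ∈ Tabs rs cs, Pr (r x).n (fun u => f (x, u) = some y) = c) ∧
      Ex (r x).n (fun u => (T (x, u) : ℝ)) ≤ (C * sz x ^ d : ℕ) ∧
      ∀ u : List Bool, u.length = (r x).n → T (x, u) ≤ 2 ^ (C * sz x ^ d) := by
  obtain ⟨r, f, T, G, E, hr, hr', hf, ⟨PG, hG⟩, hE, hle, hT, h⟩ := exists_mix
  let mar : List ℕ → List ℕ × List ℕ := fun x =>
    ((x.drop 2).take (x.headD 0), (x.drop 2).drop (x.headD 0))
  have hmar : Poly mar := by fun_prop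
  obtain ⟨t, ht, ht', htl⟩ := PB.exists_clock
    (show PB fun x => E (mar x) + sz (mar x) + 5 by fun_prop)
  let a : List ℕ → (List ℕ × List ℕ) × Un := fun x => (mar x, ⟨t x ^ 2⟩)
  have ha : Poly a := by fun_prop
  obtain ⟨PU, hU⟩ := Poly.exists_poly (f := fun z : List ℕ × List Bool => (a z.1, z.2))
    (by fun_prop)
  obtain ⟨P, hP⟩ : PB fun x => PU.eval (sz x + 4 * r (a x) + 2) +
      PG.eval (sz (a x) + 4 * r (a x) + 2) + t x ^ 2 + 1 := by
    have := PB.sz_id (α := List ℕ)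
    fun_prop
  obtain ⟨C, d, hC⟩ := eval_le_pow P
  refine ⟨fun x => ⟨r (a x)⟩, _, _, C, d, by fun_prop, hf.comp hU, fun rs cs hs x hx => ?_⟩
  have e : a x = ((rs, cs), ⟨t x ^ 2⟩) := by
    have : mar x = (rs, cs) := by
      simp only [mar, hx, List.drop_succ_cons, List.drop_zero, List.headD_cons, List.take_left',
        List.drop_left']
    simp only [a, this]
  have h1 := htl x
  have h2 := (hP x).trans (hC _ (one_le_sz x))
  simp only at h1 h2
  have h3 : t x ≤ t x ^ 2 := Nat.le_self_pow two_ne_zero _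
  have key : ∀ u : List Bool, u.length = r (a x) → PU.eval (sz (x, u)) + T (a x, u) ≤
      PU.eval (sz x + 4 * r (a x) + 2) + PG.eval (sz (a x) + 4 * r (a x) + 2) +
        if toNat (u.take (t x ^ 2)) = 0 then 2 ^ (t x ^ 2) else 0 := fun u hu => by
    have h4 := hT (a x) u (by simp only [a]; omega) hu
    have h5 := sz_listBool_le u
    have h6 := eval_mono PU (show sz (x, u) ≤ sz x + 4 * r (a x) + 2 by rw [sz_pair]; omega)
    have h7 := (hG (a x, u)).trans
      (eval_mono PG (show _ ≤ sz (a x) + 4 * r (a x) + 2 by rw [sz_pair]; omega))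
    have h8 : 2 ^ (E (mar x) * (t x ^ 2 + 1).size) ≤ 2 ^ (t x ^ 2) :=
      Nat.pow_le_pow_right two_pos (by
        rw [sq (t x)]
        exact Nat.mul_le_mul (by omega) (by rw [← sq]; exact size_sq_le (by omega)))
    change _ ≤ _ + if toNat (u.take (t x ^ 2)) = 0 then
      2 ^ (E (mar x) * (t x ^ 2 + 1).size) else 0 at h4
    split_ifs at h4 ⊢ <;> omega
  obtain ⟨h4, h5⟩ := h rs cs ⟨t x ^ 2⟩ hs (by simp only; omega)
  refine ⟨by simpa only [e] using h4, by simpa only [e] using h5, ?_, fun u hu => ?_⟩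
  · refine (Ex_mono (G := fun u => ((PU.eval (sz x + 4 * r (a x) + 2) +
        PG.eval (sz (a x) + 4 * r (a x) + 2) : ℕ) : ℝ) +
        if toNat (u.take (t x ^ 2)) = 0 then 2 ^ (t x ^ 2) else 0) fun u hu => ?_).trans ?_
    · exact_mod_cast key u hu
    · obtain ⟨n, hn⟩ := Nat.exists_eq_add_of_le (hle (a x))
      have h6 := Ex_mix (K := t x ^ 2) (n := n) (fun _ => 0) fun _ => 2 ^ (t x ^ 2)
      simp only [Ex_const, mul_zero, zero_add] at h6
      change r (a x) = t x ^ 2 + n at hn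
      rw [← hn, one_div, inv_mul_cancel₀ (by positivity)] at h6
      rw [Ex_add, Ex_const, h6]
      exact_mod_cast le_trans (by omega) h2
  · refine (key u hu).trans (le_trans ?_ (Nat.pow_le_pow_right two_pos h2))
    generalize PU.eval (sz x + 4 * r (a x) + 2) + PG.eval (sz (a x) + 4 * r (a x) + 2) = g
    have h6 := g.lt_two_pow_self
    have h7 : 2 ^ g ≤ 2 ^ (g + t x ^ 2) := Nat.pow_le_pow_right two_pos (by omega)
    have h8 : 2 ^ (t x ^ 2) ≤ 2 ^ (g + t x ^ 2) := Nat.pow_le_pow_right two_pos (by omega)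
    rw [pow_succ 2]
    split_ifs <;> omega

end Crest.Agent.R309
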