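import Crest.Agent.R309.NetL
import Crest.Agent.R309.FlowBasic

/-!
# Row 309: capacity scaling, the algorithm and its running time
-/

set_option autoImplicit false

namespace Crest.Agent.R309.Feas

open Crest.Agent.Lib.PolyTime

/-- An arc of the residual graph: tail, head, index of the edge, new value of the flow. -/
abbrev Arc := ℕ × ℕ × ℕ × ℤ

/-- Reached vertices with the flow obtained by pushing along the path that leads to them. -/
abbrev St := List (ℕ × List ℤ)

/-- The ways of reaching a new vertex. -/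
def cands (A : List Arc) (R : St) : St :=
  A.flatMap fun a => if R.any (fun p => p.1 == a.2.1) then [] else
    (R.filter fun p => p.1 == a.1).map fun p => (a.2.1, p.2.set a.2.2.1 a.2.2.2)

/-- One step of the graph search. -/
def step (A : List Arc) (R : St) : St := (cands A R).head?.toList ++ R

/-- Residual arcs at level `τ`. -/
def arcs (N : NetL) (τ : ℕ) (x : List ℤ) : List Arc :=
  N.1.zipIdx.flatMap fun q =>
    (if x.getD q.2 0 + τ ≤ q.1.2.2.2 then [(q.1.1, q.1.2.1, q.2, x.getD q.2 0 + τ)] else []) ++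
    (if q.1.2.2.1 ≤ x.getD q.2 0 - τ then [(q.1.2.1, q.1.1, q.2, x.getD q.2 0 - τ)] else [])

/-- Excess at a vertex. -/
def ex (N : NetL) (x : List ℤ) (v : ℕ) : ℤ :=
  (N.1.zipIdx.map fun q => (if q.1.2.1 = v then x.getD q.2 0 else 0) -
    (if q.1.1 = v then x.getD q.2 0 else 0)).sum - N.2.getD v 0

/-- The sources of the search. -/
def init (N : NetL) (τ : ℕ) (x : List ℤ) : St :=
  ((List.range (N.2.length + 1)).filter fun v => (τ : ℤ) ≤ ex N x v).map fun v => (v, x)

/-- The graph search. -/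
def srch (N : NetL) (τ : ℕ) (x : List ℤ) : St :=
  (step (arcs N τ x))^[N.2.length + 2] (init N τ x)

/-- One augmentation. -/
def aug (N : NetL) (τ : ℕ) (x : List ℤ) : List ℤ :=
  ((srch N τ x).find? fun p => ex N x p.1 ≤ -(τ : ℤ)).elim x fun p => p.2

/-- One phase. -/
def phase (N : NetL) (τ : ℕ) (x : List ℤ) : List ℤ :=
  (aug N τ)^[2 * (N.1.length + (N.2.length + 1))] x

/-- All phases. -/
def run (N : NetL) (J : ℕ) (x : List ℤ) : List ℤ :=
  ((List.range J).map fun j => 2 ^ j).foldr (fun τ x => phase N τ x) x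

/-- Total excess. -/
def tot (N : NetL) (x : List ℤ) : ℕ :=
  ((List.range (N.2.length + 1)).map fun v => (ex N x v).toNat).sum

/-- The starting point. -/
def x0 (N : NetL) : List ℤ := N.1.map fun p => p.2.2.1

/-- The final flow. -/
def xf (N : NetL) : List ℤ := run N (tot N (x0 N)).size (x0 N)

/-- The algorithm. -/
def feas (N : NetL) : Option (List ℤ) :=
  if (N.1.all fun p => p.2.2.1 ≤ p.2.2.2) &&
    ((List.range (N.2.length + 1)).all fun v => ex N (xf N) v == 0) then some (xf N) else none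

/-! ### the search -/

theorem mem_cands {A : List Arc} {R : St} {c : ℕ × List ℤ} : c ∈ cands A R ↔
    ∃ a ∈ A, (∀ p ∈ R, p.1 ≠ a.2.1) ∧ ∃ p ∈ R, p.1 = a.1 ∧
      c = (a.2.1, p.2.set a.2.2.1 a.2.2.2) := by
  simp only [cands, List.mem_flatMap]
  refine exists_congr fun a => and_congr_right fun _ => ?_
  split_ifs with h
  · simp only [List.any_eq_true, beq_iff_eq] at h
    obtain ⟨p, hp, h⟩ := h
    simp only [List.not_mem_nil, false_iff, not_and]
    exact fun h' => absurd h (h' p hp)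
  · simp only [List.any_eq_true, beq_iff_eq, not_exists, not_and] at h
    simp only [List.mem_map, List.mem_filter, beq_iff_eq]
    constructor
    · rintro ⟨p, ⟨hp, h1⟩, rfl⟩
      exact ⟨h, p, hp, h1, rfl⟩
    · rintro ⟨-, p, hp, h1, rfl⟩
      exact ⟨p, ⟨hp, h1⟩, rfl⟩

theorem step_cases (A : List Arc) (R : St) :
    (cands A R = [] ∧ step A R = R) ∨ ∃ c ∈ cands A R, step A R = c :: R := by
  unfold step
  cases h : cands A R with
  | nil => simp
  | cons c l => exact Or.inr ⟨c, by simp, by simp⟩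

theorem iter_inv {A : List Arc} {I : St → Prop} {R : St} (h0 : I R)
    (hI : ∀ R c, I R → c ∈ cands A R → I (c :: R)) (n : ℕ) : I ((step A)^[n] R) := by
  induction n with
  | zero => exact h0
  | succ n ih =>
    rw [Function.iterate_succ_apply']
    rcases step_cases A ((step A)^[n] R) with ⟨-, h⟩ | ⟨c, hc, h⟩
    · rwa [h]
    · rw [h]; exact hI _ c ih hc

theorem iter_length_le (A : List Arc) (R : St) (n : ℕ) :
    ((step A)^[n] R).length ≤ R.length + n := by
  induction n with
  | zero => simp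
  | succ n ih =>
    rw [Function.iterate_succ_apply']
    rcases step_cases A ((step A)^[n] R) with ⟨-, h⟩ | ⟨c, hc, h⟩
    · rw [h]; omega
    · rw [h, List.length_cons]; omega

theorem iter_closed (A : List Arc) (R : St) (n : ℕ) :
    cands A ((step A)^[n] R) = [] ∨ n ≤ ((step A)^[n] R).length := by
  induction n with
  | zero => simp
  | succ n ih =>
    rw [Function.iterate_succ_apply']
    rcases step_cases A ((step A)^[n] R) with ⟨h', h⟩ | ⟨c, hc, h⟩
    · rw [h]; exact Or.inl h'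
    · rcases ih with ih | ih
      · rw [ih] at hc; simp at hc
      · rw [h, List.length_cons]; omega

theorem mem_arcs {N : NetL} {τ : ℕ} {x : List ℤ} {a : Arc} : a ∈ arcs N τ x ↔
    ∃ e : N.E, (x.getD e 0 + τ ≤ N.hi e ∧
        a = ((N.1.get e).1, (N.1.get e).2.1, (e : ℕ), x.getD e 0 + τ)) ∨
      (N.lo e ≤ x.getD e 0 - τ ∧
        a = ((N.1.get e).2.1, (N.1.get e).1, (e : ℕ), x.getD e 0 - τ)) := by
  simp only [arcs, List.mem_flatMap, List.mem_append, List.mem_ite_nil_right, List.mem_singleton]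
  constructor
  · rintro ⟨⟨p, k⟩, hq, h⟩
    obtain ⟨hk, hp⟩ := List.getElem?_eq_some_iff.1 (List.mk_mem_zipIdx_iff_getElem?.1 hq)
    subst hp
    exact ⟨⟨k, hk⟩, h⟩
  · rintro ⟨e, h⟩
    exact ⟨(N.1.get e, e), List.mk_mem_zipIdx_iff_getElem?.2 (by simp), h⟩

/-! ### size bounds -/

/-- A bound for all capacities. -/
def bd (N : NetL) : ℕ := (N.1.map fun p => p.2.2.1.natAbs + p.2.2.2.natAbs).sum

theorem le_bd (N : NetL) {p : ℕ × ℕ × ℤ × ℤ} (hp : p ∈ N.1) :
    p.2.2.1.natAbs + p.2.2.2.natAbs ≤ bd N :=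
  List.single_le_sum (fun _ _ => Nat.zero_le _) _ (List.mem_map_of_mem hp)

/-- Lists of the right length with bounded entries. -/
def Sm (N : NetL) (x : List ℤ) : Prop := x.length = N.1.length ∧ ∀ z ∈ x, z.natAbs ≤ bd N

theorem Sm.getD {N : NetL} {x : List ℤ} (h : Sm N x) (k : ℕ) : (x.getD k 0).natAbs ≤ bd N := by
  rcases lt_or_ge k x.length with hk | hk
  · rw [List.getD_eq_getElem _ _ hk]
    exact h.2 _ (List.getElem_mem hk)
  · rw [List.getD_eq_default _ _ hk]; simp

theorem Sm.sz_le {N : NetL} {x : List ℤ} (h : Sm N x) :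
    sz x ≤ N.1.length * (4 * sz (bd N) + 5) + 1 := by
  rw [← h.1]
  refine sz_list_le fun z hz => ?_
  have h1 := sz_int_le z
  have h2 := sz_le_of_le (h.2 z hz)
  omega

theorem sm_x0 (N : NetL) : Sm N (x0 N) := by
  refine ⟨by simp [x0], fun z hz => ?_⟩
  obtain ⟨p, hp, rfl⟩ := List.mem_map.1 hz
  have := le_bd N hp
  omega

/-- The crude invariant of the search. -/
def Cr (A : List Arc) (x : List ℤ) (n : ℕ) (R : St) : Prop :=
  ∀ p ∈ R, (p.1 ≤ n ∨ ∃ a ∈ A, p.1 = a.2.1) ∧ p.2.length = x.length ∧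
    ∀ z ∈ p.2, z ∈ x ∨ ∃ a ∈ A, z = a.2.2.2

theorem cr_iter (N : NetL) (τ : ℕ) (x : List ℤ) (A : List Arc) (n : ℕ) :
    Cr A x N.2.length ((step A)^[n] (init N τ x)) := by
  refine iter_inv (I := Cr A x N.2.length) ?_ ?_ n
  · intro p hp
    obtain ⟨v, hv, rfl⟩ := List.mem_map.1 hp
    have := List.mem_range.1 (List.mem_filter.1 hv).1
    exact ⟨Or.inl (by simp only; omega), rfl, fun z hz => Or.inl hz⟩
  · intro R c hR hc p hp
    rcases List.mem_cons.1 hp with rfl | hp
    · obtain ⟨a, ha, -, q, hq, -, rfl⟩ := mem_cands.1 hc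
      refine ⟨Or.inr ⟨a, ha, rfl⟩, by simpa using (hR q hq).2.1, fun z hz => ?_⟩
      rcases List.mem_or_eq_of_mem_set hz with hz | hz
      · exact (hR q hq).2.2 z hz
      · exact Or.inr ⟨a, ha, hz⟩
    · exact hR p hp

theorem Sm.aug {N : NetL} {x : List ℤ} (h : Sm N x) (τ : ℕ) : Sm N (aug N τ x) := by
  unfold Feas.aug
  cases hf : (srch N τ x).find? fun p => ex N x p.1 ≤ -(τ : ℤ) with
  | none => exact h
  | some p =>
    obtain ⟨-, h1, h2⟩ := cr_iter N τ x _ _ p (List.mem_of_find?_eq_some hf)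
    refine ⟨h1.trans h.1, fun z hz => ?_⟩
    rcases h2 z hz with hz | ⟨a, ha, rfl⟩
    · exact h.2 z hz
    · obtain ⟨e, he⟩ := mem_arcs.1 ha
      have h3 := h.getD e
      have h4 := le_bd N (List.get_mem N.1 e)
      rcases he with ⟨h5, rfl⟩ | ⟨h5, rfl⟩
      · simp only [NetL.hi] at h5 ⊢
        omega
      · simp only [NetL.lo] at h5 ⊢
        omega

theorem Sm.phase {N : NetL} {x : List ℤ} (h : Sm N x) (τ : ℕ) : Sm N (phase N τ x) :=
  Function.Iterate.rec (Sm N) h (fun _ h => h.aug τ) _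

/-! ### polynomial time -/

section Poly
variable {α : Type} [PEnc α]

@[fun_prop] theorem poly_cands {A : α → List Arc} {R : α → St} (hA : Poly A) (hR : Poly R) :
    Poly fun a => cands (A a) (R a) := by
  unfold cands; fun_prop

@[fun_prop] theorem poly_step {A : α → List Arc} {R : α → St} (hA : Poly A) (hR : Poly R) :
    Poly fun a => step (A a) (R a) := by
  unfold step; fun_prop

@[fun_prop] theorem poly_arcs {N : α → NetL} {τ : α → ℕ} {x : α → List ℤ} (hN : Poly N)
    (hτ : Poly τ) (hx : Poly x) : Poly fun a => arcs (N a) (τ a) (x a) := by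
  unfold arcs; fun_prop

@[fun_prop] theorem poly_ex {N : α → NetL} {x : α → List ℤ} {v : α → ℕ} (hN : Poly N)
    (hx : Poly x) (hv : Poly v) : Poly fun a => ex (N a) (x a) (v a) := by
  unfold ex; fun_prop

@[fun_prop] theorem poly_init {N : α → NetL} {τ : α → ℕ} {x : α → List ℤ} (hN : Poly N)
    (hτ : Poly τ) (hx : Poly x) : Poly fun a => init (N a) (τ a) (x a) := by
  unfold init; fun_prop

theorem poly_srch' : Poly fun a : NetL × ℕ × List ℤ => srch a.1 a.2.1 a.2.2 := by
  refine Poly.iterate (h := fun (a : NetL × ℕ × List ℤ) R => step (arcs a.1 a.2.1 a.2.2) R)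
    (by fun_prop) (by fun_prop) (by fun_prop) (by fun_prop)
    (B := fun a => ((init a.1 a.2.1 a.2.2).length + (a.1.2.length + 2)) *
      ((4 * sz a.1.2.length + sz (arcs a.1 a.2.1 a.2.2) +
        (a.2.2.length * (sz a.2.2 + sz (arcs a.1 a.2.1 a.2.2) + 1) + 1) + 1) + 1) + 1)
    (by fun_prop) fun a i hi => ?_
  have h1 := iter_length_le (arcs a.1 a.2.1 a.2.2) (init a.1 a.2.1 a.2.2) i
  have h2 := cr_iter a.1 a.2.1 a.2.2 (arcs a.1 a.2.1 a.2.2) i
  refine (sz_list_le (B := 4 * sz a.1.2.length + sz (arcs a.1 a.2.1 a.2.2) +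
    (a.2.2.length * (sz a.2.2 + sz (arcs a.1 a.2.1 a.2.2) + 1) + 1) + 1) fun p hp => ?_).trans
    (Nat.add_le_add_right (Nat.mul_le_mul_right _ (h1.trans (by omega))) _)
  obtain ⟨h3, h4, h5⟩ := h2 p hp
  have h6 : sz p.1 ≤ 4 * sz a.1.2.length + sz (arcs a.1 a.2.1 a.2.2) := by
    rcases h3 with h3 | ⟨b, hb, h3⟩
    · have := sz_le_of_le h3
      omega
    · have := sz_le_of_mem hb
      have := sz_snd_le b
      have := sz_fst_le b.2
      rw [h3]
      omega
  have h7 : sz p.2 ≤ a.2.2.length * (sz a.2.2 + sz (arcs a.1 a.2.1 a.2.2) + 1) + 1 := by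
    rw [← h4]
    refine sz_list_le fun z hz => ?_
    rcases h5 z hz with hz | ⟨b, hb, rfl⟩
    · have := sz_le_of_mem hz
      omega
    · have := sz_le_of_mem hb
      have := sz_snd_le b
      have := sz_snd_le b.2
      have := sz_snd_le b.2.2
      omega
  rw [sz_prod]
  omega

@[fun_prop] theorem poly_srch {N : α → NetL} {τ : α → ℕ} {x : α → List ℤ} (hN : Poly N)
    (hτ : Poly τ) (hx : Poly x) : Poly fun a => srch (N a) (τ a) (x a) :=
  poly_srch'.comp (g := fun a => (N a, τ a, x a)) (by fun_prop)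

@[fun_prop] theorem poly_aug {N : α → NetL} {τ : α → ℕ} {x : α → List ℤ} (hN : Poly N)
    (hτ : Poly τ) (hx : Poly x) : Poly fun a => aug (N a) (τ a) (x a) := by
  unfold aug; fun_prop

@[fun_prop] theorem poly_bd {N : α → NetL} (hN : Poly N) : Poly fun a => bd (N a) := by
  unfold bd; fun_prop

/-- A version of `phase` that does nothing on large inputs. -/
def phase' (N : NetL) (τ : ℕ) (x : List ℤ) : List ℤ :=
  phase N τ (if x.length = N.1.length ∧ x.all (fun z => z.natAbs ≤ bd N) then x else x0 N)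

theorem Sm.phase'_eq {N : NetL} {x : List ℤ} (h : Sm N x) (τ : ℕ) :
    phase' N τ x = Feas.phase N τ x := by
  unfold phase'
  rw [if_pos ⟨h.1, by simpa using h.2⟩]

theorem poly_phase' : Poly fun a : NetL × ℕ × List ℤ => phase' a.1 a.2.1 a.2.2 := by
  refine Poly.iterate_inv (h := fun (a : NetL × ℕ × List ℤ) x => aug a.1 a.2.1 x)
    (by fun_prop) (by fun_prop) (by unfold x0; fun_prop) (by fun_prop) (fun a x => Sm a.1 x)
    (fun a => ?_) (fun a x h => h.aug _)
    (B := fun a => a.1.1.length * (4 * sz (bd a.1) + 5) + 1) (by fun_prop) fun a x h => h.sz_le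
  split_ifs with h
  · exact ⟨h.1, by simpa using h.2⟩
  · exact sm_x0 _

theorem foldr_phase' (N : NetL) (l : List ℕ) :
    Sm N (l.foldr (fun τ x => phase N τ x) (x0 N)) ∧
    l.foldr (fun τ x => phase' N τ x) (x0 N) = l.foldr (fun τ x => phase N τ x) (x0 N) := by
  induction l with
  | nil => exact ⟨sm_x0 N, rfl⟩
  | cons τ l ih =>
    simp only [List.foldr_cons]
    exact ⟨ih.1.phase τ, by rw [ih.2, ih.1.phase'_eq]⟩

theorem sm_xf (N : NetL) : Sm N (xf N) := (foldr_phase' N _).1

theorem poly_tot : Poly fun N : NetL => tot N (x0 N) := by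
  unfold tot x0; fun_prop

theorem poly_xf : Poly xf := by
  have h := poly_tot
  refine (Poly.foldr (l := fun N : NetL => (List.range (tot N (x0 N)).size).map fun j => 2 ^ j)
    (g := x0) (h := fun N τ x => phase' N τ x) (by fun_prop) (by unfold x0; fun_prop) poly_phase'
    (B := fun N => N.1.length * (4 * sz (bd N) + 5) + 1) (by fun_prop) fun N l _ => ?_).congr
    fun N => (foldr_phase' N _).2
  rw [(foldr_phase' N l).2]
  exact (foldr_phase' N l).1.sz_le

theorem poly_feas : Poly feas := by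
  have h := poly_xf
  unfold feas; fun_prop

end Poly

end Crest.Agent.R309.Feas
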