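import Crest.Agent.R309.NetL
import Crest.Agent.R309.FlowBasic
import Crest.Agent.R309.FeasAux

/-!
# Row 309: a feasible flow in polynomial time (capacity scaling)
-/

set_option autoImplicit false

namespace Crest.Agent.R309

open Crest.Agent.Lib.PolyTime

namespace Feas

open Finset

section Cut
variable {V E : Type} [Fintype V] [DecidableEq V] [Fintype E] [DecidableEq E]

omit [Fintype V] [DecidableEq E] in
theorem dv_apply (G : Net V E) (x : E → ℤ) (v : V) :
    G.dv x v = ∑ e, ((if G.hd e = v then x e else 0) - (if G.tl e = v then x e else 0)) := by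
  simp only [Net.dv, Net.bd, dl, Finset.sum_apply, Pi.smul_apply, Pi.sub_apply, Pi.single_apply,
    smul_eq_mul, mul_sub, mul_ite, mul_one, mul_zero, eq_comm (a := v)]

omit [DecidableEq E] in
theorem sum_ite_dv (G : Net V E) (x : E → ℤ) (S : V → Prop) [DecidablePred S] :
    ∑ v, (if S v then G.dv x v else 0) =
      ∑ e, ((if S (G.hd e) then x e else 0) - (if S (G.tl e) then x e else 0)) := by
  have h : ∀ v, (if S v then G.dv x v else 0) = ∑ e, ((if G.hd e = v then (if S v then x e else 0)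
      else 0) - (if G.tl e = v then (if S v then x e else 0) else 0)) := by
    intro v
    split_ifs with h
    · exact dv_apply G x v
    · simp
  simp only [h]
  rw [sum_comm]
  simp [sum_sub_distrib]

omit [DecidableEq E] in
theorem sum_dv (G : Net V E) (x : E → ℤ) : ∑ v, G.dv x v = 0 := by
  simpa using sum_ite_dv G x fun _ => True

/-- The cut argument. -/
theorem cut_bound (G : Net V E) (lo hi x z : E → ℤ) (τ : ℤ) (hτ : 1 ≤ τ) (S : V → Prop)
    [DecidablePred S] (hz : ∀ e, lo e ≤ z e ∧ z e ≤ hi e)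
    (h1 : ∀ v, ¬S v → G.dv x v - G.dv z v < τ) (h2 : ∀ v, S v → -τ < G.dv x v - G.dv z v)
    (h3 : ∀ e, S (G.tl e) → ¬S (G.hd e) → hi e < x e + τ)
    (h4 : ∀ e, S (G.hd e) → ¬S (G.tl e) → x e - τ < lo e) :
    ∑ v, max (G.dv x v - G.dv z v) 0 ≤ (Fintype.card E + Fintype.card V) * (τ - 1) := by
  have h5 : ∑ v, (if S v then G.dv (x - z) v else 0) ≤ Fintype.card E * (τ - 1) := by
    rw [sum_ite_dv]
    refine (sum_le_sum (g := fun _ => τ - 1) fun e _ => ?_).trans
      (by rw [sum_const, card_univ, nsmul_eq_mul])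
    have := hz e
    simp only [Pi.sub_apply]
    split_ifs with ha hb hb
    · omega
    · have := h4 e ha hb
      omega
    · have := h3 e hb ha
      omega
    · omega
  have h6 : ∀ v, max (G.dv x v - G.dv z v) 0 ≤ (if S v then G.dv (x - z) v else 0) + (τ - 1) := by
    intro v
    rw [dv_sub, Pi.sub_apply]
    split_ifs with h
    · have := h2 v h
      omega
    · have := h1 v h
      omega
  refine (sum_le_sum fun v _ => h6 v).trans ?_
  rw [sum_add_distrib, add_mul]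
  exact add_le_add h5 (by rw [sum_const, card_univ, nsmul_eq_mul])

end Cut

/-- The flow given by a list. -/
def fl (N : NetL) (x : List ℤ) : N.E → ℤ := fun e => x.getD e 0

/-- Lists of the right length in the box. -/
def Box (N : NetL) (x : List ℤ) : Prop :=
  x.length = N.1.length ∧ ∀ e, N.lo e ≤ fl N x e ∧ fl N x e ≤ N.hi e

variable {N : NetL}

theorem tl_val (hN : N.WF) (e : N.E) : (N.G.tl e : ℕ) = (N.1.get e).1 :=
  Nat.mod_eq_of_lt (Nat.lt_succ_of_lt (hN _ (List.get_mem N.1 e)).1)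

theorem hd_val (hN : N.WF) (e : N.E) : (N.G.hd e : ℕ) = (N.1.get e).2.1 :=
  Nat.mod_eq_of_lt (Nat.lt_succ_of_lt (hN _ (List.get_mem N.1 e)).2.1)

theorem sum_zipIdx {α : Type} (l : List α) (f : α × ℕ → ℤ) :
    (l.zipIdx.map f).sum = ∑ e : Fin l.length, f (l.get e, e) := by
  rw [← List.sum_ofFn]
  congr 1
  apply List.ext_getElem <;> simp

theorem ex_eq (hN : N.WF) (x : List ℤ) (v : N.V) : ex N x v = N.G.dv (fl N x) v - N.βf v := by
  rw [ex, sum_zipIdx, dv_apply]
  simp only [← tl_val hN, ← hd_val hN, Fin.val_inj]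
  rfl

theorem tot_eq (hN : N.WF) (x : List ℤ) :
    (tot N x : ℤ) = ∑ v, max (N.G.dv (fl N x) v - N.βf v) 0 := by
  rw [tot, ← ofFn_eq_map_range, List.sum_ofFn, Nat.cast_sum]
  exact sum_congr rfl fun v _ => by rw [Int.ofNat_toNat, ex_eq hN]

theorem fl_set {y : List ℤ} (hy : y.length = N.1.length) (e : N.E) (k : ℤ) :
    fl N (y.set e k) = fl N y + (k - fl N y e) • ue e := by
  funext f
  by_cases h : f = e
  · subst h
    simp [fl, ue, hy]
  · have : (e : ℕ) ≠ f := fun h' => h (Fin.ext h'.symm)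
    simp [fl, ue, h, List.getElem?_set_ne this]

/-- The invariant of the search. -/
def Inv (N : NetL) (τ : ℕ) (x : List ℤ) (R : St) : Prop :=
  (R.map Prod.fst).Nodup ∧ (∀ v : N.V, (τ : ℤ) ≤ ex N x v → (v : ℕ) ∈ R.map Prod.fst) ∧
    ∀ p ∈ R, Box N p.2 ∧ (∃ s v : N.V, p.1 = v ∧ (τ : ℤ) ≤ ex N x s ∧
      N.G.dv (fl N p.2) = N.G.dv (fl N x) + (τ : ℤ) • (dl v - dl s)) ∧
      ∀ e, ((N.G.tl e : ℕ) ∉ R.map Prod.fst ∨ (N.G.hd e : ℕ) ∉ R.map Prod.fst) →
        fl N p.2 e = fl N x e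

theorem inv_init {x : List ℤ} (hx : Box N x) (τ : ℕ) : Inv N τ x (init N τ x) := by
  have h : (init N τ x).map Prod.fst =
      (List.range (N.2.length + 1)).filter fun v => (τ : ℤ) ≤ ex N x v := by
    simp [init, Function.comp_def]
  refine ⟨h ▸ List.nodup_range.filter _, fun v hv => ?_, fun p hp => ?_⟩
  · rw [h]
    simpa using ⟨Nat.lt_succ_iff.1 v.2, hv⟩
  · obtain ⟨v, hv, rfl⟩ := List.mem_map.1 hp
    obtain ⟨h1, h2⟩ := List.mem_filter.1 hv
    exact ⟨hx, ⟨⟨v, List.mem_range.1 h1⟩, ⟨v, List.mem_range.1 h1⟩, rfl, by simpa using h2,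
      by simp⟩, fun _ _ => rfl⟩

theorem inv_cons {x : List ℤ} {τ : ℕ} {R : St} (hR : Inv N τ x R) {p : ℕ × List ℤ} (hp : p ∈ R)
    {e : N.E} {a b : N.V} {k : ℤ} (ha : p.1 = a) (hb : ∀ q ∈ R, q.1 ≠ b)
    (hab : (N.G.tl e = a ∧ N.G.hd e = b ∧ k = fl N x e + τ) ∨
      (N.G.tl e = b ∧ N.G.hd e = a ∧ k = fl N x e - τ)) (hk : N.lo e ≤ k ∧ k ≤ N.hi e) :
    Inv N τ x (((b : ℕ), p.2.set e k) :: R) := by
  have hb' : (b : ℕ) ∉ R.map Prod.fst := by
    intro h
    obtain ⟨q, hq, h⟩ := List.mem_map.1 h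
    exact hb q hq h
  have ha' : (a : ℕ) ∈ R.map Prod.fst := ha ▸ List.mem_map_of_mem hp
  have mono : ∀ f, ((N.G.tl f : ℕ) ∉ (((b : ℕ), p.2.set e k) :: R).map Prod.fst ∨
      (N.G.hd f : ℕ) ∉ (((b : ℕ), p.2.set e k) :: R).map Prod.fst) →
      ((N.G.tl f : ℕ) ∉ R.map Prod.fst ∨ (N.G.hd f : ℕ) ∉ R.map Prod.fst) := fun f h =>
    h.imp (fun h h' => h (List.mem_cons_of_mem _ h')) fun h h' => h (List.mem_cons_of_mem _ h')
  refine ⟨List.nodup_cons.2 ⟨hb', hR.1⟩, fun v hv => List.mem_cons_of_mem _ (hR.2.1 v hv),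
    fun q hq => ?_⟩
  rcases List.mem_cons.1 hq with rfl | hq
  · obtain ⟨h1, ⟨s, v, h2, h3, h4⟩, h5⟩ := hR.2.2 p hp
    have hv : v = a := Fin.ext (h2.symm.trans ha)
    subst hv
    have h6 : fl N p.2 e = fl N x e := by
      refine h5 e ?_
      rcases hab with ⟨-, h, -⟩ | ⟨h, -, -⟩
      · exact Or.inr (h ▸ hb')
      · exact Or.inl (h ▸ hb')
    have h7 := fl_set h1.1 e k
    refine ⟨⟨by simpa using h1.1, fun f => ?_⟩, ⟨s, b, rfl, h3, ?_⟩, fun f hf => ?_⟩
    · rw [h7]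
      by_cases h : f = e
      · subst h
        simpa [ue] using hk
      · simpa [ue, h] using h1.2 f
    · rw [h7, dv_add, dv_smul, dv_ue, h4, h6, Net.bd]
      rcases hab with ⟨h8, h9, rfl⟩ | ⟨h8, h9, rfl⟩
      · rw [h8, h9]
        module
      · rw [h8, h9]
        module
    · have h : f ≠ e := by
        rintro rfl
        rcases hab with ⟨h8, h9, -⟩ | ⟨h8, h9, -⟩
        · rw [h8, h9] at hf
          exact hf.elim (fun h => h (List.mem_cons_of_mem _ ha')) fun h => h (by simp)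
        · rw [h8, h9] at hf
          exact hf.elim (fun h => h (by simp)) fun h => h (List.mem_cons_of_mem _ ha')
      rw [h7, ← h5 f (mono f hf)]
      simp [ue, h]
  · obtain ⟨h1, h2, h3⟩ := hR.2.2 q hq
    exact ⟨h1, h2, fun f hf => h3 f (mono f hf)⟩

theorem inv_srch (hN : N.WF) {x : List ℤ} (hx : Box N x) (τ : ℕ) : Inv N τ x (srch N τ x) := by
  refine iter_inv (I := Inv N τ x) (inv_init hx τ) (fun R c hR hc => ?_) _
  obtain ⟨a, ha, h1, p, hp, h2, rfl⟩ := mem_cands.1 hc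
  obtain ⟨e, he⟩ := mem_arcs.1 ha
  have h3 := hx.2 e
  rcases he with ⟨h4, rfl⟩ | ⟨h4, rfl⟩
  · simp only [← tl_val hN, ← hd_val hN] at h1 h2 ⊢
    exact inv_cons hR hp h2 h1 (Or.inl ⟨rfl, rfl, rfl⟩) ⟨by simp only [fl] at h3; omega, h4⟩
  · simp only [← tl_val hN, ← hd_val hN] at h1 h2 ⊢
    exact inv_cons hR hp h2 h1 (Or.inr ⟨rfl, rfl, rfl⟩) ⟨h4, by simp only [fl] at h3; omega⟩

theorem srch_closed (hN : N.WF) {x : List ℤ} (hx : Box N x) (τ : ℕ) :
    cands (arcs N τ x) (srch N τ x) = [] := by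
  refine (iter_closed _ _ _).resolve_right fun h => ?_
  have h1 := inv_srch hN hx τ
  have h2 : (srch N τ x).map Prod.fst ⊆ List.range (N.2.length + 1) := by
    intro v hv
    obtain ⟨p, hp, rfl⟩ := List.mem_map.1 hv
    obtain ⟨-, ⟨s, v, h, -⟩, -⟩ := h1.2.2 p hp
    rw [h]
    exact List.mem_range.2 v.2
  have h3 := (List.subperm_of_subset h1.1 h2).length_le
  rw [List.length_map, List.length_range] at h3
  unfold srch at h3
  omega

theorem Box.aug (hN : N.WF) {x : List ℤ} (hx : Box N x) (τ : ℕ) : Box N (aug N τ x) := by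
  unfold Feas.aug
  cases hf : (srch N τ x).find? fun p => ex N x p.1 ≤ -(τ : ℤ) with
  | none => exact hx
  | some p => exact ((inv_srch hN hx τ).2.2 p (List.mem_of_find?_eq_some hf)).1

theorem mem_flows {z : N.E → ℤ} :
    z ∈ N.flows ↔ (∀ e, N.lo e ≤ z e ∧ z e ≤ N.hi e) ∧ N.G.dv z = N.βf := by
  simp [NetL.flows]

theorem tot_aug (hN : N.WF) {z : N.E → ℤ} (hz : z ∈ N.flows) {x : List ℤ} (hx : Box N x) {τ : ℕ}
    (hτ : 1 ≤ τ) : (tot N (aug N τ x) : ℤ) = tot N x - τ ∨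
      (aug N τ x = x ∧ (tot N x : ℤ) ≤ (N.1.length + (N.2.length + 1) : ℕ) * ((τ : ℤ) - 1)) := by
  have h1 := inv_srch hN hx τ
  unfold Feas.aug
  cases hf : (srch N τ x).find? fun p => ex N x p.1 ≤ -(τ : ℤ) with
  | some p =>
    left
    obtain ⟨-, ⟨s, v, h2, h3, h4⟩, -⟩ := h1.2.2 p (List.mem_of_find?_eq_some hf)
    have h5 : ex N x v ≤ -(τ : ℤ) := by simpa [h2] using List.find?_some hf
    have hsv : s ≠ v := by
      rintro rfl
      omega
    rw [ex_eq hN] at h3 h5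
    simp only [Option.elim, tot_eq hN, h4]
    have h6 : ∀ u, max ((N.G.dv (fl N x) + (τ : ℤ) • (dl v - dl s) : N.V → ℤ) u - N.βf u) 0 =
        max (N.G.dv (fl N x) u - N.βf u) 0 - if u = s then (τ : ℤ) else 0 := by
      intro u
      simp only [dl, Pi.add_apply, Pi.smul_apply, Pi.sub_apply, Pi.single_apply, smul_eq_mul]
      by_cases hs : u = s
      · subst hs
        simp only [hsv, if_true, if_false]
        omega
      · by_cases hv : u = v
        · subst hv
          simp only [hs, if_true, if_false]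
          omega
        · simp [hs, hv]
    simp only [h6]
    simp [sum_sub_distrib]
  | none =>
    right
    refine ⟨rfl, ?_⟩
    obtain ⟨hz1, hz2⟩ := mem_flows.1 hz
    have h2 := srch_closed hN hx τ
    have h3 : ∀ a ∈ arcs N τ x, a.1 ∈ (srch N τ x).map Prod.fst →
        a.2.1 ∈ (srch N τ x).map Prod.fst := by
      intro a ha h
      obtain ⟨p, hp, h⟩ := List.mem_map.1 h
      by_contra h'
      have : (a.2.1, p.2.set a.2.2.1 a.2.2.2) ∈ cands (arcs N τ x) (srch N τ x) :=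
        mem_cands.2 ⟨a, ha, fun q hq h'' => h' (h'' ▸ List.mem_map_of_mem hq), p, hp, h, rfl⟩
      rw [h2] at this
      simp at this
    have h4 := cut_bound N.G N.lo N.hi (fl N x) z τ (by exact_mod_cast hτ)
      (fun v => (v : ℕ) ∈ (srch N τ x).map Prod.fst) hz1 (fun v hv => ?_) (fun v hv => ?_)
      (fun e h5 h6 => ?_) (fun e h5 h6 => ?_)
    · rw [tot_eq hN, ← hz2]
      simpa using h4
    · rw [hz2, ← ex_eq hN]
      exact lt_of_not_ge fun h => hv (h1.2.1 v h)
    · rw [hz2, ← ex_eq hN]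
      obtain ⟨p, hp, h⟩ := List.mem_map.1 hv
      have := List.find?_eq_none.1 hf p hp
      rw [h] at this
      simpa using this
    · refine lt_of_not_ge fun h => h6 ?_
      rw [hd_val hN]
      rw [tl_val hN] at h5
      exact h3 _ (mem_arcs.2 ⟨e, Or.inl ⟨h, rfl⟩⟩) h5
    · refine lt_of_not_ge fun h => h6 ?_
      rw [tl_val hN]
      rw [hd_val hN] at h5
      exact h3 _ (mem_arcs.2 ⟨e, Or.inr ⟨h, rfl⟩⟩) h5

theorem Box.iter (hN : N.WF) {x : List ℤ} (hx : Box N x) (τ i : ℕ) :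
    Box N ((Feas.aug N τ)^[i] x) :=
  Function.Iterate.rec (Box N) hx (fun _ h => h.aug hN τ) _

theorem tot_iter (hN : N.WF) {z : N.E → ℤ} (hz : z ∈ N.flows) {x : List ℤ} (hx : Box N x) {τ : ℕ}
    (hτ : 1 ≤ τ) (i : ℕ) : (tot N ((aug N τ)^[i] x) : ℤ) ≤ tot N x - i * τ ∨
      (tot N ((aug N τ)^[i] x) : ℤ) ≤ (N.1.length + (N.2.length + 1) : ℕ) * ((τ : ℤ) - 1) := by
  induction i with
  | zero => simp
  | succ i ih =>
    rw [Function.iterate_succ_apply']
    rcases tot_aug hN hz (hx.iter hN τ i) hτ with h | ⟨h, h'⟩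
    · rw [h]
      refine ih.imp (fun ih => ?_) fun ih => ?_
      · push_cast
        linarith
      · linarith [Int.natCast_nonneg τ]
    · rw [h]
      exact Or.inr h'

theorem tot_phase (hN : N.WF) {z : N.E → ℤ} (hz : z ∈ N.flows) {x : List ℤ} (hx : Box N x) {τ : ℕ}
    (hτ : 1 ≤ τ) (h : (tot N x : ℤ) ≤ (N.1.length + (N.2.length + 1) : ℕ) * (2 * (τ : ℤ) - 1)) :
    (tot N (phase N τ x) : ℤ) ≤ (N.1.length + (N.2.length + 1) : ℕ) * ((τ : ℤ) - 1) := by
  refine (tot_iter hN hz hx hτ _).elim (fun h' => h'.trans ?_) id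
  have h1 : (1 : ℤ) ≤ τ := by exact_mod_cast hτ
  rw [Nat.cast_mul]
  generalize N.1.length + (N.2.length + 1) = M at h ⊢
  have := Int.natCast_nonneg M
  push_cast
  nlinarith

theorem run_succ (N : NetL) (J : ℕ) (x : List ℤ) :
    run N (J + 1) x = run N J (phase N (2 ^ J) x) := by
  simp [run, List.range_succ]

theorem Box.run (hN : N.WF) (J : ℕ) {x : List ℤ} (hx : Box N x) : Box N (run N J x) := by
  induction J generalizing x with
  | zero => exact hx
  | succ J ih =>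
    rw [run_succ]
    exact ih (hx.iter hN _ _)

theorem tot_run (hN : N.WF) {z : N.E → ℤ} (hz : z ∈ N.flows) (J : ℕ) {x : List ℤ} (hx : Box N x)
    (h : (tot N x : ℤ) ≤ (N.1.length + (N.2.length + 1) : ℕ) * ((2 : ℤ) ^ J - 1)) :
    (tot N (run N J x) : ℤ) ≤ 0 := by
  induction J generalizing x with
  | zero => simpa [run] using h
  | succ J ih =>
    rw [run_succ]
    refine ih (hx.iter hN _ _) ?_
    have := tot_phase hN hz hx (τ := 2 ^ J) Nat.one_le_two_pow (by
      rw [pow_succ'] at h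
      exact_mod_cast h)
    exact_mod_cast this

theorem box_x0 (h : ∀ e, N.lo e ≤ N.hi e) : Box N (x0 N) := by
  refine ⟨by simp [x0], fun e => ?_⟩
  have : fl N (x0 N) e = N.lo e := by simp [fl, x0, NetL.lo]
  rw [this]
  exact ⟨le_rfl, h e⟩

theorem all_le_iff : (N.1.all fun p => p.2.2.1 ≤ p.2.2.2) = true ↔ ∀ e, N.lo e ≤ N.hi e := by
  simp only [List.all_eq_true, decide_eq_true_eq]
  refine ⟨fun h e => h _ (List.get_mem N.1 e), fun h p hp => ?_⟩
  obtain ⟨e, rfl⟩ := List.get_of_mem hp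
  exact h e

theorem all_ex_iff (hN : N.WF) {x : List ℤ} :
    ((List.range (N.2.length + 1)).all fun v => ex N x v == 0) = true ↔
      N.G.dv (fl N x) = N.βf := by
  simp only [List.all_eq_true, List.mem_range, beq_iff_eq]
  refine ⟨fun h => funext fun v => ?_, fun h v hv => ?_⟩
  · have := h v v.2
    rwa [ex_eq hN, sub_eq_zero] at this
  · have := ex_eq hN x ⟨v, hv⟩
    rw [h, sub_self] at this
    exact this

theorem dv_xf (hN : N.WF) {z : N.E → ℤ} (hz : z ∈ N.flows) : N.G.dv (fl N (xf N)) = N.βf := by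
  obtain ⟨hz1, hz2⟩ := mem_flows.1 hz
  have h1 := tot_run hN hz (tot N (x0 N)).size (box_x0 fun e => (hz1 e).1.trans (hz1 e).2) (by
    have h : (tot N (x0 N) : ℤ) < 2 ^ (tot N (x0 N)).size := by
      exact_mod_cast Nat.lt_size_self _
    have h' : (1 : ℤ) ≤ (N.1.length + (N.2.length + 1) : ℕ) := by exact_mod_cast (by omega)
    have := Int.natCast_nonneg (tot N (x0 N))
    nlinarith)
  rw [tot_eq hN] at h1
  have h2 : ∀ v, N.G.dv (fl N (xf N)) v - N.βf v ≤ 0 := fun v =>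
    ((le_max_left _ _).trans (single_le_sum (f := fun v => max (N.G.dv (fl N (xf N)) v - N.βf v) 0)
      (fun _ _ => le_max_right _ _) (mem_univ v))).trans h1
  have h3 : ∑ v, (N.G.dv (fl N (xf N)) v - N.βf v) = 0 := by
    rw [sum_sub_distrib, ← hz2, sum_dv, sum_dv, sub_self]
  funext v
  exact sub_eq_zero.1 ((sum_eq_zero_iff_of_nonpos fun v _ => h2 v).1 h3 v (mem_univ v))

end Feas

theorem exists_feas : ∃ feas : NetL → Option (List ℤ), Poly feas ∧ ∀ N : NetL, N.WF →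
    (feas N = none → N.flows = ∅) ∧
      ∀ x, feas N = some x → x.length = N.1.length ∧ (fun e : N.E => x.getD e 0) ∈ N.flows := by
  refine ⟨Feas.feas, Feas.poly_feas, fun N hN => ⟨fun h => ?_, fun x h => ?_⟩⟩
  · refine Finset.eq_empty_of_forall_notMem fun z hz => ?_
    obtain ⟨hz1, -⟩ := Feas.mem_flows.1 hz
    rw [Feas.feas, if_pos] at h
    · exact Option.some_ne_none _ h
    · rw [Bool.and_eq_true, Feas.all_le_iff, Feas.all_ex_iff hN]
      exact ⟨fun e => (hz1 e).1.trans (hz1 e).2, Feas.dv_xf hN hz⟩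
  · rw [Feas.feas] at h
    split_ifs at h with hc
    rw [Bool.and_eq_true, Feas.all_le_iff, Feas.all_ex_iff hN] at hc
    obtain rfl := Option.some.inj h
    have hb : Feas.Box N (Feas.xf N) := (Feas.box_x0 hc.1).run hN _
    exact ⟨hb.1, Feas.mem_flows.2 ⟨hb.2, hc.2⟩⟩

end Crest.Agent.R309
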