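import Mathlib

/-!
# Row 309: weighted integer flows on a network

`Z G W γ` is the total weight of the integer flows with divergence `γ`, every edge carrying a
log-concave weight with interval support.
-/

set_option autoImplicit false

namespace Crest.Agent.R309

open Finset

/-- A directed multigraph. -/
structure Net (V E : Type) where
  tl : E → V
  hd : E → V

/-- Log-concave edge weights with interval support `[lo e, hi e]`. -/
structure Wt (E : Type) where
  lo : E → ℤ
  hi : E → ℤ
  φ : E → ℤ → ℝ
  le : ∀ e, lo e ≤ hi e
  pos : ∀ e k, lo e ≤ k → k ≤ hi e → 0 < φ e k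
  zero : ∀ e k, k < lo e ∨ hi e < k → φ e k = 0
  lc : ∀ e k, φ e (k - 1) * φ e (k + 1) ≤ φ e k ^ 2

variable {V E : Type} [Fintype V] [DecidableEq V] [Fintype E] [DecidableEq E]

/-- No edge is a loop. -/
def Net.NoLoop (G : Net V E) : Prop := ∀ e, G.tl e ≠ G.hd e

/-- Unit charge at a vertex. -/
def dl (v : V) : V → ℤ := Pi.single v 1

/-- Unit flow on an edge. -/
def ue (e : E) : E → ℤ := Pi.single e 1

/-- Divergence (inflow minus outflow) of the unit flow on an edge. -/
def Net.bd (G : Net V E) (e : E) : V → ℤ := dl (G.hd e) - dl (G.tl e)

/-- Divergence (inflow minus outflow) of a flow. -/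
def Net.dv (G : Net V E) (x : E → ℤ) : V → ℤ := ∑ e, x e • G.bd e

/-- The support box of the weights. -/
noncomputable def Wt.box (W : Wt E) : Finset (E → ℤ) := Fintype.piFinset fun e => Icc (W.lo e) (W.hi e)

/-- The weight of a flow. -/
noncomputable def Wt.Φ (W : Wt E) (x : E → ℤ) : ℝ := ∏ e, W.φ e (x e)

/-- Pin the edge `e` to the value `k` (with weight one). -/
noncomputable def Wt.pin (W : Wt E) (e : E) (k : ℤ) : Wt E where
  lo := Function.update W.lo e k
  hi := Function.update W.hi e k
  φ := Function.update W.φ e fun j => if j = k then 1 else 0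
  le := by
    intro f
    by_cases h : f = e
    · subst h; simp
    · simp [Function.update_of_ne h, W.le f]
  pos := by
    intro f j h1 h2
    by_cases h : f = e
    · subst h
      simp only [Function.update_self] at h1 h2 ⊢
      have : j = k := le_antisymm h2 h1
      simp [this]
    · simp only [Function.update_of_ne h] at h1 h2 ⊢
      exact W.pos f j h1 h2
  zero := by
    intro f j h1
    by_cases h : f = e
    · subst h
      simp only [Function.update_self] at h1 ⊢
      have : j ≠ k := by omega
      simp [this]
    · simp only [Function.update_of_ne h] at h1 ⊢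
      exact W.zero f j h1
  lc := by
    intro f j
    by_cases h : f = e
    · subst h
      simp only [Function.update_self]
      by_cases h1 : j - 1 = k
      · have : j + 1 ≠ k := by omega
        simp [this]; positivity
      · simp [h1]; positivity
    · simp only [Function.update_of_ne h]
      exact W.lc f j

/-- The flows in the support box with divergence `γ`. -/
noncomputable def fib (G : Net V E) (W : Wt E) (γ : V → ℤ) : Finset (E → ℤ) :=
  W.box.filter fun x => G.dv x = γ

/-- Weighted sum of `F` over the flows with divergence `γ`. -/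
noncomputable def I (G : Net V E) (W : Wt E) (γ : V → ℤ) (F : (E → ℤ) → ℝ) : ℝ :=
  ∑ x ∈ fib G W γ, W.Φ x * F x

/-- Total weight of the flows with divergence `γ`. -/
noncomputable def Z (G : Net V E) (W : Wt E) (γ : V → ℤ) : ℝ := ∑ x ∈ fib G W γ, W.Φ x

/-- Dirichlet form of the unit moves along `e` of the head of a worm; the state with head `h` has
divergence `γ + dl h` and weight `τ h * Φ`. -/
noncomputable def Dir (G : Net V E) (W : Wt E) (γ : V → ℤ) (τ : V → ℝ) (F : (E → ℤ) → ℝ) (e : E) :
    ℝ :=
  ∑ x ∈ fib G W (γ + dl (G.tl e)),
    min (τ (G.tl e) * W.Φ x) (τ (G.hd e) * W.Φ (x + ue e)) * (F (x + ue e) - F x) ^ 2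

/-- The number of edges that are not pinned (induction measure). -/
def Wt.free (W : Wt E) : ℕ := (univ.filter fun e => W.lo e < W.hi e).card

end Crest.Agent.R309
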