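import Crest.Agent.R309.Model

/-!
# Row 309: the data of a preprocessed network are polynomial time computable
-/

set_option autoImplicit false

namespace Crest.Agent.R309

open Crest.Agent.Lib.PolyTime

namespace Impl

variable {α : Type} [PEnc α] {R : α → Raw}

theorem cst {β : Type} [PEnc β] (b : β) : Poly fun _ : α => b := Lib.PolyTime.Poly.const b

theorem tup (hR : Poly R) : Poly fun a => (R a).tup := hR.of_enc fun _ => rfl

@[fun_prop] theorem p_tl (hR : Poly R) : Poly fun a => (R a).tl := (tup hR).fst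
@[fun_prop] theorem p_hd (hR : Poly R) : Poly fun a => (R a).hd := (tup hR).snd.fst
@[fun_prop] theorem p_β (hR : Poly R) : Poly fun a => (R a).β := (tup hR).snd.snd.fst
@[fun_prop] theorem p_l (hR : Poly R) : Poly fun a => (R a).l := (tup hR).snd.snd.snd.fst
@[fun_prop] theorem p_u (hR : Poly R) : Poly fun a => (R a).u := (tup hR).snd.snd.snd.snd.fst
@[fun_prop] theorem p_c (hR : Poly R) : Poly fun a => (R a).c :=
  (tup hR).snd.snd.snd.snd.snd.fst
@[fun_prop] theorem p_kind (hR : Poly R) : Poly fun a => (R a).kind :=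
  (tup hR).snd.snd.snd.snd.snd.snd.fst
@[fun_prop] theorem p_q (hR : Poly R) : Poly fun a => (R a).q :=
  (tup hR).snd.snd.snd.snd.snd.snd.snd.fst
@[fun_prop] theorem p_root (hR : Poly R) : Poly fun a => (R a).root :=
  (tup hR).snd.snd.snd.snd.snd.snd.snd.snd.fst
@[fun_prop] theorem p_P (hR : Poly R) : Poly fun a => (R a).P :=
  (tup hR).snd.snd.snd.snd.snd.snd.snd.snd.snd.fst
@[fun_prop] theorem p_mU (hR : Poly R) : Poly fun a => (R a).mU :=
  (tup hR).snd.snd.snd.snd.snd.snd.snd.snd.snd.snd.fst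
@[fun_prop] theorem p_ℓU (hR : Poly R) : Poly fun a => (R a).ℓU :=
  (tup hR).snd.snd.snd.snd.snd.snd.snd.snd.snd.snd.snd

theorem p_nE (hR : Poly R) : Poly fun a => (R a).nE := (p_tl hR).length
theorem b_nE (hR : Poly R) : PB fun a => (R a).nE := PB.length (p_tl hR)
theorem p_nV (hR : Poly R) : Poly fun a => (R a).nV + 1 := (p_β hR).length.add (cst 1)
theorem b_nV (hR : Poly R) : PB fun a => (R a).nV + 1 := (PB.length (p_β hR)).add (PB.const 1)
theorem p_m (hR : Poly R) : Poly fun a => (R a).m := (p_mU hR).unVal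
theorem b_m (hR : Poly R) : PB fun a => (R a).m := PB.unVal (p_mU hR)
theorem p_ℓ (hR : Poly R) : Poly fun a => (R a).ℓ := (p_ℓU hR).unVal
theorem b_ℓ (hR : Poly R) : PB fun a => (R a).ℓ := PB.unVal (p_ℓU hR)

@[fun_prop] theorem p_Ls (hR : Poly R) : Poly fun a => (R a).Ls := by unfold Raw.Ls; fun_prop
@[fun_prop] theorem b_Ls (hR : Poly R) : PB fun a => (R a).Ls := by unfold Raw.Ls; fun_prop
@[fun_prop] theorem p_g1 (hR : Poly R) : Poly fun a => (R a).g1 := by unfold Raw.g1; fun_prop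
@[fun_prop] theorem b_g1 (hR : Poly R) : PB fun a => (R a).g1 := by unfold Raw.g1; fun_prop
@[fun_prop] theorem p_Bp (hR : Poly R) : Poly fun a => (R a).Bp := by unfold Raw.Bp; fun_prop
@[fun_prop] theorem b_Bp (hR : Poly R) : PB fun a => (R a).Bp := by unfold Raw.Bp; fun_prop
@[fun_prop] theorem p_ba (hR : Poly R) : Poly fun a => (R a).ba := by unfold Raw.ba; fun_prop
@[fun_prop] theorem b_ba (hR : Poly R) : PB fun a => (R a).ba := by unfold Raw.ba; fun_prop
@[fun_prop] theorem p_Bs (hR : Poly R) : Poly fun a => (R a).Bs := by unfold Raw.Bs; fun_prop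
@[fun_prop] theorem b_Bs (hR : Poly R) : PB fun a => (R a).Bs := by unfold Raw.Bs; fun_prop
@[fun_prop] theorem p_Tn (hR : Poly R) : Poly fun a => (R a).Tn := by unfold Raw.Tn; fun_prop
@[fun_prop] theorem b_Tn (hR : Poly R) : PB fun a => (R a).Tn := by unfold Raw.Tn; fun_prop
@[fun_prop] theorem p_Rs (hR : Poly R) : Poly fun a => (R a).Rs := by unfold Raw.Rs; fun_prop
@[fun_prop] theorem b_Rs (hR : Poly R) : PB fun a => (R a).Rs := by unfold Raw.Rs; fun_prop
@[fun_prop] theorem p_Bsamp (hR : Poly R) : Poly fun a => (R a).Bsamp := by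
  unfold Raw.Bsamp; fun_prop
@[fun_prop] theorem b_Bsamp (hR : Poly R) : PB fun a => (R a).Bsamp := by
  unfold Raw.Bsamp; fun_prop
@[fun_prop] theorem p_Bstage (hR : Poly R) : Poly fun a => (R a).Bstage := by
  unfold Raw.Bstage; fun_prop
@[fun_prop] theorem b_Bstage (hR : Poly R) : PB fun a => (R a).Bstage := by
  unfold Raw.Bstage; fun_prop
theorem b_Btot (hR : Poly R) : PB fun a => (R a).Btot := by unfold Raw.Btot; fun_prop

section edges
variable {e g : ∀ a, (R a).E} {v U H : ∀ a, (R a).V}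

theorem p_vtx {n : α → ℕ} (hR : Poly R) (hn : Poly n) :
    Poly fun a => ((R a).vtx (n a) : ℕ) := hn.mod (p_nV hR)

theorem p_Gtl (hR : Poly R) (he : Poly fun a => (e a : ℕ)) :
    Poly fun a => ((R a).G.tl (e a) : ℕ) :=
  p_vtx hR ((p_tl hR).listGetD he (cst 0))

theorem p_Ghd (hR : Poly R) (he : Poly fun a => (e a : ℕ)) :
    Poly fun a => ((R a).G.hd (e a) : ℕ) :=
  p_vtx hR ((p_hd hR).listGetD he (cst 0))

theorem p_star (hR : Poly R) : Poly fun a => ((R a).star : ℕ) := (p_β hR).length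

theorem p_βf (hR : Poly R) (hv : Poly fun a => (v a : ℕ)) : Poly fun a => (R a).βf (v a) :=
  (p_β hR).listGetD hv (cst 0)
theorem p_lf (hR : Poly R) (he : Poly fun a => (e a : ℕ)) : Poly fun a => (R a).lf (e a) :=
  (p_l hR).listGetD he (cst 0)
theorem p_uf (hR : Poly R) (he : Poly fun a => (e a : ℕ)) : Poly fun a => (R a).uf (e a) :=
  (p_u hR).listGetD he (cst 0)
theorem p_cf (hR : Poly R) (he : Poly fun a => (e a : ℕ)) : Poly fun a => (R a).cf (e a) :=
  (p_c hR).listGetD he (cst 0)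
theorem p_kd (hR : Poly R) (he : Poly fun a => (e a : ℕ)) : Poly fun a => (R a).kd (e a) :=
  (p_kind hR).listGetD he (cst 0)
theorem p_qf (hR : Poly R) (he : Poly fun a => (e a : ℕ)) : Poly fun a => (R a).qf (e a) :=
  (p_q hR).listGetD he (cst 0)
theorem p_rt (hR : Poly R) (hv : Poly fun a => (v a : ℕ)) : Poly fun a => ((R a).rt (v a) : ℕ) :=
  p_vtx hR ((p_root hR).listGetD hv (cst 0))
theorem p_Pf (hR : Poly R) (hv : Poly fun a => (v a : ℕ)) (he : Poly fun a => (e a : ℕ)) :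
    Poly fun a => (R a).Pf (v a) (e a) :=
  ((p_P hR).listGetD hv (cst [])).listGetD he (cst 0)

theorem p_single {n : α → ℕ} {i j : ∀ a, Fin (n a)} (hi : Poly fun a => (i a : ℕ))
    (hj : Poly fun a => (j a : ℕ)) :
    Poly fun a => (Pi.single (i a) 1 : Fin (n a) → ℤ) (j a) :=
  (Poly.ite (Poly.decide_eq hj hi) (cst (1 : ℤ)) (cst 0)).congr fun a => by
    simp [Pi.single_apply, Fin.ext_iff]

theorem p_Lv (hR : Poly R) (he : Poly fun a => (e a : ℕ)) (hg : Poly fun a => (g a : ℕ)) :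
    Poly fun a => (R a).Lv (e a) (g a) :=
  ((p_single he hg).intAdd (p_Pf hR (p_Ghd hR he) hg)).intSub (p_Pf hR (p_Gtl hR he) hg)

theorem p_Dm (hR : Poly R) (he : Poly fun a => (e a : ℕ)) : Poly fun a => (R a).Dm (e a) :=
  Poly.ite (Poly.decide_le (cst 2) (p_kd hR he))
    ((p_qf hR he).mul ((p_m hR).pow (cst 4) (PB.const 4))) (cst 0)

theorem p_Am (hR : Poly R) (he : Poly fun a => (e a : ℕ)) : Poly fun a => (R a).Am (e a) :=
  Poly.ite (Poly.decide_eq (p_kd hR he) (cst 3))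
    ((p_qf hR he).mul ((p_m hR).pow (cst 2) (PB.const 2))) (cst 0)

theorem p_Bm (hR : Poly R) (he : Poly fun a => (e a : ℕ)) : Poly fun a => (R a).Bm (e a) :=
  Poly.ite (Poly.decide_le (cst 2) (p_kd hR he))
    (((p_Ls hR).mul (p_qf hR he)).mul (p_m hR)) ((p_m hR).pow (cst 6) (PB.const 6))

variable {i : α → ℕ}

theorem p_ex (hR : Poly R) (hi : Poly i) (he : Poly fun a => (e a : ℕ)) :
    Poly fun a => (R a).ex (i a) (e a) :=
  Poly.ite (Poly.decide_eq (p_kd hR he) (cst 1)) hi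
    (Poly.ite (Poly.decide_eq (p_kd hR he) (cst 2)) (cst 0) ((p_Ls hR).sub hi))

theorem b_ex (hR : Poly R) (hi : PB i) : PB fun a => (R a).ex (i a) (e a) :=
  PB.ite hi (PB.ite (PB.const 0) ((b_Ls hR).sub _))

theorem p_dst {k x y : α → ℤ} (hk : Poly k) (hx : Poly x) (hy : Poly y) :
    Poly fun a => dst (k a) (x a) (y a) := by
  unfold dst; fun_prop

theorem p_φ {k : α → ℤ} (hR : Poly R) (hi : Poly i) (bi : PB i) (he : Poly fun a => (e a : ℕ))
    (hk : Poly k) : Poly fun a => (R a).φ (i a) (e a) (k a) := by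
  have h1 := p_lf hR he
  have h2 := p_uf hR he
  have h3 := p_cf hR he
  have h4 := (p_Dm hR he).natCastInt
  have h5 := (p_Am hR he).natCastInt
  refine Poly.ite (Poly.decide_and
    (Poly.decide_intLe (h1.intSub ((cst 8).intMul h4)) hk)
    (Poly.decide_intLe hk (h2.intAdd ((cst 8).intMul h4)))) (Poly.ratMul ?_ ?_)
    (cst 0)
  · exact Poly.monoidPow ((cst 1).ratSub
      ((p_dst hk (h3.intSub h5) (h3.intAdd h5)).intCastRat.ratDiv (p_Bm hR he).natCastRat))
      (p_ex hR hi he) (b_ex hR bi)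
  · exact Poly.monoidPow ((cst 1).ratSub
      ((p_dst hk h1 h2).intCastRat.ratDiv ((cst 16).ratMul (p_Dm hR he).natCastRat)))
      (p_m hR) (b_m hR)

theorem p_tv {t : α → Tab} (ht : Poly t) (hU : Poly fun a => (U a : ℕ))
    (hH : Poly fun a => (H a : ℕ)) : Poly fun a => (R a).tv (t a) (U a) (H a) :=
  (ht.listGetD hU (cst [])).listGetD hH (cst 0)

end edges

/-- The context of a loop body. -/
theorem ctx {n : α → ℕ} : Poly fun p : Σ a, Fin (n a) => p.1 := Poly.id'.sigmaFst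
/-- The loop variable. -/
theorem idx {n : α → ℕ} : Poly fun p : Σ a, Fin (n a) => (p.2 : ℕ) := Poly.id'.sigmaFinVal

section vec
variable {x : ∀ a, (R a).E → ℤ} {v U H : ∀ a, (R a).V} {i : α → ℕ} {t : α → Tab}
  {u : α → List Bool}

theorem p_Φ (hR : Poly R) (hi : Poly i) (bi : PB i) (hx : Poly fun a => List.ofFn (x a)) :
    Poly fun a => (R a).Φ (i a) (x a) :=
  Poly.prod_fin (p_nE hR) (b_nE hR) (p_φ (hR.comp ctx) (hi.comp ctx) (bi.comp ctx) idx
    (Poly.app_fin (hx.comp ctx) idx))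

theorem p_dv (hR : Poly R) (hx : Poly fun a => List.ofFn (x a)) (hv : Poly fun a => (v a : ℕ)) :
    Poly fun a => (R a).G.dv (x a) (v a) :=
  (Poly.sum_fin (f := fun a e => x a e * ((dl ((R a).G.hd e) : (R a).V → ℤ) (v a) -
      (dl ((R a).G.tl e) : (R a).V → ℤ) (v a))) (p_nE hR) (b_nE hR)
    ((Poly.app_fin (hx.comp ctx) idx).intMul
      ((p_single (p_Ghd (hR.comp ctx) idx) (hv.comp ctx)).intSub
        (p_single (p_Gtl (hR.comp ctx) idx) (hv.comp ctx))))).congr fun a => by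
    simp [Net.dv, Net.bd, Finset.sum_apply]

theorem p_funext {n : α → ℕ} {y z : ∀ a, Fin (n a) → ℤ} (hn : Poly n) (hb : PB n)
    (hy : Poly fun p : Σ a, Fin (n a) => y p.1 p.2) (hz : Poly fun p : Σ a, Fin (n a) => z p.1 p.2)
    [∀ a, Decidable (y a = z a)] : Poly fun a => decide (y a = z a) :=
  Poly.decide_congr (Poly.decide_eq (Poly.ofFn hn hb hy) (Poly.ofFn hn hb hz))
    fun _ => List.ofFn_inj

theorem p_cls0 (hR : Poly R) (hx : Poly fun a => List.ofFn (x a))
    [∀ a, Decidable ((R a).G.dv (x a) = (R a).βf)] :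
    Poly fun a => decide ((R a).G.dv (x a) = (R a).βf) :=
  p_funext (y := fun a => (R a).G.dv (x a)) (z := fun a => (R a).βf) (p_nV hR) (b_nV hR)
    (p_dv (R := fun p : Σ a, (R a).V => R p.1) (x := fun p => x p.1) (v := fun p => p.2)
      (hR.comp ctx) (hx.comp ctx) idx)
    (p_βf (R := fun p : Σ a, (R a).V => R p.1) (v := fun p => p.2) (hR.comp ctx) idx)

theorem p_cls (hR : Poly R) (hx : Poly fun a => List.ofFn (x a)) (hU : Poly fun a => (U a : ℕ))
    (hH : Poly fun a => (H a : ℕ))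
    [∀ a, Decidable ((R a).G.dv (x a) = (R a).βf + dl (H a) - dl (U a))] :
    Poly fun a => decide ((R a).G.dv (x a) = (R a).βf + dl (H a) - dl (U a)) :=
  p_funext (y := fun a => (R a).G.dv (x a)) (z := fun a => (R a).βf + dl (H a) - dl (U a))
    (p_nV hR) (b_nV hR)
    (p_dv (R := fun p : Σ a, (R a).V => R p.1) (x := fun p => x p.1) (v := fun p => p.2)
      (hR.comp ctx) (hx.comp ctx) idx)
    (((p_βf (R := fun p : Σ a, (R a).V => R p.1) (v := fun p => p.2) (hR.comp ctx) idx).intAdd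
      (p_single (i := fun p : Σ a, (R a).V => H p.1) (j := fun p => p.2) (hH.comp ctx) idx)).intSub
      (p_single (i := fun p : Σ a, (R a).V => U p.1) (j := fun p => p.2) (hU.comp ctx) idx))

theorem p_finEq {n : α → ℕ} {j k : ∀ a, Fin (n a)} (hj : Poly fun a => (j a : ℕ))
    (hk : Poly fun a => (k a : ℕ)) : Poly fun a => decide (j a = k a) :=
  Poly.decide_congr (Poly.decide_eq hj hk) fun _ => Fin.ext_iff.symm

theorem p_cw (hR : Poly R) (ht : Poly t) (hx : Poly fun a => List.ofFn (x a)) :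
    Poly fun a => (R a).cw (t a) (x a) := by
  refine Poly.ite (p_cls0 hR hx) (cst 1) (Poly.sum_fin (p_nV hR) (b_nV hR)
    (Poly.sum_fin (p_nV (hR.comp ctx)) (b_nV (hR.comp ctx)) ?_))
  have hR2 := (hR.comp (ctx (n := fun a => (R a).nV + 1))).comp
    (ctx (n := fun p : Σ a, Fin ((R a).nV + 1) => (R p.1).nV + 1))
  have hU := (idx (n := fun a => (R a).nV + 1)).comp
    (ctx (n := fun p : Σ a, Fin ((R a).nV + 1) => (R p.1).nV + 1))
  have hH := idx (n := fun p : Σ a, Fin ((R a).nV + 1) => (R p.1).nV + 1)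
  exact Poly.ite (Poly.decide_and (p_finEq (p_rt hR2 hU) hU)
    (Poly.decide_and (p_finEq (p_rt hR2 hH) hH) (Poly.decide_and
      (Poly.decide_not (p_finEq hU hH)) (p_cls hR2 ((hx.comp ctx).comp ctx) hU hH))))
    (p_tv ((ht.comp ctx).comp ctx) hU hH) (cst 0)

theorem p_w (hR : Poly R) (hi : Poly i) (bi : PB i) (ht : Poly t)
    (hx : Poly fun a => List.ofFn (x a)) : Poly fun a => (R a).w (i a) (t a) (x a) :=
  (p_Φ hR hi bi hx).ratMul (p_cw hR ht hx)

/-- A combination of the moves `Lv`. -/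
theorem p_comb {c : ∀ a, (R a).E → ℤ} (hR : Poly R)
    (hc : Poly fun p : Σ a, (R a).E => c p.1 p.2) {g : ∀ a, (R a).E}
    (hg : Poly fun a => (g a : ℕ)) : Poly fun a => (∑ e, c a e • (R a).Lv e) (g a) :=
  (Poly.sum_fin (f := fun a e => c a e * (R a).Lv e (g a)) (p_nE hR) (b_nE hR)
    (hc.intMul (p_Lv (hR.comp ctx) idx (hg.comp ctx)))).congr fun a => by
    simp [Finset.sum_apply]

theorem p_prop (hR : Poly R) (hu : Poly u) : Poly fun a => List.ofFn ((R a).prop (u a)) := by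
  refine Poly.ofFn (p_nE hR) (b_nE hR) (p_comb (hR.comp ctx) ?_ idx)
  have hR2 := (hR.comp (ctx (n := fun a => (R a).nE))).comp
    (ctx (n := fun p : Σ a, (R a).E => (R p.1).nE))
  have hu2 := (hu.comp (ctx (n := fun a => (R a).nE))).comp
    (ctx (n := fun p : Σ a, (R a).E => (R p.1).nE))
  have he := idx (n := fun p : Σ a, (R a).E => (R p.1).nE)
  have hg := p_g1 hR2
  refine Poly.ite (Poly.decide_eq he (poly_toNat (Poly.take hg hu2))) (Poly.intMul
    (Poly.ite (Poly.decide_true (hu2.listGetD hg (cst false))) (cst 1)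
      (cst (-1))) (Poly.natCastInt ?_)) (cst 0)
  exact Poly.ite (Poly.decide_true (hu2.listGetD (hg.add (cst 1)) (cst false)))
    (p_qf hR2 he) ((poly_toNat (Poly.take (p_ℓ hR2) (Poly.drop (hg.add (cst 2)) hu2))).mod
      (p_qf hR2 he))

theorem p_init (hR : Poly R) (hu : Poly u) : Poly fun a => List.ofFn ((R a).init (u a)) := by
  refine Poly.ofFn (p_nE hR) (b_nE hR) ((p_cf (hR.comp ctx) idx).intAdd
    (p_comb (hR.comp ctx) ?_ idx))
  have hR2 := (hR.comp (ctx (n := fun a => (R a).nE))).comp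
    (ctx (n := fun p : Σ a, (R a).E => (R p.1).nE))
  have hu2 := (hu.comp (ctx (n := fun a => (R a).nE))).comp
    (ctx (n := fun p : Σ a, (R a).E => (R p.1).nE))
  have he := idx (n := fun p : Σ a, (R a).E => (R p.1).nE)
  exact Poly.ite (Poly.decide_eq (p_kd hR2 he) (cst 3))
    (((poly_toNat (poly_blk (p_ℓ hR2) he hu2)).mod
      ((cst 2).mul (p_Am hR2 he))).natCastInt.intSub (p_Am hR2 he).natCastInt)
    (cst 0)

theorem p_PA (hR : Poly R) : Poly fun a => (R a).PA :=
  Poly.prod_fin (p_nE hR) (b_nE hR) (Poly.ite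
    (Poly.decide_eq (p_kd (hR.comp ctx) idx) (cst 3))
    ((cst 2).mul (p_Am (hR.comp ctx) idx)) (cst 1))

theorem p_t0 (hR : Poly R) : Poly fun a => (R a).t0 :=
  Poly.ofFn (p_nV hR) (b_nV hR)
    (Poly.ofFn (p_nV (hR.comp ctx)) (b_nV (hR.comp ctx)) (cst 1))

theorem p_vadd {n : α → ℕ} {y z : ∀ a, Fin (n a) → ℤ} (hy : Poly fun a => List.ofFn (y a))
    (hz : Poly fun a => List.ofFn (z a)) : Poly fun a => List.ofFn (y a + z a) :=
  Poly.ofFn (hy.length.congr fun _ => List.length_ofFn)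
    ((PB.length hy).mono fun _ => List.length_ofFn.ge)
    ((Poly.app_fin (hy.comp ctx) idx).intAdd (Poly.app_fin (hz.comp ctx) idx))

theorem p_mstep (hR : Poly R) (hi : Poly i) (bi : PB i) (ht : Poly t)
    (hx : Poly fun a => List.ofFn (x a)) (hu : Poly u) :
    Poly fun a => List.ofFn
      (mstep ((R a).w (i a) (t a)) (R a).prop (R a).Bp (R a).ba (x a) (u a)) := by
  have hy := p_vadd hx (p_prop hR (Poly.take (p_Bp hR) (Poly.drop (cst 1) hu)))
  refine (Poly.ite (Poly.decide_and (Poly.decide_true (hu.headD (cst false)))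
    (Poly.decide_ratLt ((poly_toNat (Poly.take (p_ba hR) (Poly.drop ((p_Bp hR).add (cst 1))
      hu))).natCastRat.ratMul (p_w hR hi bi ht hx))
      ((Poly.monoidPow (cst (2 : ℚ)) (p_ba hR) (b_ba hR)).ratMul (p_w hR hi bi ht hy))))
    hy hx).congr fun a => ?_
  unfold mstep
  split_ifs <;> rfl

end vec

end Impl

end Crest.Agent.R309
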