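import Crest.Agent.R309.Tape

/-!
# Row 309: one round of the rejection sampler of Jerrum, Valiant and Vazirani

All loops have small states (vote counters, the current box, a bit-serial comparison), so that
the exact law of a round can be computed by dynamic programming.
-/

set_option autoImplicit false

namespace Crest.Agent.R309

open Crest.Agent.Lib.PolyTime

/-- Parameters: number of cells, largest entry, bits of the grid, number of votes, bits of one
estimate, bits of the acceptance test, depth, largest exponent, clamp. -/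
structure JP where
  c : ℕ
  Nm : ℕ
  g : ℕ
  k : ℕ
  r0 : ℕ
  b : ℕ
  Dp : ℕ
  Am : ℕ
  zc : ℕ

/-- Increase the counter number `j`. -/
def incr (cs : List ℕ) (j : ℕ) : List ℕ := cs.modify j (· + 1)

/-- The median read off the counters of `k` votes. -/
def medC (cs : List ℕ) (k : ℕ) : ℕ :=
  ((List.range cs.length).find? fun j => decide (k ≤ 2 * (cs.take (j + 1)).sum)).getD 0

/-- The median of `k` independent votes with values below `size`. -/
def voteMed (f : List Bool → ℕ) (size B k : ℕ) (u : List Bool) : ℕ :=
  medC (foldT (fun cs v => incr cs (f v)) B k (List.replicate size 0) u) k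

/-- The first cell that is not yet determined. -/
def pivot (c : ℕ) (lo hi : List ℕ) : Option ℕ :=
  (List.range c).find? fun i => decide (lo.getD i 0 < hi.getD i 0)

/-- The middle of the range of cell `i`. -/
def midp (lo hi : List ℕ) (i : ℕ) : ℕ := (lo.getD i 0 + hi.getD i 0) / 2

/-- One step of the bit-serial comparison of the tape with the binary expansion of `P / Q`. -/
def accStep (Q : ℕ) (s : ℕ × Option Bool) (v : List Bool) : ℕ × Option Bool :=
  if s.2.isSome then s
  else if v.headD false = decide (Q ≤ 2 * s.1) then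
    (if Q ≤ 2 * s.1 then 2 * s.1 - Q else 2 * s.1, none)
  else (0, some (decide (Q ≤ 2 * s.1)))

/-- Accept with probability `min 1 (⌊2 ^ b P / Q⌋ / 2 ^ b)`. -/
def accept (P Q b : ℕ) (u : List Bool) : Bool :=
  decide (Q ≤ P) || (foldT (accStep Q) 1 b (P, none) u).2 == some true

namespace JP

variable (p : JP) (est : List ℕ → List ℕ → List Bool → ℚ) (ok : List ℕ → Bool)

/-- One vote for the probability (times `2 ^ g`) of the lower half of cell `i`. -/
def vote1 (lo hi : List ℕ) (i : ℕ) (v : List Bool) : ℕ :=
  max p.zc (min (2 ^ p.g - p.zc)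
    ⌊2 ^ p.g * est lo (hi.set i (midp lo hi i)) (v.take p.r0) /
      (est lo (hi.set i (midp lo hi i)) (v.take p.r0) +
        est (lo.set i (midp lo hi i + 1)) hi (v.drop p.r0))⌋₊)

/-- Halve the range of cell `i`, choosing the lower half with probability `j / 2 ^ g`. -/
def move (s : List ℕ × List ℕ × ℕ) (i j : ℕ) (v : List Bool) : List ℕ × List ℕ × ℕ :=
  if toNat v < j then (s.1, s.2.1.set i (midp s.1 s.2.1 i), s.2.2 * j)
  else (s.1.set i (midp s.1 s.2.1 i + 1), s.2.1, s.2.2 * (2 ^ p.g - j))

/-- One step of the descent; the state is the box and the product of the numerators. -/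
def walk (s : List ℕ × List ℕ × ℕ) (u : List Bool) : List ℕ × List ℕ × ℕ :=
  (pivot p.c s.1 s.2.1).elim (s.1, s.2.1, s.2.2 * 2 ^ p.g) fun i =>
    p.move s i (voteMed (p.vote1 est s.1 s.2.1 i) (2 ^ p.g + 1) (2 * p.r0) p.k
      (u.take (p.k * (2 * p.r0)))) ((u.drop (p.k * (2 * p.r0))).take p.g)

/-- One vote for the exponent of the acceptance probability. -/
def voteA (v : List Bool) : ℕ :=
  min p.Am (Nat.clog 2 ⌈4 * est (List.replicate p.c 0) (List.replicate p.c p.Nm) v⌉₊)

/-- Bits of a step of the descent. -/
def Bw : ℕ := p.k * (2 * p.r0) + p.g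

/-- Bits of a round. -/
def Br : ℕ := p.k * p.r0 + p.Dp * p.Bw + p.b

/-- The end of a round. -/
def finish (a : ℕ) (s : List ℕ × List ℕ × ℕ) (v : List Bool) : Option (List ℕ) :=
  if accept (2 ^ (p.g * p.Dp)) (2 ^ a * s.2.2) p.b v && ok s.1 then some s.1 else none

/-- One round. -/
def round (u : List Bool) : Option (List ℕ) :=
  p.finish ok (voteMed (p.voteA est) (p.Am + 1) p.r0 p.k (u.take (p.k * p.r0)))
    (foldT (p.walk est) p.Bw p.Dp (List.replicate p.c 0, List.replicate p.c p.Nm, 1)
      ((u.drop (p.k * p.r0)).take (p.Dp * p.Bw)))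
    (u.drop (p.k * p.r0 + p.Dp * p.Bw))

/-- Logarithm of a bound for the number of states of all loops of a round. -/
def padExp : ℕ :=
  2 * p.r0 + (2 ^ p.g + p.Am + 2) * (p.k + 1).size + 2 * p.c * p.Nm.size + p.g * (p.Dp + 1) + 8

theorem round_ok {u : List Bool} {x : List ℕ} (h : p.round est ok u = some x) : ok x = true := by
  unfold round finish at h
  split_ifs at h with h'
  · simp only [Option.some.injEq] at h
    simp only [Bool.and_eq_true] at h'
    exact h ▸ h'.2

end JP

/-- The parameters are polynomial-time computable and polynomially bounded. -/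
structure JPoly {α : Type} [PEnc α] (p : α → JP) : Prop where
  c : Poly fun a => (p a).c
  Nm : Poly fun a => (p a).Nm
  g : Poly fun a => (p a).g
  k : Poly fun a => (p a).k
  r0 : Poly fun a => (p a).r0
  b : Poly fun a => (p a).b
  Dp : Poly fun a => (p a).Dp
  Am : Poly fun a => (p a).Am
  zc : Poly fun a => (p a).zc
  c' : PB fun a => (p a).c
  g' : PB fun a => 2 ^ (p a).g
  k' : PB fun a => (p a).k
  r0' : PB fun a => (p a).r0
  b' : PB fun a => (p a).b
  Dp' : PB fun a => (p a).Dp
  Am' : PB fun a => (p a).Am
  zc' : PB fun a => (p a).zc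

end Crest.Agent.R309
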