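import Crest.Agent.R309.JVV

/-!
# Row 309: medians of votes and the acceptance test
-/

set_option autoImplicit false

namespace Crest.Agent.R309.JVVAn

open Finset

theorem length_foldl_incr (l : List ℕ) (cs : List ℕ) : (l.foldl incr cs).length = cs.length := by
  induction l generalizing cs with
  | nil => rfl
  | cons a l ih => rw [List.foldl_cons, ih]; simp [incr]

theorem sum_take_incr (cs : List ℕ) (a j : ℕ) (ha : a < cs.length) :
    ((incr cs a).take j).sum = (cs.take j).sum + if a < j then 1 else 0 := by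
  induction cs generalizing a j with
  | nil => simp at ha
  | cons c cs ih =>
    cases j with
    | zero => simp
    | succ j =>
      cases a with
      | zero => simp [incr]; omega
      | succ a =>
        have := ih a j (by simpa using ha)
        simp only [incr] at this
        simp [incr, this]
        omega

theorem sum_take_foldl_incr (l : List ℕ) (cs : List ℕ) (j : ℕ) (hl : ∀ a ∈ l, a < cs.length) :
    ((l.foldl incr cs).take j).sum = (cs.take j).sum + l.countP fun a => decide (a < j) := by
  induction l generalizing cs with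
  | nil => simp
  | cons a l ih =>
    rw [List.foldl_cons, ih _ fun b hb => by simpa [incr] using hl b (by simp [hb]),
      sum_take_incr _ _ _ (hl a (by simp)), List.countP_cons]
    by_cases h : a < j <;> simp [h]
    omega

theorem voteMed_eq (f : List Bool → ℕ) (size B k : ℕ) (u : List Bool) :
    voteMed f size B k u = medC ((draws f B k u).foldl incr (List.replicate size 0)) k := by
  simp only [voteMed, foldT, draws, List.foldl_map]

theorem medC_le (cs : List ℕ) (k : ℕ) : medC cs k ≤ cs.length - 1 := by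
  unfold medC
  cases e : (List.range cs.length).find? _ with
  | none => simp
  | some m =>
    have := List.mem_range.1 (List.mem_of_find?_eq_some e)
    simp; omega

theorem voteMed_le (f : List Bool → ℕ) (size B k : ℕ) (u : List Bool) :
    voteMed f (size + 1) B k u ≤ size := by
  have := medC_le ((draws f B k u).foldl incr (List.replicate (size + 1) 0)) k
  rw [length_foldl_incr, List.length_replicate] at this
  rw [voteMed_eq]
  omega

theorem medC_good {P : ℕ → Prop} [DecidablePred P]
    (hP : ∀ a b c, a ≤ b → b ≤ c → P a → P c → P b) {size : ℕ} {l : List ℕ}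
    (hl : ∀ a ∈ l, a < size) (h : 2 * l.countP (fun a => decide (¬ P a)) < l.length) :
    P (medC (l.foldl incr (List.replicate size 0)) l.length) := by
  have hs : ∀ j, ((l.foldl incr (List.replicate size 0)).take j).sum =
      l.countP fun a => decide (a < j) := by
    intro j
    rw [sum_take_foldl_incr l _ j (by simpa using hl)]
    simp
  unfold medC
  simp only [hs, length_foldl_incr, List.length_replicate]
  have hne : l ≠ [] := by rintro rfl; simp at h
  obtain ⟨a₀, ha₀⟩ := List.exists_mem_of_ne_nil l hne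
  have hsz : 0 < size := (Nat.zero_le _).trans_lt (hl a₀ ha₀)
  cases e : (List.range size).find? _ with
  | none =>
    have := List.find?_eq_none.1 e (size - 1) (List.mem_range.2 (by omega))
    rw [List.countP_eq_length.2 fun a ha => by have := hl a ha; simp; omega] at this
    simp at this
    omega
  | some m =>
    rw [List.find?_range_eq_some] at e
    obtain ⟨h1, -, h2⟩ := e
    simp only [decide_eq_true_eq] at h1
    have h3 : 2 * l.countP (fun a => decide (a < m)) < l.length := by
      cases m with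
      | zero => simpa using List.length_pos_of_mem ha₀
      | succ m => simpa using h2 m (by omega)
    have h4 := List.length_eq_countP_add_countP (fun a => decide (a < m)) (l := l)
    obtain ⟨a, ha, hPa⟩ : ∃ a, a ≤ m ∧ P a := by
      by_contra hc
      push Not at hc
      have : l.countP (fun a => decide (a < m + 1)) ≤ l.countP (fun a => decide (¬ P a)) :=
        List.countP_mono_left fun y _ hy => by
          simpa using hc y (by simpa [Nat.lt_succ_iff] using hy)
      omega
    obtain ⟨c, hc, hPc⟩ : ∃ c, m ≤ c ∧ P c := by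
      by_contra hc
      push Not at hc
      have : l.countP (fun a => decide ¬ decide (a < m) = true) ≤
          l.countP (fun a => decide (¬ P a)) :=
        List.countP_mono_left fun y _ hy => by
          simpa using hc y (by simpa using hy)
      omega
    exact hP a m c ha hc hPa hPc

/-- The median of the votes is bad with probability at most `2⁻ᵏ`. -/
theorem Pr_voteMed_bad {P : ℕ → Prop} (hP : ∀ a b c, a ≤ b → b ≤ c → P a → P c → P b)
    {f : List Bool → ℕ} {size B k n : ℕ} (hf : ∀ v, f v < size) (h : k * B ≤ n)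
    (hb : Pr B (fun v => ¬ P (f v)) ≤ 1 / 16) :
    Pr n (fun u => ¬ P (voteMed f size B k u)) ≤ 1 / 2 ^ k := by
  classical
  have := Pr_half_bad f (fun a => decide (¬ P a)) h (by simpa using hb)
  rw [one_div_pow] at this
  refine le_trans (Pr_mono fun u _ hu => ?_) this
  by_contra hc
  apply hu
  rw [voteMed_eq]
  have := medC_good hP (size := size) (l := draws f B k u) (fun a ha => by
    obtain ⟨v, -, rfl⟩ := List.mem_map.1 ha
    exact hf v) (by rw [length_draws]; omega)
  rwa [length_draws] at this

theorem Kop_acc_some (Q b : ℕ) (P : ℕ) (t : Bool) :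
    (Kop (accStep Q) 1)^[b] (fun s => ind (s.2 = some true)) (P, some t) = ind (t = true) := by
  induction b with
  | zero => simp
  | succ b ih =>
    rw [Function.iterate_succ_apply', Kop]
    simp [accStep, ih]

theorem Kop_acc_none {Q : ℕ} (b : ℕ) {P : ℕ} (h : P < Q) :
    (P : ℝ) / Q - 1 / 2 ^ b ≤ (Kop (accStep Q) 1)^[b] (fun s => ind (s.2 = some true)) (P, none) ∧
    (Kop (accStep Q) 1)^[b] (fun s => ind (s.2 = some true)) (P, none) ≤ (P : ℝ) / Q := by
  have hQ : (0 : ℝ) < Q := by exact_mod_cast (Nat.zero_le _).trans_lt h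
  induction b generalizing P with
  | zero =>
    have : (P : ℝ) / Q ≤ 1 := by rw [div_le_one hQ]; exact_mod_cast h.le
    simp [ind]
    exact ⟨this, by positivity⟩
  | succ b ih =>
    rw [Function.iterate_succ_apply', Kop, Ex_succ, Ex_zero, Ex_zero]
    by_cases h2 : Q ≤ 2 * P
    · obtain ⟨h3, h4⟩ := ih (P := 2 * P - Q) (by omega)
      have e : (((2 * P - Q : ℕ) : ℝ)) / Q = 2 * (P / Q) - 1 := by
        rw [Nat.cast_sub h2]; push_cast; field_simp
      rw [e] at h3 h4
      simp only [accStep, h2, Option.isSome_none, Bool.false_eq_true, if_false, List.headD_cons,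
        decide_true, if_true, Kop_acc_some, ind_true, pow_succ]
      have : (1 : ℝ) / (2 ^ b * 2) = 1 / 2 ^ b / 2 := by field_simp
      constructor <;> linarith
    · obtain ⟨h3, h4⟩ := ih (P := 2 * P) (by omega)
      have e : (((2 * P : ℕ) : ℝ)) / Q = 2 * (P / Q) := by push_cast; ring
      rw [e] at h3 h4
      simp only [accStep, h2, Option.isSome_none, Bool.false_eq_true, if_false, List.headD_cons,
        decide_false, if_true, Kop_acc_some, pow_succ, Bool.true_eq_false, ind_false,
        not_false_eq_true]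
      have : (1 : ℝ) / (2 ^ b * 2) = 1 / 2 ^ b / 2 := by field_simp
      constructor <;> linarith

theorem Pr_accept_le {P Q b n : ℕ} (hQ : 0 < Q) (hn : b ≤ n) :
    Pr n (fun u => accept P Q b u = true) ≤ (P : ℝ) / Q := by
  by_cases h : Q ≤ P
  · refine (Pr_le_one _ _).trans ?_
    rw [one_le_div (by exact_mod_cast hQ)]
    exact_mod_cast h
  · have := Ex_foldT (accStep Q) (B := 1) (t := b) (n := n) (by omega) (P, none)
      fun s => ind (s.2 = some true)
    refine le_trans (le_of_eq ?_) (this ▸ (Kop_acc_none b (not_le.1 h)).2)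
    simp [Pr, accept, h]

theorem le_Pr_accept {P Q b n : ℕ} (hQ : 0 < Q) (hP : P ≤ Q) (hn : b ≤ n) :
    (P : ℝ) / Q - 1 / 2 ^ b ≤ Pr n (fun u => accept P Q b u = true) := by
  by_cases h : Q ≤ P
  · have : (P : ℝ) / Q ≤ 1 := by
      rw [div_le_one (by exact_mod_cast hQ)]
      exact_mod_cast hP
    have h2 : (0 : ℝ) ≤ 1 / 2 ^ b := by positivity
    simp only [Pr, accept, h, decide_true, Bool.true_or, ind_true, Ex_const]
    linarith
  · have := Ex_foldT (accStep Q) (B := 1) (t := b) (n := n) (by omega) (P, none)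
      fun s => ind (s.2 = some true)
    refine le_trans (this ▸ (Kop_acc_none b (not_le.1 h)).1) (le_of_eq ?_)
    simp [Pr, accept, h]

/-- The numerical heart of a vote of the descent. -/
theorem vote_num {D zc G κ : ℕ} (hD : 1 ≤ D) (hzc : 4 * D + 1 ≤ zc) (hg : 2 * (D + 1) * zc ≤ G)
    (hκ : 8 * D + 2 ≤ κ) {NL NR : ℕ} (hN : 0 < NL + NR) {eL eR : ℚ}
    (hL : |(eL : ℝ) - NL| ≤ NL / κ) (hR : |(eR : ℝ) - NR| ≤ NR / κ) :
    (1 - 1 / (2 * D : ℝ)) * G * NL ≤
        (max zc (min (G - zc) ⌊(G : ℚ) * eL / (eL + eR)⌋₊) : ℕ) * ((NL + NR : ℕ) : ℝ) ∧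
      (1 - 1 / (2 * D : ℝ)) * G * NR ≤
        (G - (max zc (min (G - zc) ⌊(G : ℚ) * eL / (eL + eR)⌋₊) : ℕ)) * ((NL + NR : ℕ) : ℝ) := by
  have hD' : (1 : ℝ) ≤ D := by exact_mod_cast hD
  have hzc' : (4 * D + 1 : ℝ) ≤ zc := by exact_mod_cast hzc
  have hg' : (2 * (D + 1) * zc : ℝ) ≤ G := by exact_mod_cast hg
  have hκ' : (8 * D + 2 : ℝ) ≤ κ := by exact_mod_cast hκ
  have hzG : 2 * zc ≤ G := by nlinarith
  have hN' : (0 : ℝ) < NL + NR := by exact_mod_cast hN
  have hL0 : (0 : ℝ) ≤ NL := Nat.cast_nonneg _
  have hR0 : (0 : ℝ) ≤ NR := Nat.cast_nonneg _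
  have hG0 : (0 : ℝ) ≤ G := Nat.cast_nonneg _
  set η : ℝ := 1 / (8 * D + 2) with hη
  have hη0 : 0 < η := by positivity
  have hη1 : η ≤ 1 / 10 := by rw [hη]; gcongr; linarith
  have hL1 : (NL : ℝ) / κ ≤ η * NL := by
    rw [hη, one_div_mul_eq_div]; gcongr
  have hR1 : (NR : ℝ) / κ ≤ η * NR := by
    rw [hη, one_div_mul_eq_div]; gcongr
  rw [abs_le] at hL hR
  have hs : (0 : ℝ) < eL + eR := by nlinarith
  have hs' : (eL + eR : ℝ) ≤ (1 + η) * (NL + NR) := by nlinarith
  have heL : (1 - η) * NL ≤ (eL : ℝ) := by nlinarith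
  have heR : (1 - η) * NR ≤ (eR : ℝ) := by nlinarith
  set δ : ℝ := 1 / (2 * D) with hδ
  have hδ0 : 0 < δ := by positivity
  have hδ1 : δ ≤ 1 / 2 := by rw [hδ]; gcongr; linarith
  have hzδ : (zc : ℝ) ≤ δ * G := by
    rw [hδ, one_div_mul_eq_div, le_div_iff₀ (by positivity)]
    nlinarith
  have key : (1 - δ) * (1 + η) * (4 * D + 2) ≤ (1 - η) * (4 * D + 1) := by
    rw [hδ, hη, ← sub_nonneg]
    have : (1 - 1 / (8 * (D : ℝ) + 2)) * (4 * D + 1) -
        (1 - 1 / (2 * D)) * (1 + 1 / (8 * D + 2)) * (4 * D + 2) =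
        (18 * D + 6) / ((8 * D + 2) * (2 * D)) := by
      field_simp; ring
    rw [this]; positivity
  have key' : (1 - δ) * (1 + η) ≤ 1 - η := by nlinarith
  set t : ℝ := G * eL / (eL + eR) with ht
  have hfl : ⌊(G : ℚ) * eL / (eL + eR)⌋₊ = ⌊t⌋₊ := by
    rw [ht, ← Int.floor_toNat, ← Int.floor_toNat, ← Rat.floor_cast (α := ℝ)]; push_cast; rfl
  have heL0 : (0 : ℝ) ≤ eL := le_trans (by nlinarith) heL
  have heR0 : (0 : ℝ) ≤ eR := le_trans (by nlinarith) heR
  have ht0 : 0 ≤ t := by positivity
  have ht1 : G * ((1 - η) * NL) ≤ t * ((1 + η) * (NL + NR)) := by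
    calc G * ((1 - η) * NL) ≤ G * eL := by gcongr
      _ = t * (eL + eR) := by rw [ht]; field_simp
      _ ≤ _ := by gcongr
  have ht2 : G * ((1 - η) * NR) ≤ (G - t) * ((1 + η) * (NL + NR)) := by
    have e : G - t = G * eR / (eL + eR) := by rw [ht]; field_simp; ring
    calc G * ((1 - η) * NR) ≤ G * eR := by gcongr
      _ = (G - t) * (eL + eR) := by rw [e]; field_simp
      _ ≤ _ := by
        have : 0 ≤ G - t := by rw [e]; positivity
        gcongr
  rw [hfl]
  set j := max zc (min (G - zc) ⌊t⌋₊) with hj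
  push_cast
  have hc1 : (1 - δ) * G * NL ≤ (G - zc) * (NL + NR) := by
    calc (1 - δ) * G * NL ≤ (1 - δ) * G * (NL + NR) := by
          have : 0 ≤ (1 - δ) * G := by nlinarith
          gcongr; linarith
      _ ≤ _ := by gcongr; linarith
  have hc2 : (1 - δ) * G * NR ≤ (G - zc) * (NL + NR) := by
    calc (1 - δ) * G * NR ≤ (1 - δ) * G * (NL + NR) := by
          have : 0 ≤ (1 - δ) * G := by nlinarith
          gcongr; linarith
      _ ≤ _ := by gcongr; linarith
  constructor
  · rcases le_total (G - zc) ⌊t⌋₊ with h | h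
    · have : G - zc ≤ j := by omega
      have h2 : (G : ℝ) - zc ≤ j := by
        rw [← Nat.cast_sub (by omega)]; exact_mod_cast this
      exact hc1.trans (by gcongr)
    · have h1 : (zc : ℝ) ≤ j := by exact_mod_cast le_max_left _ _
      have h2 : t < j + 1 := by
        have : ⌊t⌋₊ ≤ j := by omega
        have h3 : ((⌊t⌋₊ : ℕ) : ℝ) ≤ j := by exact_mod_cast this
        linarith [Nat.lt_floor_add_one t]
      have h3 : t * (4 * D + 1) ≤ j * (4 * D + 2) := by nlinarith
      have h4 : (1 - δ) * G * NL * ((1 + η) * (4 * D + 2)) ≤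
          j * (NL + NR) * ((1 + η) * (4 * D + 2)) := by
        calc _ = G * NL * ((1 - δ) * (1 + η) * (4 * D + 2)) := by ring
          _ ≤ G * NL * ((1 - η) * (4 * D + 1)) := by gcongr
          _ = G * ((1 - η) * NL) * (4 * D + 1) := by ring
          _ ≤ t * ((1 + η) * (NL + NR)) * (4 * D + 1) := by gcongr
          _ = t * (4 * D + 1) * ((1 + η) * (NL + NR)) := by ring
          _ ≤ j * (4 * D + 2) * ((1 + η) * (NL + NR)) := by gcongr
          _ = _ := by ring
      exact le_of_mul_le_mul_right h4 (by positivity)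
  · rcases le_total j zc with h | h
    · have h2 : (j : ℝ) ≤ zc := by exact_mod_cast h
      exact hc2.trans (by gcongr)
    · rcases h.eq_or_lt with h | h
      · rw [← h]; exact hc2
      have h1 : (j : ℝ) ≤ t := by
        have : j ≤ ⌊t⌋₊ := by omega
        exact le_trans (by exact_mod_cast this) (Nat.floor_le ht0)
      have h4 : (1 - δ) * G * NR * (1 + η) ≤ (G - j) * (NL + NR) * (1 + η) := by
        calc _ = G * NR * ((1 - δ) * (1 + η)) := by ring
          _ ≤ G * NR * (1 - η) := by gcongr
          _ = G * ((1 - η) * NR) := by ring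
          _ ≤ (G - t) * ((1 + η) * (NL + NR)) := ht2
          _ ≤ (G - j) * ((1 + η) * (NL + NR)) := by gcongr
          _ = _ := by ring
      exact le_of_mul_le_mul_right h4 (by positivity)

end Crest.Agent.R309.JVVAn
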