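import Crest.Agent.R309.Core
import Crest.Prelude.Def_Tables

/-!
# Row 309: contingency tables as flat lists
-/

set_option autoImplicit false

namespace Crest.Agent.R309

open Finset Crest.Agent.Lib.PolyTime Crest.Tables

/-- The list `x`, read row by row, is a table with row sums `rs` and column sums `cs`. -/
def okT (rs cs x : List ℕ) : Bool :=
  decide (x.length = rs.length * cs.length) &&
    ((List.range rs.length).all fun i =>
      ((List.range cs.length).map fun j => x.getD (i * cs.length + j) 0).sum == rs.getD i 0) &&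
    ((List.range cs.length).all fun j =>
      ((List.range rs.length).map fun i => x.getD (i * cs.length + j) 0).sum == cs.getD j 0)

/-- All entries of `x` lie between those of `lo` and `hi`. -/
def inBox (lo hi x : List ℕ) : Prop := ∀ k, lo.getD k 0 ≤ x.getD k 0 ∧ x.getD k 0 ≤ hi.getD k 0

/-- The finite set of all tables with the given margins. -/
noncomputable def Tabs (rs cs : List ℕ) : Finset (List ℕ) :=
  ((Fintype.piFinset fun _ : Fin (rs.length * cs.length) => range (rs.sum + 1)).image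
    List.ofFn).filter fun x => okT rs cs x = true

open Classical in
/-- The number of elements of `T` in a box. -/
noncomputable def boxCard (T : Finset (List ℕ)) (lo hi : List ℕ) : ℕ :=
  (T.filter fun x => inBox lo hi x).card

/-- A matrix read row by row. -/
def flat {m n : ℕ} (X : Fin m → Fin n → ℕ) : List ℕ := (List.ofFn fun i => List.ofFn (X i)).flatten

namespace TabAux

theorem okT_iff (rs cs x : List ℕ) : okT rs cs x = true ↔ x.length = rs.length * cs.length ∧
    (∀ i < rs.length, ∑ j ∈ range cs.length, x.getD (i * cs.length + j) 0 = rs.getD i 0) ∧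
    ∀ j < cs.length, ∑ i ∈ range rs.length, x.getD (i * cs.length + j) 0 = cs.getD j 0 := by
  simp only [okT, Bool.and_eq_true, decide_eq_true_eq, List.all_eq_true, List.mem_range,
    beq_iff_eq, and_assoc]
  rfl

theorem idx_lt {m n i j : ℕ} (hi : i < m) (hj : j < n) : i * n + j < m * n :=
  calc i * n + j < (i + 1) * n := by rw [Nat.succ_mul]; omega
    _ ≤ m * n := Nat.mul_le_mul_right _ hi

theorem idx_div {n i j : ℕ} (hj : j < n) : (i * n + j) / n = i := by
  rw [Nat.add_comm, Nat.add_mul_div_right _ _ (by omega), Nat.div_eq_of_lt hj, Nat.zero_add]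

theorem idx_mod {n i j : ℕ} (hj : j < n) : (i * n + j) % n = j := by
  rw [Nat.add_comm, Nat.add_mul_mod_self_right, Nat.mod_eq_of_lt hj]

theorem exists_idx {m n k : ℕ} (hk : k < m * n) : ∃ i < m, ∃ j < n, k = i * n + j :=
  ⟨k / n, Nat.div_lt_of_lt_mul (Nat.mul_comm m n ▸ hk), k % n,
    Nat.mod_lt _ (Nat.pos_of_mul_pos_left (Nat.zero_lt_of_lt hk)), (Nat.div_add_mod' k n).symm⟩

theorem getD_le {rs cs x : List ℕ} (h : okT rs cs x = true) (k : ℕ) : x.getD k 0 ≤ rs.sum := by
  obtain ⟨h1, h2, -⟩ := (okT_iff rs cs x).1 h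
  rcases lt_or_ge k x.length with hk | hk
  · obtain ⟨i, hi, j, hj, rfl⟩ := exists_idx (h1 ▸ hk)
    refine (single_le_sum (f := fun j => x.getD (i * cs.length + j) 0) (fun _ _ => Nat.zero_le _)
      (mem_range.2 hj)).trans ((h2 i hi).trans_le ?_)
    rw [List.getD_eq_getElem _ _ hi]
    exact List.le_sum_of_mem (List.getElem_mem hi)
  · rw [List.getD_eq_default _ _ hk]
    exact Nat.zero_le _

theorem flat_eq {m n : ℕ} (X : Fin m → Fin n → ℕ) :
    flat X = List.ofFn fun k : Fin (m * n) => X k.divNat k.modNat := by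
  rw [List.ofFn_mul, flat]
  congr 2
  funext i
  congr 1
  funext j
  congr 1
  · exact Fin.ext (idx_div j.2).symm
  · exact Fin.ext (idx_mod j.2).symm

theorem flat_getD {m n : ℕ} (X : Fin m → Fin n → ℕ) (i : Fin m) (j : Fin n) :
    (flat X).getD (i * n + j) 0 = X i j := by
  rw [flat_eq, List.getD_eq_getElem _ _ (by simpa using idx_lt i.2 j.2), List.getElem_ofFn]
  congr 1
  · exact Fin.ext (idx_div j.2)
  · exact Fin.ext (idx_mod j.2)

theorem exists_isTable {m n : ℕ} (N : ℕ) : ∀ (r : Fin m → ℕ) (c : Fin n → ℕ), ∑ i, r i = N →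
    ∑ j, c j = N → ∃ X, IsTable r c X := by
  induction N with
  | zero =>
    intro r c hr hc
    refine ⟨0, fun i => ?_, fun j => ?_⟩
    · simpa using ((sum_eq_zero_iff.1 hr) i (mem_univ _)).symm
    · simpa using ((sum_eq_zero_iff.1 hc) j (mem_univ _)).symm
  | succ N ih =>
    intro r c hr hc
    obtain ⟨i, -, hi⟩ := exists_ne_zero_of_sum_ne_zero (hr.trans_ne N.succ_ne_zero)
    obtain ⟨j, -, hj⟩ := exists_ne_zero_of_sum_ne_zero (hc.trans_ne N.succ_ne_zero)
    have key : ∀ {k : ℕ} (r : Fin k → ℕ) (i : Fin k), r i ≠ 0 → ∑ i, r i = N + 1 →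
        ∃ r' : Fin k → ℕ, ∑ i, r' i = N ∧ ∀ a, r a = r' a + if a = i then 1 else 0 := by
      intro k r i hi hr
      have h1 : ∀ a, r a = (r a - if a = i then 1 else 0) + if a = i then 1 else 0 := by
        intro a
        split_ifs with ha
        · subst ha; omega
        · rfl
      refine ⟨fun a => r a - if a = i then 1 else 0, ?_, h1⟩
      rw [sum_congr rfl fun a _ => h1 a, sum_add_distrib, sum_ite_eq', if_pos (mem_univ _)] at hr
      exact Nat.succ_injective hr
    obtain ⟨r', hr', er⟩ := key r i hi hr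
    obtain ⟨c', hc', ec⟩ := key c j hj hc
    obtain ⟨X, h1, h2⟩ := ih r' c' hr' hc'
    refine ⟨fun a b => X a b + if a = i then if b = j then 1 else 0 else 0, fun a => ?_,
      fun b => ?_⟩
    · rw [sum_add_distrib, h1, er]
      split_ifs <;> simp
    · rw [sum_add_distrib, h2, ec, sum_ite_eq', if_pos (mem_univ _)]

theorem sum_range_mul {M : Type} [AddCommMonoid M] (m n : ℕ) (f : ℕ → M) :
    ∑ k ∈ range (m * n), f k = ∑ i ∈ range m, ∑ j ∈ range n, f (i * n + j) := by
  induction m with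
  | zero => simp
  | succ m ih => rw [Nat.succ_mul, sum_range_add, ih, sum_range_succ]

/-- The network of a table instance. -/
def net (rs cs lo hi : List ℕ) : NetL :=
  ((List.range (rs.length * cs.length)).map fun k =>
      (k / cs.length, rs.length + k % cs.length, (lo.getD k 0 : ℤ), (hi.getD k 0 : ℤ)),
    rs.map (fun a : ℕ => -(a : ℤ)) ++ cs.map fun a : ℕ => (a : ℤ))

@[fun_prop] theorem poly_net {α : Type} [PEnc α] {rs cs lo hi : α → List ℕ} (h₁ : Poly rs)
    (h₂ : Poly cs) (h₃ : Poly lo) (h₄ : Poly hi) :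
    Poly fun a => net (rs a) (cs a) (lo a) (hi a) := by
  unfold net
  fun_prop

variable (rs cs lo hi : List ℕ)

theorem net_len₁ : (net rs cs lo hi).1.length = rs.length * cs.length := by simp [net]

theorem net_len₂ : (net rs cs lo hi).2.length = rs.length + cs.length := by simp [net]

theorem net_get (e : (net rs cs lo hi).E) : (net rs cs lo hi).1.get e =
    (e / cs.length, rs.length + e % cs.length, (lo.getD e 0 : ℤ), (hi.getD e 0 : ℤ)) := by
  simp [net]

theorem net_WF : (net rs cs lo hi).WF := by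
  intro p hp
  obtain ⟨k, hk, rfl⟩ := List.mem_map.1 hp
  obtain ⟨i, hi, j, hj, rfl⟩ := exists_idx (List.mem_range.1 hk)
  rw [net_len₂]
  simp only [idx_div hj, idx_mod hj]
  omega

theorem dv_net (y : List ℕ) (v : (net rs cs lo hi).V) :
    (net rs cs lo hi).G.dv (fun e => (y.getD e 0 : ℤ)) v =
      ∑ i ∈ range rs.length, ∑ j ∈ range cs.length, (y.getD (i * cs.length + j) 0 : ℤ) *
        ((if (v : ℕ) = rs.length + j then 1 else 0) - if (v : ℕ) = i then 1 else 0) := by
  have h1 : ∀ e : (net rs cs lo hi).E, (net rs cs lo hi).G.bd e v =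
      (if (v : ℕ) = rs.length + e % cs.length then 1 else 0) -
        if (v : ℕ) = e / cs.length then 1 else 0 := by
    intro e
    have := net_WF rs cs lo hi _ (List.get_mem _ e)
    simp only [Net.bd, dl, NetL.G, Pi.sub_apply, Pi.single_apply, Fin.ext_iff, Fin.val_ofNat,
      Nat.mod_eq_of_lt (Nat.lt_succ_of_lt this.1), Nat.mod_eq_of_lt (Nat.lt_succ_of_lt this.2.1)]
    rw [net_get]
  simp only [Net.dv, Finset.sum_apply, Pi.smul_apply, smul_eq_mul, h1]
  rw [Fin.sum_univ_eq_sum_range (fun k => (y.getD k 0 : ℤ) *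
    ((if (v : ℕ) = rs.length + k % cs.length then 1 else 0) -
      if (v : ℕ) = k / cs.length then 1 else 0)), net_len₁, sum_range_mul]
  exact sum_congr rfl fun i _ => sum_congr rfl fun j hj => by
    rw [idx_div (mem_range.1 hj), idx_mod (mem_range.1 hj)]

theorem dv_iff (y : List ℕ) (hy : y.length = rs.length * cs.length) :
    (net rs cs lo hi).G.dv (fun e => (y.getD e 0 : ℤ)) = (net rs cs lo hi).βf ↔
      okT rs cs y = true := by
  have hrow : ∀ v : (net rs cs lo hi).V, (v : ℕ) < rs.length →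
      ((net rs cs lo hi).G.dv (fun e => (y.getD e 0 : ℤ)) v = (net rs cs lo hi).βf v ↔
        ∑ j ∈ range cs.length, y.getD (v * cs.length + j) 0 = rs.getD v 0) := by
    intro v hv
    have h1 : (net rs cs lo hi).βf v = -(rs.getD v 0 : ℤ) := by
      simp [NetL.βf, net, List.getElem?_append_left, hv]
    have h2 : ∀ j, ¬ (v : ℕ) = rs.length + j := fun j => by omega
    rw [dv_net, h1, sum_eq_single (v : ℕ) (fun i _ hi => by simp [h2, hi.symm])
      fun h => absurd (mem_range.2 hv) h]
    simp only [h2, if_false, if_true, zero_sub, mul_neg, mul_one, sum_neg_distrib, neg_inj]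
    norm_cast
  have hcol : ∀ v : (net rs cs lo hi).V, ∀ j < cs.length, (v : ℕ) = rs.length + j →
      ((net rs cs lo hi).G.dv (fun e => (y.getD e 0 : ℤ)) v = (net rs cs lo hi).βf v ↔
        ∑ i ∈ range rs.length, y.getD (i * cs.length + j) 0 = cs.getD j 0) := by
    intro v j hj hv
    have h1 : (net rs cs lo hi).βf v = (cs.getD j 0 : ℤ) := by
      simp [NetL.βf, net, hv, hj]
    rw [dv_net, h1, sum_congr rfl (g := fun i => (y.getD (i * cs.length + j) 0 : ℤ))
      fun i hi => ?_]
    · norm_cast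
    have h2 : ¬ (v : ℕ) = i := by have := mem_range.1 hi; omega
    rw [sum_eq_single j (fun j' _ hj' => by
      rw [if_neg (by omega), if_neg h2, sub_self, mul_zero]) fun h => absurd (mem_range.2 hj) h,
      if_pos hv, if_neg h2, sub_zero, mul_one]
  have hl := net_len₂ rs cs lo hi
  rw [okT_iff, funext_iff]
  refine ⟨fun h => ⟨hy, fun i hi => (hrow ⟨i, by omega⟩ hi).1 (h _),
    fun j hj => (hcol ⟨rs.length + j, by omega⟩ j hj rfl).1 (h _)⟩, fun h v => ?_⟩
  rcases lt_or_ge (v : ℕ) rs.length with h1 | h1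
  · exact (hrow v h1).2 (h.2.1 _ h1)
  rcases lt_or_ge (v : ℕ) (rs.length + cs.length) with h2 | h2
  · exact (hcol v (v - rs.length) (by omega) (by omega)).2 (h.2.2 _ (by omega))
  · rw [dv_net, NetL.βf, List.getD_eq_default _ _ (by omega)]
    refine sum_eq_zero fun i hi => sum_eq_zero fun j hj => ?_
    have := mem_range.1 hi
    have := mem_range.1 hj
    rw [if_neg (by omega), if_neg (by omega), sub_self, mul_zero]

theorem mem_flows (x : (net rs cs lo hi).E → ℤ) : x ∈ (net rs cs lo hi).flows ↔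
    (∀ e : (net rs cs lo hi).E, (lo.getD e 0 : ℤ) ≤ x e ∧ x e ≤ hi.getD e 0) ∧
      (net rs cs lo hi).G.dv x = (net rs cs lo hi).βf := by
  simp only [NetL.flows, mem_filter, Fintype.mem_piFinset, mem_Icc, NetL.lo, NetL.hi, net_get]

end TabAux

open TabAux

theorem mem_Tabs (rs cs x : List ℕ) : x ∈ Tabs rs cs ↔ okT rs cs x = true := by
  refine ⟨fun h => (mem_filter.1 h).2, fun h => mem_filter.2 ⟨mem_image.2
    ⟨fun k => x.getD k 0, Fintype.mem_piFinset.2 fun k =>
      mem_range.2 (Nat.lt_succ_of_le (getD_le h k)), ?_⟩, h⟩⟩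
  refine List.ext_getElem (by simp [((okT_iff rs cs x).1 h).1]) fun k _ hk => ?_
  simp [hk]

theorem Tabs_bound {rs cs x : List ℕ} (h : x ∈ Tabs rs cs) :
    x.length = rs.length * cs.length ∧ ∀ a ∈ x, a ≤ rs.sum := by
  rw [mem_Tabs] at h
  refine ⟨((okT_iff rs cs x).1 h).1, fun a ha => ?_⟩
  obtain ⟨k, hk, rfl⟩ := List.getElem_of_mem ha
  rw [← List.getD_eq_getElem _ 0 hk]
  exact getD_le h k

theorem TabAux.flat_mem {m n : ℕ} (rs : Fin m → ℕ) (cs : Fin n → ℕ) (X : Fin m → Fin n → ℕ) :
    flat X ∈ Tabs (List.ofFn rs) (List.ofFn cs) ↔ IsTable rs cs X := by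
  have h1 : ∀ {k : ℕ} (r : Fin k → ℕ) (i : Fin k), (List.ofFn r).getD i 0 = r i := fun r i => by
    simp
  rw [mem_Tabs, okT_iff, List.length_ofFn, List.length_ofFn, IsTable,
    and_iff_right (by simp [flat_eq])]
  simp only [sum_range]
  refine and_congr ⟨fun h i => ?_, fun h i hi => ?_⟩ ⟨fun h j => ?_, fun h j hj => ?_⟩
  · simpa only [flat_getD, h1] using h i i.2
  · simpa only [← flat_getD X, ← h1 rs] using h ⟨i, hi⟩
  · simpa only [flat_getD, h1] using h j j.2
  · simpa only [← flat_getD X, ← h1 cs] using h ⟨j, hj⟩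

theorem Tabs_nonempty {rs cs : List ℕ} (h : rs.sum = cs.sum) : (Tabs rs cs).Nonempty := by
  obtain ⟨X, hX⟩ := exists_isTable cs.sum rs.get cs.get
    (by rw [← List.sum_ofFn, List.ofFn_get, h]) (by rw [← List.sum_ofFn, List.ofFn_get])
  have := (flat_mem _ _ X).2 hX
  rw [List.ofFn_get, List.ofFn_get] at this
  exact ⟨_, this⟩

theorem length_flat {m n : ℕ} (X : Fin m → Fin n → ℕ) : (flat X).length = m * n := by
  simp [flat_eq]

theorem flat_inj {m n : ℕ} : Function.Injective (flat : (Fin m → Fin n → ℕ) → List ℕ) := by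
  intro X Y h
  funext i j
  rw [← flat_getD X, h, flat_getD]

theorem exists_flat {m n : ℕ} {x : List ℕ} (h : x.length = m * n) :
    ∃ X : Fin m → Fin n → ℕ, flat X = x := by
  refine ⟨fun i j => x.getD (i * n + j) 0, ?_⟩
  rw [flat_eq]
  refine List.ext_getElem (by simp [h]) fun k _ hk => ?_
  simp [Nat.div_add_mod', hk]

theorem flat_mem_Tabs {m n : ℕ} (rs : Fin m → ℕ) (cs : Fin n → ℕ) (X : Fin m → Fin n → ℕ) :
    flat X ∈ Tabs (List.ofFn rs) (List.ofFn cs) ↔ IsTable rs cs X := by
  exact flat_mem rs cs X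

theorem TabAux.inBox_flat {m n : ℕ} (b X : Fin m → Fin n → ℕ) :
    inBox (List.replicate (m * n) 0) (flat b) (flat X) ↔ ∀ i j, X i j ≤ b i j := by
  refine ⟨fun h i j => by simpa only [flat_getD] using (h (i * n + j)).2, fun h k =>
    ⟨by simp [List.getElem?_replicate]; split_ifs <;> simp, ?_⟩⟩
  rcases lt_or_ge k (m * n) with hk | hk
  · obtain ⟨i, hi, j, hj, rfl⟩ := exists_idx hk
    simpa only [← flat_getD X, ← flat_getD b] using h ⟨i, hi⟩ ⟨j, hj⟩
  · rw [List.getD_eq_default _ _ (by rwa [length_flat])]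
    exact Nat.zero_le _

theorem boxCard_eq {m n : ℕ} (rs : Fin m → ℕ) (cs : Fin n → ℕ) (b : Fin m → Fin n → ℕ) :
    boxCard (Tabs (List.ofFn rs) (List.ofFn cs)) (List.replicate (m * n) 0) (flat b) =
      numBoundedTables rs cs b := by
  rw [numBoundedTables, Fintype.card_subtype, boxCard]
  refine (card_nbij (fun X => flat fun i j => (X i j : ℕ)) (fun X hX => ?_) (fun X _ Y _ h => ?_)
    fun x hx => ?_).symm
  · simp only [coe_filter, Set.mem_ofPred_eq, mem_univ, true_and] at hX ⊢
    exact ⟨(flat_mem_Tabs _ _ _).2 hX, (inBox_flat _ _).2 fun i j => Nat.lt_succ_iff.1 (X i j).2⟩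
  · funext i j
    exact Fin.ext (congrFun (congrFun (flat_inj h) i) j)
  · simp only [coe_filter, Set.mem_ofPred_eq] at hx
    obtain ⟨X, rfl⟩ := exists_flat (m := m) (n := n) (by simpa using (Tabs_bound hx.1).1)
    exact ⟨fun i j => ⟨X i j, Nat.lt_succ_iff.2 ((inBox_flat _ _).1 hx.2 i j)⟩,
      mem_coe.2 (mem_filter.2 ⟨mem_univ _, (flat_mem_Tabs _ _ _).1 hx.1⟩), rfl⟩

theorem card_Tabs {m n : ℕ} (rs : Fin m → ℕ) (cs : Fin n → ℕ) :
    (Tabs (List.ofFn rs) (List.ofFn cs)).card = numBoundedTables rs cs fun _ _ => ∑ i, rs i := by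
  classical
  rw [← boxCard_eq, boxCard, filter_true_of_mem fun x hx => ?_]
  obtain ⟨X, rfl⟩ := exists_flat (m := m) (n := n) (by simpa using (Tabs_bound hx).1)
  refine (inBox_flat _ _).2 fun i j => ?_
  rw [← flat_getD X, ← List.sum_ofFn]
  exact getD_le ((mem_Tabs _ _ _).1 hx) _

@[fun_prop] theorem poly_okT {α : Type} [PEnc α] {rs cs x : α → List ℕ} (h₁ : Poly rs)
    (h₂ : Poly cs) (h₃ : Poly x) : Poly fun a => okT (rs a) (cs a) (x a) := by
  unfold okT
  fun_prop

theorem TabAux.mem_flows_iff {rs cs lo hi : List ℕ} (hlo : lo.length = rs.length * cs.length)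
    {y : List ℕ} (hy : y.length = rs.length * cs.length) :
    (fun e : (net rs cs lo hi).E => (y.getD e 0 : ℤ)) ∈ (net rs cs lo hi).flows ↔
      y ∈ Tabs rs cs ∧ inBox lo hi y := by
  rw [mem_flows, dv_iff _ _ _ _ _ hy, mem_Tabs, and_comm]
  refine and_congr_right fun _ => ⟨fun h k => ?_, fun h e => by exact_mod_cast h e⟩
  rcases lt_or_ge k (rs.length * cs.length) with hk | hk
  · exact_mod_cast h ⟨k, by rwa [net_len₁]⟩
  · rw [List.getD_eq_default lo _ (by omega), List.getD_eq_default y _ (by omega)]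
    exact ⟨le_rfl, Nat.zero_le _⟩

theorem TabAux.card_flows {rs cs lo : List ℕ} (hlo : lo.length = rs.length * cs.length)
    (hi : List ℕ) : (net rs cs lo hi).flows.card = boxCard (Tabs rs cs) lo hi := by
  classical
  rw [boxCard]
  refine (card_nbij (fun y e => (y.getD e 0 : ℤ)) (fun y hy => ?_) (fun y hy z hz h => ?_)
    fun x hx => ?_).symm
  · simp only [coe_filter, Set.mem_ofPred_eq] at hy
    exact mem_coe.2 ((mem_flows_iff hlo (Tabs_bound hy.1).1).2 hy)
  · simp only [coe_filter, Set.mem_ofPred_eq] at hy hz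
    have h1 := (Tabs_bound hy.1).1
    have h2 := (Tabs_bound hz.1).1
    refine List.ext_getElem (h1.trans h2.symm) fun k hk hk' => ?_
    have := congrFun h ⟨k, by rwa [net_len₁, ← h1]⟩
    simpa [hk, hk'] using this
  · have e : (fun e : (net rs cs lo hi).E =>
        ((List.ofFn fun e => (x e).toNat).getD e 0 : ℤ)) = x := by
      funext e
      have := (((mem_flows _ _ _ _ x).1 hx).1 e).1
      have h0 : 0 ≤ x e := (Int.natCast_nonneg _).trans this
      simp [h0]
    refine ⟨List.ofFn fun e => (x e).toNat, mem_coe.2 (mem_filter.2 ((mem_flows_iff hlo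
      (by rw [List.length_ofFn, net_len₁])).1 ?_)), e⟩
    rw [e]
    exact hx

/-- Some table with the given margins. -/
theorem exists_defaultT : ∃ d : List ℕ × List ℕ → List ℕ, Poly d ∧
    ∀ rs cs : List ℕ, rs.sum = cs.sum → d (rs, cs) ∈ Tabs rs cs := by
  obtain ⟨feas, hP, hs⟩ := exists_feas
  refine ⟨fun a => ((feas (net a.1 a.2 (List.replicate (a.1.length * a.2.length) 0)
    (List.replicate (a.1.length * a.2.length) a.1.sum))).getD []).map Int.toNat, by fun_prop,
    fun rs cs h => ?_⟩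
  obtain ⟨h0, h1⟩ := hs _ (net_WF rs cs (List.replicate (rs.length * cs.length) 0)
    (List.replicate (rs.length * cs.length) rs.sum))
  cases e : feas (net rs cs (List.replicate (rs.length * cs.length) 0)
    (List.replicate (rs.length * cs.length) rs.sum)) with
  | none =>
    obtain ⟨y, hy⟩ := Tabs_nonempty h
    refine absurd ((mem_flows_iff (lo := List.replicate (rs.length * cs.length) 0)
      (hi := List.replicate (rs.length * cs.length) rs.sum) (by simp) (Tabs_bound hy).1).2
      ⟨hy, fun k => ?_⟩) (by rw [h0 e]; exact notMem_empty _)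
    rcases lt_or_ge k (rs.length * cs.length) with hk | hk
    · simpa [hk] using getD_le ((mem_Tabs _ _ _).1 hy) k
    · rw [List.getD_eq_default y 0 ((Tabs_bound hy).1.trans_le hk)]
      simp [hk]
  | some x =>
    obtain ⟨h2, h3⟩ := h1 x e
    simp only [e, Option.getD_some]
    refine ((mem_flows_iff (lo := List.replicate (rs.length * cs.length) 0)
      (hi := List.replicate (rs.length * cs.length) rs.sum) (by simp)
      (by rw [List.length_map, h2, net_len₁])).1 ?_).1
    refine Eq.subst (motive := (· ∈ _)) (funext fun k => Eq.symm ?_) h3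
    have h0 : 0 ≤ x.getD k 0 :=
      (Int.natCast_nonneg _).trans (((mem_flows _ _ _ _ _).1 h3).1 k).1
    rw [← Int.toNat_of_nonneg h0, ← List.getD_map x 0 Int.toNat]
    rfl

/-- Approximate counting of the tables in a box. -/
theorem exists_estT :
    ∃ (Est : ((List ℕ × List ℕ) × (List ℕ × List ℕ) × Un) × List Bool → ℚ) (p : Polynomial ℕ),
      Poly Est ∧ ∀ (rs cs lo hi : List ℕ) (κ : Un), lo.length = rs.length * cs.length →
        hi.length = rs.length * cs.length → 1 ≤ κ.n →
        (∀ u, 0 ≤ Est (((rs, cs), (lo, hi), κ), u)) ∧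
        (boxCard (Tabs rs cs) lo hi = 0 → ∀ u, Est (((rs, cs), (lo, hi), κ), u) = 0) ∧
        ∀ n, p.eval (sz ((rs, cs), (lo, hi), κ)) ≤ n → 31 / 32 ≤
          Pr n fun u => |(Est (((rs, cs), (lo, hi), κ), u) : ℝ) - boxCard (Tabs rs cs) lo hi| ≤
            boxCard (Tabs rs cs) lo hi / κ.n := by
  obtain ⟨Est, q, hP, hs⟩ := exists_est
  have hB : PB fun a : (List ℕ × List ℕ) × (List ℕ × List ℕ) × Un =>
      q.eval (sz (net a.1.1 a.1.2 a.2.1.1 a.2.1.2, a.2.2)) := by fun_prop
  obtain ⟨p, hp⟩ := hB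
  refine ⟨fun a => Est ((net a.1.1.1 a.1.1.2 a.1.2.1.1 a.1.2.1.2, a.1.2.2), a.2), p, by fun_prop,
    fun rs cs lo hi κ hlo _ hκ => ?_⟩
  obtain ⟨h1, h2, h3⟩ := hs (net rs cs lo hi) κ (net_WF _ _ _ _) hκ
  rw [← card_flows hlo]
  exact ⟨h1, fun h => h2 (card_eq_zero.1 h),
    fun n hn => h3 n ((hp ((rs, cs), (lo, hi), κ)).trans hn)⟩

end Crest.Agent.R309
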