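import Crest.Agent.R309.JVV
import Crest.Agent.R309.Tab
import Crest.Agent.R309.JVVAnAux

/-!
# Row 309: the law of a round is almost uniform
-/

set_option autoImplicit false

namespace Crest.Agent.R309

namespace JVVAn

open Finset

/-- A well-formed box. -/
structure Box (p : JP) (lo hi : List ℕ) : Prop where
  l1 : lo.length = p.c
  l2 : hi.length = p.c
  le : ∀ k, lo.getD k 0 ≤ hi.getD k 0
  bd : ∀ k, hi.getD k 0 ≤ p.Nm

theorem getD_set {l : List ℕ} {i : ℕ} (hi : i < l.length) (v k : ℕ) :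
    (l.set i v).getD k 0 = if k = i then v else l.getD k 0 := by
  simp only [List.getD_eq_getElem?_getD, List.getElem?_set]
  by_cases h : i = k
  · subst h; simp [hi]
  · simp [h, Ne.symm h]

theorem le_of_getD {l : List ℕ} {M : ℕ} (h : ∀ k, l.getD k 0 ≤ M) : ∀ a ∈ l, a ≤ M := by
  intro a ha
  obtain ⟨k, hk, rfl⟩ := List.getElem_of_mem ha
  simpa [hk] using h k

theorem getD_le {l : List ℕ} {M : ℕ} (h : ∀ a ∈ l, a ≤ M) (k : ℕ) : l.getD k 0 ≤ M := by
  by_cases hk : k < l.length
  · simpa [hk] using h _ (List.getElem_mem hk)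
  · simp [not_lt.1 hk]

theorem pivot_some {c : ℕ} {lo hi : List ℕ} {i : ℕ} (h : pivot c lo hi = some i) :
    i < c ∧ lo.getD i 0 < hi.getD i 0 :=
  ⟨List.mem_range.1 (List.mem_of_find?_eq_some h), by simpa using List.find?_some h⟩

theorem pivot_none {c : ℕ} {lo hi : List ℕ} (h : pivot c lo hi = none) (i : ℕ) (hi' : i < c) :
    hi.getD i 0 ≤ lo.getD i 0 := by
  simpa using List.find?_eq_none.1 h i (List.mem_range.2 hi')

/-- Number of halvings left. -/
def S (c : ℕ) (lo hi : List ℕ) : ℕ := ∑ k ∈ range c, (hi.getD k 0 - lo.getD k 0).size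

theorem size_half {t s : ℕ} (ht : 0 < t) (hs : s ≤ t / 2) : s.size + 1 ≤ t.size := by
  have h1 : 0 < t.size := Nat.size_pos.2 ht
  have h2 := Nat.lt_size_self t
  obtain ⟨m, hm⟩ : ∃ m, t.size = m + 1 := ⟨t.size - 1, by omega⟩
  rw [hm, pow_succ] at h2
  have : s.size ≤ m := Nat.size_le.2 (by omega)
  omega

section halves
variable {p : JP} {lo hi : List ℕ} {i : ℕ} (hB : Box p lo hi) (hi' : i < p.c)
  (hlt : lo.getD i 0 < hi.getD i 0)
include hB hi' hlt

theorem Box.left : Box p lo (hi.set i (midp lo hi i)) := by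
  have h := getD_set (l := hi) (hB.l2 ▸ hi') (midp lo hi i)
  refine ⟨hB.l1, by simpa using hB.l2, fun k => ?_, fun k => ?_⟩ <;> rw [h] <;> split_ifs with hk
  · subst hk; unfold midp; omega
  · exact hB.le k
  · subst hk; have := hB.bd k; unfold midp; omega
  · exact hB.bd k

theorem Box.right : Box p (lo.set i (midp lo hi i + 1)) hi := by
  have h := getD_set (l := lo) (hB.l1 ▸ hi') (midp lo hi i + 1)
  refine ⟨by simpa using hB.l1, hB.l2, fun k => ?_, hB.bd⟩
  rw [h]
  split_ifs with hk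
  · subst hk; unfold midp; omega
  · exact hB.le k

theorem inBox_left (x : List ℕ) : inBox lo (hi.set i (midp lo hi i)) x ↔
    inBox lo hi x ∧ x.getD i 0 ≤ midp lo hi i := by
  have h := getD_set (l := hi) (hB.l2 ▸ hi') (midp lo hi i)
  simp only [inBox, h]
  constructor
  · intro H
    refine ⟨fun k => ⟨(H k).1, ?_⟩, by simpa using (H i).2⟩
    have := (H k).2
    split_ifs at this with hk
    · subst hk; unfold midp at this; omega
    · exact this
  · rintro ⟨H, H'⟩ k
    refine ⟨(H k).1, ?_⟩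
    split_ifs with hk
    · exact hk ▸ H'
    · exact (H k).2

theorem inBox_right (x : List ℕ) : inBox (lo.set i (midp lo hi i + 1)) hi x ↔
    inBox lo hi x ∧ ¬ x.getD i 0 ≤ midp lo hi i := by
  have h := getD_set (l := lo) (hB.l1 ▸ hi') (midp lo hi i + 1)
  simp only [inBox, h, not_le]
  constructor
  · intro H
    refine ⟨fun k => ⟨?_, (H k).2⟩, by simpa using (H i).1⟩
    have := (H k).1
    split_ifs at this with hk
    · subst hk; unfold midp at this; omega
    · exact this
  · rintro ⟨H, H'⟩ k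
    refine ⟨?_, (H k).2⟩
    split_ifs with hk
    · exact hk ▸ H'
    · exact (H k).1

theorem boxCard_split (T : Finset (List ℕ)) : boxCard T lo hi =
    boxCard T lo (hi.set i (midp lo hi i)) + boxCard T (lo.set i (midp lo hi i + 1)) hi := by
  classical
  simp only [boxCard, inBox_left hB hi' hlt, inBox_right hB hi' hlt]
  rw [← card_filter_add_card_filter_not (s := T.filter fun x => inBox lo hi x)
    (fun x => x.getD i 0 ≤ midp lo hi i), filter_filter, filter_filter]

theorem S_left : S p.c lo (hi.set i (midp lo hi i)) + 1 ≤ S p.c lo hi := by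
  have h := getD_set (l := hi) (hB.l2 ▸ hi') (midp lo hi i)
  unfold S
  refine Nat.succ_le_of_lt (sum_lt_sum (fun k _ => ?_) ⟨i, mem_range.2 hi', ?_⟩) <;> rw [h]
  · split_ifs with hk
    · subst hk; exact Nat.size_le_size (by unfold midp; omega)
    · exact le_rfl
  · rw [if_pos rfl]
    exact size_half (by omega) (by unfold midp; omega)

theorem S_right : S p.c (lo.set i (midp lo hi i + 1)) hi + 1 ≤ S p.c lo hi := by
  have h := getD_set (l := lo) (hB.l1 ▸ hi') (midp lo hi i + 1)
  unfold S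
  refine Nat.succ_le_of_lt (sum_lt_sum (fun k _ => ?_) ⟨i, mem_range.2 hi', ?_⟩) <;> rw [h]
  · split_ifs with hk
    · subst hk; exact Nat.size_le_size (by unfold midp; omega)
    · exact le_rfl
  · rw [if_pos rfl]
    exact size_half (by omega) (by unfold midp; omega)

end halves

theorem Ex_move (p : JP) (s : List ℕ × List ℕ × ℕ) (i : ℕ) {j : ℕ} (hj : j ≤ 2 ^ p.g)
    (F : List ℕ × List ℕ × ℕ → ℝ) :
    Ex p.g (fun v => F (p.move s i j v)) =
      (j * F (s.1, s.2.1.set i (midp s.1 s.2.1 i), s.2.2 * j) + (2 ^ p.g - j) *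
        F (s.1.set i (midp s.1 s.2.1 i + 1), s.2.1, s.2.2 * (2 ^ p.g - j))) / 2 ^ p.g := by
  have := Ex_toNat p.g fun t => if t < j then F (s.1, s.2.1.set i (midp s.1 s.2.1 i), s.2.2 * j)
    else F (s.1.set i (midp s.1 s.2.1 i + 1), s.2.1, s.2.2 * (2 ^ p.g - j))
  rw [← sum_range_add_sum_Ico _ hj, sum_congr rfl fun t ht => if_pos (mem_range.1 ht),
    sum_congr rfl fun t ht => if_neg (not_lt.2 (mem_Ico.1 ht).1)] at this
  simp only [sum_const, card_range, Nat.card_Ico, nsmul_eq_mul, Nat.cast_sub hj] at this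
  push_cast at this
  rw [← this]
  refine Ex_congr fun v _ => ?_
  unfold JP.move
  split_ifs <;> rfl

variable (p : JP) (est : List ℕ → List ℕ → List Bool → ℚ)

theorem Kop_walk_none {lo hi : List ℕ} (h : pivot p.c lo hi = none) (J : ℕ)
    (F : List ℕ × List ℕ × ℕ → ℝ) :
    Kop (p.walk est) p.Bw F (lo, hi, J) = F (lo, hi, J * 2 ^ p.g) := by
  simp [Kop, JP.walk, h]

/-- The median vote of a step of the descent. -/
def vm (lo hi : List ℕ) (i : ℕ) (u : List Bool) : ℕ :=
  voteMed (p.vote1 est lo hi i) (2 ^ p.g + 1) (2 * p.r0) p.k u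

theorem vm_le (lo hi : List ℕ) (i : ℕ) (u : List Bool) : vm p est lo hi i u ≤ 2 ^ p.g :=
  voteMed_le ..

theorem Kop_walk_some {lo hi : List ℕ} {i : ℕ} (h : pivot p.c lo hi = some i) (J : ℕ)
    (F : List ℕ × List ℕ × ℕ → ℝ) :
    Kop (p.walk est) p.Bw F (lo, hi, J) = Ex (p.k * (2 * p.r0)) fun u =>
      (vm p est lo hi i u * F (lo, hi.set i (midp lo hi i), J * vm p est lo hi i u) +
        (2 ^ p.g - vm p est lo hi i u) *
          F (lo.set i (midp lo hi i + 1), hi, J * (2 ^ p.g - vm p est lo hi i u))) / 2 ^ p.g := by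
  simp only [Kop, JP.walk, h, Option.elim_some]
  refine (Ex_split (a := p.k * (2 * p.r0)) (by unfold JP.Bw; omega)
    fun u v => F (p.move (lo, hi, J) i (vm p est lo hi i u) (v.take p.g))).trans ?_
  refine Ex_congr fun u _ => ?_
  rw [Ex_take (by unfold JP.Bw; omega) fun v => F (p.move (lo, hi, J) i (vm p est lo hi i u) v),
    Ex_move p _ i (vm_le ..)]

/-- Probability that the end of a round outputs `x`. -/
noncomputable def acc (ok : List ℕ → Bool) (x : List ℕ) (n a : ℕ) (s : List ℕ × List ℕ × ℕ) : ℝ :=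
  Pr n fun v => p.finish ok a s v = some x

variable {p est} {ok : List ℕ → Bool} {x : List ℕ} {n a : ℕ}

theorem F_nonneg (m : ℕ) (s : List ℕ × List ℕ × ℕ) :
    0 ≤ (Kop (p.walk est) p.Bw)^[m] (acc p ok x n a) s :=
  (Kop_iter_mem _ _ _ (fun _ => ⟨Pr_nonneg _ _, Pr_le_one _ _⟩) s).1

theorem F_zero (m : ℕ) {lo hi : List ℕ} (hB : Box p lo hi) (hx : ¬ inBox lo hi x) (J : ℕ) :
    (Kop (p.walk est) p.Bw)^[m] (acc p ok x n a) (lo, hi, J) = 0 := by
  induction m generalizing lo hi J with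
  | zero =>
    have : lo ≠ x := by
      rintro rfl
      exact hx fun k => ⟨le_rfl, hB.le k⟩
    have h2 : ∀ v, ¬ p.finish ok a (lo, hi, J) v = some x := by
      intro v
      unfold JP.finish
      split_ifs <;> simp [this]
    simp [acc, Pr, ind_false (h2 _)]
  | succ m ih =>
    rw [Function.iterate_succ_apply']
    cases e : pivot p.c lo hi with
    | none => rw [Kop_walk_none p est e, ih hB hx]
    | some i =>
      obtain ⟨h1, h2⟩ := pivot_some e
      rw [Kop_walk_some p est e]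
      simp [ih (hB.left h1 h2) (fun h => hx ((inBox_left hB h1 h2 x).1 h).1),
        ih (hB.right h1 h2) (fun h => hx ((inBox_right hB h1 h2 x).1 h).1)]

theorem F_upper (hn : p.b ≤ n) (m : ℕ) {lo hi : List ℕ} (hB : Box p lo hi) (J : ℕ) :
    (Kop (p.walk est) p.Bw)^[m] (acc p ok x n a) (lo, hi, J) * J * (2 ^ p.g) ^ m ≤
      (2 ^ p.g) ^ p.Dp / 2 ^ a := by
  induction m generalizing lo hi J with
  | zero =>
    rcases Nat.eq_zero_or_pos J with rfl | hJ
    · simp; positivity
    have h1 : acc p ok x n a (lo, hi, J) ≤ _ :=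
      le_trans (Pr_mono fun v _ hv => ?_) (Pr_accept_le (P := 2 ^ (p.g * p.Dp)) (Q := 2 ^ a * J)
        (by positivity) hn)
    · have hJ' : (0 : ℝ) < J := by exact_mod_cast hJ
      rw [Function.iterate_zero_apply, pow_zero, mul_one, ← le_div_iff₀ hJ', div_div, ← pow_mul]
      exact_mod_cast h1
    · unfold JP.finish at hv
      split_ifs at hv with h
      simp only [Bool.and_eq_true] at h
      exact h.1
  | succ m ih =>
    rw [Function.iterate_succ_apply']
    cases e : pivot p.c lo hi with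
    | none =>
      rw [Kop_walk_none p est e]
      have := ih hB (J * 2 ^ p.g)
      push_cast at this
      calc _ = _ := by ring
        _ ≤ _ := this
    | some i =>
      obtain ⟨h1, h2⟩ := pivot_some e
      rw [Kop_walk_some p est e, ← Ex_mul_right, ← Ex_mul_right, ← Ex_const (p.k * (2 * p.r0))
        ((2 ^ p.g) ^ p.Dp / 2 ^ a)]
      refine Ex_mono fun u _ => ?_
      by_cases hx : x.getD i 0 ≤ midp lo hi i
      · rw [F_zero m (hB.right h1 h2) (fun h => ((inBox_right hB h1 h2 x).1 h).2 hx)]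
        have := ih (hB.left h1 h2) (J * vm p est lo hi i u)
        push_cast at this
        calc _ = _ := by field_simp; ring
          _ ≤ _ := this
      · rw [F_zero m (hB.left h1 h2) (fun h => hx ((inBox_left hB h1 h2 x).1 h).2)]
        have := ih (hB.right h1 h2) (J * (2 ^ p.g - vm p est lo hi i u))
        rw [Nat.cast_mul, Nat.cast_sub (vm_le ..)] at this
        push_cast at this
        calc _ = _ := by field_simp; ring
          _ ≤ _ := this

theorem boxCard_pos {T : Finset (List ℕ)} {lo hi : List ℕ} (hx : x ∈ T) (h : inBox lo hi x) :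
    1 ≤ boxCard T lo hi := by
  classical
  exact card_pos.2 ⟨x, by simpa using ⟨hx, h⟩⟩

theorem half_le_pow (D : ℕ) : (1 / 2 : ℝ) ≤ (1 - 1 / (2 * D : ℝ)) ^ D := by
  rcases Nat.eq_zero_or_pos D with rfl | hD
  · norm_num
  have hD' : (1 : ℝ) ≤ D := by exact_mod_cast hD
  have h1 : (1 : ℝ) / (2 * D) ≤ 1 := by rw [div_le_one (by positivity)]; linarith
  have := one_add_mul_le_pow (a := -(1 / (2 * D : ℝ))) (by linarith) D
  rw [← sub_eq_add_neg] at this
  refine le_trans (le_of_eq ?_) this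
  field_simp
  ring

/-- One step of the lower bound, for the half containing `x`. -/
theorem step_num {G j J N δ P NL B F ε β A : ℝ} {m d : ℕ} (hG : 0 < G) (hjG : j ≤ G) (hJ : 0 < J)
    (hδ : 0 < 1 - δ) (hP : 0 < P) (hNL : 1 ≤ NL) (hβ : 0 ≤ β) (hB : 0 ≤ B)
    (hgood : (1 - δ) * G * NL ≤ j * B) (hinv : (1 - δ) ^ d * P * B ≤ J * N * G ^ (m + 1))
    (hF : (1 - δ) ^ (d + 1) * P * NL ≤ J * j * N * G ^ m →
      P / (A * (J * j) * G ^ m) * (1 - m * ε) - β ≤ F) :
    P / (A * J * G ^ (m + 1)) * (1 - m * ε) - β ≤ j * F / G := by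
  have hj : 0 < j := by
    by_contra h
    have : j * B ≤ 0 := mul_nonpos_of_nonpos_of_nonneg (not_lt.1 h) hB
    have : 0 < (1 - δ) * G * NL := by positivity
    linarith
  have h1 := hF (by
    refine le_of_mul_le_mul_right ?_ hG
    calc _ = (1 - δ) ^ d * P * ((1 - δ) * G * NL) := by ring
      _ ≤ (1 - δ) ^ d * P * (j * B) := by gcongr
      _ = j * ((1 - δ) ^ d * P * B) := by ring
      _ ≤ j * (J * N * G ^ (m + 1)) := by gcongr
      _ = _ := by ring)
  have h2 : j / G ≤ 1 := by rwa [div_le_one hG]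
  calc _ ≤ P / (A * J * G ^ (m + 1)) * (1 - m * ε) - j / G * β := by
        nlinarith
    _ = j / G * (P / (A * (J * j) * G ^ m) * (1 - m * ε) - β) := by
        by_cases hA : A = 0
        · simp [hA]
        field_simp
        ring
    _ ≤ j / G * F := by gcongr
    _ = _ := by ring

theorem F_lower {T : Finset (List ℕ)} (hok : ∀ x, ok x = true ↔ x ∈ T)
    (hxT : x ∈ T) (hxl : x.length = p.c) {κ : ℕ}
    (hest : ∀ lo hi : List ℕ, lo.length = p.c → hi.length = p.c → (∀ a ∈ lo, a ≤ p.Nm) →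
      (∀ a ∈ hi, a ≤ p.Nm) → (∀ u, 0 ≤ est lo hi u) ∧ 31 / 32 ≤
        Pr p.r0 fun u => |(est lo hi u : ℝ) - boxCard T lo hi| ≤ boxCard T lo hi / κ)
    (hzc : 4 * p.Dp + 1 ≤ p.zc) (hg : 2 * (p.Dp + 1) * p.zc ≤ 2 ^ p.g) (hκ : 8 * p.Dp + 2 ≤ κ)
    (hn : p.b ≤ n) (ha : 2 * T.card ≤ 2 ^ a) (m d : ℕ) (hm : m + d = p.Dp) {lo hi : List ℕ}
    (hB : Box p lo hi) (hx : inBox lo hi x) (hS : S p.c lo hi ≤ m) (J : ℕ)
    (hJ : (1 - 1 / (2 * p.Dp : ℝ)) ^ d * (2 ^ p.g) ^ p.Dp * boxCard T lo hi ≤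
      J * T.card * (2 ^ p.g) ^ m) :
    (2 ^ p.g) ^ p.Dp / (2 ^ a * J * (2 ^ p.g) ^ m) * (1 - m * (1 / 2 ^ p.k)) - 1 / 2 ^ p.b ≤
      (Kop (p.walk est) p.Bw)^[m] (acc p ok x n a) (lo, hi, J) := by
  have hδ : (0 : ℝ) < 1 - 1 / (2 * p.Dp : ℝ) := by
    rcases Nat.eq_zero_or_pos p.Dp with h | h
    · simp [h]
    · have : (1 : ℝ) ≤ p.Dp := by exact_mod_cast h
      rw [sub_pos, div_lt_one (by positivity)]; linarith
  have hδ1 : 1 - 1 / (2 * p.Dp : ℝ) ≤ 1 := by
    have : (0 : ℝ) ≤ 1 / (2 * p.Dp : ℝ) := by positivity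
    linarith
  induction m generalizing d lo hi J with
  | zero =>
    have hb : (1 : ℝ) ≤ boxCard T lo hi := by exact_mod_cast boxCard_pos hxT hx
    have hlo : lo = x := by
      refine List.ext_getElem (hB.l1.trans hxl.symm) fun k h1 h2 => ?_
      have h3 : (hi.getD k 0 - lo.getD k 0).size = 0 :=
        sum_eq_zero_iff.1 (Nat.le_zero.1 hS) k (mem_range.2 (hB.l1 ▸ h1))
      rw [Nat.size_eq_zero] at h3
      have h4 := hx k
      have h5 : lo.getD k 0 = x.getD k 0 := by omega
      simpa [h1, h2] using h5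
    obtain rfl : d = p.Dp := by omega
    have h1 := half_le_pow p.Dp
    have ha' : (2 * T.card : ℝ) ≤ 2 ^ a := by exact_mod_cast ha
    have h2 : ((2 : ℝ) ^ p.g) ^ p.Dp ≤ 2 ^ a * J := by
      have hP : (0 : ℝ) ≤ (2 ^ p.g) ^ p.Dp := by positivity
      calc _ = 2 * (1 / 2 * (2 ^ p.g) ^ p.Dp * 1 : ℝ) := by ring
        _ ≤ 2 * ((1 - 1 / (2 * p.Dp : ℝ)) ^ p.Dp * (2 ^ p.g) ^ p.Dp * boxCard T lo hi) := by
            gcongr
        _ ≤ 2 * (J * T.card * (2 ^ p.g) ^ 0) := by gcongr
        _ = 2 * T.card * J := by ring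
        _ ≤ _ := by gcongr
    have h3 : 2 ^ (p.g * p.Dp) ≤ 2 ^ a * J := by
      rw [← pow_mul] at h2; exact_mod_cast h2
    have h4 := le_Pr_accept (b := p.b) (lt_of_lt_of_le (by positivity) h3) h3 hn
    push_cast at h4
    rw [pow_mul] at h4
    simp only [pow_zero, mul_one, Nat.cast_zero, zero_mul, sub_zero, Function.iterate_zero_apply]
    refine h4.trans (Pr_mono fun v _ hv => ?_)
    simp [JP.finish, hv, hlo, (hok x).2 hxT]
  | succ m ih =>
    have hb : (1 : ℝ) ≤ boxCard T lo hi := by exact_mod_cast boxCard_pos hxT hx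
    have hJ0 : (0 : ℝ) < J := by
      by_contra h
      have : (J : ℝ) = 0 := le_antisymm (not_lt.1 h) (Nat.cast_nonneg _)
      rw [this, zero_mul, zero_mul] at hJ
      exact absurd hJ (not_le.2 (by positivity))
    set W : ℝ := (2 ^ p.g) ^ p.Dp / (2 ^ a * J * (2 ^ p.g) ^ (m + 1)) with hW
    have hW0 : 0 ≤ W := by positivity
    rw [Function.iterate_succ_apply']
    cases e : pivot p.c lo hi with
    | none =>
      rw [Kop_walk_none p est e]
      have h1 : S p.c lo hi = 0 := sum_eq_zero fun k hk => by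
        rw [Nat.sub_eq_zero_of_le (pivot_none e k (mem_range.1 hk))]; rfl
      refine le_trans ?_ (ih (d + 1) (by omega) hB hx (by omega) (J * 2 ^ p.g) ?_)
      · have e : ((2 : ℝ) ^ p.g) ^ p.Dp / (2 ^ a * (J * 2 ^ p.g : ℕ) * (2 ^ p.g) ^ m) = W := by
          rw [hW]; push_cast; ring
        rw [e]
        push_cast
        have : (0 : ℝ) ≤ W * (1 / 2 ^ p.k) := by positivity
        linarith
      · push_cast
        calc _ ≤ (1 - 1 / (2 * p.Dp : ℝ)) ^ d * (2 ^ p.g) ^ p.Dp * boxCard T lo hi := by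
              gcongr ?_ * _ * _
              exact pow_le_pow_of_le_one hδ.le hδ1 (by omega)
          _ ≤ _ := hJ
          _ = _ := by ring
    | some i =>
      obtain ⟨h1, h2⟩ := pivot_some e
      have hL := hB.left h1 h2
      have hR := hB.right h1 h2
      have hsp := boxCard_split hB h1 h2 T
      set NL := boxCard T lo (hi.set i (midp lo hi i)) with hNL
      set NR := boxCard T (lo.set i (midp lo hi i + 1)) hi with hNR
      let good : ℕ → Prop := fun j =>
        (1 - 1 / (2 * p.Dp : ℝ)) * 2 ^ p.g * NL ≤ j * (boxCard T lo hi : ℝ) ∧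
        (1 - 1 / (2 * p.Dp : ℝ)) * 2 ^ p.g * NR ≤ (2 ^ p.g - j) * (boxCard T lo hi : ℝ)
      have hzG : 2 * p.zc ≤ 2 ^ p.g := by nlinarith
      have hbad : Pr (p.k * (2 * p.r0)) (fun u => ¬ good (vm p est lo hi i u)) ≤ 1 / 2 ^ p.k := by
        refine Pr_voteMed_bad (P := good) (fun a b c hab hbc ha hc => ⟨ha.1.trans ?_, hc.2.trans ?_⟩)
          (fun v => by unfold JP.vote1; omega) le_rfl ?_
        · gcongr
        · gcongr
        have e1 := (hest _ _ hL.l1 hL.l2 (le_of_getD fun k => (hL.le k).trans (hL.bd k))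
          (le_of_getD hL.bd)).2
        have e2 := (hest _ _ hR.l1 hR.l2 (le_of_getD fun k => (hR.le k).trans (hR.bd k))
          (le_of_getD hR.bd)).2
        have b1 : Pr (2 * p.r0) (fun v => ¬ |(est lo (hi.set i (midp lo hi i)) (v.take p.r0) : ℝ)
            - NL| ≤ NL / κ) ≤ 1 / 32 := by
          rw [Pr, Ex_take (a := p.r0) (by omega) fun v =>
            ind (¬ |(est lo (hi.set i (midp lo hi i)) v : ℝ) - NL| ≤ NL / κ), ← Pr, Pr_not]
          linarith
        have b2 : Pr (2 * p.r0) (fun v => ¬ |(est (lo.set i (midp lo hi i + 1)) hi (v.drop p.r0) : ℝ)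
            - NR| ≤ NR / κ) ≤ 1 / 32 := by
          rw [Pr, Ex_drop (a := p.r0) (by omega) fun v =>
            ind (¬ |(est (lo.set i (midp lo hi i + 1)) hi v : ℝ) - NR| ≤ NR / κ), ← Pr, Pr_not,
            show 2 * p.r0 - p.r0 = p.r0 by omega]
          linarith
        refine le_trans (Pr_mono fun v _ hv => ?_) ((Pr_or_le _ _ _).trans
          ((add_le_add b1 b2).trans (by norm_num)))
        by_contra hc
        rw [not_or, not_not, not_not] at hc
        apply hv
        have := vote_num (D := p.Dp) (G := 2 ^ p.g) (by omega) hzc hg hκ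
          (by have := boxCard_pos hxT hx; omega) hc.1 hc.2
        rw [← hsp] at this
        simpa [good, JP.vote1] using this
      rw [Kop_walk_some p est e]
      calc _ ≤ W * (1 - m * (1 / 2 ^ p.k)) - 1 / 2 ^ p.b -
            W * Pr (p.k * (2 * p.r0)) (fun u => ¬ good (vm p est lo hi i u)) := by
            have := mul_le_mul_of_nonneg_left hbad hW0
            push_cast
            linarith
        _ = Ex (p.k * (2 * p.r0)) fun u => W * (1 - m * (1 / 2 ^ p.k)) - 1 / 2 ^ p.b -
            W * ind (¬ good (vm p est lo hi i u)) := by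
            rw [Ex_sub, Ex_const, Ex_mul_left, Pr]
        _ ≤ _ := Ex_mono fun u _ => ?_
      set j := vm p est lo hi i u with hj
      have hjG : (j : ℝ) ≤ 2 ^ p.g := by exact_mod_cast vm_le p est lo hi i u
      have hj0 : (0 : ℝ) ≤ j := Nat.cast_nonneg _
      have n1 := F_nonneg (p := p) (est := est) (ok := ok) (x := x) (n := n) (a := a) m
        (lo, hi.set i (midp lo hi i), J * j)
      have n2 := F_nonneg (p := p) (est := est) (ok := ok) (x := x) (n := n) (a := a) m
        (lo.set i (midp lo hi i + 1), hi, J * (2 ^ p.g - j))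
      have n3 : (0 : ℝ) ≤ 2 ^ p.g - j := by linarith
      by_cases hgj : good j
      · rw [ind_false (not_not.2 hgj), mul_zero, sub_zero, add_div]
        by_cases hxi : x.getD i 0 ≤ midp lo hi i
        · have hxL := (inBox_left hB h1 h2 x).2 ⟨hx, hxi⟩
          refine le_trans (step_num (by positivity) hjG hJ0 hδ (by positivity)
            (by exact_mod_cast boxCard_pos hxT hxL) (by positivity) (by positivity) hgj.1 hJ
            fun h => ?_) (le_add_of_nonneg_right (by positivity))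
          have := ih (d + 1) (by omega) hL hxL (by have := S_left hB h1 h2; omega) (J * j)
            (by push_cast; exact h)
          push_cast at this
          exact this
        · have hxR := (inBox_right hB h1 h2 x).2 ⟨hx, hxi⟩
          refine le_trans (step_num (by positivity) (by linarith) hJ0 hδ (by positivity)
            (by exact_mod_cast boxCard_pos hxT hxR) (by positivity) (by positivity) hgj.2 hJ
            fun h => ?_) (le_add_of_nonneg_left (by positivity))
          have e : ((J * (2 ^ p.g - j) : ℕ) : ℝ) = J * (2 ^ p.g - j) := by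
            rw [Nat.cast_mul, Nat.cast_sub (vm_le ..)]; push_cast; rfl
          have := ih (d + 1) (by omega) hR hxR (by have := S_right hB h1 h2; omega)
            (J * (2 ^ p.g - j)) (by rw [e]; exact h)
          rw [e] at this
          exact this
      · rw [ind_true hgj]
        have : (0 : ℝ) ≤ W * (m * (1 / 2 ^ p.k)) := by positivity
        have : (0 : ℝ) ≤ 1 / 2 ^ p.b := by positivity
        refine le_trans (by linarith) (by positivity : (0 : ℝ) ≤ _)

theorem card_le {T : Finset (List ℕ)} {c M : ℕ} (hT : ∀ x ∈ T, x.length = c ∧ ∀ a ∈ x, a ≤ M) :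
    T.card ≤ 2 ^ (c * M.size) := by
  have h1 : T.card ≤ (Fintype.piFinset fun _ : Fin c => range (M + 1)).card := by
    refine card_le_card_of_injOn (fun x i => x.getD i 0) (fun x hx => ?_) fun x hx y hy h => ?_
    · exact Fintype.mem_piFinset.2 fun i => mem_range.2 (Nat.lt_succ_of_le (getD_le (hT x hx).2 i))
    · refine List.ext_getElem ((hT x hx).1.trans (hT y hy).1.symm) fun k h1 h2 => ?_
      have := congrFun h ⟨k, (hT x hx).1 ▸ h1⟩
      simpa [h1, h2] using this
  rw [Fintype.card_piFinset, prod_const, card_range, card_univ, Fintype.card_fin] at h1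
  rw [mul_comm, pow_mul]
  exact h1.trans (Nat.pow_le_pow_left (Nat.lt_size_self M) _)

theorem voteA_good {N D Am κ : ℕ} (hN : 1 ≤ N) (hND : N ≤ 2 ^ D) (hAm : D + 4 ≤ Am) (hκ : 2 ≤ κ)
    {e : ℚ} (he : |(e : ℝ) - N| ≤ N / κ) :
    2 * N ≤ 2 ^ min Am (Nat.clog 2 ⌈4 * e⌉₊) ∧ 2 ^ min Am (Nat.clog 2 ⌈4 * e⌉₊) ≤ 16 * N := by
  have h1 : (N : ℝ) / κ ≤ N / 2 := by
    have : (2 : ℝ) ≤ κ := by exact_mod_cast hκ
    gcongr
  rw [abs_le] at he
  have h2 : ((2 * N : ℕ) : ℚ) ≤ 4 * e := by
    have : ((2 * N : ℕ) : ℝ) ≤ 4 * e := by push_cast; linarith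
    exact_mod_cast this
  have h3 : 4 * e ≤ ((6 * N : ℕ) : ℚ) := by
    have : 4 * (e : ℝ) ≤ ((6 * N : ℕ) : ℝ) := by push_cast; linarith
    exact_mod_cast this
  have h4 : 2 * N ≤ ⌈4 * e⌉₊ := by exact_mod_cast h2.trans (Nat.le_ceil _)
  have h5 : ⌈4 * e⌉₊ ≤ 6 * N := Nat.ceil_le.2 h3
  have h6 := Nat.le_pow_clog one_lt_two ⌈4 * e⌉₊
  have h7 := Nat.pow_pred_clog_lt_self one_lt_two (x := ⌈4 * e⌉₊) (by omega)
  have h8 : 2 ^ Nat.clog 2 ⌈4 * e⌉₊ ≤ 2 * 2 ^ (Nat.clog 2 ⌈4 * e⌉₊).pred := by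
    rw [← pow_succ']
    exact Nat.pow_le_pow_right two_pos (by simp; omega)
  constructor
  · rcases le_total Am (Nat.clog 2 ⌈4 * e⌉₊) with h | h
    · rw [min_eq_left h]
      have := Nat.pow_le_pow_right two_pos hAm
      rw [pow_add] at this
      omega
    · rw [min_eq_right h]; omega
  · have := Nat.pow_le_pow_right two_pos (min_le_right Am (Nat.clog 2 ⌈4 * e⌉₊))
    omega

end JVVAn

open JVVAn in
theorem JP.round_law (p : JP) {est : List ℕ → List ℕ → List Bool → ℚ} {ok : List ℕ → Bool}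
    {T : Finset (List ℕ)} (hne : T.Nonempty) (hok : ∀ x, ok x = true ↔ x ∈ T)
    (hT : ∀ x ∈ T, x.length = p.c ∧ ∀ a ∈ x, a ≤ p.Nm) {κ : ℕ}
    (hest : ∀ lo hi : List ℕ, lo.length = p.c → hi.length = p.c → (∀ a ∈ lo, a ≤ p.Nm) →
      (∀ a ∈ hi, a ≤ p.Nm) → (∀ u, 0 ≤ est lo hi u) ∧ 31 / 32 ≤
        Pr p.r0 fun u => |(est lo hi u : ℝ) - boxCard T lo hi| ≤ boxCard T lo hi / κ)
    (hDp : p.c * p.Nm.size ≤ p.Dp) (hzc : 4 * p.Dp + 1 ≤ p.zc)
    (hg : 2 * (p.Dp + 1) * p.zc ≤ 2 ^ p.g) (hκ : 8 * p.Dp + 2 ≤ κ) (hAm : p.Dp + 4 ≤ p.Am)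
    (hk : 1 ≤ p.k) :
    ∃ γ : ℝ, 1 / (32 * T.card) ≤ γ ∧ γ ≤ 1 / (2 * T.card) ∧ ∀ x ∈ T, ∀ n, p.Br ≤ n →
      γ * (1 - p.Dp / 2 ^ p.k) - 1 / 2 ^ p.b ≤ Pr n (fun u => p.round est ok u = some x) ∧
        Pr n (fun u => p.round est ok u = some x) ≤ γ + 1 / 2 ^ p.k := by
  classical
  have hN : 1 ≤ T.card := hne.card_pos
  have hN' : (1 : ℝ) ≤ T.card := by exact_mod_cast hN
  have hND : T.card ≤ 2 ^ p.Dp := (card_le hT).trans (Nat.pow_le_pow_right two_pos hDp)
  have g0 : ∀ k, (List.replicate p.c 0).getD k 0 = 0 := fun k =>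
    Nat.le_zero.1 (getD_le (by simp) k)
  have hB : Box p (List.replicate p.c 0) (List.replicate p.c p.Nm) :=
    ⟨by simp, by simp, fun k => by rw [g0]; exact Nat.zero_le _, getD_le (by simp)⟩
  have hin : ∀ x ∈ T, inBox (List.replicate p.c 0) (List.replicate p.c p.Nm) x := by
    intro x hx k
    refine ⟨by rw [g0]; exact Nat.zero_le _, ?_⟩
    by_cases hk : k < p.c
    · simpa [hk] using getD_le (hT x hx).2 k
    · simp [(hT x hx).1, not_lt.1 hk]
  have hbox : boxCard T (List.replicate p.c 0) (List.replicate p.c p.Nm) = T.card := by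
    unfold boxCard
    rw [Finset.filter_true_of_mem hin]
  have hS : S p.c (List.replicate p.c 0) (List.replicate p.c p.Nm) ≤ p.Dp := by
    refine le_trans ?_ hDp
    unfold S
    refine (Finset.sum_le_card_nsmul _ _ p.Nm.size fun k _ => Nat.size_le_size ?_).trans (by simp)
    have := hB.bd k
    omega
  let good : ℕ → Prop := fun a => 2 * T.card ≤ 2 ^ a ∧ 2 ^ a ≤ 16 * T.card
  let A : List Bool → ℕ := voteMed (p.voteA est) (p.Am + 1) p.r0 p.k
  have hbad : Pr (p.k * p.r0) (fun u => ¬ good (A u)) ≤ 1 / 2 ^ p.k := by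
    refine Pr_voteMed_bad (P := good) (fun a b c hab hbc ha hc =>
      ⟨ha.1.trans (Nat.pow_le_pow_right two_pos hab),
        (Nat.pow_le_pow_right two_pos hbc).trans hc.2⟩)
      (fun v => by unfold JP.voteA; omega) le_rfl ?_
    have e1 := (hest _ _ hB.l1 hB.l2 (by simp) (by simp)).2
    rw [hbox] at e1
    refine le_trans (Pr_mono (q := fun v => ¬ |(est (List.replicate p.c 0)
      (List.replicate p.c p.Nm) v : ℝ) - T.card| ≤ T.card / κ) fun v _ hv hc =>
      hv (voteA_good hN hND hAm (by omega) hc)) ?_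
    rw [Pr_not]
    linarith
  have hk2 : (1 : ℝ) / 2 ^ p.k ≤ 1 / 2 := by
    gcongr
    exact le_self_pow₀ one_le_two (by omega)
  refine ⟨Ex (p.k * p.r0) fun u => ind (good (A u)) * (1 / 2 ^ A u), ?_, ?_, fun x hx n hn => ?_⟩
  · calc (1 : ℝ) / (32 * T.card) = (1 - 1 / 2) * (1 / (16 * T.card)) := by field_simp; norm_num
      _ ≤ (1 - Pr (p.k * p.r0) fun u => ¬ good (A u)) * (1 / (16 * T.card)) := by
          gcongr; exact hbad.trans hk2
      _ = Ex (p.k * p.r0) fun u => ind (good (A u)) * (1 / (16 * T.card)) := by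
          rw [Pr_not, sub_sub_cancel, Ex_mul_right, Pr]
      _ ≤ _ := Ex_mono fun u _ => ?_
    by_cases h : good (A u)
    · rw [ind_true h]
      gcongr
      exact_mod_cast h.2
    · simp [ind_false h]
  · rw [← Ex_const (p.k * p.r0) (1 / (2 * T.card))]
    refine Ex_mono fun u _ => ?_
    by_cases h : good (A u)
    · rw [ind_true h, one_mul]
      gcongr
      exact_mod_cast h.1
    · rw [ind_false h, zero_mul]; positivity
  · unfold JP.Br at hn
    have hdec : Pr n (fun u => p.round est ok u = some x) = Ex (p.k * p.r0) fun u =>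
        (Kop (p.walk est) p.Bw)^[p.Dp] (JVVAn.acc p ok x (n - p.k * p.r0 - p.Dp * p.Bw) (A u))
          (List.replicate p.c 0, List.replicate p.c p.Nm, 1) := by
      simp only [Pr, JP.round, ← List.drop_drop]
      rw [Ex_split (a := p.k * p.r0) (by omega) fun u w => ind (p.finish ok (A u)
        (foldT (p.walk est) p.Bw p.Dp (List.replicate p.c 0, List.replicate p.c p.Nm, 1)
          (w.take (p.Dp * p.Bw))) (w.drop (p.Dp * p.Bw)) = some x)]
      refine Ex_congr fun u _ => ?_
      rw [Ex_split (a := p.Dp * p.Bw) (by omega) fun w v => ind (p.finish ok (A u)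
        (foldT (p.walk est) p.Bw p.Dp (List.replicate p.c 0, List.replicate p.c p.Nm, 1) w) v
          = some x), ← Ex_foldT _ le_rfl]
      rfl
    rw [hdec]
    constructor
    · rw [← Ex_mul_right, ← Ex_const (p.k * p.r0) (1 / 2 ^ p.b), ← Ex_sub]
      refine Ex_mono fun u _ => ?_
      by_cases h : good (A u)
      · refine le_trans (le_of_eq ?_) (F_lower hok hx (hT x hx).1 hest hzc hg hκ (by omega) h.1
          p.Dp 0 rfl hB (hin x hx) hS 1 (by rw [hbox]; simp [mul_comm]))
        rw [ind_true h]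
        push_cast
        field_simp
      · rw [ind_false h, zero_mul, zero_mul, zero_sub]
        exact le_trans (neg_nonpos.2 (by positivity)) (F_nonneg _ _)
    · refine le_trans ?_ (add_le_add_right hbad _)
      rw [Pr, ← Ex_add]
      refine Ex_mono fun u _ => ?_
      by_cases h : good (A u)
      · rw [ind_true h, ind_false (not_not.2 h), one_mul, add_zero]
        have := F_upper (p := p) (est := est) (ok := ok) (x := x) (a := A u)
          (n := n - p.k * p.r0 - p.Dp * p.Bw) (by omega) p.Dp hB 1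
        rw [Nat.cast_one, mul_one, ← le_div_iff₀ (by positivity)] at this
        refine this.trans (le_of_eq ?_)
        field_simp
      · rw [ind_false h, ind_true h, zero_mul, zero_add]
        exact (Kop_iter_mem _ _ _ (fun _ => ⟨Pr_nonneg _ _, Pr_le_one _ _⟩) _).2

end Crest.Agent.R309
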