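import Crest.Agent.R309.JVV

/-!
# Row 309: a round runs in polynomial time
-/

set_option autoImplicit false

namespace Crest.Agent.R309

open Crest.Agent.Lib.PolyTime

variable {α : Type} [PEnc α]

namespace JVVPoly

theorem length_incr (cs : List ℕ) (j : ℕ) : (incr cs j).length = cs.length := by
  simp [incr]

theorem incr_le {cs : List ℕ} {j i : ℕ} (h : ∀ x ∈ cs, x ≤ i) : ∀ x ∈ incr cs j, x ≤ i + 1 := by
  intro x hx
  obtain ⟨n, hn, rfl⟩ := List.mem_iff_getElem.1 hx
  have hn' : n < cs.length := by simpa [incr] using hn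
  have := h _ (List.getElem_mem hn')
  simp only [incr, List.getElem_modify]
  split_ifs <;> omega

theorem medC_le (cs : List ℕ) (k : ℕ) : medC cs k ≤ cs.length - 1 := by
  unfold medC
  cases e : (List.range cs.length).find? _ with
  | none => simp
  | some x =>
    have := List.mem_range.1 (List.mem_of_find?_eq_some e)
    simp only [Option.getD_some]
    omega

theorem length_votes (f : List Bool → ℕ) (B k : ℕ) (cs : List ℕ) (u : List Bool) :
    (foldT (fun cs v => incr cs (f v)) B k cs u).length = cs.length := by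
  induction k with
  | zero => rfl
  | succ k ih => rw [foldT_succ, length_incr, ih]

theorem voteMed_le (f : List Bool → ℕ) (size B k : ℕ) (u : List Bool) :
    voteMed f size B k u ≤ size - 1 := by
  have := medC_le (foldT (fun cs v => incr cs (f v)) B k (List.replicate size 0) u) k
  rwa [length_votes, List.length_replicate] at this

theorem getD_le {l : List ℕ} {M : ℕ} (h : ∀ x ∈ l, x ≤ M) (i : ℕ) : l.getD i 0 ≤ M := by
  rw [List.getD_eq_getElem?_getD]
  cases e : l[i]? with
  | none => simp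
  | some x => exact h x (List.mem_of_getElem? e)

theorem set_le {l : List ℕ} {M i y : ℕ} (h : ∀ x ∈ l, x ≤ M) (hy : y ≤ M) :
    ∀ x ∈ l.set i y, x ≤ M := by
  intro x hx
  rcases List.mem_or_eq_of_mem_set hx with h' | rfl
  · exact h x h'
  · exact hy

end JVVPoly

open JVVPoly

@[fun_prop] theorem poly_incr {cs : α → List ℕ} {j : α → ℕ} (h₁ : Poly cs) (h₂ : Poly j) :
    Poly fun a => incr (cs a) (j a) := by
  unfold incr
  fun_prop

@[fun_prop] theorem poly_medC {cs : α → List ℕ} {k : α → ℕ} (h₁ : Poly cs) (h₂ : Poly k) :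
    Poly fun a => medC (cs a) (k a) := by
  unfold medC
  fun_prop

theorem poly_votes {f : α → List Bool → ℕ} {size B k : α → ℕ} {u : α → List Bool}
    (hf : Poly fun p : α × List Bool => f p.1 p.2) (hs : Poly size) (hs' : PB size) (hB : Poly B)
    (hk : Poly k) (hk' : PB k) (hu : Poly u) :
    Poly fun a => foldT (fun cs v => incr cs (f a v)) (B a) (k a) (List.replicate (size a) 0)
      (u a) := by
  refine poly_foldT (step := fun a cs v => incr cs (f a v))
    (S := fun a => size a * (4 * k a + 1 + 1) + 1)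
    (poly_incr (by fun_prop) (hf.comp (g := fun p : (α × List ℕ) × List Bool => (p.1.1, p.2))
      (by fun_prop))) hB hk hk' (by fun_prop) hu
    (fun a i cs => cs.length = size a ∧ ∀ x ∈ cs, x ≤ i) (fun a => by simp)
    (fun a i cs v _ _ h => ⟨by rw [length_incr, h.1], incr_le h.2⟩) (by fun_prop)
    fun a i cs hi h => ?_
  rw [← h.1]
  exact sz_list_le fun x hx => (sz_le_self x).trans (by have := h.2 x hx; omega)

theorem poly_voteMed {f : α → List Bool → ℕ} {size B k : α → ℕ} {u : α → List Bool}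
    (hf : Poly fun p : α × List Bool => f p.1 p.2) (hs : Poly size) (hs' : PB size) (hB : Poly B)
    (hk : Poly k) (hk' : PB k) (hu : Poly u) :
    Poly fun a => voteMed (f a) (size a) (B a) (k a) (u a) :=
  poly_medC (poly_votes hf hs hs' hB hk hk' hu) hk

@[fun_prop] theorem poly_pivot {c : α → ℕ} {lo hi : α → List ℕ} (hc : Poly c) (hc' : PB c)
    (h₁ : Poly lo) (h₂ : Poly hi) : Poly fun a => pivot (c a) (lo a) (hi a) := by
  unfold pivot
  fun_prop

@[fun_prop] theorem poly_midp {lo hi : α → List ℕ} {i : α → ℕ} (h₁ : Poly lo) (h₂ : Poly hi)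
    (h₃ : Poly i) : Poly fun a => midp (lo a) (hi a) (i a) := by
  unfold midp
  fun_prop

@[fun_prop] theorem poly_accStep {Q : α → ℕ} {s : α → ℕ × Option Bool} {v : α → List Bool}
    (h₁ : Poly Q) (h₂ : Poly s) (h₃ : Poly v) : Poly fun a => accStep (Q a) (s a) (v a) := by
  unfold accStep
  fun_prop

theorem JVVPoly.accStep_le (Q : ℕ) (s : ℕ × Option Bool) (v : List Bool) :
    (accStep Q s v).1 ≤ 2 * s.1 := by
  unfold accStep
  split_ifs <;> (try simp only) <;> omega

@[fun_prop] theorem poly_accept {P Q b : α → ℕ} {u : α → List Bool} (hP : Poly P) (hQ : Poly Q)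
    (hb : Poly b) (hb' : PB b) (hu : Poly u) : Poly fun a => accept (P a) (Q a) (b a) (u a) := by
  have h : Poly fun a => foldT (accStep (Q a)) 1 (b a) (P a, none) (u a) := by
    refine poly_foldT (step := fun a => accStep (Q a)) (B := fun _ => 1)
      (S := fun a => 4 * (b a + sz (P a)) + 7) (by fun_prop) (by fun_prop) hb hb' (by fun_prop) hu
      (fun a i s => s.1 < 2 ^ (i + sz (P a))) (fun a => by simpa using lt_two_pow_sz (P a))
      (fun a i s v _ _ h => ?_) (by fun_prop) fun a i s hi h => ?_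
    · have := accStep_le (Q a) s v
      rw [show i + 1 + sz (P a) = i + sz (P a) + 1 by omega, pow_succ]
      omega
    · have h1 := sz_le_of_lt_two_pow h
      have h2 : sz s.2 ≤ 5 := by
        rcases s.2 with _ | c
        · simp
        · have := sz_bool_le c
          simp only [sz_some]
          omega
      rw [sz_prod]
      omega
  unfold accept
  fun_prop

theorem JPoly.pb_g {p : α → JP} (hp : JPoly p) : PB fun a => (p a).g :=
  hp.g'.mono fun _ => Nat.lt_two_pow_self.le

theorem JPoly.comp {β : Type} [PEnc β] {p : α → JP} (hp : JPoly p) {f : β → α} (hf : Poly f) :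
    JPoly fun b => p (f b) :=
  ⟨hp.c.comp hf, hp.Nm.comp hf, hp.g.comp hf, hp.k.comp hf, hp.r0.comp hf, hp.b.comp hf,
    hp.Dp.comp hf, hp.Am.comp hf, hp.zc.comp hf, hp.c'.comp hf, hp.g'.comp hf, hp.k'.comp hf,
    hp.r0'.comp hf, hp.b'.comp hf, hp.Dp'.comp hf, hp.Am'.comp hf, hp.zc'.comp hf⟩

theorem JPoly.poly_Bw {p : α → JP} (hp : JPoly p) : Poly fun a => (p a).Bw :=
  (hp.k.mul ((Lib.PolyTime.Poly.const 2).mul hp.r0)).add hp.g

theorem JPoly.pb_Bw {p : α → JP} (hp : JPoly p) : PB fun a => (p a).Bw :=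
  (hp.k'.mul ((PB.const 2).mul hp.r0')).add hp.pb_g

theorem JPoly.poly_Br {p : α → JP} (hp : JPoly p) : Poly fun a => (p a).Br := by
  exact ((hp.k.mul hp.r0).add (hp.Dp.mul hp.poly_Bw)).add hp.b

theorem JPoly.pb_Br {p : α → JP} (hp : JPoly p) : PB fun a => (p a).Br := by
  exact ((hp.k'.mul hp.r0').add (hp.Dp'.mul hp.pb_Bw)).add hp.b'

theorem JPoly.poly_padExp {p : α → JP} (hp : JPoly p) : Poly fun a => (p a).padExp := by
  have := hp.pb_g
  obtain ⟨h1, h2, h3, h4, h5, h6, h7, h8, h9, -⟩ := hp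
  unfold JP.padExp
  fun_prop

theorem JPoly.pb_padExp {p : α → JP} (hp : JPoly p) : PB fun a => (p a).padExp := by
  have hg := hp.pb_g
  have h1 : PB fun a => ((p a).k + 1).size := PB.size (hp.k.add (Lib.PolyTime.Poly.const 1))
  have h2 : PB fun a => (p a).Nm.size := PB.size hp.Nm
  exact (((((PB.const 2).mul hp.r0').add (((hp.g'.add hp.Am').add (PB.const 2)).mul h1)).add
    (((PB.const 2).mul hp.c').mul h2)).add (hg.mul (hp.Dp'.add (PB.const 1)))).add (PB.const 8)

theorem JPoly.poly_vote1 {p : α → JP} (hp : JPoly p) {est : α → List ℕ → List ℕ → List Bool → ℚ}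
    (hest : Poly fun a : α × List ℕ × List ℕ × List Bool => est a.1 a.2.1 a.2.2.1 a.2.2.2)
    {lo hi : α → List ℕ} {i : α → ℕ} {v : α → List Bool} (h₁ : Poly lo) (h₂ : Poly hi)
    (h₃ : Poly i) (h₄ : Poly v) :
    Poly fun a => (p a).vote1 (est a) (lo a) (hi a) (i a) (v a) := by
  have hg := hp.pb_g
  have hg' := hp.g
  have hz := hp.zc
  have hr := hp.r0
  have e1 : Poly fun a => est a (lo a) ((hi a).set (i a) (midp (lo a) (hi a) (i a)))
      ((v a).take (p a).r0) :=
    hest.comp (g := fun a => (a, lo a, (hi a).set (i a) (midp (lo a) (hi a) (i a)),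
      (v a).take (p a).r0)) (by fun_prop)
  have e2 : Poly fun a => est a ((lo a).set (i a) (midp (lo a) (hi a) (i a) + 1)) (hi a)
      ((v a).drop (p a).r0) :=
    hest.comp (g := fun a => (a, (lo a).set (i a) (midp (lo a) (hi a) (i a) + 1), hi a,
      (v a).drop (p a).r0)) (by fun_prop)
  have e3 : Poly fun a => (2 : ℚ) ^ (p a).g := Poly.monoidPow (Lib.PolyTime.Poly.const _) hg' hg
  have e4 : Poly fun a => 2 ^ (p a).g := Poly.pow (Lib.PolyTime.Poly.const _) hg' hg
  unfold JP.vote1
  exact hz.natMax ((e4.sub hz).natMin ((e3.ratMul e1).ratDiv (e1.ratAdd e2)).ratNatFloor)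

theorem JPoly.poly_move {p : α → JP} (hp : JPoly p) {s : α → List ℕ × List ℕ × ℕ} {i j : α → ℕ}
    {v : α → List Bool} (h₁ : Poly s) (h₂ : Poly i) (h₃ : Poly j) (h₄ : Poly v) :
    Poly fun a => (p a).move (s a) (i a) (j a) (v a) := by
  have e4 : Poly fun a => 2 ^ (p a).g := Poly.pow (Lib.PolyTime.Poly.const _) hp.g hp.pb_g
  unfold JP.move
  fun_prop

theorem JPoly.poly_voteA {p : α → JP} (hp : JPoly p) {est : α → List ℕ → List ℕ → List Bool → ℚ}
    (hest : Poly fun a : α × List ℕ × List ℕ × List Bool => est a.1 a.2.1 a.2.2.1 a.2.2.2)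
    {v : α → List Bool} (h₄ : Poly v) : Poly fun a => (p a).voteA (est a) (v a) := by
  have h1 := hp.c
  have h2 := hp.c'
  have h3 := hp.Nm
  have e1 : Poly fun a => est a (List.replicate (p a).c 0) (List.replicate (p a).c (p a).Nm)
      (v a) :=
    hest.comp (g := fun a => (a, List.replicate (p a).c 0, List.replicate (p a).c (p a).Nm, v a))
      (by fun_prop)
  unfold JP.voteA
  exact hp.Am.natMin ((Lib.PolyTime.Poly.const 2).clog ((Lib.PolyTime.Poly.const 4).ratMul e1).ratNatCeil)

theorem JPoly.poly_walk {p : α → JP} (hp : JPoly p) {est : α → List ℕ → List ℕ → List Bool → ℚ}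
    (hest : Poly fun a : α × List ℕ × List ℕ × List Bool => est a.1 a.2.1 a.2.2.1 a.2.2.2)
    {s : α → List ℕ × List ℕ × ℕ} {u : α → List Bool} (h₁ : Poly s) (h₂ : Poly u) :
    Poly fun a => (p a).walk (est a) (s a) (u a) := by
  have e4 : Poly fun a => 2 ^ (p a).g := Poly.pow (Lib.PolyTime.Poly.const _) hp.g hp.pb_g
  have hc := hp.c
  have hc' := hp.c'
  unfold JP.walk
  refine Poly.optionElim (by fun_prop) (by fun_prop) ?_
  have hp' : JPoly fun q : α × ℕ => p q.1 := hp.comp (by fun_prop)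
  have hk := hp'.k
  have hr := hp'.r0
  have hg := hp'.g
  refine hp'.poly_move (by fun_prop) (by fun_prop) ?_ (by fun_prop)
  refine poly_voteMed (f := fun q : α × ℕ => (p q.1).vote1 (est q.1) (s q.1).1 (s q.1).2.1 q.2) ?_
    ((e4.comp (g := fun q : α × ℕ => q.1) (by fun_prop)).add (Lib.PolyTime.Poly.const 1))
    (hp'.g'.add (PB.const 1)) (by fun_prop) hk hp'.k' (by fun_prop)
  exact JPoly.poly_vote1 (p := fun r : (α × ℕ) × List Bool => p r.1.1) (hp.comp (by fun_prop))
    (est := fun r : (α × ℕ) × List Bool => est r.1.1)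
    (hest.comp (g := fun a : ((α × ℕ) × List Bool) × List ℕ × List ℕ × List Bool =>
      (a.1.1.1, a.2)) (by fun_prop)) (by fun_prop) (by fun_prop) (by fun_prop) (by fun_prop)

theorem JPoly.poly_finish {p : α → JP} (hp : JPoly p) {ok : α → List ℕ → Bool}
    (hok : Poly fun a : α × List ℕ => ok a.1 a.2) {e : α → ℕ} {s : α → List ℕ × List ℕ × ℕ}
    {v : α → List Bool} (h₁ : Poly e) (h₁' : PB e) (h₂ : Poly s) (h₃ : Poly v) :
    Poly fun a => (p a).finish (ok a) (e a) (s a) (v a) := by
  have e1 : Poly fun a => 2 ^ ((p a).g * (p a).Dp) :=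
    Poly.pow (Lib.PolyTime.Poly.const _) (hp.g.mul hp.Dp) (hp.pb_g.mul hp.Dp')
  have e2 : Poly fun a => 2 ^ e a * (s a).2.2 :=
    (Poly.pow (Lib.PolyTime.Poly.const _) h₁ h₁').mul (by fun_prop)
  have e3 := poly_accept e1 e2 hp.b hp.b' h₃
  have e4 : Poly fun a => ok a (s a).1 := hok.comp (g := fun a => (a, (s a).1)) (by fun_prop)
  unfold JP.finish
  exact Poly.ite (Poly.decide_true (e3.and e4)) (by fun_prop) (by fun_prop)

/-- the invariant of the descent -/
def JVVPoly.WI (p : JP) (i : ℕ) (s : List ℕ × List ℕ × ℕ) : Prop :=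
  s.1.length = p.c ∧ s.2.1.length = p.c ∧ (∀ x ∈ s.1, x ≤ p.Nm + i) ∧
    (∀ x ∈ s.2.1, x ≤ p.Nm + i) ∧ s.2.2 ≤ 2 ^ (p.g * i)

theorem JVVPoly.WI_walk (p : JP) (est : List ℕ → List ℕ → List Bool → ℚ) {i : ℕ}
    {s : List ℕ × List ℕ × ℕ} (h : WI p i s) (u : List Bool) : WI p (i + 1) (p.walk est s u) := by
  obtain ⟨h1, h2, h3, h4, h5⟩ := h
  have h3' : ∀ x ∈ s.1, x ≤ p.Nm + (i + 1) := fun x hx => (h3 x hx).trans (by omega)
  have h4' : ∀ x ∈ s.2.1, x ≤ p.Nm + (i + 1) := fun x hx => (h4 x hx).trans (by omega)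
  have h6 : ∀ j, j ≤ 2 ^ p.g → s.2.2 * j ≤ 2 ^ (p.g * (i + 1)) := fun j hj => by
    rw [Nat.mul_succ, pow_add]
    exact Nat.mul_le_mul h5 hj
  unfold JP.walk
  cases pivot p.c s.1 s.2.1 with
  | none => exact ⟨h1, h2, h3', h4', h6 _ le_rfl⟩
  | some n =>
    have hm : midp s.1 s.2.1 n ≤ p.Nm + i := by
      have a := getD_le h3 n
      have b := getD_le h4 n
      unfold midp
      omega
    simp only [Option.elim, JP.move]
    split_ifs
    · exact ⟨h1, by simpa using h2, h3', set_le h4' (by omega),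
        h6 _ ((voteMed_le _ _ _ _ _).trans (Nat.add_sub_cancel _ _).le)⟩
    · exact ⟨by simpa using h1, h2, set_le h3' (by omega), h4', h6 _ (Nat.sub_le _ _)⟩

theorem JPoly.poly_descent {p : α → JP} (hp : JPoly p)
    {est : α → List ℕ → List ℕ → List Bool → ℚ}
    (hest : Poly fun a : α × List ℕ × List ℕ × List Bool => est a.1 a.2.1 a.2.2.1 a.2.2.2)
    {u : α → List Bool} (hu : Poly u) :
    Poly fun a => foldT ((p a).walk (est a)) (p a).Bw (p a).Dp
      (List.replicate (p a).c 0, List.replicate (p a).c (p a).Nm, 1) (u a) := by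
  have h1 := hp.c
  have h2 := hp.c'
  have h3 := hp.Nm
  have h4 := hp.Dp
  have h5 := hp.Dp'
  have h6 := hp.pb_g
  refine poly_foldT (step := fun a => (p a).walk (est a))
    (S := fun a => 2 * ((p a).c * (4 * sz ((p a).Nm + (p a).Dp) + 1) + 1) +
      (4 * ((p a).g * (p a).Dp + 1) + 1) + 2) ?_ hp.poly_Bw h4 h5 (by fun_prop) hu
    (fun a => WI (p a)) (fun a => ?_) (fun a i s v _ _ h => WI_walk _ _ h v) (by fun_prop)
    fun a i s hi h => ?_
  · exact JPoly.poly_walk (p := fun r : (α × List ℕ × List ℕ × ℕ) × List Bool => p r.1.1)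
      (hp.comp (by fun_prop)) (est := fun r : (α × List ℕ × List ℕ × ℕ) × List Bool => est r.1.1)
      (hest.comp (g := fun a : ((α × List ℕ × List ℕ × ℕ) × List Bool) ×
        List ℕ × List ℕ × List Bool => (a.1.1.1, a.2)) (by fun_prop)) (by fun_prop) (by fun_prop)
  · refine ⟨by simp, by simp, fun x hx => ?_, fun x hx => ?_, by simp⟩
    · rw [List.eq_of_mem_replicate hx]; omega
    · rw [List.eq_of_mem_replicate hx]; omega
  · obtain ⟨a1, a2, a3, a4, a5⟩ := h
    have b1 := sz_list_le (l := s.1) (B := 4 * sz ((p a).Nm + (p a).Dp)) fun x hx =>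
      sz_le_of_le ((a3 x hx).trans (by omega))
    have b2 := sz_list_le (l := s.2.1) (B := 4 * sz ((p a).Nm + (p a).Dp)) fun x hx =>
      sz_le_of_le ((a4 x hx).trans (by omega))
    have b3 : s.2.2 < 2 ^ ((p a).g * (p a).Dp + 1) :=
      a5.trans_lt (Nat.pow_lt_pow_right (by norm_num)
        (Nat.lt_succ_of_le (Nat.mul_le_mul_left _ hi)))
    have b4 := sz_le_of_lt_two_pow b3
    rw [a1] at b1
    rw [a2] at b2
    rw [sz_prod, sz_prod]
    omega

theorem JPoly.poly_round {p : α → JP} (hp : JPoly p) {est : α → List ℕ → List ℕ → List Bool → ℚ}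
    (hest : Poly fun a : α × List ℕ × List ℕ × List Bool => est a.1 a.2.1 a.2.2.1 a.2.2.2)
    {ok : α → List ℕ → Bool} (hok : Poly fun a : α × List ℕ => ok a.1 a.2) :
    Poly fun a : α × List Bool => (p a.1).round (est a.1) (ok a.1) a.2 := by
  have hp' : JPoly fun q : α × List Bool => p q.1 := hp.comp (by fun_prop)
  have hest' : Poly fun a : (α × List Bool) × List ℕ × List ℕ × List Bool =>
      est a.1.1 a.2.1 a.2.2.1 a.2.2.2 :=
    hest.comp (g := fun a : (α × List Bool) × List ℕ × List ℕ × List Bool => (a.1.1, a.2))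
      (by fun_prop)
  have hk := hp'.k
  have hr := hp'.r0
  have hD := hp'.Dp
  have hB := hp'.poly_Bw
  unfold JP.round
  refine hp'.poly_finish (ok := fun q : α × List Bool => ok q.1)
    (hok.comp (g := fun a : (α × List Bool) × List ℕ => (a.1.1, a.2)) (by fun_prop)) ?_ ?_
    (hp'.poly_descent (est := fun q : α × List Bool => est q.1) hest' (by fun_prop)) (by fun_prop)
  · refine poly_voteMed (f := fun q : α × List Bool => (p q.1).voteA (est q.1)) ?_
      (hp'.Am.add (Lib.PolyTime.Poly.const 1)) (hp'.Am'.add (PB.const 1)) hr hk hp'.k' (by fun_prop)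
    exact JPoly.poly_voteA (p := fun r : (α × List Bool) × List Bool => p r.1.1)
      (hp.comp (by fun_prop)) (est := fun r : (α × List Bool) × List Bool => est r.1.1)
      (hest.comp (g := fun a : ((α × List Bool) × List Bool) × List ℕ × List ℕ × List Bool =>
        (a.1.1.1, a.2)) (by fun_prop)) (by fun_prop)
  · exact hp'.Am'.mono fun a => (voteMed_le _ _ _ _ _).trans (by omega)

end Crest.Agent.R309
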