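import Crest.Agent.R309.JVVAn
import Crest.Agent.R309.JVVPoly

/-!
# Row 309: the rejection sampler for contingency tables
-/

set_option autoImplicit false

namespace Crest.Agent.R309

open Crest.Agent.Lib.PolyTime

namespace JVVInst

/-- number of cells -/
def cc (a : List ℕ × List ℕ) : ℕ := a.1.length * a.2.length

/-- depth of the descent -/
def DD (a : List ℕ × List ℕ) : ℕ := cc a * a.1.sum.size

/-- bits of the grid -/
def gg (a : List ℕ × List ℕ) : ℕ := (2 * (DD a + 1) * (4 * DD a + 1)).size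

/-- a bound for the size of a query to the estimator -/
def SS (a : List ℕ × List ℕ) : ℕ :=
  sz a + 2 * (cc a * (4 * sz a.1.sum + 1) + 1) + 2 * (8 * DD a + 2) + 4

theorem poly_cc : Poly cc := by unfold cc; fun_prop

theorem pb_cc : PB cc := by unfold cc; fun_prop

theorem poly_DD : Poly DD := by
  have := poly_cc
  unfold DD
  fun_prop

theorem pb_DD : PB DD := by
  have := pb_cc
  unfold DD
  fun_prop

theorem poly_gg : Poly gg := by
  have := poly_DD
  unfold gg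
  fun_prop

theorem two_pow_size_le (n : ℕ) : 2 ^ n.size ≤ 2 * n + 1 := by
  rcases Nat.eq_zero_or_pos n with rfl | h
  · simp
  · have h1 : 0 < n.size := Nat.size_pos.2 h
    have h2 : 2 ^ (n.size - 1) ≤ n := Nat.lt_size.1 (by omega)
    calc 2 ^ n.size = 2 * 2 ^ (n.size - 1) := by
          rw [← pow_succ']; congr 1; omega
      _ ≤ _ := by omega

theorem pb_gg : PB fun a => 2 ^ gg a := by
  have := pb_DD
  have h : PB fun a => 2 * (2 * (DD a + 1) * (4 * DD a + 1)) + 1 := by fun_prop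
  exact h.mono fun a => two_pow_size_le _

theorem poly_SS : Poly SS := by
  have := poly_cc
  have := poly_DD
  unfold SS
  fun_prop

theorem pb_SS : PB SS := by
  have := pb_cc
  have := pb_DD
  unfold SS
  fun_prop

theorem sz_query {rs cs lo hi : List ℕ} (h1 : lo.length = cc (rs, cs))
    (h2 : hi.length = cc (rs, cs)) (h3 : ∀ a ∈ lo, a ≤ rs.sum) (h4 : ∀ a ∈ hi, a ≤ rs.sum) :
    sz ((rs, cs), (lo, hi), (⟨8 * DD (rs, cs) + 2⟩ : Un)) ≤ SS (rs, cs) := by
  have b1 := sz_list_le (l := lo) (B := 4 * sz rs.sum) fun x hx => sz_le_of_le (h3 x hx)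
  have b2 := sz_list_le (l := hi) (B := 4 * sz rs.sum) fun x hx => sz_le_of_le (h4 x hx)
  rw [h1] at b1
  rw [h2] at b2
  rw [sz_pair, sz_pair (lo, hi), sz_pair lo, sz_un]
  unfold SS
  simp only
  omega

theorem card_le (rs cs : List ℕ) : (Tabs rs cs).card ≤ 2 ^ DD (rs, cs) := by
  refine (Finset.card_filter_le _ _).trans (Finset.card_image_le.trans ?_)
  rw [Fintype.card_piFinset]
  simp only [Finset.card_range, Finset.prod_const, Finset.card_univ, Fintype.card_fin]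
  rw [DD, cc, Nat.mul_comm (_ * _), pow_mul 2]
  exact Nat.pow_le_pow_left (Nat.lt_size_self _) _

/-- the parameters -/
def par (P : Polynomial ℕ) (a : (List ℕ × List ℕ) × Un) : JP where
  c := cc a.1
  Nm := a.1.1.sum
  g := gg a.1
  k := a.2.n + 2 * DD a.1 + 8
  r0 := P.eval (SS a.1)
  b := a.2.n + 2 * DD a.1 + 8
  Dp := DD a.1
  Am := DD a.1 + 4
  zc := 4 * DD a.1 + 1

theorem jpoly_par (P : Polynomial ℕ) : JPoly (par P) := by
  have hf : Poly fun a : (List ℕ × List ℕ) × Un => a.1 := by fun_prop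
  have h1 := poly_cc.comp hf
  have h2 := pb_cc.comp hf
  have h3 := poly_DD.comp hf
  have h4 := pb_DD.comp hf
  have h5 := poly_gg.comp hf
  have h6 := pb_gg.comp hf
  have h7 := (poly_SS.comp hf).polyEval P
  have h8 := (pb_SS.comp hf).eval P
  refine ⟨h1, ?_, h5, ?_, h7, ?_, h3, ?_, ?_, h2, h6, ?_, h8, ?_, h4, ?_, ?_⟩ <;>
    simp only [par] <;> fun_prop

theorem padExp_par (P : Polynomial ℕ) : ∃ q : Polynomial ℕ,
    ∀ a, (par P a).padExp ≤ q.eval (sz a.1) * (a.2.n + 1).size := by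
  have h1 := pb_cc
  have h2 := pb_DD
  have h3 := pb_gg
  have h4 := pb_SS.eval P
  have h5 : PB gg := h3.mono fun _ => Nat.lt_two_pow_self.le
  have h6 := poly_DD
  have h : PB fun a : List ℕ × List ℕ => 2 * P.eval (SS a) +
      (2 ^ gg a + (DD a + 4) + 2) * ((2 * DD a + 8).size + 2) + 2 * cc a * a.1.sum.size +
        gg a * (DD a + 1) + 8 := by fun_prop
  obtain ⟨q, hq⟩ := h
  refine ⟨q, fun a => le_trans ?_ (Nat.mul_le_mul_right _ (hq a.1))⟩
  have e1 : 1 ≤ (a.2.n + 1).size := Nat.size_pos.2 (by omega)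
  have e2 := size_add_le (a.2.n + 1) (2 * DD a.1 + 8)
  rw [show a.2.n + 1 + (2 * DD a.1 + 8) = a.2.n + 2 * DD a.1 + 8 + 1 by omega] at e2
  have e3 : (a.2.n + 2 * DD a.1 + 8 + 1).size ≤ ((2 * DD a.1 + 8).size + 2) * (a.2.n + 1).size := by
    nlinarith
  simp only [par, JP.padExp, Nat.add_mul _ _ (a.2.n + 1).size]
  refine Nat.add_le_add (Nat.add_le_add (Nat.add_le_add (Nat.add_le_add
    (Nat.le_mul_of_pos_right _ e1) ?_) (Nat.le_mul_of_pos_right _ e1))
    (Nat.le_mul_of_pos_right _ e1)) (Nat.le_mul_of_pos_right _ e1)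
  rw [Nat.mul_assoc]
  exact Nat.mul_le_mul_left _ e3

theorem arith {γ x : ℝ} {N D k : ℕ} (hN : 0 < N) (hD : N ≤ 2 ^ D) (hγ : 1 / (32 * N) ≤ γ)
    (h1 : γ * (1 - D / 2 ^ (k + 2 * D + 8)) - 1 / 2 ^ (k + 2 * D + 8) ≤ x)
    (h2 : x ≤ γ + 1 / 2 ^ (k + 2 * D + 8)) : |x - γ| ≤ γ / 2 ^ k := by
  have hN' : (0 : ℝ) < N := by exact_mod_cast hN
  have hD' : (N : ℝ) ≤ 2 ^ D := by exact_mod_cast hD
  have hγ0 : 0 < γ := lt_of_lt_of_le (by positivity) hγ
  have h3 : (D : ℝ) ≤ 2 ^ D := by exact_mod_cast (Nat.lt_two_pow_self (n := D)).le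
  have h4 : (1 : ℝ) ≤ 2 ^ D := one_le_pow₀ (by norm_num)
  have h5 : 1 ≤ 32 * 2 ^ D * γ := by
    rw [div_le_iff₀ (by positivity)] at hγ
    nlinarith
  have e : (2 : ℝ) ^ (k + 2 * D + 8) = 2 ^ k * (256 * (2 ^ D * 2 ^ D)) := by ring
  have h6 : (1 : ℝ) / 2 ^ (k + 2 * D + 8) ≤ γ / 2 ^ k / 2 := by
    rw [e, div_div, div_le_div_iff₀ (by positivity) (by positivity)]
    have : (0 : ℝ) < 2 ^ k := by positivity
    have h7 : (2 : ℝ) ≤ γ * (256 * (2 ^ D * 2 ^ D)) := by nlinarith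
    nlinarith
  have h8 : (D : ℝ) / 2 ^ (k + 2 * D + 8) ≤ 1 / 2 ^ k / 2 := by
    rw [e, div_div, div_le_div_iff₀ (by positivity) (by positivity)]
    have : (0 : ℝ) < 2 ^ k := by positivity
    have h7 : (D : ℝ) * 2 ≤ 256 * (2 ^ D * 2 ^ D) := by nlinarith
    nlinarith
  have h9 := mul_le_mul_of_nonneg_left h8 hγ0.le
  have h10 : γ * (1 / 2 ^ k / 2) = γ / 2 ^ k / 2 := by ring
  have h11 : 0 ≤ γ / 2 ^ k := by positivity
  rw [abs_le]
  constructor <;> nlinarith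

end JVVInst

open JVVInst

/-- A round that returns every table with probability `γ (1 ± 2⁻ᵏ)`; the number of states of its
loops depends on `k` only through a factor `log k` in the exponent. -/
theorem exists_round : ∃ (p : (List ℕ × List ℕ) × Un → JP)
    (est : (List ℕ × List ℕ) × Un → List ℕ → List ℕ → List Bool → ℚ) (q : Polynomial ℕ),
    JPoly p ∧
    (Poly fun a : ((List ℕ × List ℕ) × Un) × List ℕ × List ℕ × List Bool =>
      est a.1 a.2.1 a.2.2.1 a.2.2.2) ∧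
    (∀ a, (p a).padExp ≤ q.eval (sz a.1) * (a.2.n + 1).size) ∧
    ∀ (rs cs : List ℕ) (k : Un), rs.sum = cs.sum →
      ∃ γ : ℝ, 1 / (32 * (Tabs rs cs).card) ≤ γ ∧ γ ≤ 1 / (2 * (Tabs rs cs).card) ∧
        ∀ x ∈ Tabs rs cs, ∀ n, (p ((rs, cs), k)).Br ≤ n →
          |Pr n (fun u => (p ((rs, cs), k)).round (est ((rs, cs), k)) (okT rs cs) u = some x) - γ|
            ≤ γ / 2 ^ k.n := by
  obtain ⟨Est, P, hP, hs⟩ := exists_estT
  obtain ⟨q, hq⟩ := padExp_par P
  refine ⟨par P, fun a lo hi u => Est ((a.1, (lo, hi), ⟨8 * DD a.1 + 2⟩), u), q, jpoly_par P, ?_,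
    hq, fun rs cs k h => ?_⟩
  · have h1 := poly_DD
    have h2 := pb_DD
    exact hP.comp (g := fun a : ((List ℕ × List ℕ) × Un) × List ℕ × List ℕ × List Bool =>
      ((a.1.1, (a.2.1, a.2.2.1), (⟨8 * DD a.1.1 + 2⟩ : Un)), a.2.2.2)) (by fun_prop)
  · obtain ⟨γ, h1, h2, h3⟩ := (par P ((rs, cs), k)).round_law
      (est := fun lo hi u => Est (((rs, cs), (lo, hi), ⟨8 * DD (rs, cs) + 2⟩), u))
      (ok := okT rs cs) (T := Tabs rs cs) (κ := 8 * DD (rs, cs) + 2) (Tabs_nonempty h)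
      (fun x => (mem_Tabs rs cs x).symm) (fun x hx => Tabs_bound hx)
      (fun lo hi a1 a2 a3 a4 => by
        obtain ⟨b1, -, b3⟩ := hs rs cs lo hi ⟨8 * DD (rs, cs) + 2⟩ a1 a2 (by simp)
        exact ⟨b1, b3 _ (eval_mono P (sz_query a1 a2 a3 a4))⟩)
      le_rfl le_rfl (Nat.lt_size_self _).le le_rfl le_rfl (by simp [par])
    refine ⟨γ, h1, h2, fun x hx n hn => ?_⟩
    obtain ⟨h4, h5⟩ := h3 x hx n hn
    exact arith (Finset.card_pos.2 (Tabs_nonempty h)) (card_le rs cs) h1 h4 h5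

end Crest.Agent.R309
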