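import Crest.Agent.R309.FlowBasic
import Crest.Agent.R309.Couple

/-!
# Row 309: the rhombus inequality for the regularised partition function
-/

set_option autoImplicit false

namespace Crest.Agent.R309.KAux

open Finset Filter Topology

theorem chain {u w : ℤ → ℝ} (hw : ∀ k, 0 < w k)
    (h : ∀ k, u (k + 1) * w k ≤ u k * w (k + 1)) {i j : ℤ} (hij : i ≤ j) :
    u j * w i ≤ u i * w j := by
  have key : u j / w j ≤ u i / w i := by
    induction j, hij using Int.leInduction with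
    | base => exact le_rfl
    | succ j _ ih => exact le_trans ((div_le_div_iff₀ (hw _) (hw _)).2 (h j)) ih
  exact (div_le_div_iff₀ (hw _) (hw _)).1 key

theorem lc_multi {a : ℤ → ℝ} (ha : ∀ k, 0 < a k) (h : ∀ k, a (k + 2) * a k ≤ a (k + 1) * a (k + 1))
    {i j k l : ℤ} (hij : i ≤ j) (hjk : j ≤ k) (hs : i + l = j + k) : a i * a l ≤ a j * a k := by
  have h1 : ∀ i j, i ≤ j → a (j + 1) * a i ≤ a (i + 1) * a j := fun i j hij =>
    chain (u := fun n => a (n + 1)) ha (fun k => by simpa [add_assoc, one_add_one_eq_two] using h k)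
      hij
  have h2 := chain (u := fun n => a (k + n)) (w := fun n => a (i + n)) (fun n => ha _)
    (fun n => by
      have := h1 (i + n) (k + n) (by omega)
      simp only [← add_assoc]; linarith) (i := 0) (j := j - i) (by omega)
  simp only [add_zero, add_sub_cancel] at h2
  rw [show k + (j - i) = l by omega] at h2
  linarith

variable {V E : Type} [Fintype V] [DecidableEq V] [Fintype E] [DecidableEq E]

/-- charges with a ground vertex -/
def δ : Option V → V → ℤ
  | none => 0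
  | some v => dl v

/-- the rhombus inequality at given terminals -/
def Rh1 (N : (V → ℤ) → ℝ) (h x y : Option V) : Prop :=
  ∀ γ, N (γ + δ h) * N (γ - δ h + δ x + δ y) ≤ N (γ + δ x) * N (γ + δ y)

omit [Fintype V] in
theorem Rh1.symm {N : (V → ℤ) → ℝ} {h x y : Option V} (H : Rh1 N h x y) : Rh1 N h y x := by
  intro γ
  have := H γ
  rwa [add_right_comm, mul_comm (N (γ + δ x))] at this

omit [Fintype V] in
theorem step {N M : (V → ℤ) → ℝ} (hN : ∀ γ, 0 < N γ) (H : ∀ h x y, Rh1 N h x y) {ψ : ℤ → ℝ}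
    {lo hi : ℤ} (hle : lo ≤ hi) (hpos : ∀ k, lo ≤ k → k ≤ hi → 0 < ψ k)
    (hzero : ∀ k, k < lo ∨ hi < k → ψ k = 0)
    (hlc : ∀ i j, i + 1 ≤ j → ψ i * ψ (j + 1) ≤ ψ (i + 1) * ψ j) (d y : Option V)
    (hM : ∀ γ, M γ = ∑ k ∈ Icc lo hi, ψ k * N (γ + k • (δ d - δ y))) (h x : Option V) :
    Rh1 M h x y := by
  intro γ
  set A : ℤ → ℝ := fun k => N (γ + δ h + k • (δ d - δ y)) with hA
  set B : ℤ → ℝ := fun k => N (γ - δ h + δ x + δ y + k • (δ d - δ y)) with hB
  set C : ℤ → ℝ := fun k => N (γ + δ x + k • (δ d - δ y)) with hC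
  set D : ℤ → ℝ := fun k => N (γ + δ y + k • (δ d - δ y)) with hD
  have hψ : ∀ k, 0 ≤ ψ k := fun k => by
    by_cases hk : k < lo ∨ hi < k
    · exact (hzero k hk).ge
    · exact (hpos k (by omega) (by omega)).le
  have hAp : ∀ k, 0 < A k := fun k => hN _
  have hDp : ∀ k, 0 < D k := fun k => hN _
  have e1 : ∀ k, A k * B k ≤ C k * D k := fun k => by
    have := H h x y (γ + k • (δ d - δ y))
    simp only [hA, hB, hC, hD]
    convert this using 3 <;> abel
  have e2 : ∀ k, A k * B (k + 1) ≤ C k * D (k + 1) := fun k => by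
    have := H h x d (γ + k • (δ d - δ y))
    simp only [hA, hB, hC, hD, add_smul, one_smul]
    convert this using 3 <;> abel
  have e3 : ∀ k, A (k + 1) * D k ≤ A k * D (k + 1) := fun k => by
    have := H y d h (γ + k • (δ d - δ y))
    simp only [hA, hD, add_smul, one_smul]
    rw [mul_comm, mul_comm (N (γ + δ h + k • (δ d - δ y)))]
    convert this using 3 <;> abel
  have e4 : ∀ k, D (k + 1 + 1) * A k ≤ D (k + 1) * A (k + 1) := fun k => by
    have := H d y h (γ + (k + 1) • (δ d - δ y))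
    simp only [hA, hD, add_smul, one_smul] at this ⊢
    convert this using 3 <;> abel
  have hsum : ∀ F : ℤ → ℝ, (∀ k, 0 < F k) → 0 < ∑ k ∈ Icc lo hi, ψ k * F k := fun F hF =>
    sum_pos (fun k hk => mul_pos (hpos k (mem_Icc.1 hk).1 (mem_Icc.1 hk).2) (hF k))
      ⟨lo, mem_Icc.2 ⟨le_rfl, hle⟩⟩
  rw [hM, hM, hM, hM]
  change (∑ k ∈ Icc lo hi, ψ k * A k) * (∑ k ∈ Icc lo hi, ψ k * B k) ≤
    (∑ k ∈ Icc lo hi, ψ k * C k) * (∑ k ∈ Icc lo hi, ψ k * D k)
  set ZA := ∑ k ∈ Icc lo hi, ψ k * A k with hZA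
  set ZD := ∑ k ∈ Icc lo hi, ψ k * D k with hZD
  have hZAp : 0 < ZA := hsum A hAp
  have hZDp : 0 < ZD := hsum D hDp
  obtain ⟨s, m, hs, hm, hp, hq⟩ := exists_coupling (lo := lo) (hi := hi)
    (p := fun k => ψ k * A k / ZA) (q := fun k => ψ k * D k / ZD)
    (fun k => div_nonneg (mul_nonneg (hψ k) (hAp k).le) hZAp.le)
    (fun k => div_nonneg (mul_nonneg (hψ k) (hDp k).le) hZDp.le)
    (fun k hk => by simp [hzero k hk]) (fun k hk => by simp [hzero k hk])
    (by rw [← sum_div, div_self hZAp.ne']) (by rw [← sum_div, div_self hZDp.ne'])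
    (fun i j hij => by
      rw [div_mul_div_comm, div_mul_div_comm]
      refine div_le_div_of_nonneg_right ?_ (mul_pos hZAp hZDp).le
      have := mul_le_mul_of_nonneg_left (chain hDp e3 hij) (mul_nonneg (hψ i) (hψ j))
      linarith)
    (fun i j hij => by
      rw [div_mul_div_comm, div_mul_div_comm]
      refine div_le_div_of_nonneg_right ?_ (mul_pos hZAp hZDp).le
      have h1 := chain (u := fun k => D (k + 1)) hAp e4 hij
      have h2 : ψ i * ψ (j + 1) ≤ ψ (i + 1) * ψ j := by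
        rcases hij.eq_or_lt with rfl | hlt
        · rw [mul_comm]
        · exact hlc i j hlt
      have := mul_le_mul h2 h1 (mul_pos (hDp _) (hAp _)).le (mul_nonneg (hψ _) (hψ _))
      linarith)
  have hm1 : m (lo - 1) = 0 := by
    have := hp (lo - 1)
    rw [hzero _ (Or.inl (by omega))] at this
    have h1 := hs (lo - 1)
    have h2 := hm (lo - 1)
    simp only [zero_mul, zero_div] at this
    linarith
  have k1 : (∑ k ∈ Icc lo hi, ψ k * B k) / ZD =
      ∑ k ∈ Icc lo hi, s k * (B k / D k) + ∑ k ∈ Icc lo hi, m (k - 1) * (B k / D k) := by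
    rw [sum_div, ← sum_add_distrib]
    refine sum_congr rfl fun k _ => ?_
    rw [← add_mul, ← hq k]
    have := (hDp k).ne'
    field_simp
  have k2 : ∑ k ∈ Icc lo hi, m (k - 1) * (B k / D k) ≤
      ∑ k ∈ Icc lo hi, m k * (B (k + 1) / D (k + 1)) := by
    have h1 : ∑ k ∈ Icc lo hi, m k * (B (k + 1) / D (k + 1)) =
        ∑ k ∈ Icc (lo + 1) (hi + 1), m (k - 1) * (B k / D k) := by
      rw [← map_add_right_Icc, sum_map]
      simp
    have h2 : ∑ k ∈ Icc lo hi, m (k - 1) * (B k / D k) =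
        ∑ k ∈ Icc (lo + 1) hi, m (k - 1) * (B k / D k) := by
      symm
      refine sum_subset (Icc_subset_Icc (by omega) le_rfl) fun k hk hk' => ?_
      have : k = lo := by simp only [mem_Icc] at hk hk'; omega
      rw [this, hm1, zero_mul]
    rw [h1, h2]
    exact sum_le_sum_of_subset_of_nonneg (Icc_subset_Icc le_rfl (by omega)) fun k _ _ =>
      mul_nonneg (hm _) (div_nonneg (hN _).le (hN _).le)
  have k3 : (∑ k ∈ Icc lo hi, ψ k * C k) / ZA = ∑ k ∈ Icc lo hi, (s k + m k) * (C k / A k) := by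
    rw [sum_div]
    refine sum_congr rfl fun k _ => ?_
    rw [← hp k]
    have := (hAp k).ne'
    field_simp
  have k4 : (∑ k ∈ Icc lo hi, ψ k * B k) / ZD ≤ (∑ k ∈ Icc lo hi, ψ k * C k) / ZA := by
    rw [k1, k3]
    refine (add_le_add le_rfl k2).trans ?_
    rw [← sum_add_distrib]
    refine sum_le_sum fun k _ => ?_
    rw [add_mul]
    refine add_le_add (mul_le_mul_of_nonneg_left ?_ (hs k)) (mul_le_mul_of_nonneg_left ?_ (hm k))
    · rw [div_le_div_iff₀ (hDp _) (hAp _)]; linarith [e1 k]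
    · rw [div_le_div_iff₀ (hDp _) (hAp _)]; linarith [e2 k]
  rw [div_le_div_iff₀ hZDp hZAp] at k4
  linarith

/-- the regularised partition function -/
noncomputable def Ze (ε : ℝ) (G : Net V E) (W : Wt E) (γ : V → ℤ) : ℝ :=
  ∑ x ∈ W.box, W.Φ x * ∏ v, ε ^ (γ v - G.dv x v).natAbs

theorem box_nonempty (W : Wt E) : W.lo ∈ W.box := (W.mem_box _).2 fun e => ⟨le_rfl, W.le e⟩

theorem Ze_pos {ε : ℝ} (hε : 0 < ε) (G : Net V E) (W : Wt E) (γ : V → ℤ) : 0 < Ze ε G W γ :=
  sum_pos (fun _ hx => mul_pos (W.Φ_pos hx) (prod_pos fun _ _ => pow_pos hε _))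
    ⟨_, box_nonempty W⟩

theorem continuous_Ze (G : Net V E) (W : Wt E) (γ : V → ℤ) : Continuous fun ε => Ze ε G W γ := by
  unfold Ze; fun_prop

theorem Ze_zero (G : Net V E) (W : Wt E) (γ : V → ℤ) : Ze 0 G W γ = Z G W γ := by
  unfold Ze Z fib
  rw [sum_filter]
  refine sum_congr rfl fun x _ => ?_
  split_ifs with h
  · simp [h]
  · obtain ⟨v, hv⟩ := Function.ne_iff.1 h
    rw [prod_eq_zero (mem_univ v), mul_zero]
    exact zero_pow (by omega)

theorem mem_box_pin (W : Wt E) (e : E) (k : ℤ) (x : E → ℤ) :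
    x ∈ (W.pin e k).box ↔ x e = k ∧ ∀ f, f ≠ e → W.lo f ≤ x f ∧ x f ≤ W.hi f := by
  rw [Wt.mem_box]
  constructor
  · intro h
    refine ⟨?_, fun f hf => ?_⟩
    · have := h e
      simp only [Wt.pin, Function.update_self] at this
      omega
    · simpa only [Wt.pin, Function.update_of_ne hf] using h f
  · rintro ⟨h1, h2⟩ f
    by_cases hf : f = e
    · subst hf; simp [Wt.pin, h1]
    · simpa only [Wt.pin, Function.update_of_ne hf] using h2 f hf

theorem Ze_pin_sum (ε : ℝ) (G : Net V E) (W : Wt E) (γ : V → ℤ) (e : E) :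
    Ze ε G W γ = ∑ k ∈ Icc (W.lo e) (W.hi e), W.φ e k * Ze ε G (W.pin e k) γ := by
  unfold Ze
  rw [← sum_fiberwise_of_maps_to (t := Icc (W.lo e) (W.hi e)) (g := fun x => x e)
    fun x hx => mem_Icc.2 ((W.mem_box x).1 hx e)]
  refine sum_congr rfl fun k hk => ?_
  rw [mul_sum]
  refine sum_congr ?_ fun x hx => ?_
  · ext x
    rw [mem_filter, mem_box_pin, Wt.mem_box]
    refine ⟨fun h => ⟨h.2, fun f _ => h.1 f⟩, fun h => ⟨fun f => ?_, h.1⟩⟩
    by_cases hf : f = e
    · subst hf; rw [h.1]; exact mem_Icc.1 hk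
    · exact h.2 f hf
  · rw [Φ_pin W e x, ((mem_box_pin W e k x).1 hx).1, mul_assoc]

theorem Ze_pin_shift (ε : ℝ) (G : Net V E) (W : Wt E) (γ : V → ℤ) (e : E) (k : ℤ) :
    Ze ε G (W.pin e k) γ = Ze ε G (W.pin e 0) (γ - k • G.bd e) := by
  unfold Ze
  symm
  refine sum_nbij' (fun x => x + k • ue e) (fun x => x - k • ue e) (fun x hx => ?_)
    (fun x hx => ?_) (fun x _ => by simp) (fun x _ => by simp) fun x hx => ?_
  · rw [mem_box_pin] at hx ⊢
    refine ⟨by simp [ue, hx.1], fun f hf => ?_⟩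
    simpa [ue, Pi.single_eq_of_ne hf] using hx.2 f hf
  · rw [mem_box_pin] at hx ⊢
    refine ⟨by simp [ue, hx.1], fun f hf => ?_⟩
    simpa [ue, Pi.single_eq_of_ne hf] using hx.2 f hf
  · rw [mem_box_pin] at hx
    congr 1
    · refine prod_congr rfl fun f _ => ?_
      by_cases hf : f = e
      · subst hf; simp [Wt.pin, ue, hx.1]
      · simp [Wt.pin, ue, Function.update_of_ne hf, Pi.single_eq_of_ne hf]
    · refine prod_congr rfl fun v _ => ?_
      rw [dv_add, dv_smul, dv_ue]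
      congr 2
      simp only [Pi.sub_apply, Pi.add_apply]; ring

/-- factorisation at a vertex all of whose edges are pinned -/
theorem Ze_dead (ε : ℝ) (G : Net V E) (W : Wt E) {a : V}
    (h : ∀ e, G.tl e = a ∨ G.hd e = a → W.lo e = W.hi e) (γ : V → ℤ) :
    Ze ε G W (γ + dl a) * ε ^ (γ a - G.dv W.lo a).natAbs =
      Ze ε G W γ * ε ^ (γ a + 1 - G.dv W.lo a).natAbs := by
  unfold Ze
  rw [sum_mul, sum_mul]
  refine sum_congr rfl fun x hx => ?_
  rw [← mul_prod_erase _ _ (mem_univ a), ← mul_prod_erase _ _ (mem_univ a),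
    dv_const_of_pinned G W h hx (box_nonempty W)]
  have h1 : ∏ v ∈ univ.erase a, ε ^ ((γ + dl a) v - G.dv x v).natAbs =
      ∏ v ∈ univ.erase a, ε ^ (γ v - G.dv x v).natAbs :=
    prod_congr rfl fun v hv => by simp [dl, Pi.single_eq_of_ne (mem_erase.1 hv).1]
  rw [h1]
  simp only [dl, Pi.add_apply, Pi.single_eq_same]
  ring

theorem pow_lc {ε : ℝ} (hε : 0 < ε) (h1 : ε ≤ 1) {m n : ℤ} (h : m ≤ n) :
    ε ^ (n + 1).natAbs * ε ^ m.natAbs ≤ ε ^ (m + 1).natAbs * ε ^ n.natAbs := by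
  rw [← pow_add, ← pow_add]
  exact pow_le_pow_of_le_one hε.le h1 (by omega)

/-- monotonicity of the ratio at a dead vertex -/
theorem Ze_ratio {ε : ℝ} (hε : 0 < ε) (h1 : ε ≤ 1) (G : Net V E) (W : Wt E) {a : V}
    (h : ∀ e, G.tl e = a ∨ G.hd e = a → W.lo e = W.hi e) {γ γ' : V → ℤ} (hγ : γ a ≤ γ' a) :
    Ze ε G W (γ' + dl a) * Ze ε G W γ ≤ Ze ε G W (γ + dl a) * Ze ε G W γ' := by
  have e1 := Ze_dead ε G W h γ
  have e2 := Ze_dead ε G W h γ'
  have e3 := pow_lc hε h1 (m := γ a - G.dv W.lo a) (n := γ' a - G.dv W.lo a) (by omega)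
  rw [show γ' a - G.dv W.lo a + 1 = γ' a + 1 - G.dv W.lo a by ring,
    show γ a - G.dv W.lo a + 1 = γ a + 1 - G.dv W.lo a by ring] at e3
  have p1 := pow_pos hε (γ a - G.dv W.lo a).natAbs
  have p2 := pow_pos hε (γ' a - G.dv W.lo a).natAbs
  refine le_of_mul_le_mul_right ?_ (mul_pos p1 p2)
  have := mul_le_mul_of_nonneg_left e3 (mul_pos (Ze_pos hε G W γ) (Ze_pos hε G W γ')).le
  calc _ = (Ze ε G W (γ' + dl a) * ε ^ (γ' a - G.dv W.lo a).natAbs) * Ze ε G W γ *
        ε ^ (γ a - G.dv W.lo a).natAbs := by ring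
    _ ≤ (Ze ε G W (γ + dl a) * ε ^ (γ a - G.dv W.lo a).natAbs) * Ze ε G W γ' *
        ε ^ (γ' a - G.dv W.lo a).natAbs := by rw [e1, e2]; linarith
    _ = _ := by ring

theorem Ze_rh {ε : ℝ} (hε : 0 < ε) (h1 : ε ≤ 1) (G : Net V E) (W : Wt E) :
    ∀ h x y, Rh1 (Ze ε G W) h x y := by
  induction hn : W.free using Nat.strong_induction_on generalizing W with
  | _ n ih =>
  have hstep : ∀ a e, (G.tl e = a ∨ G.hd e = a) → W.lo e < W.hi e →
      ∀ h x, Rh1 (Ze ε G W) h x (some a) := by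
    intro a e hea hlt h x
    have IH := ih _ (hn ▸ free_pin_lt W hlt 0) (W.pin e 0) rfl
    rcases hea with rfl | rfl
    · refine step (Ze_pos hε G _) IH (ψ := fun k => W.φ e (-k)) (lo := -W.hi e) (hi := -W.lo e)
        (by omega) (fun k h1 h2 => W.pos e _ (by omega) (by omega))
        (fun k hk => W.zero e _ (by omega)) (fun i j hij => ?_) (some (G.hd e)) _ (fun γ => ?_) h x
      · have := W.φ_lc e (i := -(j + 1)) (j := -j) (k := -(i + 1)) (l := -i) (by omega) (by omega)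
          (by omega) (by omega)
        linarith
      · rw [Ze_pin_sum ε G W γ e]
        refine sum_nbij' (fun k => -k) (fun k => -k) (fun k hk => ?_) (fun k hk => ?_)
          (fun k _ => neg_neg k) (fun k _ => neg_neg k) fun k _ => ?_
        · simp only [mem_Icc] at hk ⊢; omega
        · simp only [mem_Icc] at hk ⊢; omega
        · rw [neg_neg, Ze_pin_shift, neg_smul, ← sub_eq_add_neg]; rfl
    · refine step (Ze_pos hε G _) IH (ψ := W.φ e) (W.le e) (W.pos e) (W.zero e)
        (fun i j hij => W.φ_lc e (by omega) hij (by omega) (by omega)) (some (G.tl e)) _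
        (fun γ => ?_) h x
      rw [Ze_pin_sum ε G W γ e]
      refine sum_congr rfl fun k _ => ?_
      rw [Ze_pin_shift, sub_eq_add_neg, ← smul_neg, Net.bd, neg_sub]; rfl
  have halive : ∀ a, (∀ h x, Rh1 (Ze ε G W) h x (some a)) ∨
      ∀ e, G.tl e = a ∨ G.hd e = a → W.lo e = W.hi e := by
    intro a
    by_cases ha : ∀ e, G.tl e = a ∨ G.hd e = a → W.lo e = W.hi e
    · exact Or.inr ha
    · push Not at ha
      obtain ⟨e, he, hne⟩ := ha
      exact Or.inl (hstep a e he (lt_of_le_of_ne (W.le e) hne))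
  have htriv : ∀ h x, Rh1 (Ze ε G W) h x h := fun h x γ => by
    rw [show γ - δ h + δ x + δ h = γ + δ x by abel, mul_comm]
  have hred : ∀ h x y, Rh1 (Ze ε G W) h x none → Rh1 (Ze ε G W) h x y := by
    intro h x y H
    obtain _ | a := y
    · exact H
    by_cases hh : h = some a
    · rw [hh]; exact htriv _ _
    rcases halive a with ha | ha
    · exact ha h x
    intro γ
    have e1 := H γ
    have e2 := Ze_ratio hε h1 G W ha (γ := γ) (γ' := γ - δ h + δ x) (by
      have f1 : δ h a = 0 := by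
        obtain _ | b := h
        · rfl
        · exact Pi.single_eq_of_ne (fun hb => hh (by rw [hb])) _
      have f2 : 0 ≤ δ x a := by
        obtain _ | b := x
        · exact le_rfl
        · simp only [δ, dl, Pi.single_apply]; split_ifs <;> omega
      simp only [Pi.add_apply, Pi.sub_apply]; omega)
    simp only [δ, add_zero] at e1 e2 ⊢
    refine le_of_mul_le_mul_right ?_ (Ze_pos hε G W γ)
    have p1 := Ze_pos hε G W (γ + δ h)
    have p2 := Ze_pos hε G W (γ + dl a)
    simp only [δ] at p1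
    nlinarith [mul_le_mul_of_nonneg_left e2 p1.le, mul_le_mul_of_nonneg_left e1 p2.le]
  have hbase : ∀ h, Rh1 (Ze ε G W) h none none := by
    rintro (_ | a) γ
    · exact htriv _ _ γ
    simp only [δ, add_zero]
    rcases halive a with ha | ha
    · have := ha none (some a) (γ - dl a)
      simp only [δ, add_zero, sub_zero, sub_add_cancel] at this
      linarith
    · have := Ze_ratio hε h1 G W ha (γ := γ - dl a) (γ' := γ) (by simp [dl])
      rwa [sub_add_cancel] at this
  exact fun h x y => hred h x y (hred h none x (hbase h)).symm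

theorem le_of_Ze (G : Net V E) (W : Wt E) {a b c d : V → ℤ}
    (h : ∀ ε : ℝ, 0 < ε → ε ≤ 1 → Ze ε G W a * Ze ε G W b ≤ Ze ε G W c * Ze ε G W d) :
    Z G W a * Z G W b ≤ Z G W c * Z G W d := by
  simp only [← Ze_zero]
  refine le_of_tendsto_of_tendsto (b := 𝓝[>] 0)
    (((continuous_Ze G W a).mul (continuous_Ze G W b)).continuousAt.continuousWithinAt)
    (((continuous_Ze G W c).mul (continuous_Ze G W d)).continuousAt.continuousWithinAt) ?_
  filter_upwards [Ioc_mem_nhdsGT (zero_lt_one' ℝ)] with ε hε using h ε hε.1 hε.2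

end Crest.Agent.R309.KAux
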