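import Crest.Agent.R309.FlowBasic
import Crest.Agent.R309.Couple
import Crest.Agent.R309.KAux

/-!
# Row 309: the three-terminal (rhombus) inequality for weighted flows
-/

set_option autoImplicit false

namespace Crest.Agent.R309

open Finset

variable {V E : Type} [Fintype V] [DecidableEq V] [Fintype E] [DecidableEq E]

namespace KAux

theorem qc {a : ℤ → ℝ} (h0 : ∀ k, 0 ≤ a k)
    (hlc : ∀ i j k l, i ≤ j → j ≤ k → k ≤ l → i + l = j + k → a i * a l ≤ a j * a k) {i j k : ℤ}
    (hij : i ≤ j) (hjk : j ≤ k) : min (a i) (a k) ≤ a j := by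
  by_cases h : a i ≤ a j
  · exact (min_le_left _ _).trans h
  obtain ⟨n, hn1, hn2⟩ : ∃ n, n < j ∧ a (n + 1) < a n := by
    by_contra hc
    push Not at hc
    have key : ∀ m, i ≤ m → m ≤ j → a i ≤ a m := by
      intro m hm
      induction m, hm using Int.leInduction with
      | base => exact fun _ => le_rfl
      | succ m _ ih => exact fun hm' => (ih (by omega)).trans (hc m (by omega))
    exact h (key j hij le_rfl)
  refine (min_le_right _ _).trans ?_
  induction k, hjk using Int.leInduction with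
  | base => exact le_rfl
  | succ k hk ih =>
    refine le_trans ?_ ih
    have h1 := hlc n (n + 1) k (k + 1) (by omega) (by omega) (by omega) (by omega)
    have h2 := mul_le_mul_of_nonneg_right hn2.le (h0 k)
    exact le_of_mul_le_mul_left (h1.trans h2) ((h0 _).trans_lt hn2)

theorem growth {g : ℤ → ℝ} (h0 : ∀ k, 0 ≤ g k)
    (hlc : ∀ i j k l, i ≤ j → j ≤ k → k ≤ l → i + l = j + k → g i * g l ≤ g j * g k) {v s D : ℤ}
    {j : ℕ} {γ₀ Γ : ℝ} (hD : 0 ≤ D) (hv : v + j * D ≤ s) (hγ : 0 < γ₀) (hlo : γ₀ ≤ g v)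
    (hhi : ∀ t, g t ≤ Γ) : g (s + D) ^ j * γ₀ ≤ g s ^ j * Γ := by
  have key : ∀ i : ℕ, g (s - i * D) * g (s + D) ^ i ≤ g s * g s ^ i := by
    intro i
    induction i with
    | zero => simp
    | succ i ih =>
      have hi : 0 ≤ (i : ℤ) * D := by positivity
      have h1 := hlc (s - (i + 1 : ℕ) * D) (s - i * D) s (s + D) (by push_cast; linarith)
        (by linarith) (by linarith) (by push_cast; ring)
      calc g (s - (i + 1 : ℕ) * D) * g (s + D) ^ (i + 1)
          = g (s - (i + 1 : ℕ) * D) * g (s + D) * g (s + D) ^ i := by ring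
        _ ≤ g (s - i * D) * g s * g (s + D) ^ i :=
          mul_le_mul_of_nonneg_right h1 (pow_nonneg (h0 _) _)
        _ = g (s - i * D) * g (s + D) ^ i * g s := by ring
        _ ≤ g s * g s ^ i * g s := mul_le_mul_of_nonneg_right ih (h0 _)
        _ = g s * g s ^ (i + 1) := by ring
  have hj : 0 ≤ (j : ℤ) * D := by positivity
  have h1 := qc h0 hlc (i := v) (j := s - j * D) (k := s) (by linarith) (by linarith)
  have h2 := key j
  have p1 := pow_nonneg (h0 (s + D)) j
  have p2 := pow_nonneg (h0 s) j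
  rcases min_le_iff.1 h1 with h3 | h3
  · calc g (s + D) ^ j * γ₀ ≤ g (s + D) ^ j * g (s - j * D) :=
          mul_le_mul_of_nonneg_left (hlo.trans h3) p1
      _ ≤ g s ^ j * g s := by linarith
      _ ≤ g s ^ j * Γ := mul_le_mul_of_nonneg_left (hhi s) p2
  · have h4 : g (s + D) ^ j ≤ g s ^ j := by
      rcases (h0 s).eq_or_lt with h5 | h5
      · have h6 := qc h0 hlc (i := v) (j := s) (k := s + D) (by linarith) (by linarith)
        rcases min_le_iff.1 h6 with h7 | h7
        · linarith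
        · exact pow_le_pow_left₀ (h0 _) h7 j
      · exact le_of_mul_le_mul_left ((mul_le_mul_of_nonneg_right h3 p1).trans h2) h5
    exact mul_le_mul h4 (hlo.trans (hhi v)) hγ.le p2

end KAux

open KAux
/-- The rhombus inequality. -/
theorem K_ineq (G : Net V E) (hG : G.NoLoop) (W : Wt E) (γ : V → ℤ) (h x y : V) :
    Z G W (γ + dl h) * Z G W (γ - dl h + dl x + dl y) ≤
      Z G W (γ + dl x) * Z G W (γ + dl y) := by
  have _ := hG
  exact le_of_Ze G W fun ε h0 h1 => Ze_rh h0 h1 G W (some h) (some x) (some y) γ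

/-- The ratio `Z (· + dl x) / Z (· + dl h)` decreases in the direction `dl y - dl h`. -/
theorem K_multi (G : Net V E) (hG : G.NoLoop) (W : Wt E) (γ : V → ℤ) (h x y : V) {j : ℤ}
    (hj : 0 ≤ j) :
    Z G W (γ + dl h) * Z G W (γ + j • (dl y - dl h) + dl x) ≤
      Z G W (γ + dl x) * Z G W (γ + j • (dl y - dl h) + dl h) := by
  have _ := hG
  refine le_of_Ze G W fun ε h0 h1 => ?_
  have := chain (u := fun k : ℤ => Ze ε G W (γ + k • (dl y - dl h) + dl x))
    (w := fun k : ℤ => Ze ε G W (γ + k • (dl y - dl h) + dl h)) (fun _ => Ze_pos h0 G W _)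
    (fun k => by
      have := Ze_rh h0 h1 G W (some h) (some x) (some y) (γ + k • (dl y - dl h))
      simp only [δ, add_smul, one_smul] at this ⊢
      rw [mul_comm]
      convert this using 3 <;> abel) hj
  simp only [zero_smul, add_zero] at this
  linarith

/-- Log-concavity along the directions `dl b - dl a`. -/
theorem Z_lc (G : Net V E) (hG : G.NoLoop) (W : Wt E) (γ : V → ℤ) (a b : V) {i j k l : ℤ}
    (hij : i ≤ j) (hjk : j ≤ k) (hkl : k ≤ l) (h : i + l = j + k) :
    Z G W (γ + i • (dl b - dl a)) * Z G W (γ + l • (dl b - dl a)) ≤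
      Z G W (γ + j • (dl b - dl a)) * Z G W (γ + k • (dl b - dl a)) := by
  have _ := hG
  have _ := hkl
  refine le_of_Ze G W fun ε h0 h1 => ?_
  refine lc_multi (a := fun k : ℤ => Ze ε G W (γ + k • (dl b - dl a))) (fun _ => Ze_pos h0 G W _)
    (fun k => ?_) hij hjk h
  have := Ze_rh h0 h1 G W (some a) (some b) (some b) (γ + k • (dl b - dl a) - dl a)
  simp only [δ, add_smul, one_smul, two_smul] at this ⊢
  rw [mul_comm]
  convert this using 3 <;> abel

/-- Log-concavity in the value of a pinned edge. -/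
theorem pin_lc (G : Net V E) (hG : G.NoLoop) (W : Wt E) (γ : V → ℤ) (e : E) {i j k l : ℤ}
    (hij : i ≤ j) (hjk : j ≤ k) (hkl : k ≤ l) (h : i + l = j + k) :
    Z G (W.pin e i) γ * Z G (W.pin e l) γ ≤ Z G (W.pin e j) γ * Z G (W.pin e k) γ := by
  have key : ∀ n : ℤ, Z G (W.pin e n) γ =
      Z G (W.pin e 0) (γ + n • (dl (G.tl e) - dl (G.hd e))) := fun n => by
    rw [← Z_pin_shift G W _ e 0 n, zero_add, Net.bd]
    congr 1
    simp only [smul_sub]; abel
  simp only [key]
  exact Z_lc G hG _ γ _ _ hij hjk hkl h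

/-- Quasi-concavity in the value of a pinned edge. -/
theorem pin_qc (G : Net V E) (hG : G.NoLoop) (W : Wt E) (γ : V → ℤ) (e : E) {i j k : ℤ}
    (hij : i ≤ j) (hjk : j ≤ k) :
    min (Z G (W.pin e i) γ) (Z G (W.pin e k) γ) ≤ Z G (W.pin e j) γ := by
  exact qc (a := fun k => Z G (W.pin e k) γ) (fun _ => Z_nonneg _ _ _)
    (fun _ _ _ _ => pin_lc G hG W γ e) hij hjk

/-- The marginal law of an edge is unimodal. -/
theorem marg_qc (G : Net V E) (hG : G.NoLoop) (W : Wt E) (γ : V → ℤ) (e : E) {i j k : ℤ}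
    (hij : i ≤ j) (hjk : j ≤ k) :
    min (W.φ e i * Z G (W.pin e i) γ) (W.φ e k * Z G (W.pin e k) γ) ≤
      W.φ e j * Z G (W.pin e j) γ := by
  refine qc (a := fun k => W.φ e k * Z G (W.pin e k) γ)
    (fun _ => mul_nonneg (W.φ_nonneg _ _) (Z_nonneg _ _ _)) (fun i j k l h1 h2 h3 h4 => ?_) hij hjk
  have := mul_le_mul (W.φ_lc e h1 h2 h3 h4) (pin_lc G hG W γ e h1 h2 h3 h4)
    (mul_nonneg (Z_nonneg _ _ _) (Z_nonneg _ _ _)) (mul_nonneg (W.φ_nonneg _ _) (W.φ_nonneg _ _))
  linarith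

/-- Growth bound: if the pinned partition function is at least `γ₀` at `v` and at most `Γ`
everywhere, its ratio over a step `D` far to the right of `v` is small. -/
theorem pin_growth (G : Net V E) (hG : G.NoLoop) (W : Wt E) (γ : V → ℤ) (e : E) {v s D : ℤ}
    {j : ℕ} {γ₀ Γ : ℝ} (hD : 0 ≤ D) (hv : v + j * D ≤ s) (h0 : 0 < γ₀)
    (hlo : γ₀ ≤ Z G (W.pin e v) γ) (hhi : ∀ t, Z G (W.pin e t) γ ≤ Γ) :
    Z G (W.pin e (s + D)) γ ^ j * γ₀ ≤ Z G (W.pin e s) γ ^ j * Γ := by
  exact growth (g := fun k => Z G (W.pin e k) γ) (fun _ => Z_nonneg _ _ _)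
    (fun _ _ _ _ => pin_lc G hG W γ e) hD hv h0 hlo hhi

/-- Mirror image of `pin_growth`. -/
theorem pin_growth' (G : Net V E) (hG : G.NoLoop) (W : Wt E) (γ : V → ℤ) (e : E) {v s D : ℤ}
    {j : ℕ} {γ₀ Γ : ℝ} (hD : 0 ≤ D) (hv : s ≤ v - j * D) (h0 : 0 < γ₀)
    (hlo : γ₀ ≤ Z G (W.pin e v) γ) (hhi : ∀ t, Z G (W.pin e t) γ ≤ Γ) :
    Z G (W.pin e (s - D)) γ ^ j * γ₀ ≤ Z G (W.pin e s) γ ^ j * Γ := by
  have := growth (g := fun k => Z G (W.pin e (-k)) γ) (fun _ => Z_nonneg _ _ _)
    (fun i j k l h1 h2 h3 h4 => by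
      have := pin_lc G hG W γ e (i := -l) (j := -k) (k := -j) (l := -i) (by omega) (by omega)
        (by omega) (by omega)
      linarith) (v := -v) (s := -s) (j := j) hD (by linarith) h0 (by simpa using hlo)
    (fun t => hhi _)
  simpa only [neg_add, neg_neg, ← sub_eq_add_neg] using this

end Crest.Agent.R309
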