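import Crest.Agent.R309.Tape

/-!
# Row 309: the ideal lazy Metropolis operator

`Pop w prop B` is the ideal lazy Metropolis operator for the weight `w` and the symmetric additive
proposal `prop`.  It is reversible for `w`, order preserving on the support of `w`, and decreases
the weighted square norm by a quarter of the Dirichlet form.
-/

set_option autoImplicit false
set_option linter.unusedSectionVars false

namespace Crest.Agent.R309

open Finset

variable {X : Type} [AddCommGroup X] [DecidableEq X]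

/-- The symmetric conductance between two points. -/
noncomputable def cnd (w : X → ℚ) (x y : X) : ℝ := min (w x : ℝ) (w y : ℝ)

/-- The acceptance probability of the move `x → y`. -/
noncomputable def acc (w : X → ℚ) (x y : X) : ℝ := cnd w x y / (w x : ℝ)

/-- The generator of the ideal Metropolis chain. -/
noncomputable def Dop (w : X → ℚ) (prop : List Bool → X) (B : ℕ) (F : X → ℝ) (x : X) : ℝ :=
  Ex B fun u => acc w x (x + prop u) * (F (x + prop u) - F x)

/-- The ideal lazy Metropolis operator. -/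
noncomputable def Pop (w : X → ℚ) (prop : List Bool → X) (B : ℕ) (F : X → ℝ) (x : X) : ℝ :=
  F x + Dop w prop B F x / 2

section basic
variable {w : X → ℚ} {Ω : Finset X}

theorem wt_nonneg (hpos : ∀ x ∈ Ω, 0 < w x) (hzero : ∀ x ∉ Ω, w x = 0) (x : X) :
    (0 : ℝ) ≤ w x := by
  by_cases hx : x ∈ Ω
  · exact_mod_cast (hpos x hx).le
  · simp [hzero x hx]

theorem cnd_comm (x y : X) : cnd w x y = cnd w y x := min_comm _ _

theorem cnd_nonneg (hpos : ∀ x ∈ Ω, 0 < w x) (hzero : ∀ x ∉ Ω, w x = 0) (x y : X) :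
    0 ≤ cnd w x y := le_min (wt_nonneg hpos hzero x) (wt_nonneg hpos hzero y)

theorem cnd_eq_zero_left (hpos : ∀ x ∈ Ω, 0 < w x) (hzero : ∀ x ∉ Ω, w x = 0) {x : X}
    (hx : x ∉ Ω) (y : X) : cnd w x y = 0 := by
  unfold cnd
  rw [hzero x hx, Rat.cast_zero]
  exact min_eq_left (wt_nonneg hpos hzero y)

theorem cnd_eq_zero_right (hpos : ∀ x ∈ Ω, 0 < w x) (hzero : ∀ x ∉ Ω, w x = 0) (x : X) {y : X}
    (hy : y ∉ Ω) : cnd w x y = 0 := by
  rw [cnd_comm]; exact cnd_eq_zero_left hpos hzero hy x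

theorem acc_nonneg (hpos : ∀ x ∈ Ω, 0 < w x) (hzero : ∀ x ∉ Ω, w x = 0) (x y : X) :
    0 ≤ acc w x y := div_nonneg (cnd_nonneg hpos hzero x y) (wt_nonneg hpos hzero x)

theorem acc_le_one (hpos : ∀ x ∈ Ω, 0 < w x) (hzero : ∀ x ∉ Ω, w x = 0) (x y : X) :
    acc w x y ≤ 1 :=
  div_le_one_of_le₀ (min_le_left _ _) (wt_nonneg hpos hzero x)

theorem acc_eq_zero (hpos : ∀ x ∈ Ω, 0 < w x) (hzero : ∀ x ∉ Ω, w x = 0) (x : X) {y : X}
    (hy : y ∉ Ω) : acc w x y = 0 := by
  simp [acc, cnd_eq_zero_right hpos hzero x hy]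

theorem wt_mul_acc (hpos : ∀ x ∈ Ω, 0 < w x) {x : X} (hx : x ∈ Ω) (y : X) :
    (w x : ℝ) * acc w x y = cnd w x y := by
  have : (w x : ℝ) ≠ 0 := by exact_mod_cast (hpos x hx).ne'
  unfold acc; field_simp

/-- Reindexing a sum over pairs `(x, x + v)`. -/
theorem sum_cnd_shift (hpos : ∀ x ∈ Ω, 0 < w x) (hzero : ∀ x ∉ Ω, w x = 0) (H : X → X → ℝ)
    (v : X) :
    ∑ x ∈ Ω, cnd w x (x + -v) * H x (x + -v) = ∑ x ∈ Ω, cnd w x (x + v) * H (x + v) x := by
  have h1 : ∑ x ∈ Ω, cnd w x (x + -v) * H x (x + -v) =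
      ∑ᶠ x, cnd w x (x + -v) * H x (x + -v) := by
    refine (finsum_eq_sum_of_support_subset _ ?_).symm
    intro x hx
    by_contra h
    exact hx (by simp [cnd_eq_zero_left hpos hzero (x := x) (by simpa using h)])
  have h2 : ∑ x ∈ Ω, cnd w x (x + v) * H (x + v) x = ∑ᶠ x, cnd w x (x + v) * H (x + v) x := by
    refine (finsum_eq_sum_of_support_subset _ ?_).symm
    intro x hx
    by_contra h
    exact hx (by simp [cnd_eq_zero_left hpos hzero (x := x) (by simpa using h)])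
  rw [h1, h2, ← finsum_comp_equiv (Equiv.addRight v)]
  refine finsum_congr fun x => ?_
  simp [cnd_comm (x + v) x]

/-- The symmetry behind reversibility. -/
theorem sum_Ex_symm (hpos : ∀ x ∈ Ω, 0 < w x) (hzero : ∀ x ∉ Ω, w x = 0)
    {prop : List Bool → X} {B : ℕ}
    (hsym : ∀ H : X → ℝ, Ex B (fun u => H (prop u)) = Ex B fun u => H (-prop u))
    (H : X → X → ℝ) :
    ∑ x ∈ Ω, Ex B (fun u => cnd w x (x + prop u) * H x (x + prop u)) =
      ∑ x ∈ Ω, Ex B (fun u => cnd w x (x + prop u) * H (x + prop u) x) := by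
  rw [← Ex_sum, ← Ex_sum, hsym fun v => ∑ x ∈ Ω, cnd w x (x + v) * H x (x + v)]
  exact Ex_congr fun u _ => sum_cnd_shift hpos hzero H (prop u)

theorem wt_mul_Dop (hpos : ∀ x ∈ Ω, 0 < w x) (prop : List Bool → X) (B : ℕ) (F G : X → ℝ)
    {x : X} (hx : x ∈ Ω) :
    (w x : ℝ) * F x * Dop w prop B G x =
      Ex B fun u => cnd w x (x + prop u) * (F x * (G (x + prop u) - G x)) := by
  unfold Dop
  rw [← Ex_mul_left]
  refine Ex_congr fun u _ => ?_
  rw [← wt_mul_acc hpos hx]; ring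

/-- Reversibility of the generator. -/
theorem Dop_rev (hpos : ∀ x ∈ Ω, 0 < w x) (hzero : ∀ x ∉ Ω, w x = 0)
    {prop : List Bool → X} {B : ℕ}
    (hsym : ∀ H : X → ℝ, Ex B (fun u => H (prop u)) = Ex B fun u => H (-prop u))
    (F G : X → ℝ) :
    ∑ x ∈ Ω, (w x : ℝ) * F x * Dop w prop B G x = ∑ x ∈ Ω, (w x : ℝ) * G x * Dop w prop B F x := by
  rw [sum_congr rfl fun x hx => wt_mul_Dop hpos prop B F G hx,
    sum_congr rfl fun x hx => wt_mul_Dop hpos prop B G F hx]
  have h := sum_Ex_symm hpos hzero hsym fun x y => F x * G y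
  have e1 : ∀ x, Ex B (fun u => cnd w x (x + prop u) * (F x * (G (x + prop u) - G x))) =
      Ex B (fun u => cnd w x (x + prop u) * (F x * G (x + prop u))) -
        Ex B (fun u => cnd w x (x + prop u) * (F x * G x)) := by
    intro x; rw [← Ex_sub]; exact Ex_congr fun u _ => by ring
  have e2 : ∀ x, Ex B (fun u => cnd w x (x + prop u) * (G x * (F (x + prop u) - F x))) =
      Ex B (fun u => cnd w x (x + prop u) * (F (x + prop u) * G x)) -
        Ex B (fun u => cnd w x (x + prop u) * (F x * G x)) := by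
    intro x; rw [← Ex_sub]; exact Ex_congr fun u _ => by ring
  simp only [e1, e2, sum_sub_distrib]
  rw [h]

/-- Reversibility of the lazy operator. -/
theorem Pop_rev (hpos : ∀ x ∈ Ω, 0 < w x) (hzero : ∀ x ∉ Ω, w x = 0)
    {prop : List Bool → X} {B : ℕ}
    (hsym : ∀ H : X → ℝ, Ex B (fun u => H (prop u)) = Ex B fun u => H (-prop u))
    (F G : X → ℝ) :
    ∑ x ∈ Ω, (w x : ℝ) * F x * Pop w prop B G x = ∑ x ∈ Ω, (w x : ℝ) * Pop w prop B F x * G x := by
  have h := Dop_rev hpos hzero hsym F G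
  have e1 : ∑ x ∈ Ω, (w x : ℝ) * F x * Pop w prop B G x =
      ∑ x ∈ Ω, (w x : ℝ) * F x * G x + (∑ x ∈ Ω, (w x : ℝ) * F x * Dop w prop B G x) / 2 := by
    rw [sum_div, ← sum_add_distrib]
    exact sum_congr rfl fun x _ => by unfold Pop; ring
  have e2 : ∑ x ∈ Ω, (w x : ℝ) * Pop w prop B F x * G x =
      ∑ x ∈ Ω, (w x : ℝ) * F x * G x + (∑ x ∈ Ω, (w x : ℝ) * G x * Dop w prop B F x) / 2 := by
    rw [sum_div, ← sum_add_distrib]
    exact sum_congr rfl fun x _ => by unfold Pop; ring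
  rw [e1, e2, h]

theorem Pop_iter_rev (hpos : ∀ x ∈ Ω, 0 < w x) (hzero : ∀ x ∉ Ω, w x = 0)
    {prop : List Bool → X} {B : ℕ}
    (hsym : ∀ H : X → ℝ, Ex B (fun u => H (prop u)) = Ex B fun u => H (-prop u))
    (t : ℕ) (F G : X → ℝ) :
    ∑ x ∈ Ω, (w x : ℝ) * F x * (Pop w prop B)^[t] G x =
      ∑ x ∈ Ω, (w x : ℝ) * (Pop w prop B)^[t] F x * G x := by
  induction t generalizing F G with
  | zero => simp
  | succ t ih =>
    rw [Function.iterate_succ_apply', Pop_rev hpos hzero hsym, ih, Function.iterate_succ_apply]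

theorem Pop_sub_const (prop : List Bool → X) (B : ℕ) (F : X → ℝ) (c : ℝ) (x : X) :
    Pop w prop B (fun y => F y - c) x = Pop w prop B F x - c := by
  unfold Pop Dop
  simp only [sub_sub_sub_cancel_right]
  ring

theorem Pop_const (prop : List Bool → X) (B : ℕ) (c : ℝ) :
    Pop w prop B (fun _ => c) = fun _ => c := by
  funext x
  unfold Pop Dop
  simp

/-- The lazy operator is order preserving on `Ω`, up to an additive constant. -/
theorem Pop_le_add (hpos : ∀ x ∈ Ω, 0 < w x) (hzero : ∀ x ∉ Ω, w x = 0)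
    (prop : List Bool → X) (B : ℕ) {F G : X → ℝ} {c : ℝ} (h : ∀ x ∈ Ω, F x ≤ G x + c) {x : X}
    (hx : x ∈ Ω) : Pop w prop B F x ≤ Pop w prop B G x + c := by
  have key : Dop w prop B F x - Dop w prop B G x ≤ 2 * (G x + c - F x) := by
    unfold Dop
    rw [← Ex_sub, ← Ex_const B (2 * (G x + c - F x))]
    refine Ex_mono fun u _ => ?_
    have h0 := acc_nonneg hpos hzero x (x + prop u)
    have h1 := acc_le_one hpos hzero x (x + prop u)
    have hx' := h x hx
    by_cases hy : x + prop u ∈ Ω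
    · have hy' := h _ hy
      nlinarith [mul_nonneg h0 (sub_nonneg.2 hy'), mul_nonneg (sub_nonneg.2 h1) (sub_nonneg.2 hx')]
    · rw [acc_eq_zero hpos hzero x hy]; linarith
  unfold Pop
  linarith

theorem Pop_mem (hpos : ∀ x ∈ Ω, 0 < w x) (hzero : ∀ x ∉ Ω, w x = 0)
    (prop : List Bool → X) (B : ℕ) {F : X → ℝ} {M : ℝ} (h : ∀ x ∈ Ω, 0 ≤ F x ∧ F x ≤ M) {x : X}
    (hx : x ∈ Ω) : 0 ≤ Pop w prop B F x ∧ Pop w prop B F x ≤ M := by
  constructor
  · have := Pop_le_add hpos hzero prop B (F := fun _ => 0) (G := F) (c := 0)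
      (fun y hy => by simpa using (h y hy).1) hx
    rw [Pop_const] at this
    simpa using this
  · have := Pop_le_add hpos hzero prop B (F := F) (G := fun _ => M) (c := 0)
      (fun y hy => by simpa using (h y hy).2) hx
    rw [Pop_const] at this
    simpa using this

theorem Pop_iter_mem (hpos : ∀ x ∈ Ω, 0 < w x) (hzero : ∀ x ∉ Ω, w x = 0)
    (prop : List Bool → X) (B : ℕ) {F : X → ℝ} {M : ℝ} (h : ∀ x ∈ Ω, 0 ≤ F x ∧ F x ≤ M) (t : ℕ) :
    ∀ x ∈ Ω, 0 ≤ (Pop w prop B)^[t] F x ∧ (Pop w prop B)^[t] F x ≤ M := by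
  induction t with
  | zero => simpa using h
  | succ t ih =>
    intro x hx
    rw [Function.iterate_succ_apply']
    exact Pop_mem hpos hzero prop B ih hx

theorem Pop_abs_sub_le (hpos : ∀ x ∈ Ω, 0 < w x) (hzero : ∀ x ∉ Ω, w x = 0)
    (prop : List Bool → X) (B : ℕ) {F G : X → ℝ} {c : ℝ} (h : ∀ x ∈ Ω, |F x - G x| ≤ c) {x : X}
    (hx : x ∈ Ω) : |Pop w prop B F x - Pop w prop B G x| ≤ c := by
  have h1 := Pop_le_add hpos hzero prop B (F := F) (G := G) (c := c)
    (fun y hy => by have := (abs_le.1 (h y hy)).2; linarith) hx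
  have h2 := Pop_le_add hpos hzero prop B (F := G) (G := F) (c := c)
    (fun y hy => by have := (abs_le.1 (h y hy)).1; linarith) hx
  rw [abs_le]; constructor <;> linarith

/-- The Dirichlet form in terms of `cnd`. -/
noncomputable def MDir0 (w : X → ℚ) (Ω : Finset X) (prop : List Bool → X) (B : ℕ) (F : X → ℝ) : ℝ :=
  ∑ x ∈ Ω, Ex B fun u => cnd w x (x + prop u) * (F (x + prop u) - F x) ^ 2

theorem sum_mul_Dop_self (hpos : ∀ x ∈ Ω, 0 < w x) (hzero : ∀ x ∉ Ω, w x = 0)
    {prop : List Bool → X} {B : ℕ}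
    (hsym : ∀ H : X → ℝ, Ex B (fun u => H (prop u)) = Ex B fun u => H (-prop u))
    (g : X → ℝ) :
    ∑ x ∈ Ω, (w x : ℝ) * g x * Dop w prop B g x = -MDir0 w Ω prop B g / 2 := by
  rw [sum_congr rfl fun x hx => wt_mul_Dop hpos prop B g g hx]
  have h := sum_Ex_symm hpos hzero hsym fun x y => g x * (g y - g x)
  have e : MDir0 w Ω prop B g =
      -(∑ x ∈ Ω, Ex B (fun u => cnd w x (x + prop u) * (g x * (g (x + prop u) - g x))) +
        ∑ x ∈ Ω, Ex B (fun u => cnd w x (x + prop u) *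
          (g (x + prop u) * (g x - g (x + prop u))))) := by
    unfold MDir0
    rw [← sum_add_distrib, ← sum_neg_distrib]
    refine sum_congr rfl fun x _ => ?_
    rw [← Ex_add, ← neg_one_mul, ← Ex_mul_left]
    exact Ex_congr fun u _ => by ring
  rw [e, ← h]; ring

theorem sum_sq_Dop_le (hpos : ∀ x ∈ Ω, 0 < w x) (hzero : ∀ x ∉ Ω, w x = 0)
    (prop : List Bool → X) (B : ℕ) (g : X → ℝ) :
    ∑ x ∈ Ω, (w x : ℝ) * Dop w prop B g x ^ 2 ≤ MDir0 w Ω prop B g := by
  unfold MDir0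
  refine sum_le_sum fun x hx => ?_
  have hw := wt_nonneg hpos hzero x
  calc (w x : ℝ) * Dop w prop B g x ^ 2
      ≤ w x * Ex B fun u => (acc w x (x + prop u) * (g (x + prop u) - g x)) ^ 2 :=
        mul_le_mul_of_nonneg_left (sq_Ex_le _ _) hw
    _ ≤ w x * Ex B fun u => acc w x (x + prop u) * (g (x + prop u) - g x) ^ 2 := by
        refine mul_le_mul_of_nonneg_left (Ex_mono fun u _ => ?_) hw
        have h0 := acc_nonneg hpos hzero x (x + prop u)
        have h1 := acc_le_one hpos hzero x (x + prop u)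
        rw [mul_pow]
        refine mul_le_mul_of_nonneg_right ?_ (sq_nonneg _)
        nlinarith
    _ = _ := by
        rw [← Ex_mul_left]
        refine Ex_congr fun u _ => ?_
        rw [← wt_mul_acc hpos hx]; ring

/-- One step of the lazy chain decreases the square norm by a quarter of the Dirichlet form. -/
theorem sum_sq_Pop_le (hpos : ∀ x ∈ Ω, 0 < w x) (hzero : ∀ x ∉ Ω, w x = 0)
    {prop : List Bool → X} {B : ℕ}
    (hsym : ∀ H : X → ℝ, Ex B (fun u => H (prop u)) = Ex B fun u => H (-prop u))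
    (g : X → ℝ) (c : ℝ) :
    ∑ x ∈ Ω, (w x : ℝ) * (Pop w prop B g x - c) ^ 2 ≤
      ∑ x ∈ Ω, (w x : ℝ) * (g x - c) ^ 2 - MDir0 w Ω prop B g / 4 := by
  have h1 := sum_mul_Dop_self hpos hzero hsym fun y => g y - c
  have h2 := sum_sq_Dop_le hpos hzero prop B fun y => g y - c
  have hD : MDir0 w Ω prop B (fun y => g y - c) = MDir0 w Ω prop B g := by
    unfold MDir0; simp only [sub_sub_sub_cancel_right]
  rw [hD] at h1 h2
  have e : ∑ x ∈ Ω, (w x : ℝ) * (Pop w prop B g x - c) ^ 2 =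
      ∑ x ∈ Ω, (w x : ℝ) * (g x - c) ^ 2 +
        ∑ x ∈ Ω, (w x : ℝ) * (g x - c) * Dop w prop B (fun y => g y - c) x +
        (∑ x ∈ Ω, (w x : ℝ) * Dop w prop B (fun y => g y - c) x ^ 2) / 4 := by
    rw [sum_div, ← sum_add_distrib, ← sum_add_distrib]
    refine sum_congr rfl fun x _ => ?_
    rw [← Pop_sub_const]
    unfold Pop; ring
  rw [e, h1]; linarith

end basic

/-- Counting the integers below a real threshold. -/
theorem sum_ind_lt (N : ℕ) {t : ℝ} (ht : 0 ≤ t) :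
    min (N : ℝ) t ≤ ∑ i ∈ range N, ind ((i : ℝ) < t) ∧
      ∑ i ∈ range N, ind ((i : ℝ) < t) ≤ min (N : ℝ) t + 1 := by
  have e : ∀ N : ℕ, ∑ i ∈ range N, ind ((i : ℝ) < t) = (min N ⌈t⌉₊ : ℕ) := by
    intro N
    induction N with
    | zero => simp
    | succ n ih =>
      rw [sum_range_succ, ih]
      by_cases h : (n : ℝ) < t
      · rw [ind_true h]
        have h' : n < ⌈t⌉₊ := Nat.lt_ceil.2 h
        rw [min_eq_left h'.le, min_eq_left (Nat.succ_le_of_lt h')]
        push_cast; ring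
      · rw [ind_false h]
        have h' : ⌈t⌉₊ ≤ n := not_lt.1 fun h'' => h (Nat.lt_ceil.1 h'')
        rw [min_eq_right h', min_eq_right (h'.trans (Nat.le_succ n))]
        ring
  rw [e]
  have h1 : t ≤ ⌈t⌉₊ := Nat.le_ceil t
  have h2 : (⌈t⌉₊ : ℝ) ≤ t + 1 := (Nat.ceil_lt_add_one ht).le
  push_cast
  constructor
  · exact min_le_min le_rfl h1
  · rw [← min_add_add_right]
    exact min_le_min (by linarith) h2

end Crest.Agent.R309
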