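import Crest.Agent.R309.Flow
import Crest.Agent.R309.Metro

/-!
# Row 309: the annealed Metropolis chain on a preprocessed network

`Raw` is the output of the preprocessing (exact ranges `l, u`, a feasible centre `c`, a hub vertex
`star` with hub edges, a Kruskal forest of the edges of large range).  Edge kinds: `0` small,
`1` hub, `2` large tree edge, `3` large non-tree edge.
-/

set_option autoImplicit false

namespace Crest.Agent.R309

open Finset Crest.Agent.Lib.PolyTime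

/-- A preprocessed network. -/
structure Raw where
  tl : List ℕ
  hd : List ℕ
  β : List ℤ
  l : List ℤ
  u : List ℤ
  c : List ℤ
  kind : List ℕ
  q : List ℕ
  root : List ℕ
  P : List (List ℤ)
  mU : Un
  ℓU : Un

/-- The fields of a `Raw` as a tuple. -/
def Raw.tup (R : Raw) :=
  (R.tl, R.hd, R.β, R.l, R.u, R.c, R.kind, R.q, R.root, R.P, R.mU, R.ℓU)

theorem Raw.tup_inj : Function.Injective Raw.tup := by
  intro a b h
  cases a; cases b
  simp only [Raw.tup, Prod.mk.injEq] at h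
  simp [h]

instance : PEnc Raw := PEnc.ofInj Raw.tup Raw.tup_inj

/-- Distance from `k` to the interval `[a, b]`. -/
def dst (k a b : ℤ) : ℤ := max (max (a - k) (k - b)) 0

/-- A table of class weights. -/
abbrev Tab := List (List ℚ)

namespace Raw

variable (R : Raw)

/-- Number of edges. -/
abbrev nE : ℕ := R.tl.length
/-- Number of vertices other than the hub. -/
abbrev nV : ℕ := R.β.length
/-- Edges. -/
abbrev E : Type := Fin R.nE
/-- Vertices. -/
abbrev V : Type := Fin (R.nV + 1)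
/-- The master parameter. -/
abbrev m : ℕ := R.mU.n
/-- The logarithmic parameter. -/
abbrev ℓ : ℕ := R.ℓU.n

/-- The vertex with a given number. -/
def vtx (n : ℕ) : R.V := Fin.ofNat (R.nV + 1) n
/-- The network. -/
def G : Net R.V R.E := ⟨fun e => R.vtx (R.tl.getD e 0), fun e => R.vtx (R.hd.getD e 0)⟩
/-- The hub vertex. -/
def star : R.V := Fin.last R.nV
/-- Prescribed divergence. -/
def βf : R.V → ℤ := fun v => R.β.getD v 0
/-- Lower end of the exact range. -/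
def lf (e : R.E) : ℤ := R.l.getD e 0
/-- Upper end of the exact range. -/
def uf (e : R.E) : ℤ := R.u.getD e 0
/-- The feasible centre. -/
def cf : R.E → ℤ := fun e => R.c.getD e 0
/-- Kind of an edge. -/
def kd (e : R.E) : ℕ := R.kind.getD e 0
/-- Step size of an edge. -/
def qf (e : R.E) : ℕ := R.q.getD e 0
/-- Root of the cluster of a vertex. -/
def rt (v : R.V) : R.V := R.vtx (R.root.getD v 0)
/-- Tree path from a vertex to its root. -/
def Pf (v : R.V) : R.E → ℤ := fun e => (R.P.getD v []).getD e 0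
/-- The move attached to an edge (a unit flow between the roots of its ends). -/
def Lv (e : R.E) : R.E → ℤ := ue e + R.Pf (R.G.hd e) - R.Pf (R.G.tl e)

/-- Margin unit. -/
def Dm (e : R.E) : ℕ := if 2 ≤ R.kd e then R.qf e * R.m ^ 4 else 0
/-- Half-width of the initial plateau. -/
def Am (e : R.E) : ℕ := if R.kd e = 3 then R.qf e * R.m ^ 2 else 0
/-- Number of stages. -/
def Ls : ℕ := 2 * R.ℓ * R.m ^ 6
/-- Scale of the bump. -/
def Bm (e : R.E) : ℕ := if 2 ≤ R.kd e then R.Ls * R.qf e * R.m else R.m ^ 6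
/-- Exponent of the bump at stage `i`. -/
def ex (i : ℕ) (e : R.E) : ℕ := if R.kd e = 1 then i else if R.kd e = 2 then 0 else R.Ls - i

/-- Edge weight at stage `i`. -/
def φ (i : ℕ) (e : R.E) (k : ℤ) : ℚ :=
  if R.lf e - 8 * R.Dm e ≤ k ∧ k ≤ R.uf e + 8 * R.Dm e then
    (1 - (dst k (R.cf e - R.Am e) (R.cf e + R.Am e) : ℚ) / R.Bm e) ^ R.ex i e *
      (1 - (dst k (R.lf e) (R.uf e) : ℚ) / (16 * R.Dm e)) ^ R.m
  else 0

/-- Weight of a flow at stage `i`. -/
def Φ (i : ℕ) (x : R.E → ℤ) : ℚ := ∏ e, R.φ i e (x e)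

/-- Entry of a table of class weights. -/
def tv (t : Tab) (U H : R.V) : ℚ := (t.getD U []).getD H 0

/-- Weight of the class of a flow. -/
def cw (t : Tab) (x : R.E → ℤ) : ℚ :=
  if R.G.dv x = R.βf then 1 else
    ∑ U, ∑ H, if R.rt U = U ∧ R.rt H = H ∧ U ≠ H ∧ R.G.dv x = R.βf + dl H - dl U then
      R.tv t U H else 0

/-- Target weight of the chain at stage `i`. -/
def w (i : ℕ) (t : Tab) (x : R.E → ℤ) : ℚ := R.Φ i x * R.cw t x

/-- The box with margins `a * Dm`. -/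
noncomputable def box (a : ℕ) : Finset (R.E → ℤ) :=
  Fintype.piFinset fun e => Icc (R.lf e - a * R.Dm e) (R.uf e + a * R.Dm e)

open Classical in
/-- State space of the chain. -/
noncomputable def Ω : Finset (R.E → ℤ) :=
  (R.box 8).filter fun x => ∃ U H, R.rt U = U ∧ R.rt H = H ∧ R.G.dv x = R.βf + dl H - dl U

/-- The flows that are counted. -/
noncomputable def flows : Finset (R.E → ℤ) :=
  (Fintype.piFinset fun e => if R.kd e = 1 then {0} else Icc (R.lf e) (R.uf e)).filter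
    fun x => R.G.dv x = R.βf

/-- Bits for the choice of an edge. -/
def g1 : ℕ := R.nE.size
/-- Bits for a proposal. -/
def Bp : ℕ := R.g1 + 2 + R.ℓ
/-- Bits for the acceptance test. -/
def ba : ℕ := 2 * R.ℓ
/-- Bits for a step. -/
def Bs : ℕ := 1 + R.Bp + R.ba
/-- Steps per stage. -/
def Tn : ℕ := R.m ^ 101
/-- Samples per stage. -/
def Rs : ℕ := R.m ^ 24
/-- Bits for a sample. -/
def Bsamp : ℕ := R.nE * R.ℓ + (R.Ls + 1) * (R.Tn * R.Bs)
/-- Bits for a stage. -/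
def Bstage : ℕ := R.Rs * R.Bsamp
/-- Bits for the whole estimator. -/
def Btot : ℕ := R.Ls * R.Bstage

/-- The proposal: a random edge, a sign, and a step `q` or uniform in `[0, q)`. -/
def prop (u : List Bool) : R.E → ℤ :=
  ∑ e : R.E, (if (e : ℕ) = toNat (u.take R.g1) then
      (if u.getD R.g1 false then (1 : ℤ) else -1) *
        ((if u.getD (R.g1 + 1) false then R.qf e
          else toNat ((u.drop (R.g1 + 2)).take R.ℓ) % R.qf e : ℕ) : ℤ)
    else 0) • R.Lv e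

/-- The initial state. -/
def init (u : List Bool) : R.E → ℤ :=
  R.cf + ∑ e : R.E, (if R.kd e = 3 then
      ((toNat (blk R.ℓ e u) % (2 * R.Am e) : ℕ) : ℤ) - R.Am e else 0) • R.Lv e

/-- Number of initial states. -/
def PA : ℕ := ∏ e : R.E, if R.kd e = 3 then 2 * R.Am e else 1

/-- The chain of stage `i` run for `Tn` steps. -/
def run (i : ℕ) (t : Tab) (x : R.E → ℤ) (u : List Bool) : R.E → ℤ :=
  foldT (mstep (R.w i t) R.prop R.Bp R.ba) R.Bs R.Tn x u

/-- A sample: run the chains of the stages `0, …, ts.length - 1` one after the other. -/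
def samp (ts : List Tab) (u : List Bool) : R.E → ℤ :=
  (foldT (fun s v => (s.1 + 1, R.run s.1 (ts.getD s.1 []) s.2 v)) (R.Tn * R.Bs) ts.length
    (0, R.init (u.take (R.nE * R.ℓ))) (u.drop (R.nE * R.ℓ))).2

/-- Number of samples in a class. -/
def cnt (xs : List (R.E → ℤ)) (U H : R.V) : ℕ :=
  xs.countP fun x => decide (R.G.dv x = R.βf + dl H - dl U)

/-- One stage of the annealing: new class weights and one more factor of the estimate. -/
def stage (s : List Tab × ℚ) (u : List Bool) : List Tab × ℚ :=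
  (s.1 ++ [List.ofFn fun U : R.V => List.ofFn fun H : R.V =>
      R.tv (s.1.getD (s.1.length - 1) []) U H *
        R.cnt (draws (R.samp s.1) R.Bsamp R.Rs u) R.star R.star /
        R.cnt (draws (R.samp s.1) R.Bsamp R.Rs u) U H],
    s.2 * ((draws (R.samp s.1) R.Bsamp R.Rs u).map fun x =>
        if R.G.dv x = R.βf then R.Φ s.1.length x / R.Φ (s.1.length - 1) x else 0).sum /
      R.cnt (draws (R.samp s.1) R.Bsamp R.Rs u) R.star R.star)

/-- The table of ones. -/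
def t0 : Tab := List.ofFn fun _ : R.V => List.ofFn fun _ : R.V => 1

/-- The estimator. -/
def est (u : List Bool) : ℚ := (foldT R.stage R.Bstage R.Ls ([R.t0], (R.PA : ℚ)) u).2

/-- What the preprocessing guarantees; `κ` is the accuracy parameter. -/
structure Valid (κ : ℕ) : Prop where
  noLoop : R.G.NoLoop
  l_le_c : ∀ e, R.lf e ≤ R.cf e
  c_le_u : ∀ e, R.cf e ≤ R.uf e
  dv_c : R.G.dv R.cf = R.βf
  kd_le : ∀ e, R.kd e ≤ 3
  hub_tl : ∀ e, R.kd e = 1 → R.G.tl e = R.star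
  hub_c : ∀ e, R.kd e = 1 → R.cf e = 0
  hub_root : ∀ e, R.kd e = 1 → R.rt (R.G.hd e) = R.G.hd e → R.lf e = -1 ∧ R.uf e = 1
  hub_nonroot : ∀ e, R.kd e = 1 → R.rt (R.G.hd e) ≠ R.G.hd e → R.lf e = 0 ∧ R.uf e = 0
  hub_inj : ∀ e e', R.kd e = 1 → R.kd e' = 1 → R.G.hd e = R.G.hd e' → e = e'
  hub_ex : ∀ v, v ≠ R.star → ∃ e, R.kd e = 1 ∧ R.G.hd e = v
  rt_star : R.rt R.star = R.star
  rt_rt : ∀ v, R.rt (R.rt v) = R.rt v
  P_root : ∀ v, R.rt v = v → R.Pf v = 0
  dv_P : ∀ v, R.G.dv (R.Pf v) = dl (R.rt v) - dl v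
  P_tree : ∀ v e, R.Pf v e ≠ 0 → R.kd e = 2
  P_abs : ∀ v e, |R.Pf v e| ≤ 1
  L_tree : ∀ e, R.kd e = 2 → R.Lv e = 0
  big_rt : ∀ e, 2 ≤ R.kd e → R.rt (R.G.tl e) = R.rt (R.G.hd e)
  big_mono : ∀ e g, 2 ≤ R.kd e → R.Pf (R.G.hd e) g ≠ R.Pf (R.G.tl e) g → R.qf e ≤ R.qf g
  big_lo : ∀ e, 2 ≤ R.kd e → ((R.qf e * R.m ^ 5 : ℕ) : ℤ) ≤ R.uf e - R.lf e
  big_hi : ∀ e, 2 ≤ R.kd e → R.uf e - R.lf e < ((2 * R.qf e * R.m ^ 5 : ℕ) : ℤ)
  q_pow : ∀ e, ∃ j, j ≤ R.ℓ ∧ R.qf e = 2 ^ j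
  A_pow : ∀ e, R.kd e = 3 → ∃ j, j ≤ R.ℓ ∧ 2 * R.Am e = 2 ^ j
  small_q : ∀ e, R.kd e < 2 → R.qf e = 1
  small_w : ∀ e, R.kd e < 2 → R.uf e - R.lf e < ((R.m ^ 5 : ℕ) : ℤ)
  wit_l : ∀ e, 2 ≤ R.kd e → ∃ x ∈ R.flows, x e = R.lf e
  wit_u : ∀ e, 2 ≤ R.kd e → ∃ x ∈ R.flows, x e = R.uf e
  one_le : 1 ≤ κ
  hm : 1000 * (R.ℓ + 1) * (R.nE + R.nV + 2) ^ 2 * κ ≤ R.m
  hℓ : R.m ^ 64 ≤ 2 ^ R.ℓ
  hΓ : (R.box 8).card ≤ 2 ^ R.ℓ

end Raw

end Crest.Agent.R309
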