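import Crest.Agent.R309.Flow
import Crest.Agent.R309.Tape

/-!
# Row 309: networks with integer capacity intervals, given as lists
-/

set_option autoImplicit false

namespace Crest.Agent.R309

open Finset

/-- The edges `(tail, head, lower bound, upper bound)` and the prescribed divergences. -/
abbrev NetL := List (ℕ × ℕ × ℤ × ℤ) × List ℤ

namespace NetL

variable (N : NetL)

/-- Edges. -/
abbrev E : Type := Fin N.1.length
/-- Vertices (the last one is not used by well-formed networks). -/
abbrev V : Type := Fin (N.2.length + 1)

/-- The directed multigraph. -/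
def G : Net N.V N.E :=
  ⟨fun e => Fin.ofNat (N.2.length + 1) (N.1.get e).1,
    fun e => Fin.ofNat (N.2.length + 1) (N.1.get e).2.1⟩
/-- Lower capacity. -/
def lo (e : N.E) : ℤ := (N.1.get e).2.2.1
/-- Upper capacity. -/
def hi (e : N.E) : ℤ := (N.1.get e).2.2.2
/-- Prescribed divergence. -/
def βf : N.V → ℤ := fun v => N.2.getD v 0

/-- The ends of every edge are distinct vertices of the network. -/
def WF : Prop := ∀ p ∈ N.1, p.1 < N.2.length ∧ p.2.1 < N.2.length ∧ p.1 ≠ p.2.1

/-- The feasible integer flows. -/
noncomputable def flows : Finset (N.E → ℤ) :=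
  (Fintype.piFinset fun e => Icc (N.lo e) (N.hi e)).filter fun x => N.G.dv x = N.βf

end NetL

end Crest.Agent.R309
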