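import Crest.Agent.R309.Feas

/-!
# Row 309: the exact range of the flow on every edge
-/

set_option autoImplicit false

namespace Crest.Agent.R309

open Crest.Agent.Lib.PolyTime

namespace RangeAux

open Classical in
/-- binary search for the largest number passing a monotone test -/
theorem poly_findGreatest {α : Type} [PEnc α] {T : α → ℕ → Prop} {B : α → ℕ} (hB : Poly B)
    (hT : Poly fun p : α × ℕ => decide (T p.1 p.2)) (hle : ∀ a t, T a t → t ≤ B a)
    (hmono : ∀ a s t, s ≤ t → T a t → T a s) : Poly fun a => Nat.findGreatest (T a) (B a) := by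
  refine Poly.of_le_test ((PB.size hB).mono fun a => Nat.size_le_size (Nat.findGreatest_le _))
    (Poly.decide_congr (p := fun p : α × ℕ => p.2 = 0 ∨ T p.1 p.2)
      (Poly.decide_or (by fun_prop) hT) fun p => ⟨?_, fun h => ?_⟩)
  · rintro (h | h)
    · omega
    · exact Nat.le_findGreatest (hle _ _ h) h
  · rcases Nat.eq_zero_or_pos p.2 with h0 | h0
    · exact Or.inl h0
    · exact Or.inr (hmono _ _ _ h (Nat.findGreatest_of_ne_zero rfl (by omega)))

/-- shrink the capacity interval of the edge `e` -/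
def shrink (N : NetL) (e : ℕ) (a b : ℕ) : NetL :=
  (N.1.modify e fun p => (p.1, p.2.1, p.2.2.1 + a, p.2.2.2 - b), N.2)

theorem length_shrink (N : NetL) (e a b : ℕ) : (shrink N e a b).1.length = N.1.length :=
  List.length_modify _ _ _

theorem get_shrink (N : NetL) (e a b : ℕ) (f : (shrink N e a b).E) :
    (shrink N e a b).1.get f =
      ((N.1.get (f.cast (length_shrink N e a b))).1, (N.1.get (f.cast (length_shrink N e a b))).2.1,
        N.lo (f.cast (length_shrink N e a b)) + (if e = f then (a : ℤ) else 0),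
        N.hi (f.cast (length_shrink N e a b)) - (if e = f then (b : ℤ) else 0)) := by
  simp only [shrink, List.get_eq_getElem, List.getElem_modify, NetL.lo, NetL.hi, Fin.val_cast]
  split_ifs <;> simp

theorem wf_shrink {N : NetL} (h : N.WF) (e a b : ℕ) : (shrink N e a b).WF := by
  intro p hp
  obtain ⟨f, rfl⟩ := List.get_of_mem hp
  rw [get_shrink]
  exact h (N.1.get (f.cast (length_shrink N e a b))) (List.get_mem _ _)

theorem dv_shrink (N : NetL) (e a b : ℕ) (x : N.E → ℤ) :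
    (shrink N e a b).G.dv (fun f => x (f.cast (length_shrink N e a b))) = N.G.dv x := by
  refine Fintype.sum_equiv (finCongr (length_shrink N e a b)) _ _ fun f => ?_
  simp only [Net.bd, NetL.G, get_shrink, finCongr_apply]
  rfl

theorem mem_flows {N : NetL} {x : N.E → ℤ} :
    x ∈ N.flows ↔ (∀ e, N.lo e ≤ x e ∧ x e ≤ N.hi e) ∧ N.G.dv x = N.βf := by
  simp [NetL.flows]

theorem nonempty_shrink (N : NetL) (e : N.E) (a b : ℕ) : (shrink N e a b).flows.Nonempty ↔
    ∃ x ∈ N.flows, N.lo e + a ≤ x e ∧ x e ≤ N.hi e - b := by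
  have key : ∀ x : N.E → ℤ,
      (fun f => x (Fin.cast (length_shrink N e a b) f)) ∈ (shrink N e a b).flows ↔
      x ∈ N.flows ∧ N.lo e + a ≤ x e ∧ x e ≤ N.hi e - b := by
    intro x
    rw [mem_flows, mem_flows, dv_shrink]
    simp only [NetL.lo, NetL.hi, get_shrink]
    constructor
    · rintro ⟨h1, h2⟩
      refine ⟨⟨fun f => ?_, h2⟩, ?_⟩
      · have := h1 (f.cast (length_shrink N e a b).symm)
        simp only [Fin.cast_cast, Fin.cast_eq_self] at this
        split_ifs at this <;> omega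
      · simpa using h1 (e.cast (length_shrink N e a b).symm)
    · rintro ⟨⟨h1, h2⟩, h3⟩
      refine ⟨fun f => ?_, h2⟩
      split_ifs with h
      · have : Fin.cast (length_shrink N e a b) f = e := Fin.ext h.symm
        rw [this]
        exact h3
      · have := h1 (Fin.cast (length_shrink N e a b) f)
        constructor <;> omega
  constructor
  · rintro ⟨y, hy⟩
    have := (key fun f => y (f.cast (length_shrink N e a b).symm)).1 hy
    exact ⟨_, this.1, this.2⟩
  · rintro ⟨x, hx, h⟩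
    exact ⟨_, (key x).2 ⟨hx, h⟩⟩

/-- the test of the binary search -/
def Tst (p : NetL × ℕ) (a b : ℕ) : Prop :=
  p.1.WF ∧ ∃ h : p.2 < p.1.1.length, ∃ x ∈ p.1.flows,
    p.1.lo ⟨p.2, h⟩ + a ≤ x ⟨p.2, h⟩ ∧ x ⟨p.2, h⟩ ≤ p.1.hi ⟨p.2, h⟩ - b

open Classical in
theorem poly_Tst : Poly fun p : (NetL × ℕ) × ℕ × ℕ => decide (Tst p.1 p.2.1 p.2.2) := by
  obtain ⟨feas, hp, hf⟩ := exists_feas
  have h1 : Poly fun N : NetL =>
      decide (∀ p ∈ N.1, p.1 < N.2.length ∧ p.2.1 < N.2.length ∧ p.1 ≠ p.2.1) :=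
    Poly.decide_forall_mem (l := fun N : NetL => N.1)
      (p := fun N p => p.1 < N.2.length ∧ p.2.1 < N.2.length ∧ p.1 ≠ p.2.1) (by fun_prop)
      (by fun_prop)
  have h2 : Poly fun p : (NetL × ℕ) × ℕ × ℕ => shrink p.1.1 p.1.2 p.2.1 p.2.2 := by
    unfold shrink
    fun_prop
  refine Poly.decide_of_iff (f := fun p : (NetL × ℕ) × ℕ × ℕ =>
    decide (∀ q ∈ p.1.1.1, q.1 < p.1.1.2.length ∧ q.2.1 < p.1.1.2.length ∧ q.1 ≠ q.2.1) &&
      (decide (p.1.2 < p.1.1.1.length) && (feas (shrink p.1.1 p.1.2 p.2.1 p.2.2)).isSome))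
    ((h1.comp (by fun_prop)).and (Poly.and (by fun_prop) (hp.comp h2).isSome)) ?_
  rintro ⟨⟨N, e⟩, a, b⟩
  simp only [Bool.and_eq_true, decide_eq_true_eq, Tst]
  refine and_congr_right fun hN => ⟨fun ⟨h, h'⟩ => ⟨h, ?_⟩, fun ⟨h, h'⟩ => ⟨h, ?_⟩⟩
  · obtain ⟨x, hx⟩ := Option.isSome_iff_exists.1 h'
    exact (nonempty_shrink N ⟨e, h⟩ a b).1 ⟨_, ((hf _ (wf_shrink hN e a b)).2 x hx).2⟩
  · have h3 := (nonempty_shrink N ⟨e, h⟩ a b).2 h'
    rw [Option.isSome_iff_ne_none]
    exact fun h4 => h3.ne_empty ((hf _ (wf_shrink hN e a b)).1 h4)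

/-- width of a capacity interval -/
def wd (p : NetL × ℕ) : ℕ :=
  ((p.1.1.getD p.2 (0, 0, 0, 0)).2.2.2 - (p.1.1.getD p.2 (0, 0, 0, 0)).2.2.1).toNat

theorem Tst.le {p : NetL × ℕ} {a b : ℕ} (h : Tst p a b) : a + b ≤ wd p := by
  obtain ⟨-, h, x, -, h1, h2⟩ := h
  simp only [wd, List.getD_eq_getElem _ _ h]
  simp only [NetL.lo, NetL.hi, List.get_eq_getElem] at h1 h2
  omega

theorem Tst.mono {p : NetL × ℕ} {a b a' b' : ℕ} (h : Tst p a b) (ha : a' ≤ a) (hb : b' ≤ b) :
    Tst p a' b' := by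
  obtain ⟨h0, h, x, hx, h1, h2⟩ := h
  exact ⟨h0, h, x, hx, by omega, by omega⟩

end RangeAux

open RangeAux in
theorem exists_range : ∃ rng : NetL → List (ℤ × ℤ), Poly rng ∧ ∀ N : NetL, N.WF →
    N.flows.Nonempty → (rng N).length = N.1.length ∧ ∀ e : N.E,
      (∀ x ∈ N.flows, ((rng N).getD e (0, 0)).1 ≤ x e ∧ x e ≤ ((rng N).getD e (0, 0)).2) ∧
      (∃ x ∈ N.flows, x e = ((rng N).getD e (0, 0)).1) ∧
      ∃ x ∈ N.flows, x e = ((rng N).getD e (0, 0)).2 := by
  classical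
  have hw : Poly wd := by
    unfold wd
    fun_prop
  have h1 : Poly fun p : NetL × ℕ => Nat.findGreatest (fun t => Tst p t 0) (wd p) :=
    poly_findGreatest hw (poly_Tst.comp (g := fun q : (NetL × ℕ) × ℕ => (q.1, q.2, 0))
      (by fun_prop)) (fun p t h => h.le) fun p s t hst h => h.mono hst le_rfl
  have h2 : Poly fun p : NetL × ℕ => Nat.findGreatest (fun t => Tst p 0 t) (wd p) :=
    poly_findGreatest hw (poly_Tst.comp (g := fun q : (NetL × ℕ) × ℕ => (q.1, 0, q.2))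
      (by fun_prop)) (fun p t h => by simpa using h.le) fun p s t hst h => h.mono le_rfl hst
  have h3 : Poly fun p : NetL × ℕ =>
      ((p.1.1.getD p.2 (0, 0, 0, 0)).2.2.2 -
        (Nat.findGreatest (fun t => Tst p 0 t) (wd p) : ℕ),
      (p.1.1.getD p.2 (0, 0, 0, 0)).2.2.1 +
        (Nat.findGreatest (fun t => Tst p t 0) (wd p) : ℕ)) :=
    Lib.PolyTime.Poly.pair (Lib.PolyTime.Poly.intSub (by fun_prop) h2.natCastInt)
      (Lib.PolyTime.Poly.intAdd (by fun_prop) h1.natCastInt)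
  refine ⟨fun N => (List.range N.1.length).map fun e =>
    ((N.1.getD e (0, 0, 0, 0)).2.2.2 -
        (Nat.findGreatest (fun t => Tst (N, e) 0 t) (wd (N, e)) : ℕ),
      (N.1.getD e (0, 0, 0, 0)).2.2.1 +
        (Nat.findGreatest (fun t => Tst (N, e) t 0) (wd (N, e)) : ℕ)),
    Lib.PolyTime.Poly.map (l := fun N : NetL => List.range N.1.length) (by fun_prop) h3,
    fun N hN hne => ⟨by simp, fun e => ?_⟩⟩
  rw [List.getD_eq_getElem _ _ (by simp), List.getElem_map, List.getElem_range,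
    List.getD_eq_getElem _ _ e.2]
  change (∀ x ∈ N.flows, N.hi e - _ ≤ x e ∧ x e ≤ N.lo e + _) ∧
    (∃ x ∈ N.flows, x e = N.hi e - _) ∧ ∃ x ∈ N.flows, x e = N.lo e + _
  have hall : ∀ x ∈ N.flows,
      N.hi e - (Nat.findGreatest (fun t => Tst (N, e) 0 t) (wd (N, e)) : ℕ) ≤ x e ∧
      x e ≤ N.lo e + (Nat.findGreatest (fun t => Tst (N, e) t 0) (wd (N, e)) : ℕ) := by
    intro x hx
    obtain ⟨b1, b2⟩ := (mem_flows.1 hx).1 e
    have t1 : Tst (N, e) 0 (N.hi e - x e).toNat :=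
      ⟨hN, e.2, x, hx, by simpa using b1, by simp only [Fin.eta]; omega⟩
    have t2 : Tst (N, e) (x e - N.lo e).toNat 0 :=
      ⟨hN, e.2, x, hx, by simp only [Fin.eta]; omega, by simpa using b2⟩
    have u1 := Nat.le_findGreatest (P := fun t => Tst (N, e) 0 t) (by simpa using t1.le) t1
    have u2 := Nat.le_findGreatest (P := fun t => Tst (N, e) t 0) (by simpa using t2.le) t2
    omega
  obtain ⟨y, hy⟩ := hne
  have t0 : Tst (N, e) 0 0 := ⟨hN, e.2, y, hy, by simpa using (mem_flows.1 hy).1 e⟩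
  obtain ⟨-, _, x, hx, -, hx'⟩ :=
    Nat.findGreatest_spec (P := fun t => Tst (N, e) 0 t) (Nat.zero_le (wd (N, e))) t0
  obtain ⟨-, _, z, hz, hz', -⟩ :=
    Nat.findGreatest_spec (P := fun t => Tst (N, e) t 0) (Nat.zero_le (wd (N, e))) t0
  exact ⟨hall, ⟨x, hx, le_antisymm hx' (hall x hx).1⟩, z, hz, le_antisymm (hall z hz).2 hz'⟩

end Crest.Agent.R309
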