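import Crest.Agent.R309.Model
import Crest.Agent.R309.Range
import Crest.Agent.R309.Forest

/-!
# Row 309: the preprocessing
-/

set_option autoImplicit false

namespace Crest.Agent.R309

open Crest.Agent.Lib.PolyTime

namespace Pre

open Finset

/-! ### The construction -/

/-- Width of the range of an edge. -/
def wd (rg : List (ℤ × ℤ)) (i : ℕ) : ℕ := ((rg.getD i (0, 0)).2 - (rg.getD i (0, 0)).1).toNat

/-- Number of edges including the hub edges. -/
def nn (N : NetL) : ℕ := N.1.length + N.2.length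

/-- Number of bits needed to describe a point of the box. -/
def sP (N : NetL) (rg : List (ℤ × ℤ)) : ℕ := ((List.range (nn N)).map fun i => (wd rg i).size + 2).sum

/-- The logarithm of the master parameter. -/
def jP (N : NetL) (rg : List (ℤ × ℤ)) (κ : ℕ) : ℕ :=
  24 + 8 * (sP N rg + nn N + N.2.length + κ + 2).size

/-- Tails. -/
def tlF (N : NetL) (i : ℕ) : ℕ := if i < N.1.length then (N.1.getD i (0, 0, 0, 0)).1 else N.2.length

/-- Heads. -/
def hdF (N : NetL) (i : ℕ) : ℕ :=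
  if i < N.1.length then (N.1.getD i (0, 0, 0, 0)).2.1 else i - N.1.length

/-- Step sizes of the large edges (zero for the others). -/
def bq (N : NetL) (rg : List (ℤ × ℤ)) (m i : ℕ) : ℕ :=
  if i < N.1.length ∧ m ^ 5 ≤ wd rg i then 2 ^ (wd rg i / m ^ 5).log2 else 0

/-- The edges handed to the forest algorithm. -/
def mkF (N : NetL) (rg : List (ℤ × ℤ)) (m : ℕ) : List (ℕ × ℕ × ℕ) :=
  (List.range (nn N)).map fun i => (tlF N i, hdF N i, bq N rg m i)

/-- Half-width of the range of a hub edge. -/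
def hubW (N : NetL) (root : List ℕ) (i : ℕ) : ℤ :=
  if root.getD (i - N.1.length) 0 % (N.2.length + 1) = i - N.1.length then 1 else 0

/-- The preprocessed network. -/
def build (N : NetL) (rg : List (ℤ × ℤ)) (x : List ℤ) (m ℓ : Un)
    (f : List Bool × List ℕ × List (List ℤ)) : Raw where
  tl := (List.range (nn N)).map (tlF N)
  hd := (List.range (nn N)).map (hdF N)
  β := N.2
  l := (List.range (nn N)).map fun i =>
    if i < N.1.length then (rg.getD i (0, 0)).1 else -hubW N f.2.1 i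
  u := (List.range (nn N)).map fun i =>
    if i < N.1.length then (rg.getD i (0, 0)).2 else hubW N f.2.1 i
  c := (List.range (nn N)).map fun i => if i < N.1.length then x.getD i 0 else 0
  kind := (List.range (nn N)).map fun i =>
    if i < N.1.length then (if bq N rg m.n i = 0 then 0 else if f.1.getD i false then 2 else 3)
    else 1
  q := (List.range (nn N)).map fun i => max (bq N rg m.n i) 1
  root := f.2.1
  P := f.2.2
  mU := m
  ℓU := ℓ

section poly

variable {α : Type} [PEnc α]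

@[fun_prop] theorem poly_wd {rg : α → List (ℤ × ℤ)} {i : α → ℕ} (h : Poly rg) (hi : Poly i) :
    Poly fun a => wd (rg a) (i a) := by
  unfold wd; fun_prop

@[fun_prop] theorem poly_nn {N : α → NetL} (h : Poly N) : Poly fun a => nn (N a) := by
  unfold nn; fun_prop

@[fun_prop] theorem pb_nn {N : α → NetL} (h : Poly N) : PB fun a => nn (N a) := by
  unfold nn; fun_prop

@[fun_prop] theorem poly_sP {N : α → NetL} {rg : α → List (ℤ × ℤ)} (h : Poly N) (hr : Poly rg) :
    Poly fun a => sP (N a) (rg a) := by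
  unfold sP; fun_prop

@[fun_prop] theorem pb_sP {N : α → NetL} {rg : α → List (ℤ × ℤ)} (h : Poly N) (hr : Poly rg) :
    PB fun a => sP (N a) (rg a) :=
  PB.sum_map (D := fun a i => (wd (rg a) i).size + 2) (by fun_prop) (by fun_prop)

@[fun_prop] theorem poly_jP {N : α → NetL} {rg : α → List (ℤ × ℤ)} {κ : α → ℕ} (h : Poly N)
    (hr : Poly rg) (hκ : Poly κ) : Poly fun a => jP (N a) (rg a) (κ a) := by
  unfold jP; fun_prop

@[fun_prop] theorem pb_jP {N : α → NetL} {rg : α → List (ℤ × ℤ)} {κ : α → ℕ} (h : Poly N)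
    (hr : Poly rg) (hκ : Poly κ) : PB fun a => jP (N a) (rg a) (κ a) := by
  unfold jP; fun_prop

theorem two_pow_size_le (n : ℕ) : 2 ^ n.size ≤ 2 * n + 1 := by
  rcases Nat.eq_zero_or_pos n with rfl | h
  · simp
  · obtain ⟨k, hk⟩ : ∃ k, n.size = k + 1 := ⟨n.size - 1, by have := Nat.size_pos.2 h; omega⟩
    have := Nat.lt_size.1 (by omega : k < n.size)
    rw [hk, pow_succ]
    omega

theorem pb_two_pow_jP {N : α → NetL} {rg : α → List (ℤ × ℤ)} {κ : α → ℕ} (h : Poly N)
    (hr : Poly rg) (hκ : PB κ) : PB fun a => 2 ^ jP (N a) (rg a) (κ a) := by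
  refine PB.mono (h := fun a =>
    2 ^ 24 * (2 * (sP (N a) (rg a) + nn (N a) + (N a).2.length + κ a + 2) + 1) ^ 8)
    (by fun_prop) fun a => ?_
  rw [jP, pow_add, mul_comm 8, pow_mul]
  exact Nat.mul_le_mul_left _ (Nat.pow_le_pow_left (two_pow_size_le _) 8)

@[fun_prop] theorem poly_tlF {N : α → NetL} {i : α → ℕ} (h : Poly N) (hi : Poly i) :
    Poly fun a => tlF (N a) (i a) := by
  unfold tlF; fun_prop

@[fun_prop] theorem poly_hdF {N : α → NetL} {i : α → ℕ} (h : Poly N) (hi : Poly i) :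
    Poly fun a => hdF (N a) (i a) := by
  unfold hdF; fun_prop

@[fun_prop] theorem poly_bq {N : α → NetL} {rg : α → List (ℤ × ℤ)} {m i : α → ℕ} (h : Poly N)
    (hr : Poly rg) (hm : Poly m) (hi : Poly i) : Poly fun a => bq (N a) (rg a) (m a) (i a) := by
  unfold bq; fun_prop

@[fun_prop] theorem poly_mkF {N : α → NetL} {rg : α → List (ℤ × ℤ)} {m : α → ℕ} (h : Poly N)
    (hr : Poly rg) (hm : Poly m) : Poly fun a => mkF (N a) (rg a) (m a) := by
  unfold mkF; fun_prop

@[fun_prop] theorem poly_hubW {N : α → NetL} {root : α → List ℕ} {i : α → ℕ} (h : Poly N)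
    (hr : Poly root) (hi : Poly i) : Poly fun a => hubW (N a) (root a) (i a) := by
  unfold hubW; fun_prop

theorem poly_build {N : α → NetL} {rg : α → List (ℤ × ℤ)} {x : α → List ℤ} {m ℓ : α → Un}
    {f : α → List Bool × List ℕ × List (List ℤ)} (h : Poly N) (hr : Poly rg) (hx : Poly x)
    (hm : Poly m) (hℓ : Poly ℓ) (hf : Poly f) :
    Poly fun a => build (N a) (rg a) (x a) (m a) (ℓ a) (f a) := by
  refine Poly.of_enc (g := fun a => (build (N a) (rg a) (x a) (m a) (ℓ a) (f a)).tup) ?_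
    fun a => rfl
  simp only [Raw.tup, build]
  fun_prop

end poly

/-! ### Transport along equalities of lengths -/

/-- The specification of the forest for an abstract network. -/
structure Spec {V E : Type} [Fintype V] [DecidableEq V] [Fintype E] [DecidableEq E] (G : Net V E)
    (q : E → ℕ) (tr : E → Bool) (rt : V → V) (P : V → E → ℤ) : Prop where
  tr_q : ∀ e, tr e = true → 0 < q e
  rt_rt : ∀ v, rt (rt v) = rt v
  rt_isolated : ∀ v, (∀ e, 0 < q e → G.tl e ≠ v ∧ G.hd e ≠ v) → rt v = v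
  P_root : ∀ v, rt v = v → P v = 0
  dv_P : ∀ v, G.dv (P v) = dl (rt v) - dl v
  P_tree : ∀ v e, P v e ≠ 0 → tr e = true
  P_abs : ∀ v e, |P v e| ≤ 1
  L_tree : ∀ e, tr e = true → ue e + P (G.hd e) - P (G.tl e) = 0
  big_rt : ∀ e, 0 < q e → rt (G.tl e) = rt (G.hd e)
  big_mono : ∀ e g, 0 < q e → P (G.hd e) g ≠ P (G.tl e) g → q e ≤ q g

theorem spec_cast {fl : List (ℕ × ℕ × ℕ)} {k : ℕ} {tr : ℕ → Bool} {rt : Fin (k + 1) → Fin (k + 1)}
    {P : Fin (k + 1) → ℕ → ℤ}
    (h : FIn.Spec (fl, ⟨k⟩) (fun e => tr e) rt (fun v e => P v e)) {n : ℕ} (hn : fl.length = n)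
    (G : Net (Fin (k + 1)) (Fin n)) (q : Fin n → ℕ)
    (htl : ∀ e : Fin n, G.tl e = Fin.ofNat (k + 1) (fl.getD e (0, 0, 0)).1)
    (hhd : ∀ e : Fin n, G.hd e = Fin.ofNat (k + 1) (fl.getD e (0, 0, 0)).2.1)
    (hq : ∀ e : Fin n, q e = (fl.getD e (0, 0, 0)).2.2) :
    Spec G q (fun e => tr e) rt (fun v e => P v e) := by
  subst hn
  have e1 : G = FIn.G (fl, ⟨k⟩) := by
    cases G
    simp only [FIn.G, Net.mk.injEq]
    exact ⟨funext fun e => (htl e).trans (by simp), funext fun e => (hhd e).trans (by simp)⟩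
  have e2 : q = FIn.q (fl, ⟨k⟩) := funext fun e => (hq e).trans (by simp [FIn.q])
  subst e1 e2
  exact ⟨h.1, h.2, h.3, h.4, h.5, h.6, h.7, h.8, h.9, h.10⟩

theorem dv_ext {V : Type} [Fintype V] [DecidableEq V] {k n : ℕ} (hk : k ≤ n) (G : Net V (Fin k))
    (G' : Net V (Fin n)) (htl : ∀ e, G'.tl (Fin.castLE hk e) = G.tl e)
    (hhd : ∀ e, G'.hd (Fin.castLE hk e) = G.hd e) (y : Fin n → ℤ)
    (hy : ∀ e : Fin n, k ≤ e → y e = 0) : G'.dv y = G.dv fun e => y (Fin.castLE hk e) := by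
  obtain ⟨m, rfl⟩ := Nat.exists_eq_add_of_le hk
  simp only [Net.dv, Net.bd]
  rw [Fin.sum_univ_add, sum_eq_zero (s := (univ : Finset (Fin m))) fun e _ => by
    rw [hy _ (by simp), zero_smul], add_zero]
  exact sum_congr rfl fun e _ => by rw [← htl, ← hhd]; rfl

theorem getD_map_range {β : Type} {n i : ℕ} (h : i < n) (F : ℕ → β) (d : β) :
    ((List.range n).map F).getD i d = F i := by
  simp [h]

/-! ### The semantic description of the construction -/

/-- What the construction looks like. -/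
structure Shape (R : Raw) (es : List (ℕ × ℕ × ℤ × ℤ)) (rg : List (ℤ × ℤ)) (x : List ℤ)
    (tr : List Bool) : Prop where
  len : R.nE = nn (es, R.β)
  tl : ∀ e : R.E, R.tl.getD e 0 = tlF (es, R.β) e
  hd : ∀ e : R.E, R.hd.getD e 0 = hdF (es, R.β) e
  l : ∀ e : R.E, R.lf e = if (e : ℕ) < es.length then (rg.getD e (0, 0)).1
    else -hubW (es, R.β) R.root e
  u : ∀ e : R.E, R.uf e = if (e : ℕ) < es.length then (rg.getD e (0, 0)).2
    else hubW (es, R.β) R.root e
  c : ∀ e : R.E, R.cf e = if (e : ℕ) < es.length then x.getD e 0 else 0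
  kd : ∀ e : R.E, R.kd e = if (e : ℕ) < es.length then
    (if bq (es, R.β) rg R.m e = 0 then 0 else if tr.getD e false then 2 else 3) else 1
  q : ∀ e : R.E, R.qf e = max (bq (es, R.β) rg R.m e) 1

theorem shape_build (N : NetL) (rg : List (ℤ × ℤ)) (x : List ℤ) (m ℓ : Un)
    (f : List Bool × List ℕ × List (List ℤ)) : Shape (build N rg x m ℓ f) N.1 rg x f.1 := by
  have hl : (build N rg x m ℓ f).nE = nn N := by simp [build, Raw.nE]
  have h : ∀ e : (build N rg x m ℓ f).E, (e : ℕ) < nn N := fun e => hl ▸ e.2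
  exact ⟨hl, fun e => getD_map_range (h e) _ _, fun e => getD_map_range (h e) _ _,
    fun e => getD_map_range (h e) _ _, fun e => getD_map_range (h e) _ _,
    fun e => getD_map_range (h e) _ _, fun e => getD_map_range (h e) _ _,
    fun e => getD_map_range (h e) _ _⟩

section sem

variable {R : Raw} {es : List (ℕ × ℕ × ℤ × ℤ)} {rg : List (ℤ × ℤ)} {x : List ℤ} {tr : List Bool}

theorem Shape.le (h : Shape R es rg x tr) : es.length ≤ R.nE := by
  rw [h.len, nn]; exact Nat.le_add_right _ _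

theorem Shape.lt (h : Shape R es rg x tr) (e : R.E) : (e : ℕ) < es.length + R.nV := by
  have := e.2
  have h1 : R.nE = es.length + R.nV := h.len
  omega

theorem Shape.hub_iff (h : Shape R es rg x tr) (e : R.E) : R.kd e = 1 ↔ es.length ≤ e := by
  rw [h.kd, ← not_lt]
  split_ifs with h1 <;> simp [h1]

theorem Shape.big_iff (h : Shape R es rg x tr) (e : R.E) :
    2 ≤ R.kd e ↔ 0 < bq (es, R.β) rg R.m e := by
  rw [h.kd]
  split_ifs with h1 h2 h3
  · omega
  · omega
  · omega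
  · simp [bq, h1]

theorem Shape.G_tl (h : Shape R es rg x tr) (e : Fin es.length) :
    R.G.tl (Fin.castLE h.le e) = (NetL.G (es, R.β)).tl e := by
  simp only [Raw.G, NetL.G, Raw.vtx]
  rw [h.tl]
  simp [tlF]

theorem Shape.G_hd (h : Shape R es rg x tr) (e : Fin es.length) :
    R.G.hd (Fin.castLE h.le e) = (NetL.G (es, R.β)).hd e := by
  simp only [Raw.G, NetL.G, Raw.vtx]
  rw [h.hd]
  simp [hdF]

theorem Shape.val_real (h : Shape R es rg x tr) (hN : NetL.WF (es, R.β)) {e : R.E}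
    (he : (e : ℕ) < es.length) : (R.G.tl e : ℕ) < R.nV ∧ (R.G.hd e : ℕ) < R.nV ∧
      R.G.tl e ≠ R.G.hd e := by
  obtain ⟨h1, h2, h3⟩ := hN es[(e : ℕ)] (List.getElem_mem he)
  have e1 : (R.G.tl e : ℕ) = es[(e : ℕ)].1 := by
    simp only [Raw.G, Raw.vtx, Fin.val_ofNat]
    rw [h.tl, tlF, if_pos he, List.getD_eq_getElem _ _ he]
    exact Nat.mod_eq_of_lt (Nat.lt_succ_of_lt h1)
  have e2 : (R.G.hd e : ℕ) = es[(e : ℕ)].2.1 := by
    simp only [Raw.G, Raw.vtx, Fin.val_ofNat]
    rw [h.hd, hdF, if_pos he, List.getD_eq_getElem _ _ he]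
    exact Nat.mod_eq_of_lt (Nat.lt_succ_of_lt h2)
  refine ⟨e1 ▸ h1, e2 ▸ h2, fun e3 => h3 ?_⟩
  rw [← e1, ← e2, e3]

theorem Shape.val_hub (h : Shape R es rg x tr) {e : R.E} (he : es.length ≤ e) :
    R.G.tl e = R.star ∧ (R.G.hd e : ℕ) = e - es.length := by
  have := h.lt e
  constructor
  · ext
    simp only [Raw.G, Raw.vtx, Fin.val_ofNat, Raw.star, Fin.val_last]
    rw [h.tl, tlF, if_neg (not_lt.2 he)]
    exact Nat.mod_eq_of_lt (Nat.lt_succ_self _)
  · simp only [Raw.G, Raw.vtx, Fin.val_ofNat]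
    rw [h.hd, hdF, if_neg (not_lt.2 he)]
    exact Nat.mod_eq_of_lt (by dsimp only; omega)

theorem Shape.hubW_eq (h : Shape R es rg x tr) {e : R.E} (he : es.length ≤ e) :
    hubW (es, R.β) R.root e = if R.rt (R.G.hd e) = R.G.hd e then 1 else 0 := by
  simp only [hubW, Fin.ext_iff, Raw.rt, Raw.vtx, Fin.val_ofNat, (h.val_hub he).2]

/-- The ranges contain all flows. -/
def Ranges (N : NetL) (rg : List (ℤ × ℤ)) : Prop :=
  ∀ e : N.E, (∀ x ∈ N.flows, (rg.getD e (0, 0)).1 ≤ x e ∧ x e ≤ (rg.getD e (0, 0)).2) ∧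
    (∃ x ∈ N.flows, x e = (rg.getD e (0, 0)).1) ∧ ∃ x ∈ N.flows, x e = (rg.getD e (0, 0)).2

theorem Shape.mem_flows (h : Shape R es rg x tr) (hr : Ranges (es, R.β) rg) (y : R.E → ℤ) :
    y ∈ R.flows ↔ (∀ e : R.E, es.length ≤ e → y e = 0) ∧
      (fun e => y (Fin.castLE h.le e)) ∈ NetL.flows (es, R.β) := by
  constructor
  · intro hy
    rw [Raw.flows, mem_filter, Fintype.mem_piFinset] at hy
    have h0 : ∀ e : R.E, es.length ≤ e → y e = 0 := fun e he => by
      simpa [(h.hub_iff e).2 he] using hy.1 e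
    refine ⟨h0, ?_⟩
    rw [NetL.flows, mem_filter, Fintype.mem_piFinset]
    refine ⟨fun e => ?_, (dv_ext h.le _ _ h.G_tl h.G_hd y h0).symm.trans hy.2⟩
    have h1 := hy.1 (Fin.castLE h.le e)
    have he : ((Fin.castLE h.le e : R.E) : ℕ) < es.length := e.2
    rw [if_neg (fun h2 => absurd ((h.hub_iff _).1 h2) (not_le.2 he)), h.l, h.u, if_pos he,
      if_pos he, mem_Icc] at h1
    obtain ⟨-, ⟨a, ha, ha'⟩, b, hb, hb'⟩ := hr e
    rw [NetL.flows, mem_filter, Fintype.mem_piFinset] at ha hb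
    exact mem_Icc.2 ⟨(mem_Icc.1 (ha.1 e)).1.trans (ha'.le.trans h1.1),
      h1.2.trans (hb'.ge.trans (mem_Icc.1 (hb.1 e)).2)⟩
  · rintro ⟨h0, hy⟩
    rw [Raw.flows, mem_filter, Fintype.mem_piFinset]
    refine ⟨fun e => ?_, (dv_ext h.le _ _ h.G_tl h.G_hd y h0).trans (mem_filter.1 hy).2⟩
    by_cases he : (e : ℕ) < es.length
    · rw [if_neg (fun h2 => absurd ((h.hub_iff _).1 h2) (not_le.2 he)), h.l, h.u, if_pos he,
        if_pos he, mem_Icc]
      exact (hr ⟨e, he⟩).1 _ hy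
    · rw [if_pos ((h.hub_iff e).2 (not_lt.1 he)), h0 e (not_lt.1 he)]
      exact mem_singleton_self _

theorem Shape.exists_ext (h : Shape R es rg x tr) (hr : Ranges (es, R.β) rg)
    {z : Fin es.length → ℤ} (hz : z ∈ NetL.flows (es, R.β)) :
    ∃ y ∈ R.flows, (fun e => y (Fin.castLE h.le e)) = z := by
  have e1 : (fun e : Fin es.length => (fun e : R.E =>
      if he : (e : ℕ) < es.length then z ⟨e, he⟩ else 0) (Fin.castLE h.le e)) = z :=
    funext fun e => dif_pos e.2
  refine ⟨fun e : R.E => if he : (e : ℕ) < es.length then z ⟨e, he⟩ else 0,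
    (h.mem_flows hr _).2 ⟨fun e he => dif_neg (not_lt.2 he), ?_⟩, e1⟩
  rw [e1]
  exact hz

theorem Shape.card_flows (h : Shape R es rg x tr) (hr : Ranges (es, R.β) rg) :
    R.flows.card = (NetL.flows (es, R.β)).card := by
  refine card_bij (fun y _ => fun e => y (Fin.castLE h.le e))
    (fun y hy => ((h.mem_flows hr y).1 hy).2) (fun y hy y' hy' e => funext fun g => ?_)
    fun z hz => ?_
  · by_cases hg : (g : ℕ) < es.length
    · exact congrFun e ⟨g, hg⟩
    · rw [((h.mem_flows hr y).1 hy).1 g (not_lt.1 hg), ((h.mem_flows hr y').1 hy').1 g (not_lt.1 hg)]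
  · obtain ⟨y, hy, e⟩ := h.exists_ext hr hz
    exact ⟨y, hy, e⟩

theorem Shape.spec (h : Shape R es rg x tr)
    (hs : FIn.Spec (mkF (es, R.β) rg R.m, ⟨R.nV⟩) (fun e => tr.getD e false) R.rt
      fun v e => (R.P.getD v []).getD e 0) :
    Spec R.G (fun e => bq (es, R.β) rg R.m e) (fun e => tr.getD e false) R.rt R.Pf := by
  have hl : ∀ e : R.E, (e : ℕ) < nn (es, R.β) := h.lt
  refine spec_cast (tr := fun i => tr.getD i false) (P := fun v i => (R.P.getD v []).getD i 0) hs
    (by rw [h.len]; simp [mkF]) _ _ (fun e => ?_) (fun e => ?_) fun e => ?_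
  · rw [mkF, getD_map_range (hl e)]
    exact congrArg R.vtx (h.tl e)
  · rw [mkF, getD_map_range (hl e)]
    exact congrArg R.vtx (h.hd e)
  · rw [mkF, getD_map_range (hl e)]

theorem log2_le_size {a b : ℕ} (h : a ≤ b) : a.log2 ≤ b.size := by
  rcases Nat.eq_zero_or_pos a with rfl | ha
  · simp
  · exact (Nat.lt_size.2 ((Nat.log2_self_le ha.ne').trans h)).le

theorem sP_eq (N : NetL) (rg : List (ℤ × ℤ)) :
    sP N rg = ∑ i ∈ range (nn N), ((wd rg i).size + 2) := by
  rw [sP, sum_list_map_count, ← sum_list_map_count]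
  rfl

theorem numerics {s n v κ j : ℕ} (hj : j = 24 + 8 * (s + n + v + κ + 2).size) :
    1000 * (s + 64 * j + 1) * (n + v + 2) ^ 2 * κ ≤ 2 ^ j := by
  have h1 := Nat.lt_size_self (s + n + v + κ + 2)
  have h2 : (s + n + v + κ + 2).size < 2 ^ (s + n + v + κ + 2).size := Nat.lt_two_pow_self
  have h3 : 2 ^ j = 2 ^ 24 * (2 ^ (s + n + v + κ + 2).size) ^ 8 := by
    rw [hj, pow_add, mul_comm 8, pow_mul]
  rw [h3]
  generalize 2 ^ (s + n + v + κ + 2).size = A at h1 h2
  have h4 : s + 64 * j + 1 ≤ 2050 * A := by omega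
  have h5 : 1 ≤ A := by omega
  calc _ ≤ 1000 * (2050 * A) * A ^ 2 * A := by gcongr <;> omega
    _ = 2050000 * A ^ 4 := by ring
    _ ≤ 2 ^ 24 * A ^ 8 := Nat.mul_le_mul (by norm_num) (Nat.pow_le_pow_right h5 (by norm_num))

theorem Shape.valid (h : Shape R es rg x tr) (hN : NetL.WF (es, R.β)) (hr : Ranges (es, R.β) rg)
    (hx : (fun e : Fin es.length => x.getD e 0) ∈ NetL.flows (es, R.β))
    (hf : Spec R.G (fun e => bq (es, R.β) rg R.m e) (fun e => tr.getD e false) R.rt R.Pf)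
    {κ : ℕ} (hκ : 1 ≤ κ) (hm : R.m = 2 ^ jP (es, R.β) rg κ)
    (hℓ : R.ℓ = sP (es, R.β) rg + 64 * jP (es, R.β) rg κ) : R.Valid κ := by
  have hj : 24 ≤ jP (es, R.β) rg κ := Nat.le_add_right _ _
  have hm16 : 16 ≤ R.m := by
    rw [hm]; exact le_trans (by norm_num) (Nat.pow_le_pow_right (by norm_num) hj)
  have hm5 : 16 ≤ R.m ^ 5 := hm16.trans (Nat.le_self_pow (by norm_num) _)
  have hW : ∀ e : R.E, 0 ≤ hubW (es, R.β) R.root e ∧ hubW (es, R.β) R.root e ≤ 1 := fun e => by
    unfold hubW; split_ifs <;> simp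
  have hlc : ∀ e, R.lf e ≤ R.cf e := fun e => by
    rw [h.l, h.c]
    split_ifs with he
    · exact ((hr ⟨e, he⟩).1 _ hx).1
    · have := hW e; omega
  have hcu : ∀ e, R.cf e ≤ R.uf e := fun e => by
    rw [h.u, h.c]
    split_ifs with he
    · exact ((hr ⟨e, he⟩).1 _ hx).2
    · exact (hW e).1
  have hwd : ∀ e : R.E, (e : ℕ) < es.length → R.uf e - R.lf e = wd rg e := fun e he => by
    have := (hlc e).trans (hcu e)
    rw [h.l, h.u, if_pos he, if_pos he] at this ⊢
    rw [wd, Int.toNat_of_nonneg (by omega)]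
  have hbig : ∀ e : R.E, 2 ≤ R.kd e → (e : ℕ) < es.length ∧ R.m ^ 5 ≤ wd rg e ∧
      R.qf e = 2 ^ (wd rg e / R.m ^ 5).log2 ∧ R.qf e = bq (es, R.β) rg R.m e := fun e he => by
    have h1 := (h.big_iff e).1 he
    have h2 : R.qf e = bq (es, R.β) rg R.m e := by rw [h.q]; omega
    by_cases h3 : (e : ℕ) < es.length ∧ R.m ^ 5 ≤ wd rg e
    · exact ⟨h3.1, h3.2, by rw [h2, bq, if_pos h3], h2⟩
    · rw [bq, if_neg h3] at h1; omega
  have hsmall : ∀ e : R.E, R.kd e < 2 → R.qf e = 1 := fun e he => by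
    have := (h.big_iff e).not.1 (not_le.2 he)
    rw [h.q]; omega
  have hlo : ∀ e : R.E, 2 ≤ R.kd e → R.qf e * R.m ^ 5 ≤ wd rg e := fun e he => by
    obtain ⟨-, h2, h3, -⟩ := hbig e he
    rw [h3, ← Nat.le_div_iff_mul_le (by omega)]
    exact Nat.log2_self_le (Nat.div_pos h2 (by omega)).ne'
  have hs : ∀ e : R.E, (wd rg e).size + 2 ≤ sP (es, R.β) rg := fun e => by
    rw [sP_eq]
    exact single_le_sum (f := fun i => (wd rg i).size + 2) (fun _ _ => Nat.zero_le _)
      (mem_range.2 (h.lt e))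
  have htwo : ∀ e : R.E, R.kd e = 2 ↔ tr.getD e false = true := fun e => by
    constructor
    · intro he
      rw [h.kd] at he
      split_ifs at he with h1 h2 h3
      · exact h3
      · omega
      · omega
    · intro he
      have h1 := hf.tr_q e he
      rw [h.kd, if_pos (hbig e ((h.big_iff e).2 h1)).1, if_neg h1.ne', if_pos he]
  have hwit : ∀ (e : R.E) (he : (e : ℕ) < es.length) (z : Fin es.length → ℤ),
      z ∈ NetL.flows (es, R.β) → ∃ y ∈ R.flows, y e = z ⟨e, he⟩ := fun e he z hz => by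
    obtain ⟨y, hy, e1⟩ := h.exists_ext hr hz
    exact ⟨y, hy, congrFun e1 ⟨e, he⟩⟩
  refine
    { noLoop := fun e => ?_
      l_le_c := hlc
      c_le_u := hcu
      dv_c := ?_
      kd_le := fun e => by rw [h.kd]; split_ifs <;> omega
      hub_tl := fun e he => (h.val_hub ((h.hub_iff e).1 he)).1
      hub_c := fun e he => by rw [h.c, if_neg (not_lt.2 ((h.hub_iff e).1 he))]
      hub_root := fun e he h1 => ?_
      hub_nonroot := fun e he h1 => ?_
      hub_inj := fun e e' he he' h1 => ?_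
      hub_ex := fun v hv => ?_
      rt_star := hf.rt_isolated _ fun e he => ?_
      rt_rt := hf.rt_rt
      P_root := hf.P_root
      dv_P := hf.dv_P
      P_tree := fun v e h1 => (htwo e).2 (hf.P_tree v e h1)
      P_abs := hf.P_abs
      L_tree := fun e he => hf.L_tree e ((htwo e).1 he)
      big_rt := fun e he => hf.big_rt e ((h.big_iff e).1 he)
      big_mono := fun e g he h1 => ?_
      big_lo := fun e he => by rw [hwd e (hbig e he).1]; exact_mod_cast hlo e he
      big_hi := fun e he => ?_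
      q_pow := fun e => ?_
      A_pow := fun e he => ?_
      small_q := hsmall
      small_w := fun e he => ?_
      wit_l := fun e he => ?_
      wit_u := fun e he => ?_
      one_le := hκ
      hm := by rw [hm, hℓ, h.len]; exact numerics rfl
      hℓ := by
        rw [hm, hℓ, ← pow_mul]
        exact Nat.pow_le_pow_right (by norm_num) (by omega)
      hΓ := ?_ }
  · by_cases he : (e : ℕ) < es.length
    · exact (h.val_real hN he).2.2
    · obtain ⟨h1, h2⟩ := h.val_hub (not_lt.1 he)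
      intro h3
      have := h.lt e
      rw [← h3, h1, Raw.star, Fin.val_last] at h2
      omega
  · refine (dv_ext h.le _ _ h.G_tl h.G_hd R.cf fun e he => ?_).trans
      (Eq.trans (congrArg _ (funext fun e => ?_)) (mem_filter.1 hx).2)
    · rw [h.c, if_neg (not_lt.2 he)]
    · exact (h.c _).trans (if_pos e.2)
  · have he' := (h.hub_iff e).1 he
    rw [h.l, h.u, if_neg (not_lt.2 he'), if_neg (not_lt.2 he'), h.hubW_eq he', if_pos h1]
    exact ⟨rfl, rfl⟩
  · have he' := (h.hub_iff e).1 he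
    rw [h.l, h.u, if_neg (not_lt.2 he'), if_neg (not_lt.2 he'), h.hubW_eq he', if_neg h1]
    exact ⟨rfl, rfl⟩
  · have h2 := (h.hub_iff e).1 he
    have h3 := (h.hub_iff e').1 he'
    have h4 := (h.val_hub h2).2
    rw [h1, (h.val_hub h3).2] at h4
    ext
    omega
  · have h1 : (v : ℕ) < R.nV := Fin.val_lt_last hv
    have h2 : R.nE = es.length + R.nV := h.len
    refine ⟨⟨es.length + v, by omega⟩, (h.hub_iff _).2 (Nat.le_add_right _ _), ?_⟩
    ext
    rw [(h.val_hub (Nat.le_add_right _ _)).2]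
    exact Nat.add_sub_cancel_left _ _
  · obtain ⟨h1, h2, -⟩ := h.val_real hN (hbig e ((h.big_iff e).2 he)).1
    exact ⟨fun h3 => by rw [h3, Raw.star, Fin.val_last] at h1; omega,
      fun h3 => by rw [h3, Raw.star, Fin.val_last] at h2; omega⟩
  · have := hf.big_mono e g ((h.big_iff e).1 he) h1
    rw [(hbig e he).2.2.2, h.q]
    exact this.trans (le_max_left _ _)
  · obtain ⟨h1, -, h3, -⟩ := hbig e he
    rw [hwd e h1, h3, Nat.cast_lt, ← pow_succ', ← Nat.div_lt_iff_lt_mul (by omega)]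
    exact Nat.lt_log2_self
  · by_cases he : 2 ≤ R.kd e
    · have h1 := log2_le_size (Nat.div_le_self (wd rg e) (R.m ^ 5))
      have h2 := hs e
      exact ⟨_, by omega, (hbig e he).2.2.1⟩
    · exact ⟨0, Nat.zero_le _, hsmall e (not_le.1 he)⟩
  · have h1 := log2_le_size (Nat.div_le_self (wd rg e) (R.m ^ 5))
    have h2 := hs e
    refine ⟨1 + (wd rg e / R.m ^ 5).log2 + jP (es, R.β) rg κ * 2, by omega, ?_⟩
    rw [Raw.Am, if_pos he, (hbig e (by omega)).2.2.1, pow_add, pow_add, pow_mul, ← hm, pow_one,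
      mul_assoc]
  · by_cases h1 : (e : ℕ) < es.length
    · have h2 := (h.big_iff e).not.1 (not_le.2 he)
      rw [hwd e h1, Nat.cast_lt]
      by_contra h3
      rw [bq, if_pos ⟨h1, not_lt.1 h3⟩] at h2
      exact h2 (by positivity)
    · have := hW e
      rw [h.l, h.u, if_neg h1, if_neg h1]
      omega
  · obtain ⟨z, hz, e1⟩ := (hr ⟨e, (hbig e he).1⟩).2.1
    obtain ⟨y, hy, e2⟩ := hwit e (hbig e he).1 z hz
    exact ⟨y, hy, by rw [e2, h.l, if_pos (hbig e he).1]; exact e1⟩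
  · obtain ⟨z, hz, e1⟩ := (hr ⟨e, (hbig e he).1⟩).2.2
    obtain ⟨y, hy, e2⟩ := hwit e (hbig e he).1 z hz
    exact ⟨y, hy, by rw [e2, h.u, if_pos (hbig e he).1]; exact e1⟩
  · rw [Raw.box, Fintype.card_piFinset]
    refine le_trans (prod_le_prod' (g := fun e : R.E => 2 ^ ((wd rg e).size + 2)) fun e _ => ?_) ?_
    · have h1 := Nat.lt_size_self (wd rg e)
      rw [Int.card_Icc, pow_add]
      by_cases h2 : 2 ≤ R.kd e
      · have h3 := hlo e h2
        have h4 := hwd e (hbig e h2).1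
        have h5 : 16 * (R.qf e * R.m ^ 4) ≤ R.qf e * R.m ^ 5 := by
          rw [pow_succ _ 4, ← mul_assoc (R.qf e), mul_comm 16]
          exact Nat.mul_le_mul_left _ hm16
        rw [Raw.Dm, if_pos h2]
        omega
      · rw [Raw.Dm, if_neg h2]
        by_cases h3 : (e : ℕ) < es.length
        · have h4 := hwd e h3
          omega
        · have := hW e
          rw [h.l, h.u, if_neg h3, if_neg h3]
          omega
    · rw [prod_pow_eq_pow_sum, Fin.sum_univ_eq_sum_range fun i => (wd rg i).size + 2, h.len,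
        ← sP_eq]
      exact Nat.pow_le_pow_right (by norm_num) (by omega)

end sem

end Pre

theorem exists_pre : ∃ pre : NetL × Un → Option Raw, Poly pre ∧ ∀ (N : NetL) (κ : Un), N.WF →
    1 ≤ κ.n → (pre (N, κ) = none → N.flows = ∅) ∧
      ∀ R, pre (N, κ) = some R → R.Valid κ.n ∧ R.flows.card = N.flows.card := by
  obtain ⟨feas, hfeas, sfeas⟩ := exists_feas
  obtain ⟨rng, hrng, srng⟩ := exists_range
  obtain ⟨f, hf, sf⟩ := exists_forest
  refine ⟨fun a => (feas a.1).map fun x => Pre.build a.1 (rng a.1) x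
    ⟨2 ^ Pre.jP a.1 (rng a.1) a.2.n⟩ ⟨Pre.sP a.1 (rng a.1) + 64 * Pre.jP a.1 (rng a.1) a.2.n⟩
    (f (Pre.mkF a.1 (rng a.1) (2 ^ Pre.jP a.1 (rng a.1) a.2.n), ⟨a.1.2.length⟩)), ?_, ?_⟩
  · refine Poly.optionMap (by fun_prop) (Pre.poly_build (by fun_prop) (by fun_prop) (by fun_prop)
      (Poly.unMk (by fun_prop) (Pre.pb_two_pow_jP (by fun_prop) (by fun_prop) (by fun_prop)))
      (by fun_prop) (by fun_prop))
  · intro N κ hN hκ
    obtain ⟨h0, h1⟩ := sfeas N hN
    refine ⟨fun h => h0 (Option.map_eq_none_iff.1 h), fun R hR => ?_⟩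
    obtain ⟨x, hx, rfl⟩ := Option.map_eq_some_iff.1 hR
    obtain ⟨-, hx'⟩ := h1 x hx
    obtain ⟨-, hr⟩ := srng N hN ⟨_, hx'⟩
    dsimp only
    set m := 2 ^ Pre.jP N (rng N) κ.n with hm
    set F := f (Pre.mkF N (rng N) m, ⟨N.2.length⟩) with hF
    have hS := Pre.shape_build N (rng N) x ⟨m⟩ ⟨Pre.sP N (rng N) + 64 * Pre.jP N (rng N) κ.n⟩ F
    exact ⟨hS.valid hN hr hx' (hS.spec (sf (Pre.mkF N (rng N) m, ⟨N.2.length⟩))) hκ rfl rfl,
      hS.card_flows hr⟩

end Crest.Agent.R309
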