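import Crest.Agent.R309.RamDefs
import Crest.Agent.Lib.RamC.IO

/-!
# Row 309: compiling `Code` to the word RAM
-/

set_option autoImplicit false

namespace Crest.Agent.R309

open Crest.WordRAM Crest.Agent.Lib.PolyTime

namespace RamC

open Function Crest.Agent.Lib.RamC

variable {w : ℕ} {ρ : ℕ → ℕ}

/-- Initial phase: build the code of the input and of the number of random bits. -/
def ini (c₀ c₁ : Code) : Stmt :=
  .seq (.seq (.op (.const 3 1)) <| .seq (.op (.const 4 2)) <| .seq (.op (.add 5 0 3))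
    (.op (.add 2 5 4))) <|
  .seq (.op (.copy 10 0)) <| .seq (.op (.const 9 0)) <| .seq (inp 9) <| .seq (cc c₀ 9) <|
  .seq (.op (.copy 6 9)) <| .seq (cc c₁ 9) <| .seq (.op (.copy 7 9)) (.op (.copy 8 2))

/-- One round. -/
def rnd (c₂ : Code) : Stmt :=
  .seq (.op (.copy 2 8)) <| .seq (.op (.copy 10 7)) <| .seq (.op (.const 9 0)) <|
  .seq (draw 9) <| .seq (cons 9 6 9) (cc c₂ 9)

/-- Output phase. -/
def fin : Stmt :=
  .seq (.op (.load 10 9)) <| .seq (.op (.copy 1 2)) <| .seq (outp 10) (.op (.sub 0 2 1))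

/-- The invariant at the start of each round. -/
structure Inv (x : List ℕ) (m G : ℕ) (σ : St) : Prop where
  one : σ.R 3 = 1
  two : σ.R 4 = 2
  tru : Rep σ.M (σ.R 8) (.node .nil .nil) (σ.R 5)
  inp : Rep σ.M (σ.R 8) (enc x) (σ.R 6)
  un : Rep σ.M (σ.R 8) (enc (List.replicate m ())) (σ.R 7)
  pos : 0 < σ.R 8
  le : σ.R 8 ≤ 10 * G

/-- The initial state. -/
def st₀ (w : ℕ) (x : List ℕ) : St :=
  ⟨fun j => if j = 0 then x.length % 2 ^ w else 0, fun i => x[i]?.getD 0 % 2 ^ w, 0, 0⟩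

theorem tr_ini {c₀ c₁ : Code} {x : List ℕ} {m G n₀ n₁ : ℕ} (hx : Fits w x) (hG : sz x ≤ G)
    (h₀ : Ev c₀ (enc (x.map fun a => a.bits.reverse)) (enc x) n₀) (hn₀ : n₀ ≤ G)
    (h₁ : Ev c₁ (enc x) (enc (List.replicate m ())) n₁) (hn₁ : n₁ ≤ G) (hw : 10 * G < 2 ^ w) :
    Tr w ρ (ini c₀ c₁) (st₀ w x) fun σ =>
      Inv x m G σ ∧ σ.drawn = 0 ∧ σ.time ≤ (cK c₀ + cK c₁ + 21) * G := by
  have hl := length_lt_sz x
  have key : Tr w ρ (.seq (.op (.const 3 1)) <| .seq (.op (.const 4 2)) <|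
      .seq (.op (.add 5 0 3)) (.op (.add 2 5 4))) (st₀ w x) fun σ =>
      σ.R 0 = x.length ∧ σ.R 2 = x.length + 3 ∧ σ.R 3 = 1 ∧ σ.R 4 = 2 ∧ σ.R 5 = x.length + 1 ∧
      σ.M = (st₀ w x).M ∧ σ.drawn = 0 ∧ σ.time = 4 := by
    refine .seq (.op (.seq (.op (.seq (.op (.op ?_))))))
    have e0 : x.length % 2 ^ w = x.length := Nat.mod_eq_of_lt (by omega)
    have e1 : 1 % 2 ^ w = 1 := Nat.mod_eq_of_lt (by omega)
    have e2 : 2 % 2 ^ w = 2 := Nat.mod_eq_of_lt (by omega)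
    have e3 : (x.length + 1) % 2 ^ w = x.length + 1 := Nat.mod_eq_of_lt (by omega)
    have e4 : (x.length + 1 + 2) % 2 ^ w = x.length + 3 := Nat.mod_eq_of_lt (by omega)
    simp [Op.ap, st₀, e0, e1, e2, e3, e4]
  refine key.bind fun σ₀ ⟨r0, r2, r3, r4, r5, m₀, d₀, t₀⟩ => ?_
  have hg : Good w σ₀ (6 * G) := ⟨r3, by omega, by omega⟩
  have hc : Cst σ₀ := by
    refine ⟨r4, by omega, by omega, ?_, ?_⟩
    · rw [m₀, r5]; simp [st₀, Lib.RamC.Rep]
    · rw [m₀, r5]; simp [st₀, Lib.RamC.Rep, Nat.add_assoc]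
  refine (tr_copy (by omega)).bind fun σ₁ u₁ => ?_
  refine (tr_const (by omega) 0).bind fun σ₂ u₂ => ?_
  have F₂ := u₁.fr.trans u₂.fr
  refine (tr_inp (k := 9) (by omega) x σ₂ [] (hg.fr F₂ (by omega) (by omega))
    (hc.fr F₂ (by omega)) (by rw [u₂.ne _ (by omega), u₁.val, r0])
    (by have := F₂.hp_ge; omega) (fun j hj => ?_)
    (by rw [u₂.val]; exact Nat.zero_mod _)).bind fun σ₃ ⟨r₃, f₃⟩ => ?_
  · rw [u₂.mem, u₁.mem, m₀]
    simp [st₀, hj, Nat.mod_eq_of_lt (hx.2 _ (List.getElem_mem hj))]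
  have F₃ := F₂.trans f₃
  rw [List.append_nil] at r₃
  refine (tr_cc h₀ 9 (by omega) σ₃ (hg.fr F₃ (by omega) (by omega)) r₃).bind
    fun σ₄ ⟨r₄, f₄⟩ => ?_
  have F₄ := F₃.trans f₄
  refine (tr_copy (by omega)).bind fun σ₅ u₅ => ?_
  have F₅ := F₄.trans u₅.fr
  refine (tr_cc h₁ 9 (by omega) σ₅ (hg.fr F₅ (by omega) (by omega))
    (by rw [u₅.ne 9 (by omega)]; exact u₅.fr.rep r₄)).bind fun σ₆ ⟨r₆, f₆⟩ => ?_
  have F₆ := F₅.trans f₆
  refine (tr_copy (by omega)).bind fun σ₇ u₇ => ?_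
  have F₇ := F₆.trans u₇.fr
  refine (tr_copy (by omega)).mono fun σ₈ u₈ => ?_
  have F₈ := F₇.trans u₈.fr
  have e₈ : σ₈.R 8 = σ₈.R 2 := by rw [u₈.val, u₈.ne 2 (by omega)]
  have hc₈ := hc.fr F₈ (by omega)
  refine ⟨⟨(F₈.regs 3 (by omega) (by omega)).trans r3, hc₈.two, e₈ ▸ hc₈.tru, ?_, ?_,
    by have := F₈.hp_ge; omega, by have := F₈.hp_le; omega⟩, by rw [F₈.drawn, d₀], ?_⟩
  · rw [e₈]
    refine ((f₆.trans u₇.fr).trans u₈.fr).repR (by omega) (by omega) ?_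
    rw [u₅.val]; exact u₅.fr.rep r₄
  · rw [e₈]
    refine u₈.fr.repR (by omega) (by omega) ?_
    rw [u₇.val]; exact u₇.fr.rep r₆
  · have := F₈.time
    have := Nat.mul_le_mul_left (cK c₀) hn₀
    have := Nat.mul_le_mul_left (cK c₁) hn₁
    rw [Nat.add_mul, Nat.add_mul]
    omega

theorem tr_rnd {c₂ : Code} {x : List ℕ} {m G n : ℕ} {σ : St} {v : V} (hσ : Inv x m G σ)
    (hG : 1 ≤ G) (hm : m ≤ G) (h : Ev c₂ (enc (x, (lows w ρ σ.drawn m).reverse)) v n)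
    (hw : 14 * G + 2 * n < 2 ^ w) :
    Tr w ρ (rnd c₂) σ fun σ' => Inv x m G σ' ∧ Rep σ'.M (σ'.R 2) v (σ'.R 9) ∧
      0 < σ'.R 2 ∧ σ'.R 2 ≤ 14 * G + 2 * n ∧ σ'.drawn = σ.drawn + m ∧
      σ'.time ≤ σ.time + 24 * G + cK c₂ * n := by
  have key : Tr w ρ (.op (.copy 2 8)) σ fun σ' => σ'.R 2 = σ.R 8 ∧
      (∀ j, j ≠ 2 → σ'.R j = σ.R j) ∧ σ'.M = σ.M ∧ σ'.drawn = σ.drawn ∧ σ'.time = σ.time + 1 :=
    .op ⟨by simp [Op.ap], fun j hj => by simp [Op.ap, hj], rfl, rfl, rfl⟩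
  refine key.bind fun σ₀ ⟨r2, n₀, m₀, d₀, t₀⟩ => ?_
  have hle := hσ.le
  have hpos := hσ.pos
  have hg : Good w σ₀ (4 * G + 2 * n) := ⟨(n₀ 3 (by omega)).trans hσ.one, by omega, by omega⟩
  have hc : Cst σ₀ := ⟨(n₀ 4 (by omega)).trans hσ.two, by rw [r2, m₀, n₀ 5 (by omega)]; exact hσ.tru⟩
  have hx : Rep σ₀.M (σ₀.R 2) (enc x) (σ₀.R 6) := by rw [r2, m₀, n₀ 6 (by omega)]; exact hσ.inp
  have hu : Rep σ₀.M (σ₀.R 2) (enc (List.replicate m ())) (σ₀.R 7) := by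
    rw [r2, m₀, n₀ 7 (by omega)]; exact hσ.un
  refine (tr_copy (by omega)).bind fun σ₁ u₁ => ?_
  refine (tr_const (by omega) 0).bind fun σ₂ u₂ => ?_
  have F₂ := u₁.fr.trans u₂.fr
  refine (tr_draw (k := 9) (by omega) m σ₂ [] (hg.fr F₂ (by omega) (by omega))
    (hc.fr F₂ (by omega)) (by rw [u₂.ne (9 + 1) (by omega), u₁.val]; exact F₂.rep hu)
    (by rw [u₂.val]; exact Nat.zero_mod _)).bind fun σ₃ ⟨r₃, f₃⟩ => ?_
  have F₃ := F₂.trans f₃
  rw [List.append_nil, F₂.drawn, d₀] at r₃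
  refine (tr_cons (hg.fr F₃ (by omega) (by omega)) (by omega) (by omega)
    (F₃.repR (by omega) (by omega) hx) r₃).bind fun σ₄ ⟨r₄, _, f₄⟩ => ?_
  have F₄ := F₃.trans f₄
  refine (tr_cc h 9 (by omega) σ₄ (hg.fr F₄ (by omega) (by omega)) r₄).mono
    fun σ₅ ⟨r₅, f₅⟩ => ?_
  have F₅ := F₄.trans f₅
  have hR : ∀ j, j < 9 → j ≠ 2 → σ₅.R j = σ.R j := fun j h1 h2 =>
    (F₅.regs j (by omega) h2).trans (n₀ j h2)
  have hM : ∀ a, a < σ.R 8 → σ₅.M a = σ.M a := fun a ha => by rw [F₅.mem a (by omega), m₀]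
  have e8 := hR 8 (by omega) (by omega)
  refine ⟨⟨(hR 3 (by omega) (by omega)).trans hσ.one, (hR 4 (by omega) (by omega)).trans hσ.two,
    ?_, ?_, ?_, by omega, by omega⟩, r₅, by have := F₅.hp_ge; omega, by have := F₅.hp_le; omega,
    by have := F₅.drawn; omega, by have := F₅.time; omega⟩
  · rw [e8, hR 5 (by omega) (by omega)]; exact hσ.tru.mono hM le_rfl
  · rw [e8, hR 6 (by omega) (by omega)]; exact hσ.inp.mono hM le_rfl
  · rw [e8, hR 7 (by omega) (by omega)]; exact hσ.un.mono hM le_rfl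

theorem tr_fin {out : List ℕ} {σ : St} (hg : Good w σ out.length)
    (h : Rep σ.M (σ.R 2) (enc (some out)) (σ.R 9)) (hw : ∀ a ∈ out, a < 2 ^ w) :
    Tr w ρ fin σ fun σ' => (List.range (σ'.R 0)).map (fun i => σ'.M (σ'.R 1 + i)) = out ∧
      σ'.drawn = σ.drawn ∧ σ'.time ≤ σ.time + 9 * sz out + 3 := by
  rw [enc_some] at h
  refine (tr_load (by omega)).bind fun σ₁ u₁ => ?_
  refine (tr_copy (by omega)).bind fun σ₂ u₂ => ?_
  have F₂ := u₁.fr.trans u₂.fr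
  have e2 : σ₂.R 2 = σ.R 2 := by rw [u₂.ne _ (by omega), u₁.ne _ (by omega)]
  have g₂ : Good w σ₂ out.length :=
    ⟨by rw [u₂.ne _ (by omega), u₁.ne _ (by omega), hg.one], e2 ▸ hg.pos, e2 ▸ hg.room⟩
  refine (tr_outp (k := 10) (H := σ₂.R 2) (by omega) out σ₂ le_rfl g₂
    (by rw [u₂.ne 10 (by omega), u₁.val]; exact F₂.rep h.2.2.1) hw).bind
    fun σ₃ ⟨e₃, m₃, f₃⟩ => ?_
  have e1 : σ₃.R 1 = σ₂.R 2 := by
    rw [f₃.regs 1 (by omega) (by omega), u₂.val, u₂.ne 2 (by omega)]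
  refine (tr_sub (by omega)).mono fun σ₄ u₄ => ⟨?_, ?_, ?_⟩
  · rw [u₄.val, u₄.ne 1 (by omega), u₄.mem, e₃, e1, Nat.add_sub_cancel_left]
    refine List.ext_getElem (by simp) fun j h1 h2 => ?_
    simp only [List.getElem_map, List.getElem_range]
    exact m₃ j h2
  · have := ((F₂.trans f₃).trans u₄.fr).drawn; omega
  · have := ((F₂.trans f₃).trans u₄.fr).time; omega

theorem main (c₀ c₁ c₂ : Code) : ∃ (P : Program) (K : ℕ), ∀ (x : List ℕ) (w G m : ℕ)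
    (τ : List Bool → ℕ) (F : List Bool → Option (List ℕ)), Fits w x → sz x ≤ G → m ≤ G →
    (∃ n, n ≤ G ∧ Ev c₀ (enc (x.map fun a => a.bits.reverse)) (enc x) n) →
    (∃ n, n ≤ G ∧ Ev c₁ (enc x) (enc (List.replicate m ())) n) →
    (∀ u : List Bool, u.length = m → ∃ n, n ≤ G + τ u ∧ Ev c₂ (enc (x, u.reverse)) (enc (F u)) n) →
    (∀ u : List Bool, u.length = m → K * (G + τ u) < 2 ^ w) →
    (∀ (u : List Bool) (out : List ℕ), u.length = m → F u = some out → ∀ a ∈ out, a < 2 ^ w) →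
    ∃ Start, RoundSpec P w x m (K * G) (fun u => K * (G + τ u)) F Start := by
  set N := max (ini c₀ c₁).mr (max (rnd c₂).mr (max fin.mr 9)) with hN
  set L₁ := (ini c₀ c₁).len with hL₁
  set L₂ := L₁ + (rnd c₂).len with hL₂
  set code : List (Instr (N + 1)) := (ini c₀ c₁).flat N 0 ++ ((rnd c₂).flat N L₁ ++
    (.jumpIfZero (rg N 9) L₁ :: (fin.flat N (L₂ + 1) ++ [.halt]))) with hcode
  have A₀ : At code 0 code := ⟨[], [], by simp, rfl⟩
  have A₁ : At code 0 ((ini c₀ c₁).flat N 0) := At.left A₀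
  have A₂' := At.right A₀
  rw [Stmt.length_flat, Nat.zero_add] at A₂'
  have A₂ := A₂'.left
  have A₃' := A₂'.right
  rw [Stmt.length_flat] at A₃'
  have A₃ := A₃'.head
  have A₄ := A₃'.tail.left
  have A₅ := A₃'.tail.right.head
  rw [Stmt.length_flat] at A₅
  refine ⟨⟨N + 1, code⟩, cK c₀ + cK c₁ + cK c₂ + 40, ?_⟩
  rintro x w G m τ F hx hG hm ⟨n₀, hn₀, h₀⟩ ⟨n₁, hn₁, h₁⟩ h₂ hw hout
  have hG1 : 1 ≤ G := (one_le_sz x).trans hG
  refine ⟨fun c => ∃ σ : St, c = σ.cfg N L₁ ∧ Inv x m G σ, ?_, ?_, ?_⟩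
  · rintro c ⟨σ, rfl, -⟩
    rfl
  · intro ρ
    have hw' := hw (List.replicate m false) (by simp)
    obtain ⟨σ, he, hi, hd, ht⟩ := tr_ini (ρ := ρ) hx hG h₀ hn₀ h₁ hn₁ (by nlinarith)
    obtain ⟨n, hn, e⟩ := he.flat (N := N) (code := code) (by omega) 0 A₁
    have e' : run ⟨N + 1, code⟩ w ρ x n = σ.cfg N L₁ := by
      rw [Nat.zero_add] at e
      exact e
    refine ⟨n, ?_, ⟨σ, e', hi⟩, by rw [e']; exact hd⟩
    have : (st₀ w x).time = 0 := rfl
    nlinarith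
  · rintro ρ c ⟨σ, rfl, hi⟩
    have hlen : (lowBits w ρ σ.drawn m).length = m := length_lows _ _
    obtain ⟨n₂, hn₂, h₂⟩ := h₂ _ hlen
    have hw' := hw _ hlen
    obtain ⟨σ₁, he, hi₁, hr, hp, hb, hd, ht⟩ := tr_rnd (ρ := ρ) hi hG1 hm h₂ (by nlinarith)
    obtain ⟨n, hn, e⟩ := he.flat (N := N) (code := code) (by omega) L₁ A₂
    change ∃ n, 1 ≤ n ∧ n ≤ _ * (G + τ (lowBits w ρ σ.drawn m)) ∧
      ((step ⟨N + 1, code⟩ w ρ)^[n] (σ.cfg N L₁)).drawn = σ.drawn + m ∧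
      (∀ out, F (lowBits w ρ σ.drawn m) = some out → _) ∧ (F (lowBits w ρ σ.drawn m) = none → _)
    have hK := Nat.mul_le_mul_left (cK c₂) hn₂
    cases hF : F (lowBits w ρ σ.drawn m) with
    | none =>
      rw [hF] at hr
      have e' : (step ⟨N + 1, code⟩ w ρ)^[1 + n] (σ.cfg N L₁) = σ₁.cfg N L₁ := by
        rw [iterate_add_apply, e, iterate_one, step_jz_z (by omega) A₃ σ₁ hr]
      refine ⟨1 + n, by omega, by nlinarith, by rw [e']; exact hd, by simp, fun _ => ⟨σ₁, e', hi₁⟩⟩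
    | some out =>
      rw [hF] at hr h₂
      have hs : sz out + 2 ≤ n₂ := h₂.size_out
      have hl := length_lt_sz out
      obtain ⟨σ₂, he₂, ho, hd₂, ht₂⟩ := tr_fin (ρ := ρ) ⟨hi₁.one, hp, by nlinarith⟩ hr
        (hout _ _ hlen hF)
      obtain ⟨n', hn', e₂⟩ := he₂.flat (N := N) (code := code) (by omega) (L₂ + 1) A₄
      have e' : (step ⟨N + 1, code⟩ w ρ)^[1 + (n' + (1 + n))] (σ.cfg N L₁) =
          { σ₂.cfg N (L₂ + 1 + fin.len) with halted := true } := by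
        rw [iterate_add_apply, iterate_add_apply, iterate_add_apply, e, iterate_one,
          step_jz_nz (by omega) A₃ σ₁ hr.1.ne', e₂, step_halt A₅]
      refine ⟨1 + (n' + (1 + n)), by omega, by nlinarith, by rw [e']; exact hd₂.trans hd,
        fun out' h' => ?_, by simp⟩
      obtain rfl : out = out' := Option.some.inj h'
      rw [e']
      refine ⟨rfl, ?_⟩
      have h1 : 1 < N + 1 := by omega
      simpa [Cfg.output, Cfg.reg, St.cfg, h1] using ho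

theorem eval_le_pow (p : Polynomial ℕ) : ∃ C d : ℕ, ∀ s, 1 ≤ s → p.eval s ≤ C * s ^ d := by
  induction p using Polynomial.induction_on' with
  | add p q hp hq =>
    obtain ⟨C, d, h⟩ := hp
    obtain ⟨C', d', h'⟩ := hq
    refine ⟨C + C', d + d', fun s hs => ?_⟩
    have h1 : s ^ d ≤ s ^ (d + d') := Nat.pow_le_pow_right hs (by omega)
    have h2 : s ^ d' ≤ s ^ (d + d') := Nat.pow_le_pow_right hs (by omega)
    have := h s hs
    have := h' s hs
    rw [Polynomial.eval_add]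
    nlinarith
  | monomial k c => exact ⟨c, k, fun s _ => by simp [Polynomial.eval_monomial]⟩

theorem enc_map_bits (x : List ℕ) : enc (x.map Nat.bits) = enc x := by
  induction x with
  | nil => rfl
  | cons a x ih => simp [ih, enc_nat]

theorem sz_map_rev (x : List ℕ) : sz (x.map fun a => a.bits.reverse) = sz x := by
  induction x with
  | nil => rfl
  | cons a x ih => simp [ih, sz_nat]

end RamC

/-- A round computed by a `Code` at cost `T`, with a polynomial-time computable number of random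
bits, is implemented by a word-RAM program with linear overhead, provided the words are long
enough to address the heap and to hold the input and the output. -/
theorem exists_roundSpec {r : List ℕ → Un} (hr : Poly r)
    {f : List ℕ × List Bool → Option (List ℕ)} {T : List ℕ × List Bool → ℕ} (hf : Cmp f T) :
    ∃ (P : Program) (C d : ℕ), ∀ (x : List ℕ) (w : ℕ), Fits w x →
      (∀ u : List Bool, u.length = (r x).n → C * (sz x ^ d + T (x, u)) < 2 ^ w) →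
      (∀ (u : List Bool) (out : List ℕ), u.length = (r x).n → f (x, u) = some out →
        ∀ a ∈ out, a < 2 ^ w) →
      ∃ Start, RoundSpec P w x (r x).n (C * sz x ^ d) (fun u => C * (sz x ^ d + T (x, u)))
        (fun u => f (x, u)) Start := by
  have hpre : Poly fun y : List (List Bool) => y.map List.reverse := by fun_prop
  have hrev : Poly fun p : List ℕ × List Bool => (p.1, p.2.reverse) := by fun_prop
  obtain ⟨T₀, ⟨p₀, hp₀⟩, c₀, hc₀⟩ := hpre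
  obtain ⟨T₁, ⟨p₁, hp₁⟩, hc₁⟩ := hr
  obtain ⟨U, ⟨p₂, hp₂⟩, hU⟩ := hrev
  have hsz := hc₁.sz_le
  obtain ⟨c₁, hc₁⟩ := hc₁
  obtain ⟨c₂, hc₂⟩ := hf.comp hU
  obtain ⟨P, K, hP⟩ := RamC.main c₀ c₁ c₂
  obtain ⟨A, d, hA⟩ := RamC.eval_le_pow
    (Polynomial.X + p₀ + p₁ + p₂.comp (Polynomial.X + 4 * p₁ + 2))
  refine ⟨P, K * (A + 1), d, fun x w hx hw hout => ?_⟩
  have hs := hA (sz x) (one_le_sz x)
  simp only [Polynomial.eval_add, Polynomial.eval_X, Polynomial.eval_comp, Polynomial.eval_mul,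
    Polynomial.eval_ofNat] at hs
  have hm : (r x).n ≤ p₁.eval (sz x) := by
    have := hsz x
    have := hp₁ x
    have := sz_un (r x)
    omega
  have hle : ∀ u : List Bool, K * (A * sz x ^ d + T (x, u)) ≤ K * (A + 1) * (sz x ^ d + T (x, u)) := by
    intro u
    rw [Nat.mul_assoc]
    exact Nat.mul_le_mul_left _ (by nlinarith [Nat.zero_le (sz x ^ d), Nat.zero_le (A * T (x, u))])
  have H₀ : ∃ n, n ≤ A * sz x ^ d ∧ Ev c₀ (enc (x.map fun a => a.bits.reverse)) (enc x) n := by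
    obtain ⟨n, hn, h⟩ := hc₀ (x.map fun a => a.bits.reverse)
    have h1 := hp₀ (x.map fun a => a.bits.reverse)
    rw [RamC.sz_map_rev] at h1
    refine ⟨n, by omega, ?_⟩
    rw [← RamC.enc_map_bits x]
    simpa [List.map_map, Function.comp_def] using h
  have H₁ : ∃ n, n ≤ A * sz x ^ d ∧ Ev c₁ (enc x) (enc (List.replicate (r x).n ())) n := by
    obtain ⟨n, hn, h⟩ := hc₁ x
    have := hp₁ x
    exact ⟨n, by omega, h⟩
  have H₂ : ∀ u : List Bool, u.length = (r x).n → ∃ n, n ≤ A * sz x ^ d + T (x, u) ∧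
      Ev c₂ (enc (x, u.reverse)) (enc (f (x, u))) n := by
    intro u hu
    obtain ⟨n, hn, h⟩ := hc₂ (x, u.reverse)
    simp only [List.reverse_reverse] at hn h
    refine ⟨n, ?_, h⟩
    have h1 := hp₂ (x, u.reverse)
    have h2 : sz (x, u.reverse) ≤ sz x + 4 * p₁.eval (sz x) + 2 := by
      have := sz_listBool_le u
      simp only [sz_pair, sz_reverse]
      omega
    have h3 := eval_mono p₂ h2
    omega
  obtain ⟨Start, hS⟩ := hP x w (A * sz x ^ d) (r x).n (fun u => T (x, u)) (fun u => f (x, u)) hx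
    (by omega) (by omega) H₀ H₁ H₂ (fun u hu => (hle u).trans_lt (hw u hu)) hout
  refine ⟨Start, hS.not_halted, fun ρ => ?_, fun ρ c hc => ?_⟩
  · obtain ⟨n, hn, h⟩ := hS.first ρ
    refine ⟨n, hn.trans ?_, h⟩
    rw [Nat.mul_assoc]
    exact Nat.mul_le_mul_left _ (Nat.mul_le_mul_right _ (by omega))
  · obtain ⟨n, h1, hn, h⟩ := hS.round ρ c hc
    exact ⟨n, h1, hn.trans (hle _), h⟩

end Crest.Agent.R309
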