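import Crest.Agent.R309.Tape
import Crest.Prelude.Def_WordRAMProb

/-!
# Row 309: Las Vegas programs on the word RAM that repeat a randomised round until it succeeds
-/

set_option autoImplicit false

namespace Crest.Agent.R309

open Crest.WordRAM

/-- The low bits of `r` consecutive random words, starting at position `d` of the stream. -/
def lowBits (w : ℕ) (ρ : ℕ → ℕ) (d r : ℕ) : List Bool :=
  (List.range r).map fun i => decide (ρ (d + i) % 2 ^ w % 2 = 1)

/-- `P` on input `x` reaches a `Start` configuration within `t₀` steps without drawing random
words; from a `Start` configuration it draws `r` words with low bits `u`, and after at most `τ u`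
steps it has halted with output `out` if `f u = some out`, and is again in a `Start` configuration
if `f u = none`. -/
structure RoundSpec (P : Program) (w : ℕ) (x : List ℕ) (r t₀ : ℕ) (τ : List Bool → ℕ)
    (f : List Bool → Option (List ℕ)) (Start : Cfg P.numRegs → Prop) : Prop where
  not_halted : ∀ c, Start c → c.halted = false
  first : ∀ ρ, ∃ n, n ≤ t₀ ∧ Start (run P w ρ x n) ∧ (run P w ρ x n).drawn = 0
  round : ∀ ρ c, Start c → ∃ n, 1 ≤ n ∧ n ≤ τ (lowBits w ρ c.drawn r) ∧
    ((step P w ρ)^[n] c).drawn = c.drawn + r ∧
    (∀ out, f (lowBits w ρ c.drawn r) = some out →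
      ((step P w ρ)^[n] c).halted = true ∧ ((step P w ρ)^[n] c).output = out) ∧
    (f (lowBits w ρ c.drawn r) = none → Start ((step P w ρ)^[n] c))

end Crest.Agent.R309
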