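import Crest.Agent.R309.JVVInst
import Crest.Agent.Lib.PolyTime.Enc

/-!
# Row 309: repeating a round until it succeeds
-/

set_option autoImplicit false

namespace Crest.Agent.R309

open Finset Crest.Agent.Lib.PolyTime Crest.Enc Crest.Tables

/-- The first success among `t` independent rounds (`d` if all fail). -/
def firstOk {X : Type} (f : List Bool → Option X) (B t : ℕ) (d : X) (u : List Bool) : X :=
  ((draws f B t u).filterMap id).headD d

namespace Reject

variable {X : Type} (f : List Bool → Option X) (B : ℕ) (d : X)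

theorem firstOk_zero (u : List Bool) : firstOk f B 0 d u = d := rfl

theorem firstOk_succ (t : ℕ) (u : List Bool) :
    firstOk f B (t + 1) d u = (f (u.take B)).getD (firstOk f B t d (u.drop B)) := by
  unfold firstOk
  rw [draws_succ']
  cases f (u.take B) <;> simp

theorem firstOk_mem {P : X → Prop} (hd : P d) (hf : ∀ u x, f u = some x → P x) (t : ℕ)
    (u : List Bool) : P (firstOk f B t d u) := by
  induction t generalizing u with
  | zero => exact hd
  | succ t ih =>
    rw [firstOk_succ]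
    cases e : f (u.take B) with
    | none => exact ih _
    | some x => exact hf _ x e

theorem Pr_succ {t n : ℕ} (h : (t + 1) * B ≤ n) (x : X) :
    Pr n (fun u => firstOk f B (t + 1) d u = x) = Pr B (fun u => f u = some x) +
      Pr B (fun u => f u = none) * Pr (n - B) fun u => firstOk f B t d u = x := by
  rw [Nat.succ_mul] at h
  simp only [Pr, firstOk_succ]
  rw [Ex_split (by omega) fun u v => ind ((f u).getD (firstOk f B t d v) = x), ← Ex_mul_right,
    ← Ex_add]
  refine Ex_congr fun u _ => ?_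
  cases f u with
  | none => simp [ind_true, ind_false]
  | some y => simp [ind_false]

theorem sum_Pr {T : Finset X} (hf : ∀ u x, f u = some x → x ∈ T) :
    Pr B (fun u => f u = none) = 1 - ∑ x ∈ T, Pr B fun u => f u = some x := by
  simp only [Pr]
  rw [← Ex_sum, ← Ex_const B 1, ← Ex_sub]
  refine Ex_congr fun u _ => ?_
  cases e : f u with
  | none => simp [ind_true, ind_false]
  | some y =>
    rw [sum_eq_single_of_mem y (hf u y e) fun z _ hz => ind_false (by simpa using hz.symm)]
    simp [ind_true, ind_false]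

end Reject

open Reject

/-- The law of the first success is close to uniform. -/
theorem firstOk_law {X : Type} {f : List Bool → Option X} {B : ℕ} {d : X} {T : Finset X}
    (hd : d ∈ T) (hf : ∀ u x, f u = some x → x ∈ T) {γ ε : ℝ} (hγ : 1 / (32 * T.card) ≤ γ)
    (hε0 : 0 ≤ ε) (hε : ε ≤ 1 / 2)
    (hp : ∀ x ∈ T, |Pr B (fun u => f u = some x) - γ| ≤ γ * ε) (t : ℕ) :
    ∀ n, t * B ≤ n → ∑ x ∈ T, |Pr n (fun u => firstOk f B t d u = x) - 1 / T.card| ≤
      4 * ε + 2 * (63 / 64) ^ t := by
  have hN : (0 : ℝ) < T.card := by exact_mod_cast card_pos.2 ⟨d, hd⟩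
  set s := ∑ x ∈ T, Pr B fun u => f u = some x with hs
  have h1 : |s - T.card * γ| ≤ T.card * (γ * ε) := by
    have := (abs_sum_le_sum_abs (fun x => Pr B (fun u => f u = some x) - γ) T).trans
      (sum_le_card_nsmul _ _ _ hp)
    rwa [sum_sub_distrib, sum_const, nsmul_eq_mul, nsmul_eq_mul] at this
  have h2 : 1 / 32 ≤ T.card * γ := by
    rw [div_le_iff₀ (by positivity)] at hγ
    linarith
  have h3 : T.card * γ / 2 ≤ s := by
    have := (abs_le.1 h1).1
    nlinarith
  have h4 : 0 ≤ 1 - s := by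
    rw [← sum_Pr f B hf]
    exact Pr_nonneg _ _
  have h5 : ∑ x ∈ T, |Pr B (fun u => f u = some x) - s / T.card| ≤ 4 * ε * s := by
    have e : |γ - s / T.card| ≤ γ * ε := by
      rw [abs_sub_comm, div_sub' hN.ne', abs_div, abs_of_pos hN, div_le_iff₀ hN]
      linarith
    refine (sum_le_card_nsmul _ _ (γ * ε + γ * ε) fun x hx =>
      (abs_sub_le _ γ _).trans (add_le_add (hp x hx) e)).trans ?_
    rw [nsmul_eq_mul]
    nlinarith
  induction t with
  | zero =>
    intro n _
    have e : ∑ x ∈ T, Pr n (fun u => firstOk f B 0 d u = x) = 1 := by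
      simp only [firstOk_zero, Pr, Ex_const]
      rw [sum_eq_single_of_mem d hd fun z _ hz => ind_false hz.symm, ind_true rfl]
    refine (sum_le_sum fun x _ => abs_sub _ _).trans ?_
    rw [sum_add_distrib, sum_congr rfl fun x _ => abs_of_nonneg (Pr_nonneg _ _), e, sum_const,
      nsmul_eq_mul, abs_of_pos (by positivity), mul_one_div_cancel hN.ne']
    linarith
  | succ t ih =>
    intro n hn
    have ih' := ih (n - B) (by rw [Nat.succ_mul] at hn; omega)
    have e : ∀ x, Pr n (fun u => firstOk f B (t + 1) d u = x) - 1 / T.card =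
        (Pr B (fun u => f u = some x) - s / T.card) +
          (1 - s) * (Pr (n - B) (fun u => firstOk f B t d u = x) - 1 / T.card) := by
      intro x
      rw [Pr_succ f B d hn, sum_Pr f B hf]
      ring
    simp only [e]
    refine (sum_le_sum fun x _ => abs_add_le _ _).trans ?_
    simp only [sum_add_distrib, abs_mul, abs_of_nonneg h4, ← mul_sum]
    have h6 := mul_le_mul_of_nonneg_left ih' h4
    have h7 : (0 : ℝ) < (63 / 64) ^ t := by positivity
    rw [pow_succ]
    nlinarith

@[fun_prop] theorem poly_firstOk {α β : Type} [PEnc α] [PEnc β] {f : α → List Bool → Option β}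
    {B t : α → ℕ} {d : α → β} {u : α → List Bool} (hf : Poly fun p : α × List Bool => f p.1 p.2)
    (hB : Poly B) (ht : Poly t) (htb : PB t) (hd : Poly d) (hu : Poly u) :
    Poly fun a => firstOk (f a) (B a) (t a) (d a) (u a) := by
  unfold firstOk
  fun_prop

/-- An almost uniform sampler on flat tables. -/
theorem exists_sampler : ∃ (S : ((List ℕ × List ℕ) × Un) × List Bool → List ℕ)
    (L : (List ℕ × List ℕ) × Un → ℕ), Poly S ∧ PB L ∧
    ∀ (rs cs : List ℕ) (k : Un), rs.sum = cs.sum → (∀ u, S (((rs, cs), k), u) ∈ Tabs rs cs) ∧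
      ∀ n, L ((rs, cs), k) ≤ n →
        ∑ x ∈ Tabs rs cs, |Pr n (fun u => S (((rs, cs), k), u) = x) - 1 / (Tabs rs cs).card| ≤
          2⁻¹ ^ k.n := by
  obtain ⟨p, est, -, hp, hest, -, h⟩ := exists_round
  obtain ⟨d, hd, hd'⟩ := exists_defaultT
  have hg : Poly fun a : (List ℕ × List ℕ) × Un => (a.1, (⟨a.2.n + 3⟩ : Un)) := by fun_prop
  have hr := hp.poly_round hest (ok := fun a => okT a.1.1 a.1.2) (by fun_prop)
  refine ⟨fun a => firstOk ((p (a.1.1, ⟨a.1.2.n + 3⟩)).round (est (a.1.1, ⟨a.1.2.n + 3⟩))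
      (okT a.1.1.1 a.1.1.2)) (p (a.1.1, ⟨a.1.2.n + 3⟩)).Br (64 * (a.1.2.n + 3)) (d a.1.1) a.2,
    fun a => 64 * (a.2.n + 3) * (p (a.1, ⟨a.2.n + 3⟩)).Br, ?_, ?_, fun rs cs k hs => ?_⟩
  · refine poly_firstOk (hr.comp (g := fun q : (((List ℕ × List ℕ) × Un) × List Bool) × List Bool =>
      ((q.1.1.1, (⟨q.1.1.2.n + 3⟩ : Un)), q.2)) (by fun_prop))
      ((hp.poly_Br.comp hg).comp (g := fun a : ((List ℕ × List ℕ) × Un) × List Bool => a.1)
        (by fun_prop)) (by fun_prop) (by fun_prop) (hd.comp (by fun_prop)) (by fun_prop)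
  · exact PB.mul (by fun_prop) (hp.pb_Br.comp hg)
  · have hf : ∀ u x, (p ((rs, cs), ⟨k.n + 3⟩)).round (est ((rs, cs), ⟨k.n + 3⟩)) (okT rs cs) u =
        some x → x ∈ Tabs rs cs := fun u x e => (mem_Tabs _ _ _).2 (JP.round_ok _ _ _ e)
    refine ⟨fun u => firstOk_mem _ _ _ (P := (· ∈ Tabs rs cs)) (hd' rs cs hs) hf _ _,
      fun n hn => ?_⟩
    obtain ⟨γ, h1, -, h2⟩ := h rs cs ⟨k.n + 3⟩ hs
    have h3 : (2⁻¹ : ℝ) ^ k.n ≤ 1 := pow_le_one₀ (by norm_num) (by norm_num)
    have h4 : (0 : ℝ) < 2⁻¹ ^ k.n := by positivity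
    refine (firstOk_law (hd' rs cs hs) hf h1 (ε := 2⁻¹ ^ (k.n + 3)) (by positivity)
      (by rw [pow_add]; linarith) (fun x hx => ?_) _ n hn).trans ?_
    · rw [inv_pow, ← div_eq_mul_inv]
      exact h2 x hx _ le_rfl
    · have h5 : ((63 / 64 : ℝ) ^ 64) ^ (k.n + 3) ≤ 2⁻¹ ^ (k.n + 3) :=
        pow_le_pow_left₀ (by positivity) (by norm_num) _
      rw [pow_mul]
      rw [pow_add 2⁻¹] at h5 ⊢
      linarith

/-- Parse the margins and the unary block. -/
def pMargins (w : List Bool) : (List ℕ × List ℕ) × Un :=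
  (((pRep pNat (pNat w).1 (pNat (pNat w).2).2).1,
    (pRep pNat (pNat (pNat w).2).1 (pRep pNat (pNat w).1 (pNat (pNat w).2).2).2).1),
    (pUn (pRep pNat (pNat (pNat w).2).1 (pRep pNat (pNat w).1 (pNat (pNat w).2).2).2).2).1)

theorem poly_pMargins : Poly pMargins := by
  unfold pMargins
  fun_prop

theorem pRep_nat {l : List ℕ} {n : ℕ} (h : l.length = n) (w : List Bool) :
    pRep pNat n ((l.map natCode).flatten ++ w) = (l, w) := by
  simpa using pRep_code (p := pNat) (c := natCode) (v := id) (l := l) (fun x _ => pNat_code x)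
    (fun x _ => natCode_ne_nil x) h w

theorem pMargins_code {m n : ℕ} (rs : Fin m → ℕ) (cs : Fin n → ℕ) (k : ℕ) :
    pMargins (marginsCode rs cs ++ List.replicate k true) = ((List.ofFn rs, List.ofFn cs), ⟨k⟩) := by
  simp only [pMargins, marginsCode, List.append_assoc, pNat_code, pRep_nat List.length_ofFn,
    pUn_replicate]

theorem matrixCode_eq {m n : ℕ} (X : Fin m → Fin n → ℕ) :
    matrixCode X = natCode m ++ natCode n ++ ((flat X).map natCode).flatten := by
  simp [matrixCode, flat, List.map_flatten, List.flatten_flatten, List.map_ofFn, Function.comp_def]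

theorem code_eq_iff {m n : ℕ} {x : List ℕ} (hx : x.length = m * n) (X : Fin m → Fin n → ℕ) :
    natCode m ++ natCode n ++ (x.map natCode).flatten = matrixCode X ↔ x = flat X := by
  rw [matrixCode_eq, List.append_cancel_left_eq]
  refine ⟨fun h => ?_, fun h => by rw [h]⟩
  have h1 := pRep_nat hx []
  rw [h, pRep_nat (length_flat X)] at h1
  exact (Prod.mk.inj h1).1.symm

end Crest.Agent.R309
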