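import Crest.Agent.R309.ChainPoin
import Crest.Agent.R309.Ends

/-!
# Row 309: the samples are close to the target
-/

set_option autoImplicit false

namespace Crest.Agent.R309.Raw

open Finset

variable {R : Raw} {κ : ℕ}

namespace SampAux

/-- One stage from a warm start. -/
theorem stage_mix {h : R.Valid κ} {i : ℕ} (hi : i ≤ R.Ls) {t : Tab} (ht : Good h i t)
    {μ : (R.E → ℤ) → ℝ} (hμ0 : ∀ x ∈ R.Ω, 0 ≤ μ x)
    (hμM : ∀ x ∈ R.Ω, μ x * ∑ y ∈ R.Ω, (R.w i t y : ℝ) ≤ R.m * R.w i t x)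
    (hμ1 : ∑ x ∈ R.Ω, μ x = 1) (F : (R.E → ℤ) → ℝ) (hF : ∀ x, 0 ≤ F x ∧ F x ≤ 1) :
    |∑ x ∈ R.Ω, μ x * (Kop (mstep (R.w i t) R.prop R.Bp R.ba) R.Bs)^[R.Tn] F x -
        (∑ x ∈ R.Ω, (R.w i t x : ℝ) * F x) / ∑ x ∈ R.Ω, (R.w i t x : ℝ)| ≤ 2 / (R.m : ℝ) ^ 16 := by
  have hm : (4 : ℝ) ≤ R.m := by have := CP.m_ge'' h; exact_mod_cast (by omega : 4 ≤ R.m)
  have hm0 : (0 : ℝ) < R.m := by linarith
  have hm1 : (1 : ℝ) ≤ R.m := by linarith
  refine (metro_mix (fun x hx => w_pos ht hx) (fun x hx => w_eq_zero h i t hx) (prop_symm R)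
    (one_le_pow₀ hm1) (by positivity) (weakP hi ht) hμ0 hμM hμ1 (T := R.Tn) (b := R.ba)
    (δ := 1 / (R.m : ℝ) ^ 16) ?_ (by positivity) ?_ F hF).trans ?_
  · unfold Tn
    push_cast
    calc 4 * (R.m : ℝ) ^ 64 ≤ R.m * R.m ^ 64 := by gcongr
      _ = _ := by field_simp
  · calc 2 * (1 / (R.m : ℝ) ^ 36) * R.m ^ 2 = 2 * (1 / (R.m : ℝ) ^ 34) := by field_simp
      _ ≤ R.m ^ 2 * (1 / (R.m : ℝ) ^ 34) := by gcongr; nlinarith
      _ = _ := by field_simp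
  · have h1 : (R.m : ℝ) ^ 64 ≤ 2 ^ R.ℓ := by exact_mod_cast h.hℓ
    have h2 : (R.Tn : ℝ) / 2 ^ R.ba ≤ 1 / (R.m : ℝ) ^ 16 := by
      unfold Tn ba
      push_cast
      rw [div_le_div_iff₀ (by positivity) (by positivity), pow_mul', one_mul]
      calc (R.m : ℝ) ^ 101 * R.m ^ 16 = (R.m : ℝ) ^ 117 := by ring
        _ ≤ (R.m : ℝ) ^ 128 := pow_le_pow_right₀ hm1 (by norm_num)
        _ = ((R.m : ℝ) ^ 64) ^ 2 := by ring
        _ ≤ _ := by gcongr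
    calc _ ≤ 1 / (R.m : ℝ) ^ 16 + 1 / (R.m : ℝ) ^ 16 := add_le_add le_rfl h2
      _ = _ := by ring

theorem init_warm' {h : R.Valid κ} {t : Tab} (ht : Good h 0 t) {y : R.E → ℤ} (hy : y ∈ R.Ω) :
    Pr (R.nE * R.ℓ) (fun u => R.init u = y) * ∑ x ∈ R.Ω, (R.w 0 t x : ℝ) ≤ R.m * R.w 0 t y := by
  have hw : (0 : ℝ) < R.w 0 t y := by exact_mod_cast w_pos ht hy
  by_cases hu : ∃ u, R.init u = y
  · obtain ⟨u, rfl⟩ := hu
    obtain ⟨-, h1, h2⟩ := init_mem h u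
    have h3 : (1 / 2 : ℝ) ≤ R.w 0 t (R.init u) := by
      rw [w, cw, if_pos h1, mul_one]
      simpa using (Rat.cast_le (K := ℝ)).2 h2
    have h4 := init_upper h h.rt_star h.rt_star
    rw [Zc_self] at h4
    have h5 : (0 : ℝ) < R.PA := by exact_mod_cast PA_pos h
    have h6 : 1 / (20 * (κ : ℝ)) ≤ 1 := by
      have : (1 : ℝ) ≤ κ := by exact_mod_cast h.one_le
      rw [div_le_one (by positivity)]
      linarith
    have h7 := CP.m_ge' h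
    have hE : (0 : ℝ) ≤ R.nE := Nat.cast_nonneg _
    have hV : (0 : ℝ) ≤ R.nV := Nat.cast_nonneg _
    have h8 : ((R.nV : ℝ) + 1) ^ 2 ≤ ((R.nE : ℝ) + R.nV + 2) ^ 2 :=
      pow_le_pow_left₀ (by positivity) (by linarith) 2
    calc _ ≤ 1 / (R.PA : ℝ) * (4 * ((R.nV : ℝ) + 1) ^ 2 * (2 * R.PA)) := by
          refine mul_le_mul (init_law h _) ((tot_bounds ht).2.trans ?_)
            ((Z0_pos h 0).le.trans (tot_bounds ht).1) (by positivity)
          gcongr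
          exact h4.trans (by gcongr; linarith)
      _ = 8 * ((R.nV : ℝ) + 1) ^ 2 := by field_simp; norm_num
      _ ≤ R.m * (1 / 2) := by linarith [sq_nonneg ((R.nV : ℝ) + 1)]
      _ ≤ _ := by gcongr
  · rw [Pr, Ex_congr (G := fun _ => 0) fun u _ => ind_false fun e => hu ⟨u, e⟩, Ex_const, zero_mul]
    positivity

/-- The state after `j` stages. -/
def st (R : Raw) (ts : List Tab) (j : ℕ) (x : R.E → ℤ) (v : List Bool) : ℕ × (R.E → ℤ) :=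
  foldT (fun s v => (s.1 + 1, R.run s.1 (ts.getD s.1 []) s.2 v)) (R.Tn * R.Bs) j (0, x) v

theorem Ex_st (ts : List Tab) {j n : ℕ} (hn : (j + 1) * (R.Tn * R.Bs) ≤ n) (x : R.E → ℤ)
    (F : (R.E → ℤ) → ℝ) : Ex n (fun v => F (st R ts (j + 1) x v).2) = Ex n fun v =>
      (Kop (mstep (R.w j (ts.getD j [])) R.prop R.Bp R.ba) R.Bs)^[R.Tn] F (st R ts j x v).2 := by
  refine (Ex_foldT_succ _ hn _ fun s : ℕ × (R.E → ℤ) => F s.2).trans (Ex_congr fun v _ => ?_)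
  have h1 : (st R ts j x v).1 = j := foldT_inv (fun i (s : ℕ × (R.E → ℤ)) => s.1 = i) rfl
    (fun i s u hs => congrArg (· + 1) hs) j v
  refine Eq.trans ?_ (Ex_foldT _ le_rfl _ F)
  change Ex _ (fun u => F (R.run (st R ts j x v).1 (ts.getD (st R ts j x v).1 []) _ u)) = _
  rw [h1]
  rfl

theorem close (h : R.Valid κ) (ts : List Tab) {n : ℕ} (j : ℕ) (hj : j ≤ R.Ls)
    (hn : (j + 1) * (R.Tn * R.Bs) ≤ n) (hts : ∀ k, k ≤ j → Good h k (ts.getD k []))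
    (F : (R.E → ℤ) → ℝ) (hF : ∀ x, 0 ≤ F x ∧ F x ≤ 1) :
    |Ex (R.nE * R.ℓ) (fun u => Ex n fun v => F (st R ts (j + 1) (R.init u) v).2) -
        (∑ x ∈ R.Ω, (R.w j (ts.getD j []) x : ℝ) * F x) / ∑ x ∈ R.Ω, (R.w j (ts.getD j []) x : ℝ)|
      ≤ (j + 1) * (2 / (R.m : ℝ) ^ 16) := by
  induction j generalizing F with
  | zero =>
    simp only [Ex_st ts hn]
    simp only [st, foldT_zero, Ex_const, Nat.cast_zero, zero_add, one_mul]
    rw [Ex_law R.Ω fun u _ => (init_mem h u).1]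
    refine stage_mix hj (hts 0 le_rfl) (fun _ _ => Pr_nonneg _ _)
      (fun x hx => init_warm' (hts 0 le_rfl) hx) ?_ F hF
    simpa using (Ex_law R.Ω (n := R.nE * R.ℓ) (fun u _ => (init_mem h u).1) fun _ => 1).symm
  | succ j ih =>
    have g0 := hts j (Nat.le_succ j)
    have g1 := hts (j + 1) le_rfl
    have h0 : 0 < ∑ x ∈ R.Ω, (R.w j (ts.getD j []) x : ℝ) := (Z0_pos h j).trans_le (tot_bounds g0).1
    have h1 := ih (Nat.le_of_succ_le hj) (le_trans (Nat.mul_le_mul_right _ (by omega)) hn)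
      (fun k hk => hts k (by omega)) _
      (Kop_iter_mem (mstep (R.w (j + 1) (ts.getD (j + 1) [])) R.prop R.Bp R.ba) R.Bs R.Tn hF)
    have h2 := stage_mix hj g1
      (μ := fun x => (R.w j (ts.getD j []) x : ℝ) / ∑ y ∈ R.Ω, (R.w j (ts.getD j []) y : ℝ))
      (fun x hx => div_nonneg (by exact_mod_cast (w_pos g0 hx).le) h0.le)
      (fun x hx => warm hj g0 g1 hx) (by rw [← sum_div, div_self h0.ne']) F hF
    simp only [div_mul_eq_mul_div, ← sum_div] at h2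
    simp only [Ex_st ts hn]
    refine (abs_sub_le _ _ _).trans ((add_le_add h1 h2).trans_eq ?_)
    push_cast
    ring

end SampAux

theorem samp_close (h : R.Valid κ) {ts : List Tab} {i : ℕ} (hlen : ts.length = i + 1)
    (hi : i ≤ R.Ls) (hts : ∀ j, j ≤ i → Good h j (ts.getD j [])) (F : (R.E → ℤ) → ℝ)
    (hF : ∀ x, 0 ≤ F x ∧ F x ≤ 1) :
    |Ex R.Bsamp (fun u => F (R.samp ts u)) -
        (∑ x ∈ R.Ω, (R.w i (ts.getD i []) x : ℝ) * F x) / ∑ x ∈ R.Ω, (R.w i (ts.getD i []) x : ℝ)|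
      ≤ 1 / (R.m : ℝ) ^ 9 := by
  have e := Ex_split (a := R.nE * R.ℓ) (n := R.Bsamp) (Nat.le_add_right _ _)
    fun u v => F (SampAux.st R ts ts.length (R.init u) v).2
  refine (congrArg (fun a => |a - _|) e).trans_le ?_
  rw [hlen]
  refine (SampAux.close h ts i hi ?_ hts F hF).trans ?_
  · rw [Bsamp, Nat.add_sub_cancel_left]
    exact Nat.mul_le_mul_right _ (by omega)
  · have hm := CP.m_ge'' h
    have h1 : 2 * (i + 1) ≤ R.m ^ 7 := by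
      have h2 : 1 ≤ R.m ^ 6 := Nat.one_le_pow _ _ (by omega)
      have h3 : (4 * R.ℓ + 2) * R.m ^ 6 ≤ R.m * R.m ^ 6 := Nat.mul_le_mul_right _ (by omega)
      unfold Ls at hi
      rw [pow_succ']
      linarith
    have h2 : 2 * ((i : ℝ) + 1) ≤ (R.m : ℝ) ^ 7 := by exact_mod_cast h1
    have h3 : (0 : ℝ) < R.m := by exact_mod_cast (by omega : 0 < R.m)
    calc ((i : ℝ) + 1) * (2 / (R.m : ℝ) ^ 16) = 2 * ((i : ℝ) + 1) / (R.m : ℝ) ^ 16 := by ring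
      _ ≤ (R.m : ℝ) ^ 7 / (R.m : ℝ) ^ 16 := by gcongr
      _ = _ := by field_simp

end Crest.Agent.R309.Raw
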