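import Crest.Agent.R309.Tail

/-!
# Row 309: the smoothed function and comparison of Dirichlet forms
-/

set_option autoImplicit false

namespace Crest.Agent.R309.Raw

open Finset

variable {R : Raw} {κ : ℕ}

/-- Move all defects to the roots of their clusters. -/
def nf (R : Raw) (x : R.E → ℤ) : R.E → ℤ := x + ∑ v, (R.G.dv x v - R.βf v) • R.Pf v

/-- The box of shifts. -/
noncomputable def sbox (R : Raw) : Finset (R.E → ℤ) :=
  Fintype.piFinset fun e => Ico (0 : ℤ) (R.qf e)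

/-- The smoothed function. -/
noncomputable def sm (R : Raw) (F : (R.E → ℤ) → ℝ) (x : R.E → ℤ) : ℝ :=
  (∑ s ∈ R.sbox, F (R.nf x + ∑ e, s e • R.Lv e)) / R.sbox.card

/-- Dirichlet form of the moves by `s` along `Lv e`. -/
noncomputable def DD (R : Raw) (i : ℕ) (t : Tab) (F : (R.E → ℤ) → ℝ) (e : R.E) (s : ℤ) : ℝ :=
  ∑ z ∈ R.Ω, min (R.w i t z : ℝ) (R.w i t (z + s • R.Lv e) : ℝ) * (F (z + s • R.Lv e) - F z) ^ 2

/-- Class weight seen by a worm with tail `u` and head `p`. -/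
noncomputable def τ (R : Raw) (t : Tab) (u p : R.V) : ℝ :=
  if R.rt u = R.rt p then 1 else (R.tv t (R.rt u) (R.rt p) : ℝ)

namespace Smooth

theorem q_pos (h : R.Valid κ) (e : R.E) : 0 < R.qf e := by
  obtain ⟨j, -, hj⟩ := h.q_pow e
  rw [hj]; positivity

/-- The shift attached to `s`. -/
def S (R : Raw) (s : R.E → ℤ) : R.E → ℤ := ∑ e, s e • R.Lv e

theorem S_add (s : R.E → ℤ) (k : ℤ) (e : R.E) : S R (s + k • ue e) = S R s + k • R.Lv e := by
  simp only [S, Pi.add_apply, add_smul, sum_add_distrib, add_right_inj]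
  rw [sum_eq_single e (fun f _ hf => by simp [ue, hf]) (by simp)]
  simp [ue]

theorem mem_sbox {s : R.E → ℤ} : s ∈ R.sbox ↔ ∀ e, 0 ≤ s e ∧ s e < R.qf e := by
  simp [sbox]

/-- The shifts that vanish at `e`. -/
noncomputable def sbox0 (R : Raw) (e : R.E) : Finset (R.E → ℤ) := R.sbox.filter fun s => s e = 0

theorem add_mem_sbox {e : R.E} {s : R.E → ℤ} (hs : s ∈ sbox0 R e) {k : ℤ}
    (hk : k ∈ Ico (0 : ℤ) (R.qf e)) : s + k • ue e ∈ R.sbox := by
  obtain ⟨h1, h2⟩ := mem_filter.1 hs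
  refine mem_sbox.2 fun g => ?_
  by_cases hg : g = e
  · subst hg
    simpa [ue, h2] using hk
  · simpa [ue, hg] using mem_sbox.1 h1 g

theorem sum_sbox (h : R.Valid κ) (e : R.E) (f : (R.E → ℤ) → ℝ) :
    ∑ s ∈ R.sbox, f s = ∑ s ∈ sbox0 R e, ∑ k ∈ Ico (0 : ℤ) (R.qf e), f (s + k • ue e) := by
  rw [← sum_product']
  refine sum_nbij' (fun s => (s - s e • ue e, s e)) (fun p => p.1 + p.2 • ue e) (fun s hs => ?_)
    (fun p hp => add_mem_sbox (mem_product.1 hp).1 (mem_product.1 hp).2) (fun s _ => by simp)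
    (fun p hp => ?_) fun s _ => by simp
  · have hs' := mem_sbox.1 hs
    refine mem_product.2 ⟨mem_filter.2 ⟨mem_sbox.2 fun g => ?_, by simp [ue]⟩, mem_Ico.2 (hs' e)⟩
    by_cases hg : g = e
    · subst hg
      simpa [ue] using q_pos h g
    · simpa [ue, hg] using hs' g
  · have := (mem_filter.1 (mem_product.1 hp).1).2
    simp [ue, this]

theorem card_sbox (h : R.Valid κ) (e : R.E) :
    (R.sbox.card : ℝ) = (sbox0 R e).card * R.qf e := by
  simpa using sum_sbox h e fun _ => 1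

theorem card_pos (h : R.Valid κ) : (0 : ℝ) < R.sbox.card := by
  exact_mod_cast Finset.card_pos.2 ⟨0, mem_sbox.2 fun e => by simpa using q_pos h e⟩

theorem card0_pos (h : R.Valid κ) (e : R.E) : (0 : ℝ) < (sbox0 R e).card := by
  have : (sbox0 R e).Nonempty :=
    ⟨0, mem_filter.2 ⟨mem_sbox.2 fun e => by simpa using q_pos h e, rfl⟩⟩
  exact_mod_cast Finset.card_pos.2 this

theorem sum_dl (R : Raw) (p : R.V) : ∑ v, dl p v • R.Pf v = R.Pf p := by
  rw [sum_eq_single p (fun f _ hf => by simp [dl, hf]) (by simp)]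
  simp [dl]

theorem nf_add_ue (x : R.E → ℤ) (e : R.E) : R.nf (x + ue e) = R.nf x + R.Lv e := by
  simp only [nf, dv_add, dv_ue, Net.bd, Pi.add_apply, Pi.sub_apply, add_smul, sub_smul,
    sum_add_distrib, sum_sub_distrib, sum_dl, Lv]
  abel

theorem nf_of_dv {x : R.E → ℤ} {u p : R.V} (hx : R.G.dv x = R.βf - dl u + dl p) :
    R.nf x = x + R.Pf p - R.Pf u := by
  simp only [nf, hx, Pi.add_apply, Pi.sub_apply, add_smul, sub_smul,
    sum_add_distrib, sum_sub_distrib, sum_dl]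
  abel

theorem sm_diff (h : R.Valid κ) (F : (R.E → ℤ) → ℝ) (e : R.E) (x : R.E → ℤ) :
    R.qf e * (R.sm F (x + ue e) - R.sm F x) =
      (∑ s ∈ sbox0 R e, (F (R.nf x + S R s + (R.qf e : ℤ) • R.Lv e) - F (R.nf x + S R s))) /
        (sbox0 R e).card := by
  have h1 : (0 : ℝ) < R.qf e := by exact_mod_cast q_pos h e
  have h2 := card0_pos h e
  have key : ∑ s ∈ R.sbox, (F (R.nf x + R.Lv e + S R s) - F (R.nf x + S R s)) =
      ∑ s ∈ sbox0 R e, (F (R.nf x + S R s + (R.qf e : ℤ) • R.Lv e) - F (R.nf x + S R s)) := by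
    rw [sum_sbox h e]
    refine sum_congr rfl fun s _ => ?_
    have := Couple.sum_Ico_sub_eq (fun k => F (R.nf x + S R s + k • R.Lv e))
      (Int.natCast_nonneg (R.qf e))
    simp only [zero_smul, add_zero] at this
    rw [← this]
    refine sum_congr rfl fun k _ => ?_
    rw [S_add, add_smul, one_smul]
    congr 2 <;> abel
  rw [← key, sm, sm, nf_add_ue, ← sub_div, ← sum_sub_distrib, card_sbox h e]
  unfold S
  field_simp

theorem w_nonneg {h : R.Valid κ} {i : ℕ} {t : Tab} (ht : Good h i t) (x : R.E → ℤ) :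
    (0 : ℝ) ≤ R.w i t x := by
  by_cases hx : x ∈ R.Ω
  · exact_mod_cast (w_pos ht hx).le
  · rw [w_eq_zero h i t hx]; simp

theorem dv_S (h : R.Valid κ) {s : R.E → ℤ} (hs : s ∈ R.sbox) : R.G.dv (S R s) = 0 := by
  rw [S, dv_sum]
  refine sum_eq_zero fun e _ => ?_
  rw [dv_smul, dv_Lv h]
  rcases lt_or_ge (R.kd e) 2 with he | he
  · have := mem_sbox.1 hs e
    rw [h.small_q e he] at this
    rw [show s e = 0 by omega, zero_smul]
  · rw [h.big_rt e he, sub_self, smul_zero]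

theorem S_apply (h : R.Valid κ) (s : R.E → ℤ) {g : R.E} (hg : R.kd g ≠ 2) : S R s g = s g := by
  rw [S, Finset.sum_apply, sum_eq_single g (fun f _ hf => by simp [Lv_other h hg hf.symm])
    (by simp)]
  simp [Lv_self h hg]

theorem abs_S_le (h : R.Valid κ) {s : R.E → ℤ} (hs : s ∈ R.sbox) {g : R.E} (hg : R.kd g = 2) :
    |S R s g| ≤ 2 * R.nE * R.qf g := by
  rw [S, Finset.sum_apply]
  refine (abs_sum_le_sum_abs _ _).trans ((sum_le_card_nsmul _ _ (2 * R.qf g : ℤ)
    fun f _ => ?_).trans_eq (by simp; ring))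
  have := mem_sbox.1 hs f
  rw [Pi.smul_apply, smul_eq_mul, abs_mul, abs_of_nonneg this.1]
  exact (mul_le_mul_of_nonneg_right this.2.le (abs_nonneg _)).trans (Lv_tree h f hg)

/-- The weight after normalising and shifting is comparable. -/
theorem shift_le (h : R.Valid κ) (i : ℕ) (t : Tab) {x s : R.E → ℤ} {u p : R.V}
    (hτ : 0 ≤ R.τ t u p) (hx : x ∈ R.box 4) (hd : R.G.dv x = R.βf - dl u + dl p)
    (hs : s ∈ R.sbox) : R.τ t u p * R.Φ i x ≤ 2 * R.w i t (R.nf x + S R s) := by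
  have e1 : R.G.dv (R.nf x + S R s) = R.βf + dl (R.rt p) - dl (R.rt u) := by
    rw [nf_of_dv hd, dv_add, dv_sub, dv_add, dv_S h hs, h.dv_P, h.dv_P, hd]
    abel
  have e2 : (R.w i t (R.nf x + S R s) : ℝ) = R.τ t u p * R.Φ i (R.nf x + S R s) := by
    rw [w_of_class h i t (h.rt_rt u) (h.rt_rt p) e1, τ]
    split_ifs <;> simp [mul_comm]
  have hP : ∀ v g, R.kd g ≠ 2 → R.Pf v g = 0 := fun v g hg => by
    by_contra hne
    exact hg (h.P_tree v g hne)
  have e3 : R.Φ i x ≤ 2 * R.Φ i (R.nf x + S R s) := by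
    rw [nf_of_dv hd]
    refine Φ_smooth h i hx (fun g hg => ?_) (fun g hg => ?_) fun g hg => ?_
    · have := mem_sbox.1 hs g
      rw [h.small_q g hg] at this
      simp only [Pi.add_apply, Pi.sub_apply, hP _ g hg.ne, S_apply h s hg.ne]
      omega
    · have h1 := abs_le.1 (abs_S_le h hs hg)
      have h2 := abs_le.1 (h.P_abs p g)
      have h3 := abs_le.1 (h.P_abs u g)
      have h4 : (1 : ℤ) ≤ R.qf g := by exact_mod_cast q_pos h g
      simp only [Pi.add_apply, Pi.sub_apply]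
      rw [abs_le]
      constructor <;> linarith
    · have := mem_sbox.1 hs g
      have hg' : R.kd g ≠ 2 := by omega
      simp only [Pi.add_apply, Pi.sub_apply, hP _ g hg', S_apply h s hg']
      rw [abs_le]
      constructor <;> omega
  rw [e2, mul_left_comm]
  exact mul_le_mul_of_nonneg_left (by exact_mod_cast e3) hτ

/-- The Dirichlet form of the move by `y`. -/
noncomputable def K (R : Raw) (i : ℕ) (t : Tab) (F : (R.E → ℤ) → ℝ) (y : R.E → ℤ) : ℝ :=
  ∑ z ∈ R.Ω, min (R.w i t z : ℝ) (R.w i t (z + y) : ℝ) * (F (z + y) - F z) ^ 2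

theorem K_nonneg {h : R.Valid κ} {i : ℕ} {t : Tab} (ht : Good h i t) (F : (R.E → ℤ) → ℝ)
    (y : R.E → ℤ) : 0 ≤ K R i t F y :=
  sum_nonneg fun _ _ => mul_nonneg (le_min (w_nonneg ht _) (w_nonneg ht _)) (sq_nonneg _)

theorem translate_le {h : R.Valid κ} {i : ℕ} {t : Tab} (ht : Good h i t) (F : (R.E → ℤ) → ℝ)
    (A : Finset (R.E → ℤ)) (a : (R.E → ℤ) → ℝ) (c y : R.E → ℤ)
    (ha : ∀ x ∈ A, a x ≤ 2 * R.w i t (x + c) ∧ a x ≤ 2 * R.w i t (x + c + y)) :
    ∑ x ∈ A, a x * (F (x + c + y) - F (x + c)) ^ 2 ≤ 2 * K R i t F y := by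
  set g : (R.E → ℤ) → ℝ := fun z =>
    min (R.w i t z : ℝ) (R.w i t (z + y) : ℝ) * (F (z + y) - F z) ^ 2 with hg
  have hg0 : ∀ z, 0 ≤ g z := fun z =>
    mul_nonneg (le_min (w_nonneg ht _) (w_nonneg ht _)) (sq_nonneg _)
  calc _ ≤ ∑ x ∈ A, 2 * g (x + c) := by
        refine sum_le_sum fun x hx => ?_
        rw [hg, ← mul_assoc, mul_min_of_nonneg _ _ zero_le_two]
        exact mul_le_mul_of_nonneg_right (le_min (ha x hx).1 (ha x hx).2) (sq_nonneg _)
    _ = 2 * ∑ z ∈ A.image (· + c), g z := by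
        rw [mul_sum, sum_image fun x _ y _ hxy => add_right_cancel hxy]
    _ ≤ 2 * ∑ z ∈ R.Ω ∪ A.image (· + c), g z := by
        gcongr
        · exact fun z _ _ => hg0 z
        · exact subset_union_right
    _ = _ := by
        rw [K, ← sum_subset subset_union_left fun z _ hz => ?_]
        simp only [hg, w_eq_zero h i t hz, Rat.cast_zero]
        rw [min_eq_left (w_nonneg ht _), zero_mul]

/-- Jensen with weights. -/
theorem jensen {X Y : Type} (A : Finset X) (B : Finset Y) (a : X → ℝ)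
    (ha : ∀ x ∈ A, 0 ≤ a x) (D : X → Y → ℝ) :
    ∑ x ∈ A, a x * ((∑ s ∈ B, D x s) / B.card) ^ 2 ≤
      (∑ s ∈ B, ∑ x ∈ A, a x * D x s ^ 2) / B.card := by
  rw [sum_comm, sum_div]
  refine sum_le_sum fun x hx => ?_
  rw [← mul_sum, mul_div_assoc]
  exact mul_le_mul_of_nonneg_left sum_div_card_sq_le_sum_sq_div_card (ha x hx)

/-- The first `j` coordinates. -/
def tr (j : ℕ) (s : R.E → ℤ) : R.E → ℤ := fun g => if (g : ℕ) < j then s g else 0

theorem tr_succ (e : R.E) (s : R.E → ℤ) : tr (e + 1) s = tr e s + s e • ue e := by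
  funext g
  by_cases hg : g = e
  · subst hg
    simp [tr, ue]
  · have : (g : ℕ) ≠ e := fun hh => hg (Fin.ext hh)
    simp [tr, ue, hg, le_iff_lt_or_eq, this]

theorem tr_mem {s : R.E → ℤ} (hs : s ∈ R.sbox) (j : ℕ) : tr j s ∈ R.sbox := by
  refine mem_sbox.2 fun g => ?_
  have := mem_sbox.1 hs g
  unfold tr
  split_ifs <;> omega

theorem telescope (G : (R.E → ℤ) → ℝ) (s : R.E → ℤ) :
    G (S R s) - G 0 = ∑ e : R.E, (G (S R (tr e s) + s e • R.Lv e) - G (S R (tr e s))) := by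
  have h1 := sum_range_sub (fun j => G (S R (tr j s))) R.nE
  have h2 : tr R.nE s = s := by funext g; simp [tr]
  have h3 : S R (tr 0 s) = 0 := by simp [S, tr]
  rw [h2, h3, sum_range] at h1
  simp only [← h1, tr_succ, S_add]

theorem prop_eq (R : Raw) {u : List Bool} (hu : u.length = R.g1) (b c : Bool) {v : List Bool}
    (hv : v.length = R.ℓ) : R.prop (u ++ b :: c :: v) =
      ∑ e : R.E, (if (e : ℕ) = toNat u then (if b then (1 : ℤ) else -1) *
        ((if c then R.qf e else toNat v % R.qf e : ℕ) : ℤ) else 0) • R.Lv e := by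
  have : u.drop (u.length + 2) = [] := List.drop_of_length_le (by omega)
  simp [prop, ← hu, ← hv, List.drop_append, this]

theorem Ex_Bp (R : Raw) (H : List Bool → ℝ) : Ex R.Bp H = Ex R.g1 fun u =>
    (((Ex R.ℓ fun v => H (u ++ false :: false :: v)) +
      Ex R.ℓ fun v => H (u ++ false :: true :: v)) / 2 +
    ((Ex R.ℓ fun v => H (u ++ true :: false :: v)) +
      Ex R.ℓ fun v => H (u ++ true :: true :: v)) / 2) / 2 := by
  rw [Bp, add_assoc, add_comm 2, Ex_append]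
  simp only [Ex_succ]

end Smooth

open Smooth

theorem τ_pos {h : R.Valid κ} {i : ℕ} {t : Tab} (ht : Good h i t) (u p : R.V) :
    0 < R.τ t u p := by
  unfold τ
  split_ifs with hne
  · exact one_pos
  · exact_mod_cast ht.pos (h.rt_rt u) (h.rt_rt p) hne

theorem sm_mem (h : R.Valid κ) {F : (R.E → ℤ) → ℝ} (hF : ∀ x, 0 ≤ F x ∧ F x ≤ 1) (x : R.E → ℤ) :
    0 ≤ R.sm F x ∧ R.sm F x ≤ 1 := by
  have := card_pos h
  refine ⟨div_nonneg (sum_nonneg fun _ _ => (hF _).1) this.le, (div_le_one this).2 ?_⟩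
  simpa using sum_le_card_nsmul R.sbox _ 1 fun s _ => (hF _).2

theorem sm_lip (h : R.Valid κ) {F : (R.E → ℤ) → ℝ} (hF : ∀ x, 0 ≤ F x ∧ F x ≤ 1) (e : R.E)
    (x : R.E → ℤ) : |R.sm F (x + ue e) - R.sm F x| ≤ 1 / (R.qf e : ℝ) := by
  have h1 : (0 : ℝ) < R.qf e := by exact_mod_cast q_pos h e
  have h2 := card0_pos h e
  rw [le_div_iff₀' h1, ← abs_of_pos h1, ← abs_mul, sm_diff h, abs_div, abs_of_pos h2,
    div_le_one h2]
  refine (abs_sum_le_sum_abs _ _).trans ((sum_le_card_nsmul _ _ (1 : ℝ) fun s _ => ?_).trans_eq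
    (by simp))
  rw [abs_le]
  constructor <;> linarith [hF (R.nf x + S R s), hF (R.nf x + S R s + (R.qf e : ℤ) • R.Lv e)]

/-- Unit moves of the smoothed function are controlled by the moves of size `q`. -/
theorem Dir_sm {h : R.Valid κ} {i : ℕ} {t : Tab} (ht : Good h i t) (F : (R.E → ℤ) → ℝ) (u : R.V)
    (e : R.E) :
    (R.qf e : ℝ) ^ 2 * Dir R.G (W h i 4) (R.βf - dl u) (R.τ t u) (R.sm F) e ≤
      2 * R.DD i t F e (R.qf e) := by
  have h2 := card0_pos h e
  have hq : (0 : ℤ) < R.qf e := by exact_mod_cast q_pos h e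
  have hτ : ∀ p, 0 ≤ R.τ t u p := fun p => (τ_pos ht u p).le
  rw [Dir, mul_sum]
  simp only [mul_left_comm ((R.qf e : ℝ) ^ 2), ← mul_pow, sm_diff h]
  refine (jensen _ _ _ (fun x _ => le_min (mul_nonneg (hτ _) (Wt.Φ_nonneg _ _))
    (mul_nonneg (hτ _) (Wt.Φ_nonneg _ _))) _).trans ?_
  rw [div_le_iff₀' h2, ← nsmul_eq_mul]
  refine sum_le_card_nsmul _ _ _ fun s hs => ?_
  have e1 : ∀ x ∈ fib R.G (W h i 4) (R.βf - dl u + dl (R.G.tl e)),
      R.nf x + S R s = x + (R.Pf (R.G.tl e) - R.Pf u + S R s) := fun x hx => by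
    rw [nf_of_dv ((mem_fib _ _ _ _).1 hx).2]; abel
  rw [sum_congr rfl fun x hx => by rw [e1 x hx]]
  refine translate_le ht F _ _ _ _ fun x hx => ?_
  rw [← e1 x hx]
  obtain ⟨hb, hd⟩ := (mem_fib _ _ _ _).1 hx
  constructor
  · refine (min_le_left _ _).trans ?_
    rw [W_Φ h i 4 hb]
    exact shift_le h i t (hτ _) hb hd (mem_filter.1 hs).1
  · refine (min_le_right _ _).trans ?_
    by_cases hb' : x + ue e ∈ (W h i 4).box
    · have := shift_le h i t (hτ (R.G.hd e)) hb' (by rw [dv_add, hd, dv_ue, Net.bd]; abel)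
        (add_mem_sbox hs (k := R.qf e - 1) (mem_Ico.2 ⟨by omega, by omega⟩))
      rw [nf_add_ue, S_add, sub_smul, one_smul] at this
      rw [W_Φ h i 4 hb', show R.nf x + S R s + (R.qf e : ℤ) • R.Lv e =
        R.nf x + R.Lv e + (S R s + ((R.qf e : ℤ) • R.Lv e - R.Lv e)) by abel]
      exact this
    · rw [Wt.Φ_eq_zero _ hb', mul_zero]
      exact mul_nonneg zero_le_two (w_nonneg ht _)

/-- The smoothed function is close to the function. -/
theorem sub_sm {h : R.Valid κ} {i : ℕ} {t : Tab} (ht : Good h i t) (F : (R.E → ℤ) → ℝ) :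
    ∑ x ∈ R.Ω ∩ R.box 4, (R.w i t x : ℝ) * (F x - R.sm F x) ^ 2 ≤
      2 * R.nE * ∑ e, (∑ s ∈ Ico (0 : ℤ) (R.qf e), R.DD i t F e s) / R.qf e := by
  have h2 := card_pos h
  have hcl : ∀ x ∈ R.Ω ∩ R.box 4, R.nf x = x ∧ ∀ s ∈ R.sbox,
      (R.w i t x : ℝ) ≤ 2 * R.w i t (x + S R s) := by
    intro x hx
    obtain ⟨hΩ, hb⟩ := mem_inter.1 hx
    obtain ⟨U, H, hU, hH, hd⟩ := (mem_filter.1 hΩ).2
    have hd' : R.G.dv x = R.βf - dl U + dl H := by rw [hd]; abel
    have e1 : R.nf x = x := by rw [nf_of_dv hd', h.P_root U hU, h.P_root H hH]; simp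
    refine ⟨e1, fun s hs => ?_⟩
    have := shift_le h i t (τ_pos ht U H).le hb hd' hs
    rw [e1] at this
    refine le_trans (le_of_eq ?_) this
    rw [w_of_class h i t hU hH hd, τ, hU, hH]
    split_ifs <;> simp [mul_comm]
  have e2 : ∀ x ∈ R.Ω ∩ R.box 4, (F x - R.sm F x) ^ 2 =
      ((∑ s ∈ R.sbox, (F (x + S R s) - F x)) / R.sbox.card) ^ 2 := by
    intro x hx
    rw [sm, (hcl x hx).1, sum_sub_distrib, sum_const, nsmul_eq_mul, sub_div,
      mul_div_cancel_left₀ _ h2.ne', sub_sq_comm]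
    rfl
  rw [sum_congr rfl fun x hx => by rw [e2 x hx]]
  refine (jensen _ _ _ (fun x _ => w_nonneg ht x) _).trans ?_
  have e3 : ∀ s ∈ R.sbox, ∑ x ∈ R.Ω ∩ R.box 4, (R.w i t x : ℝ) * (F (x + S R s) - F x) ^ 2 ≤
      2 * R.nE * ∑ e, R.DD i t F e (s e) := by
    intro s hs
    calc _ ≤ ∑ x ∈ R.Ω ∩ R.box 4, R.nE * ∑ e : R.E, (R.w i t x : ℝ) *
            (F (x + S R (tr e s) + s e • R.Lv e) - F (x + S R (tr e s))) ^ 2 := by
          refine sum_le_sum fun x _ => ?_
          have := telescope (fun y => F (x + y)) s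
          simp only [add_zero, ← add_assoc] at this
          rw [this, ← mul_sum, mul_left_comm]
          refine mul_le_mul_of_nonneg_left ?_ (w_nonneg ht x)
          simpa using sq_sum_le_card_mul_sum_sq (s := (univ : Finset R.E))
            (f := fun e => F (x + S R (tr e s) + s e • R.Lv e) - F (x + S R (tr e s)))
      _ ≤ _ := by
          rw [← mul_sum, sum_comm, mul_comm 2, mul_assoc, mul_sum _ _ 2]
          refine mul_le_mul_of_nonneg_left (sum_le_sum fun e _ => ?_) (Nat.cast_nonneg _)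
          refine translate_le ht F _ _ _ _ fun x hx =>
            ⟨(hcl x hx).2 _ (tr_mem hs _), ?_⟩
          rw [add_assoc, ← S_add, ← tr_succ]
          exact (hcl x hx).2 _ (tr_mem hs _)
  refine (div_le_div_of_nonneg_right (sum_le_sum e3) h2.le).trans (le_of_eq ?_)
  rw [← mul_sum, mul_div_assoc, sum_comm, sum_div]
  refine congrArg _ (sum_congr rfl fun e _ => ?_)
  have h3 := card0_pos h e
  rw [sum_sbox h e, card_sbox h e, sum_congr rfl (g := fun _ =>
    ∑ s ∈ Ico (0 : ℤ) (R.qf e), R.DD i t F e s) fun s hs => sum_congr rfl fun k _ => by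
      simp [ue, (mem_filter.1 hs).2], sum_const, nsmul_eq_mul, mul_div_mul_left _ _ h3.ne']

/-- The proposal is symmetric. -/
theorem prop_symm (R : Raw) (H : (R.E → ℤ) → ℝ) :
    Ex R.Bp (fun u => H (R.prop u)) = Ex R.Bp fun u => H (-R.prop u) := by
  rw [Ex_Bp, Ex_Bp]
  refine Ex_congr fun u hu => ?_
  have key : ∀ b c, (Ex R.ℓ fun v => H (-R.prop (u ++ b :: c :: v))) =
      Ex R.ℓ fun v => H (R.prop (u ++ (!b) :: c :: v)) := fun b c => Ex_congr fun v hv => by
    rw [prop_eq R hu _ _ hv, prop_eq R hu _ _ hv, ← sum_neg_distrib]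
    refine congrArg H (sum_congr rfl fun e _ => ?_)
    rw [← neg_smul]
    cases b <;> split_ifs <;> simp_all
  simp only [key, Bool.not_false, Bool.not_true]
  ring

/-- The Dirichlet form of the chain dominates those of the single moves. -/
theorem DD_le_MDir {h : R.Valid κ} {i : ℕ} {t : Tab} (ht : Good h i t) (F : (R.E → ℤ) → ℝ) :
    ∑ e, (R.DD i t F e (R.qf e) + (∑ s ∈ Ico (0 : ℤ) (R.qf e), R.DD i t F e s) / R.qf e) ≤
      8 * ((R.nE : ℝ) + 1) * MDir (R.w i t) R.Ω R.prop R.Bp F := by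
  set T : R.E → ℝ := fun e =>
    R.DD i t F e (R.qf e) + (∑ s ∈ Ico (0 : ℤ) (R.qf e), R.DD i t F e s) / R.qf e with hT
  have hK := K_nonneg ht F
  have e1 : MDir (R.w i t) R.Ω R.prop R.Bp F = Ex R.Bp fun u => K R i t F (R.prop u) := by
    rw [MDir, ← Ex_sum]; rfl
  have e2 : (Ex R.g1 fun u => (∑ e : R.E, if (e : ℕ) = toNat u then T e else 0) / 4) ≤
      MDir (R.w i t) R.Ω R.prop R.Bp F := by
    rw [e1, Ex_Bp]
    refine Ex_mono fun u hu => ?_
    have hE : ∀ b c, 0 ≤ Ex R.ℓ fun v => K R i t F (R.prop (u ++ b :: c :: v)) :=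
      fun b c => Ex_nonneg fun _ _ => hK _
    suffices (∑ e : R.E, if (e : ℕ) = toNat u then T e else 0) ≤
        (Ex R.ℓ fun v => K R i t F (R.prop (u ++ true :: false :: v))) +
          Ex R.ℓ fun v => K R i t F (R.prop (u ++ true :: true :: v)) by
      linarith [hE false false, hE false true]
    by_cases hlt : toNat u < R.nE
    swap
    · rw [sum_eq_zero fun e _ => if_neg (by have := e.2; omega)]
      exact add_nonneg (hE _ _) (hE _ _)
    set e : R.E := ⟨toNat u, hlt⟩ with he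
    have hs : ∀ {M : Type} [AddCommMonoid M] (f : R.E → M), (∀ g : R.E, (g : ℕ) ≠ toNat u →
        f g = 0) → ∑ g, f g = f e := fun f hf =>
      sum_eq_single e (fun g _ hg => hf g fun hh => hg (Fin.ext hh)) (by simp)
    have hp : ∀ c v, v.length = R.ℓ → R.prop (u ++ true :: c :: v) =
        ((if c then R.qf e else toNat v % R.qf e : ℕ) : ℤ) • R.Lv e := fun c v hv => by
      rw [prop_eq R hu _ _ hv, hs _ fun g hg => by rw [if_neg hg, zero_smul]]
      simp [he]
    rw [hs _ fun g hg => if_neg hg, if_pos rfl, add_comm]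
    refine le_of_eq (congrArg₂ _ ?_ ?_)
    · rw [Ex_congr (G := fun _ => R.DD i t F e (R.qf e)) fun v hv => by rw [hp _ v hv]; rfl,
        Ex_const]
    · obtain ⟨j, hj, hq⟩ := h.q_pow e
      rw [Ex_congr (G := fun v => R.DD i t F e ((toNat v % 2 ^ j : ℕ) : ℤ))
        fun v hv => by rw [hp _ v hv, ← hq]; rfl,
        Ex_toNat_mod hj fun k => R.DD i t F e (k : ℤ), hq]
      congr 1
      · refine (sum_nbij (fun k : ℕ => (k : ℤ)) (fun k hk => ?_) (fun _ _ _ _ hh => ?_)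
          (fun k hk => ?_) fun _ _ => rfl).symm
        · exact mem_Ico.2 ⟨Int.natCast_nonneg k, Int.ofNat_lt.2 (mem_range.1 hk)⟩
        · exact Int.natCast_inj.1 hh
        · simp only [coe_Ico, Set.mem_Ico] at hk
          exact ⟨k.toNat, by simp only [coe_range, Set.mem_Iio]; omega, by simp [hk.1]⟩
      · simp
  have hT0 : 0 ≤ ∑ e, T e := sum_nonneg fun e _ => add_nonneg (hK _)
    (div_nonneg (sum_nonneg fun _ _ => hK _) (Nat.cast_nonneg _))
  have hlt : R.nE < 2 ^ R.g1 := Nat.lt_size_self _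
  have hle : 2 ^ R.g1 ≤ 2 * (R.nE + 1) := by
    unfold g1
    cases hs : R.nE.size with
    | zero => omega
    | succ n =>
      have : 2 ^ n ≤ R.nE := Nat.lt_size.1 (by omega)
      omega
  rw [Ex_toNat R.g1 fun k => (∑ e : R.E, if (e : ℕ) = k then T e else 0) / 4, ← sum_div, sum_comm,
    sum_congr rfl (g := T) fun e _ => by
      rw [sum_ite_eq, if_pos (mem_range.2 (e.2.trans hlt))], div_div,
    div_le_iff₀ (by positivity)] at e2
  refine e2.trans ?_
  rw [mul_comm]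
  refine mul_le_mul_of_nonneg_right ?_ (by rw [e1]; exact Ex_nonneg fun _ _ => hK _)
  have : (2 : ℝ) ^ R.g1 ≤ 2 * (R.nE + 1) := by exact_mod_cast hle
  linarith

end Crest.Agent.R309.Raw
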