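import Crest.Agent.R309.Weights
import Crest.Agent.R309.K

/-!
# Row 309: sizes of the classes
-/

set_option autoImplicit false

namespace Crest.Agent.R309.Raw

open Finset

variable {R : Raw} {κ : ℕ}

/-- The unit flow from the hub to a root. -/
theorem tail_exists_hub (h : R.Valid κ) {v : R.V} (hv : R.rt v = v) :
    ∃ (y : R.E → ℤ) (a : Finset R.E), R.G.dv y = dl v - dl R.star ∧ a.card ≤ 1 ∧
      (∀ e, e ∉ a → y e = 0) ∧ ∀ e, y e = 0 ∨
        (y e = 1 ∧ R.kd e = 1 ∧ R.lf e = -1 ∧ R.uf e = 1 ∧ R.cf e = 0) := by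
  by_cases hs : v = R.star
  · exact ⟨0, ∅, by simp [hs], by simp, by simp, by simp⟩
  obtain ⟨e, he, rfl⟩ := h.hub_ex v hs
  refine ⟨ue e, {e}, by rw [dv_ue, Net.bd, h.hub_tl e he], by simp, fun f hf => ?_, fun f => ?_⟩
  · simp [ue, mem_singleton.not.1 hf]
  · by_cases hf : f = e
    · subst hf
      exact .inr ⟨by simp [ue], he, (h.hub_root f he hv).1, (h.hub_root f he hv).2, h.hub_c f he⟩
    · simp [ue, hf]

theorem tail_mem_box (a : ℕ) (x : R.E → ℤ) : x ∈ R.box a ↔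
    ∀ e, R.lf e - a * R.Dm e ≤ x e ∧ x e ≤ R.uf e + a * R.Dm e := by
  simp [box]

theorem tail_mem_of_range (a : ℕ) {x : R.E → ℤ} (hx : ∀ e, R.lf e ≤ x e ∧ x e ≤ R.uf e) :
    x ∈ R.box a := by
  refine (tail_mem_box a x).2 fun e => ?_
  have := hx e
  have : (0 : ℤ) ≤ a * R.Dm e := by positivity
  omega

theorem tail_Z_eq (h : R.Valid κ) (i : ℕ) (a : Fin 9) (γ : R.V → ℤ) :
    Z R.G (W h i a) γ = ∑ x ∈ (R.box a).filter fun x => R.G.dv x = γ, (R.Φ i x : ℝ) :=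
  sum_congr rfl fun _ hx => W_Φ h i a (mem_filter.1 hx).1

/-- Every class between roots contains a state that agrees with the centre on all non-hub edges. -/
theorem exists_ref (h : R.Valid κ) {U H : R.V} (hU : R.rt U = U) (hH : R.rt H = H) :
    ∃ x : R.E → ℤ, R.G.dv x = R.βf + dl H - dl U ∧ (∀ e, R.kd e ≠ 1 → x e = R.cf e) ∧
      (∀ e, R.lf e ≤ x e ∧ x e ≤ R.uf e) ∧
      ∀ i, i ≤ R.Ls → (1 / 2) ^ (8 * R.ℓ) ≤ R.Φ i x := by
  obtain ⟨y, a, y1, y2, y3, y4⟩ := tail_exists_hub h hH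
  obtain ⟨z, b, z1, z2, z3, z4⟩ := tail_exists_hub h hU
  have hb : ∀ e, (R.cf + y - z) e = R.cf e ∨
      (R.kd e = 1 ∧ R.lf e ≤ (R.cf + y - z) e ∧ (R.cf + y - z) e ≤ R.uf e) := fun e => by
    simp only [Pi.add_apply, Pi.sub_apply]
    rcases y4 e with h1 | h1 <;> rcases z4 e with h2 | h2 <;> omega
  refine ⟨R.cf + y - z, ?_, fun e he => ?_, fun e => ?_, fun i hi => ?_⟩
  · rw [dv_sub, dv_add, y1, z1, h.dv_c]; abel
  · exact (hb e).resolve_right fun h1 => he h1.1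
  · have := h.l_le_c e
    have := h.c_le_u e
    rcases hb e with h1 | h1 <;> omega
  · have hc : (a ∪ b).card ≤ 2 := (card_union_le _ _).trans (by omega)
    rw [Φ, ← prod_subset (subset_univ (a ∪ b)) fun e _ he => by
      rw [mem_union, not_or] at he
      have : (R.cf + y - z) e = R.cf e := by simp [y3 e he.1, z3 e he.2]
      rw [this, φ_centre h]]
    calc ((1 : ℚ) / 2) ^ (8 * R.ℓ) = ((1 / 2) ^ (4 * R.ℓ)) ^ 2 := by rw [← pow_mul]; congr 1; ring
      _ ≤ ((1 / 2) ^ (4 * R.ℓ)) ^ (a ∪ b).card :=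
        pow_le_pow_of_le_one (by positivity) (pow_le_one₀ (by norm_num) (by norm_num)) hc
      _ = ∏ _e ∈ a ∪ b, ((1 : ℚ) / 2) ^ (4 * R.ℓ) := (prod_const _).symm
      _ ≤ _ := prod_le_prod (fun _ _ => by positivity) fun e _ => by
        rcases hb e with h1 | h1
        · rw [h1, φ_centre h]
          exact pow_le_one₀ (by norm_num) (by norm_num)
        · exact φ_hub_ge h hi h1.1 h1.2.1 h1.2.2

theorem Zc_pos (h : R.Valid κ) (i : ℕ) (a : Fin 9) {U H : R.V} (hU : R.rt U = U)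
    (hH : R.rt H = H) : 0 < Zc h i a U H := by
  obtain ⟨x, h1, -, h2, -⟩ := exists_ref h hU hH
  exact (Z_pos_iff _ _ _).2 ⟨x, (mem_fib _ _ _ _).2 ⟨tail_mem_of_range a h2, h1⟩⟩

theorem Zc_self (h : R.Valid κ) (i : ℕ) (U : R.V) : Zc h i 8 U U = Z0 h i := by
  rw [Zc, Z0, add_sub_cancel_right]

theorem Z0_pos (h : R.Valid κ) (i : ℕ) : 0 < Z0 h i := by
  rw [← Zc_self h i R.star]
  exact Zc_pos h i 8 h.rt_star h.rt_star

theorem Zc_mono (h : R.Valid κ) (i : ℕ) (r p : R.V) : Zc h i 4 r p ≤ Zc h i 8 r p := by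
  rw [Zc, Zc, tail_Z_eq, tail_Z_eq]
  refine sum_le_sum_of_subset_of_nonneg (filter_subset_filter _ (box_mono R (by decide)))
    fun x _ _ => ?_
  exact_mod_cast Φ_nonneg h i x

theorem tail_Wφ_le (h : R.Valid κ) (i : ℕ) (a : Fin 9) (e : R.E) (k : ℤ) :
    (W h i a).φ e k ≤ 1 := by
  simp only [W]
  split_ifs
  · exact_mod_cast φ_le_one h i e k
  · exact zero_le_one

theorem tail_W8φ (h : R.Valid κ) (i : ℕ) (e : R.E) {k : ℤ} (h1 : R.lf e - 8 * R.Dm e ≤ k)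
    (h2 : k ≤ R.uf e + 8 * R.Dm e) : (W h i 8).φ e k = R.φ i e k := if_pos ⟨h1, h2⟩

theorem tail_pin_le (h : R.Valid κ) (i : ℕ) (γ : R.V → ℤ) (e : R.E) (t : ℤ) :
    Z R.G ((W h i 8).pin e t) γ ≤ 2 ^ R.ℓ := by
  have h1 : (fib R.G ((W h i 8).pin e t) γ).card ≤ (R.box 8).card := by
    refine card_le_card_of_injOn (fun x => Function.update x e (R.cf e)) (fun x hx => ?_)
      fun x hx y hy hxy => ?_
    · have hx' := ((mem_box_pin _ _ _ _).1 ((mem_fib _ _ _ _).1 hx).1).2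
      refine mem_coe.2 ((tail_mem_box 8 _).2 fun f => ?_)
      by_cases hf : f = e
      · subst hf
        have := h.l_le_c f
        have := h.c_le_u f
        simp only [Function.update_self]
        omega
      · simp only [Function.update_of_ne hf]
        exact hx' f hf
    · funext f
      by_cases hf : f = e
      · rw [hf, eq_of_mem_fib_pin hx, eq_of_mem_fib_pin hy]
      · simpa [Function.update_of_ne hf] using congrFun hxy f
  have h2 : Z R.G ((W h i 8).pin e t) γ ≤ (fib R.G ((W h i 8).pin e t) γ).card := by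
    rw [Z, card_eq_sum_ones, Nat.cast_sum]
    refine sum_le_sum fun x hx => ?_
    rw [Φ_pin_eq, if_pos (eq_of_mem_fib_pin hx), one_mul, Nat.cast_one]
    exact prod_le_one (fun f _ => (W h i 8).φ_nonneg _ _) fun f _ => tail_Wφ_le h i 8 _ _
  exact h2.trans (by exact_mod_cast h1.trans h.hΓ)

theorem tail_le_pin (h : R.Valid κ) {i : ℕ} {γ : R.V → ℤ} {x : R.E → ℤ} (x1 : R.G.dv x = γ)
    (x3 : ∀ e, R.lf e ≤ x e ∧ x e ≤ R.uf e) (x4 : (1 / 2) ^ (8 * R.ℓ) ≤ R.Φ i x) (e : R.E) :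
    (1 / 2) ^ (8 * R.ℓ) ≤ Z R.G ((W h i 8).pin e (x e)) γ := by
  have hb : x ∈ (W h i 8).box := tail_mem_of_range 8 x3
  have h1 : x ∈ fib R.G ((W h i 8).pin e (x e)) γ :=
    (mem_fib _ _ _ _).2 ⟨(mem_box_pin _ _ _ _).2 ⟨rfl, fun f _ => (Wt.mem_box _ _).1 hb f⟩, x1⟩
  refine le_trans ?_ (single_le_sum (fun y _ => Wt.Φ_nonneg _ y) h1)
  have h2 := Φ_pin (W h i 8) e x
  have h3 : ((1 : ℝ) / 2) ^ (8 * R.ℓ) ≤ (R.Φ i x : ℝ) := by
    have := (Rat.cast_le (K := ℝ)).2 x4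
    push_cast at this
    exact this
  rw [← W8_Φ h, h2] at h3
  exact h3.trans (mul_le_of_le_one_left (Wt.Φ_nonneg _ _) (tail_Wφ_le h i 8 _ _))

theorem tail_I_ite (W : Wt R.E) (γ : R.V → ℤ) (e : R.E) (p : ℤ → Prop) [DecidablePred p] :
    I R.G W γ (fun y => if p (y e) then 1 else 0) =
      ∑ k ∈ (Icc (W.lo e) (W.hi e)).filter p, W.φ e k * Z R.G (W.pin e k) γ := by
  rw [I_pin_sum _ _ _ _ e, sum_filter]
  refine sum_congr rfl fun k _ => ?_
  have : I R.G (W.pin e k) γ (fun y => if p (y e) then 1 else 0) =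
      (if p k then 1 else 0) * Z R.G (W.pin e k) γ := by
    rw [I, Z, mul_sum]
    exact sum_congr rfl fun y hy => by rw [eq_of_mem_fib_pin hy, mul_comm]
  rw [this]
  split_ifs <;> simp

/-- Comparison of a part of the marginal with a shifted part. -/
theorem tail_shift_le (W : Wt R.E) (γ : R.V → ℤ) (e : R.E) (s : Finset ℤ) (D : ℤ) {C : ℝ}
    (hC : 0 ≤ C) (hs : ∀ k ∈ s, k + D ∈ Icc (W.lo e) (W.hi e) ∧
      W.φ e k * Z R.G (W.pin e k) γ ≤ C * (W.φ e (k + D) * Z R.G (W.pin e (k + D)) γ)) :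
    ∑ k ∈ s, W.φ e k * Z R.G (W.pin e k) γ ≤ C * Z R.G W γ := by
  refine (sum_le_sum fun k hk => (hs k hk).2).trans ?_
  rw [← mul_sum, Z_pin_sum _ W γ e]
  refine mul_le_mul_of_nonneg_left ?_ hC
  rw [← sum_image (s := s) (g := fun k => k + D)
    (f := fun k => W.φ e k * Z R.G (W.pin e k) γ) fun a _ b _ hab => by simpa using hab]
  refine sum_le_sum_of_subset_of_nonneg (fun k hk => ?_)
    fun k _ _ => mul_nonneg (W.φ_nonneg _ _) (Z_nonneg _ _ _)
  obtain ⟨j, hj, rfl⟩ := mem_image.1 hk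
  exact (hs j hj).1

theorem tail_step {ℓ m : ℕ} {a a' z z' : ℝ} (ha' : 0 ≤ a') (hz : 0 ≤ z)
    (h1 : a ≤ (15 / 16) ^ m * a') (h2 : z ^ 1 * (1 / 2) ^ (8 * ℓ) ≤ z' ^ 1 * 2 ^ ℓ) :
    a * z ≤ (15 / 16) ^ m * 2 ^ (9 * ℓ) * (a' * z') := by
  have h3 : z ≤ 2 ^ (9 * ℓ) * z' := by
    rw [pow_one, pow_one, one_div, inv_pow, mul_inv_le_iff₀ (by positivity)] at h2
    rw [show 9 * ℓ = ℓ + 8 * ℓ by ring, pow_add]
    linarith
  calc a * z ≤ (15 / 16) ^ m * a' * (2 ^ (9 * ℓ) * z') :=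
        mul_le_mul h1 h3 hz (by positivity)
    _ = _ := by ring

theorem tail_hi (h : R.Valid κ) {i : ℕ} {γ : R.V → ℤ} {x : R.E → ℤ} (x1 : R.G.dv x = γ)
    (x2 : ∀ e, R.kd e ≠ 1 → x e = R.cf e) (x3 : ∀ e, R.lf e ≤ x e ∧ x e ≤ R.uf e)
    (x4 : (1 / 2) ^ (8 * R.ℓ) ≤ R.Φ i x) (e : R.E) :
    I R.G (W h i 8) γ (fun y => if R.uf e + 4 * R.Dm e < y e then 1 else 0) ≤
      (15 / 16) ^ R.m * 2 ^ (9 * R.ℓ) * Z R.G (W h i 8) γ := by
  have _ := x2
  rw [tail_I_ite _ _ e fun k => R.uf e + 4 * R.Dm e < k]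
  refine tail_shift_le _ _ _ _ (-R.Dm e) (by positivity) fun k hk => ?_
  rw [mem_filter, mem_Icc] at hk
  obtain ⟨⟨k1, k2⟩, k3⟩ := hk
  change R.lf e - 8 * R.Dm e ≤ k at k1
  change k ≤ R.uf e + 8 * R.Dm e at k2
  have := x3 e
  have he : 2 ≤ R.kd e := by
    by_contra he
    simp only [Dm, if_neg he] at k2 k3
    omega
  have k4 : R.lf e - 8 * R.Dm e ≤ k + -R.Dm e := by omega
  have k5 : k + -R.Dm e ≤ R.uf e + 8 * R.Dm e := by omega
  refine ⟨mem_Icc.2 ⟨k4, k5⟩, tail_step (Wt.φ_nonneg _ _ _) (Z_nonneg _ _ _) ?_ ?_⟩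
  · rw [tail_W8φ h i e k1 k2, tail_W8φ h i e k4 k5, ← sub_eq_add_neg]
    have := (Rat.cast_le (K := ℝ)).2 ((φ_decay h i e he k).1 (by omega))
    push_cast at this
    exact this
  · have := pin_growth R.G h.noLoop (W h i 8) γ e (v := x e) (s := k + -R.Dm e) (D := R.Dm e)
      (j := 1) (by positivity) (by omega) (by positivity) (tail_le_pin h x1 x3 x4 e)
      (tail_pin_le h i γ e)
    rwa [neg_add_cancel_right] at this

theorem tail_lo (h : R.Valid κ) {i : ℕ} {γ : R.V → ℤ} {x : R.E → ℤ} (x1 : R.G.dv x = γ)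
    (x2 : ∀ e, R.kd e ≠ 1 → x e = R.cf e) (x3 : ∀ e, R.lf e ≤ x e ∧ x e ≤ R.uf e)
    (x4 : (1 / 2) ^ (8 * R.ℓ) ≤ R.Φ i x) (e : R.E) :
    I R.G (W h i 8) γ (fun y => if y e < R.lf e - 4 * R.Dm e then 1 else 0) ≤
      (15 / 16) ^ R.m * 2 ^ (9 * R.ℓ) * Z R.G (W h i 8) γ := by
  have _ := x2
  rw [tail_I_ite _ _ e fun k => k < R.lf e - 4 * R.Dm e]
  refine tail_shift_le _ _ _ _ (R.Dm e) (by positivity) fun k hk => ?_
  rw [mem_filter, mem_Icc] at hk
  obtain ⟨⟨k1, k2⟩, k3⟩ := hk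
  change R.lf e - 8 * R.Dm e ≤ k at k1
  change k ≤ R.uf e + 8 * R.Dm e at k2
  have := x3 e
  have he : 2 ≤ R.kd e := by
    by_contra he
    simp only [Dm, if_neg he] at k1 k3
    omega
  have k4 : R.lf e - 8 * R.Dm e ≤ k + R.Dm e := by omega
  have k5 : k + R.Dm e ≤ R.uf e + 8 * R.Dm e := by omega
  refine ⟨mem_Icc.2 ⟨k4, k5⟩, tail_step (Wt.φ_nonneg _ _ _) (Z_nonneg _ _ _) ?_ ?_⟩
  · rw [tail_W8φ h i e k1 k2, tail_W8φ h i e k4 k5]
    have := (Rat.cast_le (K := ℝ)).2 ((φ_decay h i e he k).2 (by omega))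
    push_cast at this
    exact this
  · have := pin_growth' R.G h.noLoop (W h i 8) γ e (v := x e) (s := k + R.Dm e) (D := R.Dm e)
      (j := 1) (by positivity) (by omega) (by positivity) (tail_le_pin h x1 x3 x4 e)
      (tail_pin_le h i γ e)
    rwa [add_sub_cancel_right] at this

theorem tail_num (h : R.Valid κ) :
    (R.nE : ℝ) * (2 * ((15 / 16) ^ R.m * 2 ^ (10 * R.ℓ))) ≤ 1 := by
  have h1 : 11 * (R.nE + 1 + 10 * R.ℓ) ≤ R.m := by
    refine le_trans ?_ ((Nat.le_mul_of_pos_right _ h.one_le).trans h.hm)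
    have : R.nE + 2 ≤ (R.nE + R.nV + 2) ^ 2 :=
      le_trans (by omega) (Nat.le_self_pow two_ne_zero _)
    generalize (R.nE + R.nV + 2) ^ 2 = N at this ⊢
    nlinarith [Nat.zero_le (R.ℓ * R.nE), Nat.mul_le_mul_left R.ℓ this]
  have h2 : ((15 : ℝ) / 16) ^ R.m ≤ (1 / 2) ^ (R.nE + 1 + 10 * R.ℓ) := by
    refine (pow_le_pow_of_le_one (by norm_num) (by norm_num) h1).trans ?_
    rw [pow_mul]
    exact pow_le_pow_left₀ (by positivity) (by norm_num) _
  have h3 : (R.nE : ℝ) ≤ 2 ^ R.nE := by exact_mod_cast Nat.lt_two_pow_self.le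
  calc _ ≤ (2 : ℝ) ^ R.nE * (2 * ((1 / 2) ^ (R.nE + 1 + 10 * R.ℓ) * 2 ^ (10 * R.ℓ))) := by gcongr
    _ = 1 := by
      rw [one_div, inv_pow, pow_add, pow_add]
      field_simp

/-- The outer margin carries a negligible part of the weight of every class. -/
theorem tail (h : R.Valid κ) {i : ℕ} (hi : i ≤ R.Ls) {U H : R.V} (hU : R.rt U = U)
    (hH : R.rt H = H) : Zc h i 8 U H - Zc h i 4 U H ≤ Zc h i 8 U H / 2 ^ R.ℓ := by
  obtain ⟨x, x1, x2, x3, x4⟩ := exists_ref h hU hH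
  set γ := R.βf + dl H - dl U
  have hZ := Z_nonneg R.G (W h i 8) γ
  have h1 : Zc h i 8 U H - Zc h i 4 U H ≤ ∑ e, (I R.G (W h i 8) γ
      (fun y => if R.uf e + 4 * R.Dm e < y e then 1 else 0) + I R.G (W h i 8) γ
      fun y => if y e < R.lf e - 4 * R.Dm e then 1 else 0) := by
    have h2 : Zc h i 4 U H = I R.G (W h i 8) γ fun y => if y ∈ R.box 4 then 1 else 0 := by
      rw [Zc, tail_Z_eq, I]
      simp only [mul_ite, mul_one, mul_zero, ← sum_filter]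
      refine sum_congr ?_ fun y _ => (W8_Φ h i y).symm
      ext y
      simp only [mem_filter, mem_fib, W_box]
      exact ⟨fun hy => ⟨⟨box_mono R (by decide) hy.1, hy.2⟩, hy.1⟩, fun hy => ⟨hy.2, hy.1.2⟩⟩
    rw [h2, Zc, ← I_one]
    simp only [I, ← sum_add_distrib, ← mul_add]
    rw [sum_comm, ← sum_sub_distrib]
    refine sum_le_sum fun y _ => ?_
    rw [← mul_sum, ← mul_sub]
    refine mul_le_mul_of_nonneg_left ?_ ((W h i 8).Φ_nonneg y)
    have h3 : ∀ e ∈ (univ : Finset R.E), (0 : ℝ) ≤ (if R.uf e + 4 * R.Dm e < y e then 1 else 0) +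
        if y e < R.lf e - 4 * R.Dm e then 1 else 0 := fun e _ => by positivity
    split_ifs with hy
    · rw [sub_self]
      exact sum_nonneg h3
    · rw [tail_mem_box, not_forall] at hy
      obtain ⟨e, he⟩ := hy
      refine le_trans ?_ (single_le_sum h3 (mem_univ e))
      push_cast at he
      split_ifs with h4 h5 h5
      · norm_num
      · norm_num
      · norm_num
      · omega
  have h2 := sum_le_sum fun e (_ : e ∈ univ) => add_le_add (tail_hi h x1 x2 x3 (x4 i hi) e)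
    (tail_lo h x1 x2 x3 (x4 i hi) e)
  refine h1.trans (h2.trans ?_)
  rw [sum_const, card_univ, Fintype.card_fin, nsmul_eq_mul, le_div_iff₀ (by positivity)]
  have h3 := mul_le_mul_of_nonneg_right (tail_num h) hZ
  rw [show 10 * R.ℓ = 9 * R.ℓ + R.ℓ by ring, pow_add] at h3
  rw [Zc]
  linarith

/-- Moving head and tail to the roots of their clusters. -/
theorem Zc_shift (h : R.Valid κ) (i : ℕ) (r p : R.V) :
    Zc h i 4 r p ≤ 2 * Zc h i 8 (R.rt r) (R.rt p) := by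
  rw [Zc, Zc, tail_Z_eq, tail_Z_eq]
  have h0 : ∀ e, R.kd e ≠ 2 → ∀ v, R.Pf v e = 0 := fun e he v => by
    by_contra hv
    exact he (h.P_tree v e hv)
  have h1 : ∀ x ∈ R.box 4, R.Φ i x ≤ 2 * R.Φ i (x + R.Pf p - R.Pf r) := fun x hx => by
    refine Φ_smooth h i hx (fun e he => ?_) (fun e _ => ?_) fun e he => ?_
    · simp [h0 e (by omega)]
    · obtain ⟨j, -, hj⟩ := h.q_pow e
      have h2 : (1 : ℤ) ≤ R.qf e := by rw [hj]; exact_mod_cast Nat.one_le_two_pow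
      have h3 := abs_le.1 (h.P_abs p e)
      have h4 := abs_le.1 (h.P_abs r e)
      have h5 : (0 : ℤ) ≤ R.nE * R.qf e := by positivity
      simp only [Pi.add_apply, Pi.sub_apply]
      rw [abs_le]
      constructor <;> nlinarith
    · simp [h0 e (by omega)]
  refine (sum_le_sum (g := fun x => 2 * (R.Φ i (x + R.Pf p - R.Pf r) : ℝ)) fun x hx => by
    exact_mod_cast h1 x (mem_filter.1 hx).1).trans ?_
  rw [← mul_sum, ← sum_image (g := fun x => x + R.Pf p - R.Pf r) (f := fun y => (R.Φ i y : ℝ))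
    fun a _ b _ hab => by simpa using hab]
  refine mul_le_mul_of_nonneg_left (sum_le_sum_of_subset_of_nonneg (fun y hy => ?_)
    fun y _ _ => by exact_mod_cast Φ_nonneg h i y) zero_le_two
  obtain ⟨x, hx, rfl⟩ := mem_image.1 hy
  rw [mem_filter] at hx ⊢
  refine ⟨by_contra fun hc => ?_, ?_⟩
  · have h2 := h1 x hx.1
    have h3 := Φ_pos h i (box_mono R (by decide) hx.1)
    rw [Φ_eq_zero R i hc] at h2
    linarith
  · rw [dv_sub, dv_add, hx.2, h.dv_P, h.dv_P]; abel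

/-- Triangle inequality for the classes. -/
theorem Zc_triangle (h : R.Valid κ) (i : ℕ) (a : Fin 9) (U v H : R.V) :
    Zc h i a U v * Zc h i a v H ≤ Zc h i a U H * Zc h i a U U := by
  have := K_ineq R.G h.noLoop (W h i a) (R.βf - dl U) v H U
  unfold Zc
  convert this using 3 <;> abel

theorem Good.pos {h : R.Valid κ} {i : ℕ} {t : Tab} (ht : Good h i t) {U H : R.V}
    (hU : R.rt U = U) (hH : R.rt H = H) (hne : U ≠ H) : 0 < R.tv t U H := by
  have h1 := (ht U H hU hH hne).1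
  have h2 := Z0_pos h i
  have h3 : (0 : ℝ) < R.tv t U H :=
    (mul_pos_iff_of_pos_right (Zc_pos h i 8 hU hH)).1 (by linarith)
  exact_mod_cast h3

theorem w_pos {h : R.Valid κ} {i : ℕ} {t : Tab} (ht : Good h i t) {x : R.E → ℤ} (hx : x ∈ R.Ω) :
    0 < R.w i t x := by
  classical
  obtain ⟨hb, U, H, hU, hH, hd⟩ := mem_filter.1 hx
  rw [w_of_class h i t hU hH hd]
  refine mul_pos (Φ_pos h i hb) ?_
  split_ifs with hne
  · exact one_pos
  · exact ht.pos hU hH hne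

/-- Total weight of the state space. -/
theorem tot_bounds {h : R.Valid κ} {i : ℕ} {t : Tab} (ht : Good h i t) :
    Z0 h i ≤ ∑ x ∈ R.Ω, (R.w i t x : ℝ) ∧
      ∑ x ∈ R.Ω, (R.w i t x : ℝ) ≤ 4 * ((R.nV : ℝ) + 1) ^ 2 * Z0 h i := by
  have h1 := sum_Ω h i t fun _ => 1
  simp only [mul_one, I_one] at h1
  have h0 := Z0_pos h i
  rw [h1]
  constructor
  · refine le_add_of_nonneg_right (sum_nonneg fun U _ => sum_nonneg fun H _ => ?_)
    split_ifs with hc
    · exact le_trans (by linarith) (ht U H hc.1 hc.2.1 hc.2.2).1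
    · exact le_rfl
  · have h2 : ∀ U H : R.V, (if R.rt U = U ∧ R.rt H = H ∧ U ≠ H then
        (R.tv t U H : ℝ) * Z R.G (W h i 8) (R.βf + dl H - dl U) else 0) ≤
        4 * Z0 h i - if U = H then 4 * Z0 h i else 0 := fun U H => by
      split_ifs with hc h3 h3
      · exact absurd h3 hc.2.2
      · rw [sub_zero]
        exact (ht U H hc.1 hc.2.1 hc.2.2).2
      · linarith
      · linarith
    have h3 := sum_le_sum fun U (_ : U ∈ univ) => sum_le_sum fun H (_ : H ∈ univ) => h2 U H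
    simp only [sum_sub_distrib, sum_ite_eq, mem_univ, if_true, sum_const, card_univ,
      Fintype.card_fin, nsmul_eq_mul, Nat.cast_succ] at h3
    have h4 : 0 ≤ (R.nV : ℝ) * Z0 h i := by positivity
    change Z0 h i + _ ≤ _
    nlinarith

theorem Zc_succ (h : R.Valid κ) {i : ℕ} (hi : i < R.Ls) (r p : R.V) :
    Zc h (i + 1) 8 r p ≤ 3 / 2 * Zc h i 8 r p ∧ Zc h i 8 r p ≤ 3 / 2 * Zc h (i + 1) 8 r p := by
  simp only [Zc, tail_Z_eq, mul_sum]
  refine ⟨sum_le_sum fun x _ => ?_, sum_le_sum fun x _ => ?_⟩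
  · have := (Rat.cast_le (K := ℝ)).2 (Φ_succ h hi x).1
    push_cast at this
    exact this
  · have := (Rat.cast_le (K := ℝ)).2 (Φ_succ h hi x).2
    push_cast at this
    exact this

/-- The target of stage `i` is a warm start for stage `i + 1`. -/
theorem warm {h : R.Valid κ} {i : ℕ} (hi : i < R.Ls) {t t' : Tab} (ht : Good h i t)
    (ht' : Good h (i + 1) t') {x : R.E → ℤ} (hx : x ∈ R.Ω) :
    (R.w i t x : ℝ) / (∑ y ∈ R.Ω, (R.w i t y : ℝ)) * ∑ y ∈ R.Ω, (R.w (i + 1) t' y : ℝ) ≤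
      R.m * R.w (i + 1) t' x := by
  classical
  have hw : (0 : ℝ) < R.w (i + 1) t' x := by exact_mod_cast w_pos ht' hx
  obtain ⟨hb, U, H, hU, hH, hd⟩ := mem_filter.1 hx
  have z0 := Z0_pos h i
  have z1 := Zc_succ h hi R.star R.star
  rw [Zc_self, Zc_self] at z1
  have h1 : (R.w i t x : ℝ) ≤ 54 * R.w (i + 1) t' x := by
    have p1 : (0 : ℝ) < R.Φ (i + 1) x := by exact_mod_cast Φ_pos h (i + 1) hb
    have p2 := (Rat.cast_le (K := ℝ)).2 (Φ_succ h hi x).2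
    rw [w_of_class h i t hU hH hd, w_of_class h (i + 1) t' hU hH hd]
    push_cast at p2 ⊢
    split_ifs with hne
    · push_cast
      linarith
    · have a1 := (ht U H hU hH hne).2
      have a2 := (ht' U H hU hH hne).1
      have a3 := (Zc_succ h hi U H).1
      have a4 := Zc_pos h i 8 hU hH
      have a5 : (0 : ℝ) < R.tv t U H := by exact_mod_cast ht.pos hU hH hne
      have a6 : (0 : ℝ) < R.tv t' U H := by exact_mod_cast ht'.pos hU hH hne
      have a7 : (R.tv t U H : ℝ) ≤ 36 * R.tv t' U H := by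
        refine le_of_mul_le_mul_right ?_ a4
        nlinarith [mul_le_mul_of_nonneg_left a3 a6.le]
      calc _ ≤ 3 / 2 * (R.Φ (i + 1) x : ℝ) * (36 * R.tv t' U H) :=
            mul_le_mul p2 a7 a5.le (by positivity)
        _ = _ := by ring
  have h2 := (tot_bounds ht).1
  have h3 := (tot_bounds ht').2
  have h4 : 324 * ((R.nV : ℝ) + 1) ^ 2 ≤ R.m := by
    have : 324 * (R.nV + 1) ^ 2 ≤ R.m := by
      refine le_trans ?_ ((Nat.le_mul_of_pos_right _ h.one_le).trans h.hm)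
      have : (R.nV + 1) ^ 2 ≤ (R.nE + R.nV + 2) ^ 2 := Nat.pow_le_pow_left (by omega) _
      exact Nat.mul_le_mul (by omega) this
    exact_mod_cast this
  have h5 : ∑ y ∈ R.Ω, (R.w (i + 1) t' y : ℝ) ≤
      6 * ((R.nV : ℝ) + 1) ^ 2 * ∑ y ∈ R.Ω, (R.w i t y : ℝ) := by
    have : (0 : ℝ) ≤ ((R.nV : ℝ) + 1) ^ 2 := by positivity
    nlinarith [mul_le_mul_of_nonneg_left (z1.1.trans (mul_le_mul_of_nonneg_left h2
      (by norm_num))) this]
  have h6 : 0 < ∑ y ∈ R.Ω, (R.w i t y : ℝ) := z0.trans_le h2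
  rw [div_mul_eq_mul_div, div_le_iff₀ h6]
  calc _ ≤ 54 * (R.w (i + 1) t' x : ℝ) *
        (6 * ((R.nV : ℝ) + 1) ^ 2 * ∑ y ∈ R.Ω, (R.w i t y : ℝ)) :=
        mul_le_mul h1 h5 ((Z0_pos h (i + 1)).le.trans (tot_bounds ht').1) (by positivity)
    _ = 324 * ((R.nV : ℝ) + 1) ^ 2 * (R.w (i + 1) t' x * ∑ y ∈ R.Ω, (R.w i t y : ℝ)) := by ring
    _ ≤ R.m * (R.w (i + 1) t' x * ∑ y ∈ R.Ω, (R.w i t y : ℝ)) :=
        mul_le_mul_of_nonneg_right h4 (by positivity)
    _ = _ := by ring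

end Crest.Agent.R309.Raw
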