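import Crest.Agent.R309.Model
import Crest.Agent.R309.FlowBasic

/-!
# Row 309: numerics and the two concave bases of the edge weights
-/

set_option autoImplicit false

namespace Crest.Agent.R309

open Finset

namespace WAux

theorem dst_nonneg (k a b : ℤ) : 0 ≤ dst k a b := le_max_right _ _

theorem dst_conv (k a b : ℤ) : 2 * dst k a b ≤ dst (k - 1) a b + dst (k + 1) a b := by
  unfold dst; omega

theorem dst_lip (x y a b : ℤ) : dst y a b ≤ dst x a b + |y - x| := by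
  unfold dst
  rcases abs_cases (y - x) with h | h <;> omega

theorem dst_eq_zero {k a b : ℤ} (h1 : a ≤ k) (h2 : k ≤ b) : dst k a b = 0 := by
  unfold dst; omega

/-- the concave base -/
def bs (k a b : ℤ) (B : ℚ) : ℚ := 1 - (dst k a b : ℚ) / B

theorem bs_le_one (k a b : ℤ) {B : ℚ} (hB : 0 ≤ B) : bs k a b B ≤ 1 := by
  have : (0 : ℚ) ≤ dst k a b := by exact_mod_cast dst_nonneg k a b
  have := div_nonneg this hB
  unfold bs; linarith

theorem bs_lc (k a b : ℤ) {B : ℚ} (hB : 0 ≤ B) (h1 : 0 ≤ bs (k - 1) a b B)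
    (h2 : 0 ≤ bs (k + 1) a b B) (n : ℕ) :
    bs (k - 1) a b B ^ n * bs (k + 1) a b B ^ n ≤ (bs k a b B ^ n) ^ 2 := by
  have h3 : (2 : ℚ) * dst k a b ≤ dst (k - 1) a b + dst (k + 1) a b := by
    exact_mod_cast dst_conv k a b
  have h4 : bs (k - 1) a b B + bs (k + 1) a b B ≤ 2 * bs k a b B := by
    have := div_le_div_of_nonneg_right h3 hB
    unfold bs
    rw [add_div, mul_div_assoc] at this
    linarith
  rw [← mul_pow, ← pow_mul, mul_comm n 2, pow_mul]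
  refine pow_le_pow_left₀ (mul_nonneg h1 h2) ?_ n
  nlinarith [sq_nonneg (bs (k - 1) a b B - bs (k + 1) a b B)]

/-- smoothness of a power of the base -/
theorem bs_smooth {x y a b : ℤ} {B δ ε : ℚ} (hB : 0 < B) (hx : 1 / 2 ≤ bs x a b B)
    (hxy : (|y - x| : ℤ) ≤ δ) {n N : ℕ} (hn : n ≤ N) (hN : 1 ≤ N) (hε : 2 * δ * N ≤ ε * B)
    (hε1 : ε ≤ 1) : (1 - ε) * bs x a b B ^ n ≤ bs y a b B ^ n := by
  have h0 : (0 : ℚ) ≤ δ := le_trans (by exact_mod_cast abs_nonneg (y - x)) hxy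
  have h1 : (dst y a b : ℚ) ≤ dst x a b + δ := by
    have : (dst y a b : ℚ) ≤ dst x a b + (|y - x| : ℤ) := by exact_mod_cast dst_lip x y a b
    linarith
  have hN' : (1 : ℚ) ≤ N := by exact_mod_cast hN
  have hn' : (n : ℚ) ≤ N := by exact_mod_cast hn
  set η := 2 * δ / B with hη
  have hη0 : 0 ≤ η := by positivity
  have hηN : η * N ≤ ε := by
    rw [hη, div_mul_eq_mul_div, div_le_iff₀ hB]; exact hε
  have hη1 : η ≤ 1 := by nlinarith
  have h2 : (1 - η) * bs x a b B ≤ bs y a b B := by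
    have := div_le_div_of_nonneg_right h1 hB.le
    rw [add_div] at this
    have e : δ / B = η / 2 := by rw [hη]; ring
    have h3 : bs x a b B - η / 2 ≤ bs y a b B := by unfold bs; linarith
    nlinarith
  have h3 : 1 - ε ≤ (1 - η) ^ n := by
    have := one_add_mul_le_pow (a := -η) (by linarith) n
    have h4 : η * n ≤ η * N := mul_le_mul_of_nonneg_left hn' hη0
    rw [← sub_eq_add_neg] at this
    linarith
  calc (1 - ε) * bs x a b B ^ n ≤ (1 - η) ^ n * bs x a b B ^ n :=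
        mul_le_mul_of_nonneg_right h3 (pow_nonneg (by linarith) _)
    _ = ((1 - η) * bs x a b B) ^ n := (mul_pow _ _ _).symm
    _ ≤ bs y a b B ^ n := pow_le_pow_left₀ (mul_nonneg (by linarith) (by linarith)) h2 n

theorem quarter_le {B : ℕ} (hB : 100 ≤ B) : (1 / 4 : ℚ) ≤ (1 - 1 / B) ^ B := by
  have hB' : (100 : ℚ) ≤ B := by exact_mod_cast hB
  have h0 : (1 : ℚ) / B ≤ 1 / 100 := one_div_le_one_div_of_le (by norm_num) hB'
  have h0' : (0 : ℚ) ≤ 1 / B := by positivity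
  have h1 := one_add_mul_le_pow (a := -(1 / (B : ℚ))) (by linarith) (B / 3 + 1)
  have h2 : ((B / 3 + 1 : ℕ) : ℚ) ≤ B / 3 + 1 := by
    have : (B / 3 + 1) * 3 ≤ B + 3 := by omega
    have : ((B / 3 + 1 : ℕ) : ℚ) * 3 ≤ B + 3 := by exact_mod_cast this
    linarith
  have h3 : ((B / 3 + 1 : ℕ) : ℚ) * (1 / B) ≤ 7 / 20 := by
    have : ((B : ℚ) / 3 + 1) * (1 / B) = 1 / 3 + 1 / B := by field_simp
    have := mul_le_mul_of_nonneg_right h2 h0'
    linarith
  have h4 : (13 / 20 : ℚ) ≤ (1 - 1 / B) ^ (B / 3 + 1) := by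
    rw [← sub_eq_add_neg] at h1
    linarith
  calc (1 / 4 : ℚ) ≤ (13 / 20) ^ 3 := by norm_num
    _ ≤ ((1 - 1 / B) ^ (B / 3 + 1)) ^ 3 := pow_le_pow_left₀ (by norm_num) h4 3
    _ = (1 - 1 / B) ^ ((B / 3 + 1) * 3) := (pow_mul _ _ _).symm
    _ ≤ (1 - 1 / B) ^ B := pow_le_pow_of_le_one (by linarith) (by linarith) (by omega)

theorem prod_ge {ι : Type} [Fintype ι] {f g : ι → ℚ} {ε c : ℚ} (hf : ∀ e, 0 ≤ f e) (h0 : 0 ≤ ε)
    (h1 : ε ≤ 1) (h : ∀ e, (1 - ε) * f e ≤ g e) (hc : c ≤ 1 - Fintype.card ι * ε) :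
    c * ∏ e, f e ≤ ∏ e, g e := by
  have h2 := one_add_mul_le_pow (a := -ε) (by linarith) (Fintype.card ι)
  rw [← sub_eq_add_neg] at h2
  calc c * ∏ e, f e ≤ (1 - ε) ^ Fintype.card ι * ∏ e, f e :=
        mul_le_mul_of_nonneg_right (by linarith) (prod_nonneg fun e _ => hf e)
    _ = ∏ e, (1 - ε) * f e := by rw [prod_mul_distrib, prod_const, card_univ]
    _ ≤ ∏ e, g e := prod_le_prod (fun e _ => mul_nonneg (by linarith) (hf e)) fun e _ => h e

theorem dl_ne {V : Type} [DecidableEq V] (β : V → ℤ) {U H : V} (h : U ≠ H) :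
    β ≠ β + dl H - dl U := by
  intro e
  have := congrFun e H
  simp [dl, h.symm] at this

theorem dl_inj {V : Type} [DecidableEq V] (β : V → ℤ) {U H U' H' : V} (h : U ≠ H)
    (e : β + dl H - dl U = β + dl H' - dl U') : U = U' ∧ H = H' := by
  have h1 := congrFun e H
  have h2 := congrFun e U
  simp only [dl, Pi.sub_apply, Pi.add_apply, Pi.single_apply, if_true, if_neg h, if_neg h.symm]
    at h1 h2
  constructor
  · by_contra hc
    rw [if_neg hc] at h2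
    split_ifs at h2 <;> omega
  · by_contra hc
    rw [if_neg hc] at h1
    split_ifs at h1 <;> omega

variable {R : Raw} {κ : ℕ}

theorem m_big (h : R.Valid κ) : 1000 * (R.nE + 2) ≤ R.m := by
  refine le_trans ?_ h.hm
  have h1 := h.one_le
  have h2 : R.nE + 2 ≤ (R.nE + R.nV + 2) ^ 2 := by nlinarith [Nat.zero_le R.nV, Nat.zero_le R.nE]
  calc 1000 * (R.nE + 2) = 1000 * 1 * (R.nE + 2) * 1 := by ring
    _ ≤ 1000 * (R.ℓ + 1) * (R.nE + R.nV + 2) ^ 2 * κ := by gcongr; omega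

theorem ℓ_pos (h : R.Valid κ) : 1 ≤ R.ℓ := by
  by_contra hc
  have h0 : R.ℓ = 0 := by omega
  have h1 := h.hℓ
  have h2 := m_big h
  rw [h0, pow_zero] at h1
  have : 1 < R.m ^ 64 := Nat.one_lt_pow (by norm_num) (by omega)
  omega

theorem q_pos (h : R.Valid κ) (e : R.E) : 1 ≤ R.qf e := by
  obtain ⟨j, -, hj⟩ := h.q_pow e
  rw [hj]
  exact Nat.one_le_two_pow

theorem Ls_pos (h : R.Valid κ) : 1 ≤ R.Ls := by
  have h1 := ℓ_pos h
  have h2 := m_big h
  have : 0 < R.m := by omega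
  unfold Raw.Ls
  exact Nat.succ_le_of_lt (by positivity)

theorem Bm_pos (h : R.Valid κ) (e : R.E) : (0 : ℚ) < R.Bm e := by
  have h1 := Ls_pos h
  have h2 := m_big h
  have h3 := q_pos h e
  have : 0 < R.m := by omega
  have : 0 < R.Bm e := by
    unfold Raw.Bm
    split_ifs <;> positivity
  exact_mod_cast this

/-- first base -/
abbrev b1 (R : Raw) (e : R.E) (k : ℤ) : ℚ := bs k (R.cf e - R.Am e) (R.cf e + R.Am e) (R.Bm e)
/-- second base -/
abbrev b2 (R : Raw) (e : R.E) (k : ℤ) : ℚ := bs k (R.lf e) (R.uf e) (16 * R.Dm e)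

theorem φ_eq (R : Raw) (i : ℕ) (e : R.E) {k : ℤ} (h1 : R.lf e - 8 * R.Dm e ≤ k)
    (h2 : k ≤ R.uf e + 8 * R.Dm e) : R.φ i e k = b1 R e k ^ R.ex i e * b2 R e k ^ R.m := by
  unfold Raw.φ
  rw [if_pos ⟨h1, h2⟩]
  rfl

theorem φ_out (R : Raw) (i : ℕ) (e : R.E) {k : ℤ}
    (h1 : ¬ (R.lf e - 8 * R.Dm e ≤ k ∧ k ≤ R.uf e + 8 * R.Dm e)) : R.φ i e k = 0 := by
  unfold Raw.φ
  rw [if_neg h1]

theorem b1_le (R : Raw) (e : R.E) (k : ℤ) : b1 R e k ≤ 1 := bs_le_one _ _ _ (by positivity)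

theorem b2_le (R : Raw) (e : R.E) (k : ℤ) : b2 R e k ≤ 1 := bs_le_one _ _ _ (by positivity)

theorem b1_ge (h : R.Valid κ) (e : R.E) {k : ℤ} (h1 : R.lf e - 8 * R.Dm e ≤ k)
    (h2 : k ≤ R.uf e + 8 * R.Dm e) : 1 - 1 / (R.m : ℚ) ≤ b1 R e k := by
  have hm := m_big h
  have hm0 : (0 : ℚ) < R.m := by exact_mod_cast (by omega : 0 < R.m)
  have hl := h.l_le_c e
  have hu := h.c_le_u e
  have hd : dst k (R.cf e - R.Am e) (R.cf e + R.Am e) ≤ R.uf e - R.lf e + 8 * R.Dm e := by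
    unfold dst; omega
  have key : dst k (R.cf e - R.Am e) (R.cf e + R.Am e) * R.m ≤ R.Bm e := by
    refine (mul_le_mul_of_nonneg_right hd (by positivity)).trans ?_
    by_cases hk : 2 ≤ R.kd e
    · have h3 := (h.big_hi e hk).le
      have h4 := ℓ_pos h
      have h5 : (2 * R.qf e * R.m ^ 5 + 8 * (R.qf e * R.m ^ 4)) * R.m ≤
          2 * R.ℓ * R.m ^ 6 * R.qf e * R.m := by
        refine Nat.mul_le_mul_right _ ?_
        calc 2 * R.qf e * R.m ^ 5 + 8 * (R.qf e * R.m ^ 4)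
            = (2 * R.m + 8) * (R.m ^ 4 * R.qf e) := by ring
          _ ≤ (2 * 1 * R.m ^ 2) * (R.m ^ 4 * R.qf e) := Nat.mul_le_mul_right _ (by nlinarith)
          _ ≤ (2 * R.ℓ * R.m ^ 2) * (R.m ^ 4 * R.qf e) := by gcongr
          _ = 2 * R.ℓ * R.m ^ 6 * R.qf e := by ring
      unfold Raw.Bm Raw.Dm Raw.Ls
      rw [if_pos hk, if_pos hk]
      refine le_trans (mul_le_mul_of_nonneg_right (add_le_add_left h3 _) (by positivity)) ?_
      exact_mod_cast h5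
    · have h3 := (h.small_w e (by omega)).le
      unfold Raw.Bm Raw.Dm
      rw [if_neg hk, if_neg hk]
      refine le_trans (mul_le_mul_of_nonneg_right (add_le_add_left h3 _) (by positivity)) ?_
      push_cast
      exact le_of_eq (by ring)
  have key' : (dst k (R.cf e - R.Am e) (R.cf e + R.Am e) : ℚ) * R.m ≤ R.Bm e := by
    exact_mod_cast key
  have : (dst k (R.cf e - R.Am e) (R.cf e + R.Am e) : ℚ) / R.Bm e ≤ 1 / R.m := by
    rw [div_le_div_iff₀ (Bm_pos h e) hm0]; linarith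
  unfold b1 bs
  linarith

theorem inv_m_le (h : R.Valid κ) : 1 / (R.m : ℚ) ≤ 1 / 2000 := by
  have hm := m_big h
  exact one_div_le_one_div_of_le (by norm_num) (by exact_mod_cast (by omega : 2000 ≤ R.m))

theorem b1_half (h : R.Valid κ) (e : R.E) {k : ℤ} (h1 : R.lf e - 8 * R.Dm e ≤ k)
    (h2 : k ≤ R.uf e + 8 * R.Dm e) : 1 / 2 ≤ b1 R e k := by
  have := b1_ge h e h1 h2
  have := inv_m_le h
  linarith

theorem b2_half (R : Raw) (e : R.E) {k : ℤ} (h1 : R.lf e - 8 * R.Dm e ≤ k)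
    (h2 : k ≤ R.uf e + 8 * R.Dm e) : 1 / 2 ≤ b2 R e k := by
  have hd : dst k (R.lf e) (R.uf e) ≤ 8 * R.Dm e := by unfold dst; omega
  have hd' : (dst k (R.lf e) (R.uf e) : ℚ) ≤ 8 * R.Dm e := by exact_mod_cast hd
  have : (dst k (R.lf e) (R.uf e) : ℚ) / (16 * R.Dm e) ≤ 1 / 2 :=
    div_le_of_le_mul₀ (by positivity) (by norm_num) (by linarith)
  unfold b2 bs
  linarith

theorem nE_div (h : R.Valid κ) : (Fintype.card R.E : ℚ) * (1 / R.m) ≤ 1 / 1000 := by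
  have hm := m_big h
  have hm0 : (0 : ℚ) < R.m := by exact_mod_cast (by omega : 0 < R.m)
  have : (R.nE : ℚ) * 1000 ≤ R.m := by exact_mod_cast (by omega : R.nE * 1000 ≤ R.m)
  rw [Fintype.card_fin, mul_one_div, div_le_div_iff₀ hm0 (by norm_num)]
  linarith

theorem mem_box (R : Raw) (a : ℕ) (x : R.E → ℤ) :
    x ∈ R.box a ↔ ∀ e, R.lf e - a * R.Dm e ≤ x e ∧ x e ≤ R.uf e + a * R.Dm e := by
  simp [Raw.box]

end WAux

end Crest.Agent.R309
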