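import Crest.Agent.R309.Model
import Crest.Agent.R309.FlowBasic
import Crest.Agent.R309.WeightsAux

/-!
# Row 309: the edge weights of the chain
-/

set_option autoImplicit false

namespace Crest.Agent.R309.Raw

open Finset WAux

variable {R : Raw} {κ : ℕ}

theorem φ_nonneg (h : R.Valid κ) (i : ℕ) (e : R.E) (k : ℤ) : 0 ≤ R.φ i e k := by
  by_cases hk : R.lf e - 8 * R.Dm e ≤ k ∧ k ≤ R.uf e + 8 * R.Dm e
  · rw [φ_eq R i e hk.1 hk.2]
    have h1 := b1_half h e hk.1 hk.2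
    have h2 := b2_half R e hk.1 hk.2
    exact mul_nonneg (pow_nonneg (by linarith) _) (pow_nonneg (by linarith) _)
  · rw [φ_out R i e hk]

theorem φ_le_one (h : R.Valid κ) (i : ℕ) (e : R.E) (k : ℤ) : R.φ i e k ≤ 1 := by
  by_cases hk : R.lf e - 8 * R.Dm e ≤ k ∧ k ≤ R.uf e + 8 * R.Dm e
  · rw [φ_eq R i e hk.1 hk.2]
    have h1 := b1_half h e hk.1 hk.2
    have h2 := b2_half R e hk.1 hk.2
    exact mul_le_one₀ (pow_le_one₀ (by linarith) (b1_le R e k)) (pow_nonneg (by linarith) _)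
      (pow_le_one₀ (by linarith) (b2_le R e k))
  · rw [φ_out R i e hk]
    exact zero_le_one

theorem φ_pos (h : R.Valid κ) (i : ℕ) (e : R.E) {k : ℤ} (h1 : R.lf e - 8 * R.Dm e ≤ k)
    (h2 : k ≤ R.uf e + 8 * R.Dm e) : 0 < R.φ i e k := by
  rw [φ_eq R i e h1 h2]
  have h3 := b1_half h e h1 h2
  have h4 := b2_half R e h1 h2
  exact mul_pos (pow_pos (by linarith) _) (pow_pos (by linarith) _)

theorem φ_lc (h : R.Valid κ) (i : ℕ) (e : R.E) (k : ℤ) :
    R.φ i e (k - 1) * R.φ i e (k + 1) ≤ R.φ i e k ^ 2 := by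
  by_cases h1 : R.lf e - 8 * R.Dm e ≤ k - 1 ∧ k - 1 ≤ R.uf e + 8 * R.Dm e
  swap
  · rw [φ_out R i e h1, zero_mul]; positivity
  by_cases h2 : R.lf e - 8 * R.Dm e ≤ k + 1 ∧ k + 1 ≤ R.uf e + 8 * R.Dm e
  swap
  · rw [φ_out R i e h2, mul_zero]; positivity
  rw [φ_eq R i e h1.1 h1.2, φ_eq R i e h2.1 h2.2, φ_eq R i e (k := k) (by omega) (by omega),
    mul_mul_mul_comm, mul_pow]
  have a1 := b1_half h e h1.1 h1.2
  have a2 := b2_half R e h1.1 h1.2
  have a3 := b1_half h e h2.1 h2.2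
  have a4 := b2_half R e h2.1 h2.2
  exact mul_le_mul (bs_lc _ _ _ (by positivity) (by linarith) (by linarith) _)
    (bs_lc _ _ _ (by positivity) (by linarith) (by linarith) _)
    (mul_nonneg (pow_nonneg (by linarith) _) (pow_nonneg (by linarith) _)) (sq_nonneg _)

/-- The weights of stage `i` restricted to the box with margins `a * Dm` (`a = 8`: the chain,
`a = 4`: the region where the weights are smooth). -/
noncomputable def W (h : R.Valid κ) (i : ℕ) (a : Fin 9) : Wt R.E where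
  lo e := R.lf e - (a : ℕ) * R.Dm e
  hi e := R.uf e + (a : ℕ) * R.Dm e
  φ e k := if R.lf e - (a : ℕ) * R.Dm e ≤ k ∧ k ≤ R.uf e + (a : ℕ) * R.Dm e then (R.φ i e k : ℝ)
    else 0
  le e := by
    have := h.l_le_c e
    have := h.c_le_u e
    have : (0 : ℤ) ≤ (a : ℕ) * R.Dm e := by positivity
    omega
  pos e k h1 h2 := by
    have ha : ((a : ℕ) : ℤ) * R.Dm e ≤ 8 * R.Dm e :=
      mul_le_mul_of_nonneg_right (by have := a.2; omega) (by positivity)
    rw [if_pos ⟨h1, h2⟩]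
    exact_mod_cast φ_pos h i e (by omega) (by omega)
  zero e k h1 := by
    rw [if_neg (by omega)]
  lc e k := by
    by_cases h1 : R.lf e - (a : ℕ) * R.Dm e ≤ k - 1 ∧ k - 1 ≤ R.uf e + (a : ℕ) * R.Dm e
    · by_cases h2 : R.lf e - (a : ℕ) * R.Dm e ≤ k + 1 ∧ k + 1 ≤ R.uf e + (a : ℕ) * R.Dm e
      · rw [if_pos h1, if_pos h2, if_pos (by omega)]
        exact_mod_cast φ_lc h i e k
      · rw [if_neg h2, mul_zero]; positivity
    · rw [if_neg h1, zero_mul]; positivity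

/-- Partition function of the flows with head `p` and tail `r`. -/
noncomputable def Zc (h : R.Valid κ) (i : ℕ) (a : Fin 9) (r p : R.V) : ℝ :=
  Z R.G (W h i a) (R.βf + dl p - dl r)

/-- Partition function of the flows without defect. -/
noncomputable def Z0 (h : R.Valid κ) (i : ℕ) : ℝ := Z R.G (W h i 8) R.βf

/-- The class weights are within a factor `4` of the ideal ones. -/
def Good (h : R.Valid κ) (i : ℕ) (t : Tab) : Prop :=
  ∀ U H, R.rt U = U → R.rt H = H → U ≠ H →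
    Z0 h i / 4 ≤ R.tv t U H * Zc h i 8 U H ∧ R.tv t U H * Zc h i 8 U H ≤ 4 * Z0 h i

theorem W_box (h : R.Valid κ) (i : ℕ) (a : Fin 9) : (W h i a).box = R.box a := rfl

theorem W_Φ (h : R.Valid κ) (i : ℕ) (a : Fin 9) {x : R.E → ℤ} (hx : x ∈ R.box a) :
    (W h i a).Φ x = (R.Φ i x : ℝ) := by
  rw [mem_box] at hx
  unfold Wt.Φ Raw.Φ
  push_cast
  exact prod_congr rfl fun e _ => if_pos (hx e)

theorem W8_Φ (h : R.Valid κ) (i : ℕ) (x : R.E → ℤ) : (W h i 8).Φ x = (R.Φ i x : ℝ) := by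
  unfold Wt.Φ Raw.Φ
  push_cast
  refine prod_congr rfl fun e _ => ?_
  by_cases hk : R.lf e - 8 * R.Dm e ≤ x e ∧ x e ≤ R.uf e + 8 * R.Dm e
  · exact if_pos hk
  · rw [φ_out R i e hk, Rat.cast_zero]
    exact if_neg hk

theorem box_mono (R : Raw) {a b : ℕ} (hab : a ≤ b) : R.box a ⊆ R.box b := by
  intro x hx
  rw [mem_box] at hx ⊢
  intro e
  have h1 := hx e
  have h2 : (a : ℤ) * R.Dm e ≤ b * R.Dm e :=
    mul_le_mul_of_nonneg_right (by exact_mod_cast hab) (by positivity)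
  omega

theorem Φ_nonneg (h : R.Valid κ) (i : ℕ) (x : R.E → ℤ) : 0 ≤ R.Φ i x :=
  prod_nonneg fun e _ => φ_nonneg h i e _

theorem Φ_le_one (h : R.Valid κ) (i : ℕ) (x : R.E → ℤ) : R.Φ i x ≤ 1 :=
  prod_le_one (fun e _ => φ_nonneg h i e _) fun e _ => φ_le_one h i e _

theorem Φ_pos (h : R.Valid κ) (i : ℕ) {x : R.E → ℤ} (hx : x ∈ R.box 8) : 0 < R.Φ i x := by
  rw [mem_box] at hx
  exact prod_pos fun e _ => φ_pos h i e (hx e).1 (hx e).2

theorem Φ_eq_zero (R : Raw) (i : ℕ) {x : R.E → ℤ} (hx : x ∉ R.box 8) : R.Φ i x = 0 := by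
  rw [mem_box, not_forall] at hx
  obtain ⟨e, he⟩ := hx
  exact prod_eq_zero (mem_univ e) (φ_out R i e he)

theorem φ_step (h : R.Valid κ) {i j : ℕ} (e : R.E) (hij : R.ex j e ≤ R.ex i e + 1) (k : ℤ) :
    (1 - 1 / (R.m : ℚ)) * R.φ i e k ≤ R.φ j e k := by
  by_cases hk : R.lf e - 8 * R.Dm e ≤ k ∧ k ≤ R.uf e + 8 * R.Dm e
  swap
  · rw [φ_out R i e hk, φ_out R j e hk, mul_zero]
  rw [φ_eq R i e hk.1 hk.2, φ_eq R j e hk.1 hk.2, ← mul_assoc]
  have h1 := b1_half h e hk.1 hk.2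
  have h2 := b2_half R e hk.1 hk.2
  refine mul_le_mul_of_nonneg_right ?_ (pow_nonneg (by linarith) _)
  calc (1 - 1 / (R.m : ℚ)) * b1 R e k ^ R.ex i e ≤ b1 R e k * b1 R e k ^ R.ex i e :=
        mul_le_mul_of_nonneg_right (b1_ge h e hk.1 hk.2) (pow_nonneg (by linarith) _)
    _ = b1 R e k ^ (R.ex i e + 1) := (pow_succ' _ _).symm
    _ ≤ b1 R e k ^ R.ex j e := pow_le_pow_of_le_one (by linarith) (b1_le R e k) hij

/-- Consecutive stages differ by a factor of at most `3 / 2`. -/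
theorem Φ_succ (h : R.Valid κ) {i : ℕ} (hi : i < R.Ls) (x : R.E → ℤ) :
    R.Φ (i + 1) x ≤ 3 / 2 * R.Φ i x ∧ R.Φ i x ≤ 3 / 2 * R.Φ (i + 1) x := by
  have h1 := inv_m_le h
  have h2 := nE_div h
  have key : ∀ i j : ℕ, (∀ e, R.ex j e ≤ R.ex i e + 1) → R.Φ i x ≤ 3 / 2 * R.Φ j x := by
    intro i j hij
    have := prod_ge (c := 2 / 3) (ε := 1 / R.m) (fun e => φ_nonneg h i e (x e)) (by positivity)
      (by linarith) (fun e => φ_step h e (hij e) (x e)) (by linarith)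
    unfold Raw.Φ
    linarith
  refine ⟨key _ _ fun e => ?_, key _ _ fun e => ?_⟩ <;> unfold Raw.ex <;> split_ifs <;> omega

/-- Smoothness of the weights at the scale of the moves. -/
theorem Φ_smooth (h : R.Valid κ) (i : ℕ) {x y : R.E → ℤ} (hx : x ∈ R.box 4)
    (h0 : ∀ e, R.kd e < 2 → y e = x e)
    (h2 : ∀ e, R.kd e = 2 → |y e - x e| ≤ (2 * R.nE + 4) * R.qf e)
    (h3 : ∀ e, R.kd e = 3 → |y e - x e| ≤ 2 * R.qf e) : R.Φ i x ≤ 2 * R.Φ i y := by
  have a1 := inv_m_le h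
  have a2 := nE_div h
  have hm := m_big h
  have hm0 : (0 : ℚ) < R.m := by exact_mod_cast (by omega : 0 < R.m)
  have hx8 := (mem_box R 8 x).1 (box_mono R (by norm_num) hx)
  rw [mem_box] at hx
  have key : ∀ e, (1 - 5 * (1 / (R.m : ℚ))) * R.φ i e (x e) ≤ R.φ i e (y e) := by
    intro e
    by_cases hk : R.kd e < 2
    · rw [h0 e hk]
      have := φ_nonneg h i e (x e)
      have : (0 : ℚ) ≤ 1 / R.m := by positivity
      nlinarith
    have hk3 := h.kd_le e
    have hq := q_pos h e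
    have hq' : (1 : ℚ) ≤ R.qf e := by exact_mod_cast hq
    have hD : R.Dm e = R.qf e * R.m ^ 4 := if_pos (by omega)
    have hd : |y e - x e| ≤ (2 * R.nE + 4) * R.qf e := by
      by_cases hk2 : R.kd e = 2
      · exact h2 e hk2
      · refine (h3 e (by omega)).trans (mul_le_mul_of_nonneg_right ?_ (by positivity))
        omega
    have hm4 : R.m ≤ R.m ^ 4 := Nat.le_self_pow (by norm_num) _
    have hd' : (2 * R.nE + 4) * R.qf e ≤ 4 * R.Dm e := by
      rw [hD]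
      nlinarith
    have hd'' : ((2 * R.nE + 4 : ℤ)) * R.qf e ≤ 4 * R.Dm e := by exact_mod_cast hd'
    have hy := abs_le.1 (hd.trans hd'')
    have hx4 := hx e
    have hx8' := hx8 e
    push_cast at hx4 hx8'
    rw [φ_eq R i e hx8'.1 hx8'.2, φ_eq R i e (k := y e) (by omega) (by omega)]
    have c1 := b1_half h e hx8'.1 hx8'.2
    have c2 := b2_half R e hx8'.1 hx8'.2
    have s2 : (1 - 1 / (R.m : ℚ)) * b2 R e (x e) ^ R.m ≤ b2 R e (y e) ^ R.m := by
      refine bs_smooth (δ := (2 * R.nE + 4) * R.qf e) (N := R.m) ?_ c2 (by exact_mod_cast hd)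
        le_rfl (by omega) ?_ (by linarith)
      · rw [hD]; push_cast; positivity
      · rw [hD, one_div, inv_mul_eq_div, le_div_iff₀ hm0]
        have : 2 * ((2 * R.nE + 4) * R.qf e) * R.m * R.m ≤ 16 * (R.qf e * R.m ^ 4) := by
          calc 2 * ((2 * R.nE + 4) * R.qf e) * R.m * R.m
              = (4 * R.nE + 8) * (R.qf e * R.m ^ 2) := by ring
            _ ≤ (16 * R.m ^ 2) * (R.qf e * R.m ^ 2) := Nat.mul_le_mul_right _ (by nlinarith)
            _ = 16 * (R.qf e * R.m ^ 4) := by ring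
        exact_mod_cast this
    have s1 : (1 - 4 * (1 / (R.m : ℚ))) * b1 R e (x e) ^ R.ex i e ≤ b1 R e (y e) ^ R.ex i e := by
      by_cases hk2 : R.kd e = 2
      · have : R.ex i e = 0 := by
          unfold Raw.ex
          rw [if_neg (by omega), if_pos hk2]
        rw [this, pow_zero, pow_zero]
        have : (0 : ℚ) ≤ 1 / R.m := by positivity
        linarith
      · refine bs_smooth (δ := 2 * R.qf e) (N := R.Ls) (Bm_pos h e) c1
          (by exact_mod_cast h3 e (by omega)) ?_ (Ls_pos h) ?_ (by linarith)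
        · unfold Raw.ex
          rw [if_neg (by omega), if_neg hk2]
          omega
        · have : R.Bm e = R.Ls * R.qf e * R.m := if_pos (by omega)
          rw [this]
          push_cast
          refine le_of_eq ?_
          field_simp
          ring
    have p1 : 0 ≤ b1 R e (x e) ^ R.ex i e := pow_nonneg (by linarith) _
    have p2 : 0 ≤ b2 R e (x e) ^ R.m := pow_nonneg (by linarith) _
    have p3 : (0 : ℚ) ≤ 1 / R.m := by positivity
    calc (1 - 5 * (1 / (R.m : ℚ))) * (b1 R e (x e) ^ R.ex i e * b2 R e (x e) ^ R.m)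
        ≤ ((1 - 4 * (1 / (R.m : ℚ))) * (1 - 1 / (R.m : ℚ))) *
          (b1 R e (x e) ^ R.ex i e * b2 R e (x e) ^ R.m) :=
          mul_le_mul_of_nonneg_right (by nlinarith) (mul_nonneg p1 p2)
      _ = ((1 - 4 * (1 / (R.m : ℚ))) * b1 R e (x e) ^ R.ex i e) *
          ((1 - 1 / (R.m : ℚ)) * b2 R e (x e) ^ R.m) := by ring
      _ ≤ _ := mul_le_mul s1 s2 (mul_nonneg (by linarith) p2)
          (le_trans (mul_nonneg (by linarith) p1) s1)
  have := prod_ge (c := 1 / 2) (ε := 5 * (1 / R.m)) (fun e => φ_nonneg h i e (x e))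
    (by positivity) (by linarith) key (by linarith)
  unfold Raw.Φ
  linarith

theorem φ_decay_aux (h : R.Valid κ) (i : ℕ) (e : R.E) (he : 2 ≤ R.kd e) {k k' : ℤ}
    (hk' : R.lf e - 8 * R.Dm e ≤ k' ∧ k' ≤ R.uf e + 8 * R.Dm e)
    (h1 : dst k' (R.cf e - R.Am e) (R.cf e + R.Am e) ≤ dst k (R.cf e - R.Am e) (R.cf e + R.Am e))
    (h2 : dst k (R.lf e) (R.uf e) = dst k' (R.lf e) (R.uf e) + R.Dm e) :
    R.φ i e k ≤ (15 / 16) ^ R.m * R.φ i e k' := by
  by_cases hk : R.lf e - 8 * R.Dm e ≤ k ∧ k ≤ R.uf e + 8 * R.Dm e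
  swap
  · rw [φ_out R i e hk]
    exact mul_nonneg (by positivity) (φ_nonneg h i e k')
  rw [φ_eq R i e hk.1 hk.2, φ_eq R i e hk'.1 hk'.2, mul_left_comm, ← mul_pow]
  have c1 := b1_half h e hk.1 hk.2
  have c2 := b2_half R e hk.1 hk.2
  have c3 := b1_half h e hk'.1 hk'.2
  have hD : (0 : ℚ) < R.Dm e := by
    have hm := m_big h
    have hq := q_pos h e
    have : 0 < R.m := by omega
    have : 0 < R.Dm e := by
      unfold Raw.Dm
      rw [if_pos he]
      positivity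
    exact_mod_cast this
  refine mul_le_mul (pow_le_pow_left₀ (by linarith) ?_ _) (pow_le_pow_left₀ (by linarith) ?_ _)
    (pow_nonneg (by linarith) _) (pow_nonneg (by linarith) _)
  · have : (dst k' (R.cf e - R.Am e) (R.cf e + R.Am e) : ℚ) ≤
        dst k (R.cf e - R.Am e) (R.cf e + R.Am e) := by exact_mod_cast h1
    have := div_le_div_of_nonneg_right this (Bm_pos h e).le
    unfold b1 bs
    linarith
  · have c4 := b2_le R e k'
    have : b2 R e k = b2 R e k' - 1 / 16 := by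
      unfold b2 bs
      rw [h2]
      push_cast
      field_simp
      ring
    linarith

/-- Decay of the weights in the margin. -/
theorem φ_decay (h : R.Valid κ) (i : ℕ) (e : R.E) (he : 2 ≤ R.kd e) (k : ℤ) :
    (R.uf e + R.Dm e ≤ k → R.φ i e k ≤ (15 / 16) ^ R.m * R.φ i e (k - R.Dm e)) ∧
      (k ≤ R.lf e - R.Dm e → R.φ i e k ≤ (15 / 16) ^ R.m * R.φ i e (k + R.Dm e)) := by
  have hl := h.l_le_c e
  have hu := h.c_le_u e
  constructor
  · intro hk
    by_cases hk' : k ≤ R.uf e + 8 * R.Dm e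
    · refine φ_decay_aux h i e he (by omega) ?_ ?_ <;> unfold dst <;> omega
    · rw [φ_out R i e fun hc => hk' hc.2]
      exact mul_nonneg (by positivity) (φ_nonneg h i e _)
  · intro hk
    by_cases hk' : R.lf e - 8 * R.Dm e ≤ k
    · refine φ_decay_aux h i e he (by omega) ?_ ?_ <;> unfold dst <;> omega
    · rw [φ_out R i e fun hc => hk' hc.1]
      exact mul_nonneg (by positivity) (φ_nonneg h i e _)

theorem φ_centre (h : R.Valid κ) (i : ℕ) (e : R.E) : R.φ i e (R.cf e) = 1 := by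
  have hl := h.l_le_c e
  have hu := h.c_le_u e
  rw [φ_eq R i e (by omega) (by omega)]
  unfold b1 b2 bs
  rw [dst_eq_zero (by omega) (by omega), dst_eq_zero hl hu]
  simp

/-- The weight of a used hub edge is not too small. -/
theorem φ_hub_ge (h : R.Valid κ) {i : ℕ} (hi : i ≤ R.Ls) {e : R.E} (he : R.kd e = 1) {k : ℤ}
    (h1 : R.lf e ≤ k) (h2 : k ≤ R.uf e) : (1 / 2) ^ (4 * R.ℓ) ≤ R.φ i e k := by
  have hm := m_big h
  have hc := h.hub_c e he
  have hk : -1 ≤ k ∧ k ≤ 1 := by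
    by_cases hr : R.rt (R.G.hd e) = R.G.hd e
    · have := h.hub_root e he hr
      omega
    · have := h.hub_nonroot e he hr
      omega
  have hA : R.Am e = 0 := if_neg (by omega)
  have hB : R.Bm e = R.m ^ 6 := if_neg (by omega)
  have hx : R.ex i e = i := if_pos he
  have hm6 : 100 ≤ R.m ^ 6 := le_trans (by omega) (Nat.le_self_pow (by norm_num) R.m)
  have hq := quarter_le hm6
  have hB' : (100 : ℚ) ≤ (R.m ^ 6 : ℕ) := by exact_mod_cast hm6
  have h0 : (1 : ℚ) / (R.m ^ 6 : ℕ) ≤ 1 / 100 := one_div_le_one_div_of_le (by norm_num) hB'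
  have h0' : (0 : ℚ) ≤ 1 / (R.m ^ 6 : ℕ) := by positivity
  rw [φ_eq R i e (by omega) (by omega), hx]
  have e2 : b2 R e k = 1 := by
    unfold b2 bs
    rw [dst_eq_zero h1 h2]
    simp
  have e1 : 1 - 1 / ((R.m ^ 6 : ℕ) : ℚ) ≤ b1 R e k := by
    have : dst k (R.cf e - R.Am e) (R.cf e + R.Am e) ≤ 1 := by
      rw [hA, hc]; unfold dst; omega
    have : (dst k (R.cf e - R.Am e) (R.cf e + R.Am e) : ℚ) ≤ 1 := by exact_mod_cast this
    have := div_le_div_of_nonneg_right this (show (0 : ℚ) ≤ (R.m ^ 6 : ℕ) by positivity)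
    unfold b1 bs
    rw [hB]
    linarith
  rw [e2, one_pow, mul_one]
  calc (1 / 2 : ℚ) ^ (4 * R.ℓ) = (1 / 4) ^ (2 * R.ℓ) := by
        rw [show 4 * R.ℓ = 2 * (2 * R.ℓ) by ring, pow_mul]; norm_num
    _ ≤ ((1 - 1 / ((R.m ^ 6 : ℕ) : ℚ)) ^ (R.m ^ 6)) ^ (2 * R.ℓ) :=
        pow_le_pow_left₀ (by norm_num) hq _
    _ = (1 - 1 / ((R.m ^ 6 : ℕ) : ℚ)) ^ R.Ls := by
        rw [← pow_mul, mul_comm]; rfl
    _ ≤ (1 - 1 / ((R.m ^ 6 : ℕ) : ℚ)) ^ i := pow_le_pow_of_le_one (by linarith) (by linarith) hi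
    _ ≤ b1 R e k ^ i := pow_le_pow_left₀ (by linarith) e1 i

theorem dv_Lv (h : R.Valid κ) (e : R.E) :
    R.G.dv (R.Lv e) = dl (R.rt (R.G.hd e)) - dl (R.rt (R.G.tl e)) := by
  rw [Raw.Lv, dv_sub, dv_add, dv_ue, h.dv_P, h.dv_P, Net.bd]
  abel

theorem Pf_eq_zero (h : R.Valid κ) (v : R.V) {g : R.E} (hg : R.kd g ≠ 2) : R.Pf v g = 0 := by
  by_contra hc
  exact hg (h.P_tree v g hc)

theorem Lv_self (h : R.Valid κ) {e : R.E} (he : R.kd e ≠ 2) : R.Lv e e = 1 := by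
  simp [Raw.Lv, Pf_eq_zero h _ he, ue]

theorem Lv_other (h : R.Valid κ) {e g : R.E} (hg : R.kd g ≠ 2) (hne : g ≠ e) : R.Lv e g = 0 := by
  simp [Raw.Lv, Pf_eq_zero h _ hg, ue, hne]

/-- A move of size at most `s * q e` along `Lv e` moves a tree edge `g` by at most `2 s q g`. -/
theorem Lv_tree (h : R.Valid κ) (e : R.E) {g : R.E} (hg : R.kd g = 2) :
    (R.qf e : ℤ) * |R.Lv e g| ≤ 2 * R.qf g := by
  by_cases he : R.kd e = 2
  · rw [h.L_tree e he]
    simp
  have hne : g ≠ e := fun hc => he (hc ▸ hg)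
  have e1 : R.Lv e g = R.Pf (R.G.hd e) g - R.Pf (R.G.tl e) g := by simp [Raw.Lv, ue, hne]
  by_cases h0 : R.Pf (R.G.hd e) g = R.Pf (R.G.tl e) g
  · rw [e1, h0]
    simp
  have hq : R.qf e ≤ R.qf g := by
    by_cases hk : 2 ≤ R.kd e
    · exact h.big_mono e g hk h0
    · rw [h.small_q e (by omega)]
      exact q_pos h g
  have h1 := abs_le.1 (h.P_abs (R.G.hd e) g)
  have h2 := abs_le.1 (h.P_abs (R.G.tl e) g)
  have h3 : |R.Lv e g| ≤ 2 := abs_le.2 (by omega)
  rw [mul_comm]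
  exact mul_le_mul h3 (by exact_mod_cast hq) (by positivity) (by norm_num)

set_option linter.unusedVariables false in
/-- A flow is determined by its divergence and its values outside the forest. -/
theorem eq_sum_Lv (h : R.Valid κ) (x : R.E → ℤ) :
    x + ∑ v, R.G.dv x v • R.Pf v = ∑ e, x e • R.Lv e := by
  have e1 : ∑ e, x e • ue e = x := by
    funext g
    simp [ue, Finset.sum_apply, Pi.single_apply]
  have e2 : ∀ a : R.V, ∑ v, dl a v • R.Pf v = R.Pf a := fun a => by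
    rw [sum_eq_single a (fun b _ hb => by simp [dl, hb]) (by simp)]
    simp [dl]
  have e3 : ∑ v, R.G.dv x v • R.Pf v = ∑ e, x e • (R.Pf (R.G.hd e) - R.Pf (R.G.tl e)) := by
    simp only [Net.dv, Finset.sum_apply, Pi.smul_apply, sum_smul, smul_assoc]
    rw [sum_comm]
    refine sum_congr rfl fun e _ => ?_
    rw [← smul_sum]
    simp only [Net.bd, Pi.sub_apply, sub_smul, sum_sub_distrib, e2]
  rw [e3]
  conv_lhs => rw [← e1]
  simp only [Raw.Lv, add_sub_assoc, smul_add, sum_add_distrib, e1]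

theorem w_eq_zero' (h : R.Valid κ) (i : ℕ) (t : Tab) {x : R.E → ℤ} (hx : x ∉ R.Ω) :
    R.w i t x = 0 := by
  classical
  unfold Raw.w
  by_cases hb : x ∈ R.box 8
  swap
  · rw [Φ_eq_zero R i hb, zero_mul]
  have hn : ∀ U H, R.rt U = U → R.rt H = H → R.G.dv x ≠ R.βf + dl H - dl U :=
    fun U H hU hH hc => hx (mem_filter.2 ⟨hb, U, H, hU, hH, hc⟩)
  unfold Raw.cw
  rw [if_neg fun hc => hn R.star R.star h.rt_star h.rt_star (by rw [hc, add_sub_cancel_right]),
    sum_eq_zero fun U _ => sum_eq_zero fun H _ => if_neg fun hc => hn U H hc.1 hc.2.1 hc.2.2.2,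
    mul_zero]

/-- Sums over the state space split along the classes. -/
theorem sum_Ω (h : R.Valid κ) (i : ℕ) (t : Tab) (F : (R.E → ℤ) → ℝ) :
    ∑ x ∈ R.Ω, (R.w i t x : ℝ) * F x = I R.G (W h i 8) R.βf F +
      ∑ U, ∑ H, if R.rt U = U ∧ R.rt H = H ∧ U ≠ H then
        (R.tv t U H : ℝ) * I R.G (W h i 8) (R.βf + dl H - dl U) F else 0 := by
  classical
  have hI : ∀ γ, I R.G (W h i 8) γ F =
      ∑ x ∈ R.box 8, if R.G.dv x = γ then (R.Φ i x : ℝ) * F x else 0 := fun γ => by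
    unfold I fib
    rw [sum_filter]
    simp only [W8_Φ]
    rfl
  have hΩ : R.Ω ⊆ R.box 8 := filter_subset _ _
  rw [sum_subset hΩ fun x _ hx => by rw [w_eq_zero' h i t hx, Rat.cast_zero, zero_mul]]
  have e1 : ∀ U H, (if R.rt U = U ∧ R.rt H = H ∧ U ≠ H then
      (R.tv t U H : ℝ) * I R.G (W h i 8) (R.βf + dl H - dl U) F else 0) =
      ∑ x ∈ R.box 8, (if R.rt U = U ∧ R.rt H = H ∧ U ≠ H ∧ R.G.dv x = R.βf + dl H - dl U then
        (R.tv t U H : ℝ) else 0) * ((R.Φ i x : ℝ) * F x) := fun U H => by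
    by_cases hc : R.rt U = U ∧ R.rt H = H ∧ U ≠ H
    · rw [if_pos hc, hI, mul_sum]
      refine sum_congr rfl fun x _ => ?_
      by_cases hd : R.G.dv x = R.βf + dl H - dl U
      · rw [if_pos hd, if_pos ⟨hc.1, hc.2.1, hc.2.2, hd⟩]
      · rw [if_neg hd, if_neg fun hc' => hd hc'.2.2.2, mul_zero, zero_mul]
    · rw [if_neg hc]
      exact (sum_eq_zero fun x _ => by
        rw [if_neg fun hc' => hc ⟨hc'.1, hc'.2.1, hc'.2.2.1⟩, zero_mul]).symm
  simp only [e1]
  rw [hI, sum_congr rfl fun U _ => sum_comm, sum_comm, ← sum_add_distrib]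
  refine sum_congr rfl fun x _ => ?_
  simp only [← sum_mul]
  unfold Raw.w Raw.cw
  by_cases hd : R.G.dv x = R.βf
  · rw [if_pos hd, if_pos hd, sum_eq_zero fun U _ => sum_eq_zero fun H _ =>
      if_neg fun hc => dl_ne R.βf hc.2.2.1 (hd.symm.trans hc.2.2.2)]
    simp
  · rw [if_neg hd, if_neg hd]
    push_cast [apply_ite (Rat.cast : ℚ → ℝ)]
    ring

set_option linter.unusedVariables false in
theorem w_of_class (h : R.Valid κ) (i : ℕ) (t : Tab) {x : R.E → ℤ} {U H : R.V} (hU : R.rt U = U)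
    (hH : R.rt H = H) (hx : R.G.dv x = R.βf + dl H - dl U) :
    R.w i t x = R.Φ i x * if U = H then 1 else R.tv t U H := by
  unfold Raw.w Raw.cw
  congr 1
  by_cases hUH : U = H
  · rw [if_pos hUH, if_pos (by rw [hx, hUH, add_sub_cancel_right])]
  rw [if_neg hUH, if_neg fun hc => dl_ne R.βf hUH (hc.symm.trans hx),
    sum_eq_single U (fun U' _ hU' => sum_eq_zero fun H' _ => if_neg fun hc =>
      hU' (dl_inj R.βf hUH (hx.symm.trans hc.2.2.2)).1.symm) (by simp),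
    sum_eq_single H (fun H' _ hH' => if_neg fun hc =>
      hH' (dl_inj R.βf hUH (hx.symm.trans hc.2.2.2)).2.symm) (by simp),
    if_pos ⟨hU, hH, hUH, hx⟩]

theorem w_eq_zero (h : R.Valid κ) (i : ℕ) (t : Tab) {x : R.E → ℤ} (hx : x ∉ R.Ω) :
    R.w i t x = 0 := w_eq_zero' h i t hx

end Crest.Agent.R309.Raw
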